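import Vale.Agent.P292.MathlibUsed
import Vale.Agent.P292.Defs

set_option linter.all false

section

/-! Basic algebra of the homogeneous Poisson bracket. -/

namespace Vale.Agent.P292

universe u

variable {R : Type u} [CommRing R] [Algebra ℂ R] {𝒜 : ℕ → Submodule ℂ R} [GradedAlgebra 𝒜]
  {P : R →ₗ[ℂ] R →ₗ[ℂ] R}

/-- linear extension from homogeneous elements -/
lemma forall_of_homogeneous' {M : Type*} [AddCommGroup M] [Module ℂ M] (φ ψ : R →ₗ[ℂ] M)
    (h : ∀ k, ∀ r ∈ 𝒜 k, φ r = ψ r) (r : R) : φ r = ψ r := by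
  classical
  rw [← DirectSum.sum_support_decompose 𝒜 r, map_sum, map_sum]
  exact Finset.sum_congr rfl (fun i _ => h i _ (SetLike.coe_mem _))

namespace IsContactFano

variable (hX : IsContactFano 𝒜 P)
include hX

lemma skew (a b : R) : P a b = - P b a := by
  have h := hX.alternating (a + b)
  simp only [map_add, LinearMap.add_apply, hX.alternating, zero_add, add_zero] at h
  linear_combination h

lemma leibniz_left (a b c : R) : P (a * b) c = a * P b c + b * P a c := by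
  rw [hX.skew (a * b) c, hX.leibniz, hX.skew c a, hX.skew c b]
  ring

/-- The Hamiltonian derivation of `a`. -/
noncomputable def ham (a : R) : Derivation ℂ R R :=
  Derivation.mk' (P a) (fun b c => by
    rw [hX.leibniz]; simp only [smul_eq_mul]; ring)

@[simp] lemma ham_apply (a b : R) : hX.ham a b = P a b := rfl

lemma P_algebraMap_right (a : R) (c : ℂ) : P a (algebraMap ℂ R c) = 0 := by
  rw [← hX.ham_apply]; exact Derivation.map_algebraMap _ _

lemma P_algebraMap_left (a : R) (c : ℂ) : P (algebraMap ℂ R c) a = 0 := by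
  rw [hX.skew, hX.P_algebraMap_right, neg_zero]

lemma P_one_right (a : R) : P a 1 = 0 := by
  simpa using hX.P_algebraMap_right a 1

lemma P_pow_right (a b : R) (n : ℕ) : P a (b ^ n) = (n : R) * b ^ (n - 1) * P a b := by
  rw [← hX.ham_apply, Derivation.leibniz_pow]
  simp only [smul_eq_mul, nsmul_eq_mul, ham_apply]
  ring

lemma P_pow_left (a b : R) (n : ℕ) : P (a ^ n) b = (n : R) * a ^ (n - 1) * P a b := by
  rw [hX.skew, hX.P_pow_right, hX.skew b a]; ring

/-- Brackets with elements of degree one preserve the degree. -/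
lemma mem_of_mem_one {k : ℕ} {a b : R} (ha : a ∈ 𝒜 1) (hb : b ∈ 𝒜 k) : P a b ∈ 𝒜 k :=
  hX.degree 1 k k (by omega) a ha b hb

end IsContactFano

/-- The Lie algebra `𝔤 = H⁰(X, L)` of contact vector fields. -/
def LieOne (_ : IsContactFano 𝒜 P) : Type u := 𝒜 1

/-- The `𝔤`-module `H⁰(X, L ^ k)`. -/
def Piece (_ : IsContactFano 𝒜 P) (k : ℕ) : Type u := 𝒜 k

section instances

variable (hX : IsContactFano 𝒜 P)

instance : AddCommGroup (LieOne hX) := inferInstanceAs (AddCommGroup (𝒜 1))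
instance : Module ℂ (LieOne hX) := inferInstanceAs (Module ℂ (𝒜 1))
instance (k : ℕ) : AddCommGroup (Piece hX k) := inferInstanceAs (AddCommGroup (𝒜 k))
instance (k : ℕ) : Module ℂ (Piece hX k) := inferInstanceAs (Module ℂ (𝒜 k))

/-- inclusion of `𝔤` in `R` -/
def LieOne.incl : LieOne hX →ₗ[ℂ] R := (𝒜 1).subtype

/-- inclusion of `H⁰(X, L ^ k)` in `R` -/
def Piece.incl (k : ℕ) : Piece hX k →ₗ[ℂ] R := (𝒜 k).subtype

/-- constructor for `LieOne` -/
def LieOne.mk {a : R} (ha : a ∈ 𝒜 1) : LieOne hX := (⟨a, ha⟩ : 𝒜 1)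

/-- constructor for `Piece` -/
def Piece.mk {k : ℕ} {a : R} (ha : a ∈ 𝒜 k) : Piece hX k := (⟨a, ha⟩ : 𝒜 k)

@[simp] lemma LieOne.incl_mk {a : R} (ha : a ∈ 𝒜 1) : LieOne.incl hX (LieOne.mk hX ha) = a := rfl
@[simp] lemma Piece.incl_mk {k : ℕ} {a : R} (ha : a ∈ 𝒜 k) :
    Piece.incl hX k (Piece.mk hX ha) = a := rfl
lemma LieOne.incl_mem (x : LieOne hX) : LieOne.incl hX x ∈ 𝒜 1 := x.2
lemma Piece.incl_mem (k : ℕ) (x : Piece hX k) : Piece.incl hX k x ∈ 𝒜 k := x.2
lemma LieOne.incl_injective : Function.Injective (LieOne.incl hX) := Subtype.val_injective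
lemma Piece.incl_injective (k : ℕ) : Function.Injective (Piece.incl hX k) :=
  Subtype.val_injective

instance : Bracket (LieOne hX) (LieOne hX) where
  bracket x y := LieOne.mk hX (hX.mem_of_mem_one (LieOne.incl_mem hX x) (LieOne.incl_mem hX y))

@[simp] lemma LieOne.incl_lie (x y : LieOne hX) :
    LieOne.incl hX ⁅x, y⁆ = P (LieOne.incl hX x) (LieOne.incl hX y) := rfl

instance (k : ℕ) : Bracket (LieOne hX) (Piece hX k) where
  bracket x y := Piece.mk hX
    (hX.mem_of_mem_one (LieOne.incl_mem hX x) (Piece.incl_mem hX k y))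

@[simp] lemma Piece.incl_lie (k : ℕ) (x : LieOne hX) (y : Piece hX k) :
    Piece.incl hX k ⁅x, y⁆ = P (LieOne.incl hX x) (Piece.incl hX k y) := rfl

instance : LieRing (LieOne hX) where
  add_lie x y z := LieOne.incl_injective hX (by simp)
  lie_add x y z := LieOne.incl_injective hX (by simp)
  lie_self x := LieOne.incl_injective hX (by simp [hX.alternating])
  leibniz_lie x y z := LieOne.incl_injective hX (by simp [hX.jacobi (LieOne.incl hX x)])

instance : LieAlgebra ℂ (LieOne hX) where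
  lie_smul t x y := LieOne.incl_injective hX (by simp)

instance (k : ℕ) : LieRingModule (LieOne hX) (Piece hX k) where
  add_lie x y z := Piece.incl_injective hX k (by simp)
  lie_add x y z := Piece.incl_injective hX k (by simp)
  leibniz_lie x y z := Piece.incl_injective hX k (by simp [hX.jacobi (LieOne.incl hX x)])

instance (k : ℕ) : LieModule ℂ (LieOne hX) (Piece hX k) where
  smul_lie t x y := Piece.incl_injective hX k (by simp)
  lie_smul t x y := Piece.incl_injective hX k (by simp)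

end instances

end Vale.Agent.P292
end

section

/-! Generic facts on connected graded finitely generated complex algebras. -/

namespace Vale.Agent.P292

variable {R : Type*} [CommRing R] [Algebra ℂ R] (𝒜 : ℕ → Submodule ℂ R) [GradedAlgebra 𝒜]

theorem exists_algHom_of_isMaximal [Algebra.FiniteType ℂ R] (M : Ideal R) [hM : M.IsMaximal] :
    ∃ p : R →ₐ[ℂ] ℂ, RingHom.ker p = M := by
  let : Field (R ⧸ M) := Ideal.Quotient.field M
  have hft : Algebra.FiniteType ℂ (R ⧸ M) :=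
    Algebra.FiniteType.of_surjective (Ideal.Quotient.mkₐ ℂ M) (Ideal.Quotient.mkₐ_surjective ℂ M)
  have hfin : Module.Finite ℂ (R ⧸ M) := finite_of_finite_type_of_isJacobsonRing ℂ (R ⧸ M)
  have hbij : Function.Bijective (algebraMap ℂ (R ⧸ M)) :=
    IsAlgClosed.algebraMap_bijective_of_isIntegral
  let e : ℂ ≃ₐ[ℂ] (R ⧸ M) := AlgEquiv.ofBijective (Algebra.ofId ℂ (R ⧸ M)) hbij
  refine ⟨(e.symm : (R ⧸ M) →ₐ[ℂ] ℂ).comp (Ideal.Quotient.mkₐ ℂ M), ?_⟩
  ext r
  rw [RingHom.mem_ker]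
  change e.symm (Ideal.Quotient.mk M r) = 0 ↔ _
  rw [EmbeddingLike.map_eq_zero_iff, Ideal.Quotient.eq_zero_iff_mem]

theorem mem_radical_of_forall [Algebra.FiniteType ℂ R] (I : Ideal R) (r : R)
    (h : ∀ p : R →ₐ[ℂ] ℂ, (∀ s ∈ I, p s = 0) → p r = 0) : r ∈ I.radical := by
  have : IsJacobsonRing R := isJacobsonRing_of_finiteType (A := ℂ)
  rw [Ideal.radical_eq_jacobson, Ideal.jacobson, Submodule.mem_sInf]
  rintro M ⟨hIM, hM⟩
  obtain ⟨p, hp⟩ := exists_algHom_of_isMaximal M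
  rw [← hp, RingHom.mem_ker]
  refine h p fun s hs => ?_
  have := hIM hs
  rwa [← hp, RingHom.mem_ker] at this

/-- Nullstellensatz. -/
theorem exists_point_ne_zero [IsDomain R] [Algebra.FiniteType ℂ R] (r : R) (hr : r ≠ 0) :
    ∃ p : R →ₐ[ℂ] ℂ, p r ≠ 0 := by
  by_contra h
  push Not at h
  have := mem_radical_of_forall (⊥ : Ideal R) r (fun p _ => h p)
  obtain ⟨n, hn⟩ := this
  rw [Ideal.mem_bot] at hn
  exact pow_ne_zero n hr hn

theorem exists_generators [Algebra.FiniteType ℂ R]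
    (h0 : ∀ r ∈ 𝒜 0, ∃ c : ℂ, r = algebraMap ℂ R c) :
    ∃ s : Finset R, Algebra.adjoin ℂ (s : Set R) = ⊤ ∧ ∀ i ∈ s, ∃ n ≠ 0, i ∈ 𝒜 n := by
  classical
  obtain ⟨F, hF⟩ := Algebra.FiniteType.out (R := ℂ) (A := R)
  let ι₀ := Σ (x : F), (DirectSum.decompose 𝒜 x.1).support
  let x (i : ι₀) : R := ((DirectSum.decompose 𝒜) i.1 i.2).1
  refine ⟨(Finset.univ.filter fun i : ι₀ => i.2.1 ≠ 0).image x, ?_, ?_⟩
  · rw [← top_le_iff, ← hF, Algebra.adjoin_le_iff]
    intro s hs
    rw [← DirectSum.sum_support_decompose 𝒜 s]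
    refine sum_mem fun n hn => ?_
    by_cases h : n = 0
    · subst h
      obtain ⟨c, hc⟩ := h0 _ (DirectSum.decompose 𝒜 s 0).2
      rw [hc]
      exact Subalgebra.algebraMap_mem _ c
    · refine Algebra.subset_adjoin ?_
      rw [Finset.coe_image]
      exact ⟨⟨⟨s, hs⟩, n, hn⟩, by simpa using h, rfl⟩
  · intro i hi
    rw [Finset.mem_image] at hi
    obtain ⟨j, hj, rfl⟩ := hi
    rw [Finset.mem_filter] at hj
    exact ⟨j.2.1, hj.2, (DirectSum.decompose 𝒜 j.1.1 j.2.1).2⟩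

theorem finiteDimensional_piece [Algebra.FiniteType ℂ R]
    (h0 : ∀ r ∈ 𝒜 0, ∃ c : ℂ, r = algebraMap ℂ R c) (k : ℕ) :
    FiniteDimensional ℂ (𝒜 k) := by
  classical
  obtain ⟨s, hs, hn⟩ := exists_generators 𝒜 h0
  choose! n hn0 hn using hn
  -- the span of products
  let W : ℕ → Submodule ℂ R := fun k =>
    ⨆ t : s, if n t ≤ k then (𝒜 (k - n t)).map (LinearMap.mulLeft ℂ (t : R)) else ⊥
  have hW : ∀ k, 0 < k → 𝒜 k ≤ W k := by
    intro k hk r hr
    have key : ∀ r : R, GradedAlgebra.proj 𝒜 k r ∈ W k := by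
      intro r
      have hr : r ∈ Submodule.span ℂ (Submonoid.closure (s : Set R) : Set R) := by
        rw [← Algebra.adjoin_eq_span, hs]; trivial
      induction hr using Submodule.span_induction with
      | zero => rw [map_zero]; exact zero_mem _
      | add x y _ _ hx hy => rw [map_add]; exact add_mem hx hy
      | smul c x _ hx => rw [map_smul]; exact Submodule.smul_mem _ _ hx
      | mem x hx =>
        induction hx using Submonoid.closure_induction_left with
        | one =>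
          rw [GradedAlgebra.proj_apply, DirectSum.decompose_of_mem_ne 𝒜
            (SetLike.GradedOne.one_mem : (1 : R) ∈ 𝒜 0) hk.ne]
          exact zero_mem _
        | mul_left t ht y hy ih =>
          rw [GradedAlgebra.proj_apply]
          by_cases h : n t ≤ k
          · refine Submodule.mem_iSup_of_mem (⟨t, ht⟩ : s) ?_
            rw [if_pos h]
            rw [DirectSum.coe_decompose_mul_of_left_mem_of_le 𝒜 (hn t ht) h]
            exact ⟨_, (DirectSum.decompose 𝒜 y (k - n t)).2, rfl⟩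
          · rw [DirectSum.coe_decompose_mul_of_left_mem_of_not_le 𝒜 (hn t ht) h]
            exact zero_mem _
    have := key r
    rwa [GradedAlgebra.proj_apply, DirectSum.decompose_of_mem_same 𝒜 hr] at this
  induction k using Nat.strong_induction_on with
  | _ k ih =>
    rcases Nat.eq_zero_or_pos k with rfl | hk
    · have : 𝒜 0 ≤ Submodule.span ℂ {(1 : R)} := by
        intro r hr
        obtain ⟨c, rfl⟩ := h0 r hr
        rw [Algebra.algebraMap_eq_smul_one]
        exact Submodule.smul_mem _ _ (Submodule.mem_span_singleton_self _)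
      exact Submodule.finiteDimensional_of_le this
    · have h1 : FiniteDimensional ℂ (W k) := by
        have : ∀ t : s, FiniteDimensional ℂ
            (if n t ≤ k then (𝒜 (k - n t)).map (LinearMap.mulLeft ℂ (t : R)) else ⊥ :
              Submodule ℂ R) := by
          intro t
          by_cases h : n t ≤ k
          · have h2 : FiniteDimensional ℂ (𝒜 (k - n t)) :=
              ih (k - n t) (by have := hn0 t t.2; omega)
            rw [if_pos h]
            infer_instance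
          · rw [if_neg h]
            infer_instance
        exact Submodule.finiteDimensional_iSup _
      exact Submodule.finiteDimensional_of_le (hW k hk)

/-- the homogeneous components of an element of the subalgebra generated by `𝒜 1` -/
theorem proj_mem_pow (r : R) (hr : r ∈ Algebra.adjoin ℂ (𝒜 1 : Set R)) (n : ℕ) :
    (DirectSum.decompose 𝒜 r n : R) ∈ (𝒜 1) ^ n := by
  rw [← GradedAlgebra.proj_apply]
  rw [← Subalgebra.mem_toSubmodule, Algebra.adjoin_eq_span] at hr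
  induction hr using Submodule.span_induction with
  | zero => rw [map_zero]; exact zero_mem _
  | add x y _ _ hx hy => rw [map_add]; exact add_mem hx hy
  | smul c x _ hx => rw [map_smul]; exact Submodule.smul_mem _ _ hx
  | mem x hx =>
    have : ∃ m, x ∈ (𝒜 1) ^ m := by
      induction hx using Submonoid.closure_induction_left with
      | one => exact ⟨0, by rw [pow_zero]; exact Submodule.one_le.mp le_rfl⟩
      | mul_left t ht y hy ih =>
        obtain ⟨m, hm⟩ := ih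
        exact ⟨m + 1, by rw [pow_succ']; exact Submodule.mul_mem_mul ht hm⟩
    obtain ⟨m, hm⟩ := this
    have hle : ∀ m, (𝒜 1) ^ m ≤ 𝒜 m := by
      intro m
      induction m with
      | zero =>
        rw [pow_zero, Submodule.one_le]
        exact SetLike.GradedOne.one_mem
      | succ m ih =>
        rw [pow_succ, Submodule.mul_le]
        intro a ha b hb
        exact SetLike.GradedMul.mul_mem (ih ha) hb
    rw [GradedAlgebra.proj_apply]
    by_cases h : m = n
    · subst h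
      rwa [DirectSum.decompose_of_mem_same 𝒜 (hle m hm)]
    · rw [DirectSum.decompose_of_mem_ne 𝒜 (hle m hm) h]
      exact zero_mem _

theorem decompose_zero_of_mem_span (i : R) (hi : i ∈ Ideal.span (𝒜 1 : Set R)) :
    (DirectSum.decompose 𝒜 i 0 : R) = 0 := by
  rw [← GradedAlgebra.proj_apply]
  induction hi using Submodule.closure_induction with
  | zero => rw [map_zero]
  | add x y _ _ hx hy => rw [map_add, hx, hy, add_zero]
  | smul_mem c x hx =>
    rw [GradedAlgebra.proj_apply, smul_eq_mul, mul_comm]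
    exact DirectSum.coe_decompose_mul_of_left_mem_of_not_le 𝒜 hx (by omega)

theorem decompose_succ_mem_of_mem_span (k : ℕ)
    (M : Submodule (Algebra.adjoin ℂ (𝒜 1 : Set R)) R) (hM : ∀ r ∈ 𝒜 k, r ∈ M)
    (i : R) (hi : i ∈ Ideal.span (𝒜 1 : Set R)) :
    (DirectSum.decompose 𝒜 i (k + 1) : R) ∈ M := by
  rw [← GradedAlgebra.proj_apply]
  induction hi using Submodule.closure_induction with
  | zero => rw [map_zero]; exact zero_mem _
  | add x y _ _ hx hy => rw [map_add]; exact add_mem hx hy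
  | smul_mem c x hx =>
    rw [GradedAlgebra.proj_apply, smul_eq_mul, mul_comm]
    rw [DirectSum.coe_decompose_mul_of_left_mem_of_le 𝒜 hx (by omega), Nat.add_sub_cancel]
    exact M.smul_mem (⟨x, Algebra.subset_adjoin hx⟩ : Algebra.adjoin ℂ (𝒜 1 : Set R))
      (hM _ (DirectSum.decompose 𝒜 c k).2)

/-- If the elements of degree one have no common zero except the vertex, every homogeneous
element satisfies a homogeneous integral equation over the algebra generated by `𝒜 1`. -/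
theorem homogeneous_integral_equation [IsDomain R] [Algebra.FiniteType ℂ R]
    (h0 : ∀ r ∈ 𝒜 0, ∃ c : ℂ, r = algebraMap ℂ R c)
    (hb : ∀ p : R →ₐ[ℂ] ℂ, (∀ s ∈ 𝒜 1, p s = 0) → ∀ k : ℕ, 0 < k → ∀ r ∈ 𝒜 k, p r = 0)
    (k : ℕ) (r : R) (hr : r ∈ 𝒜 k) :
    ∃ (m : ℕ) (s : ℕ → R), s 0 = 1 ∧ (∀ i, s i ∈ (𝒜 1) ^ (i * k)) ∧
      ∑ i ∈ Finset.range (m + 1), s i * r ^ (m - i) = 0 := by
  classical
  obtain ⟨s, hs, hn⟩ := exists_generators 𝒜 h0
  set I : Ideal R := Ideal.span (𝒜 1 : Set R) with hI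
  set S : Subalgebra ℂ R := Algebra.adjoin ℂ (𝒜 1 : Set R) with hS
  -- the generators are nilpotent modulo `I`
  have hnil : ∀ t ∈ s, t ∈ I.radical := by
    intro t ht
    obtain ⟨n, hn0, hn⟩ := hn t ht
    refine mem_radical_of_forall I t fun p hp => ?_
    exact hb p (fun s hs => hp s (Ideal.subset_span hs)) n (Nat.pos_of_ne_zero hn0) t hn
  have hfin : Module.Finite ℂ (R ⧸ I) := by
    have hft : Algebra.FiniteType ℂ (R ⧸ I) :=
      Algebra.FiniteType.of_surjective (Ideal.Quotient.mkₐ ℂ I) (Ideal.Quotient.mkₐ_surjective ℂ I)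
    have hint : Algebra.IsIntegral ℂ (R ⧸ I) := by
      refine ⟨fun x => ?_⟩
      obtain ⟨r, rfl⟩ := Ideal.Quotient.mk_surjective x
      have hr : r ∈ Algebra.adjoin ℂ (s : Set R) := by rw [hs]; trivial
      induction hr using Algebra.adjoin_induction with
      | mem t ht =>
        obtain ⟨n, hn⟩ := hnil t ht
        have h1 : (Ideal.Quotient.mk I t) ^ n = 0 := by
          rw [← map_pow]; exact Ideal.Quotient.eq_zero_iff_mem.mpr hn
        refine ⟨Polynomial.X ^ n, Polynomial.monic_X_pow n, ?_⟩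
        simp [h1]
      | algebraMap c => exact isIntegral_algebraMap (R := ℂ) (A := R ⧸ I) (x := c)
      | add x y _ _ hx hy => rw [map_add]; exact hx.add hy
      | mul x y _ _ hx hy => rw [map_mul]; exact hx.mul hy
    exact Algebra.IsIntegral.finite
  obtain ⟨B, hB⟩ : ∃ B : Finset R, ∀ r : R, ∃ b ∈ Submodule.span ℂ (B : Set R), r - b ∈ I := by
    obtain ⟨C, hC⟩ := hfin.1
    refine ⟨C.image Quotient.out, fun r => ?_⟩
    have h1 : Ideal.Quotient.mk I r ∈ Submodule.span ℂ (C : Set (R ⧸ I)) := by rw [hC]; trivial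
    have h2 : Submodule.span ℂ (C : Set (R ⧸ I)) ≤
        (Submodule.span ℂ ((C.image Quotient.out : Finset R) : Set R)).map
          (Ideal.Quotient.mkₐ ℂ I).toLinearMap := by
      rw [Submodule.span_le]
      intro c hc
      refine ⟨Quotient.out c, Submodule.subset_span ?_, ?_⟩
      · rw [Finset.coe_image]; exact ⟨c, hc, rfl⟩
      exact Ideal.Quotient.mk_out c
    obtain ⟨b, hb1, hb2⟩ := h2 h1
    refine ⟨b, hb1, ?_⟩
    rw [← Ideal.Quotient.eq]
    exact hb2.symm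
  -- homogeneous components of `B`
  let B' : Finset R := B.biUnion fun b =>
    (DirectSum.decompose 𝒜 b).support.image fun n => (DirectSum.decompose 𝒜 b n : R)
  have hB' : ∀ b ∈ Submodule.span ℂ (B : Set R), ∀ n, (DirectSum.decompose 𝒜 b n : R) ∈
      Submodule.span S (B' : Set R) := by
    intro b hb n
    rw [← GradedAlgebra.proj_apply]
    induction hb using Submodule.span_induction with
    | zero => rw [map_zero]; exact zero_mem _
    | add x y _ _ hx hy => rw [map_add]; exact add_mem hx hy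
    | smul c x _ hx =>
      rw [map_smul]
      exact (Submodule.span S (B' : Set R)).smul_of_tower_mem c hx
    | mem x hx =>
      rw [GradedAlgebra.proj_apply]
      by_cases h : (DirectSum.decompose 𝒜 x n) = 0
      · rw [h]; exact zero_mem _
      · refine Submodule.subset_span ?_
        simp only [B', Finset.coe_biUnion, Set.mem_iUnion]
        refine ⟨x, hx, ?_⟩
        rw [Finset.coe_image]
        exact ⟨n, by simpa [DFinsupp.mem_support_iff] using h, rfl⟩
  have hdec : ∀ r k, r ∈ 𝒜 k → ∃ b ∈ Submodule.span S (B' : Set R), ∃ i ∈ I,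
      r = b + (DirectSum.decompose 𝒜 i k : R) := by
    intro r k hr
    obtain ⟨b, hb1, hb2⟩ := hB r
    refine ⟨_, hB' b hb1 k, _, hb2, ?_⟩
    rw [← GradedAlgebra.proj_apply, ← GradedAlgebra.proj_apply, ← map_add,
      add_sub_cancel, GradedAlgebra.proj_apply, DirectSum.decompose_of_mem_same 𝒜 hr]
  have hspan : ∀ k, ∀ r ∈ 𝒜 k, r ∈ Submodule.span S (B' : Set R) := by
    intro k
    induction k with
    | zero =>
      intro r hr
      obtain ⟨b, hb, i, hi, h1⟩ := hdec r 0 hr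
      rw [h1, decompose_zero_of_mem_span 𝒜 i hi, add_zero]
      exact hb
    | succ k ih =>
      intro r hr
      obtain ⟨b, hb, i, hi, h1⟩ := hdec r (k + 1) hr
      rw [h1]
      exact add_mem hb (decompose_succ_mem_of_mem_span 𝒜 k _ ih i hi)
  have htop : Submodule.span S (B' : Set R) = ⊤ := by
    rw [eq_top_iff]
    intro r _
    rw [← DirectSum.sum_support_decompose 𝒜 r]
    exact sum_mem fun n _ => hspan n _ (DirectSum.decompose 𝒜 r n).2
  have hfinS : Module.Finite S R := ⟨⟨B', htop⟩⟩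
  have hintS : IsIntegral S r := Algebra.IsIntegral.isIntegral r
  obtain ⟨f, hf, hfr⟩ := hintS
  set m := f.natDegree with hm
  rw [Polynomial.eval₂_eq_sum_range] at hfr
  refine ⟨m, fun i => if i ≤ m then (DirectSum.decompose 𝒜 ((f.coeff (m - i) : S) : R) (i * k) : R)
    else 0, ?_, ?_, ?_⟩
  · have h1 : f.coeff m = 1 := hf
    simp only [Nat.sub_zero, h1, if_pos (Nat.zero_le m)]
    have h2 : ((1 : S) : R) ∈ 𝒜 (0 * k) := by
      rw [zero_mul]; exact SetLike.GradedOne.one_mem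
    exact DirectSum.decompose_of_mem_same 𝒜 h2
  · intro i
    by_cases h : i ≤ m
    · simp only [if_pos h]
      exact proj_mem_pow 𝒜 _ (f.coeff (m - i)).2 (i * k)
    · simp only [if_neg h]
      exact zero_mem _
  · have h1 := congrArg (GradedAlgebra.proj 𝒜 (m * k)) hfr
    rw [map_sum, map_zero, ← Finset.sum_range_reflect] at h1
    rw [← h1]
    refine Finset.sum_congr rfl fun i hi => ?_
    rw [Finset.mem_range] at hi
    have hi' : i ≤ m := by omega
    simp only [if_pos hi']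
    rw [show m + 1 - 1 - i = m - i by omega, GradedAlgebra.proj_apply]
    have h2 : r ^ (m - i) ∈ 𝒜 ((m - i) * k) := by
      have := SetLike.pow_mem_graded (m - i) hr
      rwa [smul_eq_mul] at this
    have h3 : (m - i) * k ≤ m * k := Nat.mul_le_mul_right _ (by omega)
    rw [DirectSum.coe_decompose_mul_of_right_mem_of_le 𝒜 h2 h3]
    rw [show m * k - (m - i) * k = i * k by rw [← Nat.sub_mul]; congr 1; omega]
    rfl

end Vale.Agent.P292
end

section

/-! Generalized eigenspaces and derivation-like operators; `sl₂` eigenvalues. -/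

namespace Vale.Agent.P292

open Module

section gen

variable {V : Type*} [AddCommGroup V] [Module ℂ V]

lemma mem_maxGen_iff (f : End ℂ V) (μ : ℂ) (v : V) :
    v ∈ f.maxGenEigenspace μ ↔ ∃ n : ℕ, ((f - μ • (1 : End ℂ V)) ^ n) v = 0 :=
  Module.End.mem_maxGenEigenspace f μ v

lemma mem_maxGen_of_sub_mem (f : End ℂ V) (μ : ℂ) (v : V)
    (h : f v - μ • v ∈ f.maxGenEigenspace μ) : v ∈ f.maxGenEigenspace μ := by
  rw [mem_maxGen_iff] at h ⊢
  obtain ⟨n, hn⟩ := h
  refine ⟨n + 1, ?_⟩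
  rw [pow_succ, Module.End.mul_apply]
  simpa using hn

lemma mem_maxGen_of_eq_smul (f : End ℂ V) (μ : ℂ) (v : V) (h : f v = μ • v) :
    v ∈ f.maxGenEigenspace μ :=
  mem_maxGen_of_sub_mem f μ v (by rw [h, sub_self]; exact zero_mem _)

/-- A bilinear map compatible with `f` as with a derivation adds generalized eigenvalues. -/
lemma mem_maxGen_add (f : End ℂ V) (β : V →ₗ[ℂ] V →ₗ[ℂ] V)
    (hβ : ∀ a b, f (β a b) = β (f a) b + β a (f b)) (μ ν : ℂ) (a b : V)
    (ha : a ∈ f.maxGenEigenspace μ) (hb : b ∈ f.maxGenEigenspace ν) :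
    β a b ∈ f.maxGenEigenspace (μ + ν) := by
  rw [mem_maxGen_iff] at ha hb
  obtain ⟨n, hn⟩ := ha
  obtain ⟨m, hm⟩ := hb
  obtain ⟨N, hN⟩ : ∃ N, n + m ≤ N := ⟨_, le_rfl⟩
  induction N generalizing n m a b with
  | zero =>
    have : n = 0 := by omega
    subst this
    have : a = 0 := by simpa using hn
    rw [this, map_zero, LinearMap.zero_apply]
    exact zero_mem _
  | succ N ih =>
    rcases n with _ | n
    · have : a = 0 := by simpa using hn
      rw [this, map_zero, LinearMap.zero_apply]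
      exact zero_mem _
    rcases m with _ | m
    · have : b = 0 := by simpa using hm
      rw [this, map_zero]
      exact zero_mem _
    apply mem_maxGen_of_sub_mem
    have key : f (β a b) - (μ + ν) • β a b =
        β (f a - μ • a) b + β a (f b - ν • b) := by
      rw [hβ]
      simp only [map_sub, map_smul, LinearMap.sub_apply, LinearMap.smul_apply, add_smul]
      abel
    rw [key]
    refine add_mem (ih (f a - μ • a) b n ?_ (m + 1) hm (by omega))
      (ih a (f b - ν • b) (n + 1) hn m ?_ (by omega))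
    · rw [pow_succ, Module.End.mul_apply] at hn
      simpa using hn
    · rw [pow_succ, Module.End.mul_apply] at hm
      simpa using hm

/-- A functional that sees `f` as the scalar `c` kills the other generalized eigenspaces. -/
lemma apply_eq_zero_of_mem_maxGen (f : End ℂ V) (μ c : ℂ) (hμ : μ ≠ c) (W : Submodule ℂ V)
    (hW : ∀ v ∈ W, f v ∈ W) (x : V →ₗ[ℂ] ℂ)
    (hx : ∀ v ∈ W, x (f v) = c * x v) (v : V) (hvW : v ∈ W) (hv : v ∈ f.maxGenEigenspace μ) :
    x v = 0 := by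
  rw [mem_maxGen_iff] at hv
  obtain ⟨n, hn⟩ := hv
  have hstep : ∀ v ∈ W, (f - μ • (1 : End ℂ V)) v ∈ W := fun v hv => by
    simpa using sub_mem (hW v hv) (W.smul_mem μ hv)
  have key : ∀ n : ℕ, ∀ v ∈ W, x (((f - μ • (1 : End ℂ V)) ^ n) v) = (c - μ) ^ n * x v := by
    intro n
    induction n with
    | zero => intro v _; simp
    | succ n ih =>
      intro v hv
      rw [pow_succ, Module.End.mul_apply, ih _ (hstep v hv)]
      simp only [LinearMap.sub_apply, LinearMap.smul_apply, Module.End.one_apply, map_sub,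
        map_smul, smul_eq_mul, hx v hv]
      ring
  have := key n v hvW
  rw [hn, map_zero] at this
  have hne : (c - μ) ^ n ≠ 0 := pow_ne_zero _ (sub_ne_zero.mpr (Ne.symm hμ))
  exact (mul_eq_zero.mp this.symm).resolve_left hne

end gen

section sl2

open LieModule

variable {L M : Type*} [LieRing L] [LieAlgebra ℂ L] [AddCommGroup M] [Module ℂ M]
  [LieRingModule L M] [LieModule ℂ L M] [FiniteDimensional ℂ M]

/-- In a finite-dimensional `sl₂`-module on which `f ^ (N+1) = 0`, an eigenvector of `h` can be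
raised to a primitive vector of weight at most `N`. -/
lemma exists_primitive_of_eigenvector {h e f : L} (t : IsSl2Triple h e f) (N : ℕ)
    (hN : ∀ m : M, ((toEnd ℂ L M f) ^ (N + 1)) m = 0) (m : M) (hm : m ≠ 0) (μ : ℂ)
    (hμ : ⁅h, m⁆ = μ • m) :
    ∃ n i : ℕ, IsSl2Triple.HasPrimitiveVectorWith t (((toEnd ℂ L M e) ^ n) m) (i : ℂ) ∧
      μ + 2 * n = i ∧ i ≤ N := by
  let evals (n : ℕ) : ℂ := μ + 2 * (n : ℂ)
  let e_vecs (n : ℕ) : M := ((toEnd ℂ L M e) ^ n) m
  have h_exists_zero : ∃ k, e_vecs k = 0 := by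
    by_contra! contra
    have h_inj : Function.Injective evals := fun a b hab ↦ by
      simpa [evals, add_right_inj, mul_eq_mul_left_iff, Nat.cast_inj] using hab
    have aux (μ : Set.range evals) :
        (toEnd ℂ L M h).HasEigenvector μ (e_vecs μ.property.choose) := by
      set n := μ.property.choose
      refine ⟨?_, contra n⟩
      rw [Module.End.mem_eigenspace_iff, toEnd_apply_apply, ← μ.property.choose_spec]
      exact t.lie_h_pow_toEnd_e hμ n
    have _i := ((toEnd ℂ L M h).eigenvectors_linearIndependent (Set.range evals) _ aux).finite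
    exact (Set.infinite_range_of_injective h_inj) (Set.toFinite _)
  obtain ⟨n, hn_ne, hn_zero⟩ := Nat.exists_not_and_succ_of_not_zero_of_exists hm h_exists_zero
  have hprim : IsSl2Triple.HasPrimitiveVectorWith t (e_vecs n) (evals n) :=
    { ne_zero := hn_ne
      lie_h := t.lie_h_pow_toEnd_e hμ n
      lie_e := by rwa [IsSl2Triple.lie_e_pow_toEnd_e n] }
  obtain ⟨i, hi⟩ := hprim.exists_nat
  refine ⟨n, i, by rw [← hi]; exact hprim, hi, ?_⟩
  by_contra hcon
  push Not at hcon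
  exact hprim.pow_toEnd_f_ne_zero_of_eq_nat hi (i := N + 1) (by omega) (hN _)

end sl2

end Vale.Agent.P292
end

section

/-! Locally nilpotent homogeneous derivations and their limit flows. -/

namespace Vale.Agent.P292

open Polynomial Module

variable {R : Type*} [CommRing R] [Algebra ℂ R] (𝒜 : ℕ → Submodule ℂ R) [GradedAlgebra 𝒜]

section leibniz

open Finset Nat

/-- general Leibniz rule -/
theorem iterate_leibniz (D : Derivation ℂ R R) (n : ℕ) (a b : R) :
    (⇑D)^[n] (a * b) =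
      ∑ ij ∈ antidiagonal n, choose n ij.1 • ((⇑D)^[ij.1] a * (⇑D)^[ij.2] b) := by
  induction n with
  | zero => simp
  | succ n ih =>
    rw [sum_antidiagonal_choose_succ_nsmul (M := R) (fun i j => (⇑D)^[i] a * (⇑D)^[j] b) n]
    simp only [Function.iterate_succ_apply', ih, map_sum, map_nsmul, Derivation.leibniz, smul_add,
      sum_add_distrib, smul_eq_mul]
    congr 1
    refine sum_congr rfl fun ⟨i, j⟩ hij ↦ ?_
    rw [n.choose_symm_of_eq_add (mem_antidiagonal.1 hij).symm, mul_comm]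

end leibniz

omit [Algebra ℂ R] in
lemma iterate_zero_of_le [Algebra ℂ R] (D : Derivation ℂ R R) {n m : ℕ} (h : n ≤ m) {a : R}
    (ha : (⇑D)^[n] a = 0) : (⇑D)^[m] a = 0 := by
  obtain ⟨j, rfl⟩ := Nat.exists_eq_add_of_le h
  rw [add_comm, Function.iterate_add_apply, ha]
  exact Function.iterate_fixed (map_zero D) j

lemma iterate_mul_eq_zero (D : Derivation ℂ R R) {i j : ℕ} {a b : R}
    (ha : (⇑D)^[i + 1] a = 0) (hb : (⇑D)^[j + 1] b = 0) : (⇑D)^[i + j + 1] (a * b) = 0 := by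
  rw [iterate_leibniz]
  refine Finset.sum_eq_zero fun ij hij => ?_
  rw [Finset.HasAntidiagonal.mem_antidiagonal] at hij
  rcases Nat.lt_or_ge i ij.1 with h | h
  · rw [iterate_zero_of_le D h ha, zero_mul, smul_zero]
  · rw [iterate_zero_of_le D (by omega) hb, mul_zero, smul_zero]

lemma iterate_mul_top (D : Derivation ℂ R R) {i j : ℕ} {a b : R}
    (ha : (⇑D)^[i + 1] a = 0) (hb : (⇑D)^[j + 1] b = 0) :
    (⇑D)^[i + j] (a * b) = (i + j).choose i • ((⇑D)^[i] a * (⇑D)^[j] b) := by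
  rw [iterate_leibniz]
  rw [Finset.sum_eq_single (i, j)]
  · rintro ⟨k, l⟩ hkl hne
    rw [Finset.HasAntidiagonal.mem_antidiagonal] at hkl
    rcases Nat.lt_or_ge i k with h | h
    · rw [iterate_zero_of_le D h ha, zero_mul, smul_zero]
    · have : k ≠ i := fun h0 => hne (by subst h0; simp at hkl ⊢; omega)
      simp only at hkl
      rw [iterate_zero_of_le D (by omega) hb, mul_zero, smul_zero]
  · intro h
    exact absurd ((Finset.HasAntidiagonal.mem_antidiagonal (n := i + j) (a := (i, j))).mpr rfl) h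

lemma iterate_pow_eq_zero (D : Derivation ℂ R R) {i : ℕ} {a : R}
    (ha : (⇑D)^[i + 1] a = 0) (j : ℕ) : (⇑D)^[j * i + 1] (a ^ j) = 0 := by
  induction j with
  | zero => simp
  | succ j ih =>
    rw [pow_succ]
    have := iterate_mul_eq_zero D ih ha
    convert this using 2
    ring

lemma iterate_pow_top (D : Derivation ℂ R R) {i : ℕ} {a : R}
    (ha : (⇑D)^[i + 1] a = 0) (j : ℕ) :
    ∃ c : ℕ, c ≠ 0 ∧ (⇑D)^[j * i] (a ^ j) = c • ((⇑D)^[i] a) ^ j := by
  induction j with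
  | zero => exact ⟨1, one_ne_zero, by simp⟩
  | succ j ih =>
    obtain ⟨c, hc, h⟩ := ih
    refine ⟨(j * i + i).choose (j * i) * c, ?_, ?_⟩
    · exact mul_ne_zero (Nat.choose_pos (by omega)).ne' hc
    · rw [pow_succ, Nat.succ_mul, iterate_mul_top D (iterate_pow_eq_zero D ha j) ha, h]
      simp only [nsmul_eq_mul, Nat.cast_mul]
      ring

lemma iterate_sum (D : Derivation ℂ R R) (n : ℕ) {ι : Type*} (t : Finset ι) (g : ι → R) :
    (⇑D)^[n] (∑ i ∈ t, g i) = ∑ i ∈ t, (⇑D)^[n] (g i) := by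
  induction n with
  | zero => rfl
  | succ n ih => simp only [Function.iterate_succ_apply', ih, map_sum]

omit [GradedAlgebra 𝒜] in
/-- `D` is nilpotent of the right order on the algebra generated by `𝒜 1`. -/
lemma iterate_eq_zero_of_mem_pow (D : Derivation ℂ R R) (d : ℕ)
    (h1 : ∀ r ∈ 𝒜 1, (⇑D)^[d + 1] r = 0) (k : ℕ) (r : R) (hr : r ∈ (𝒜 1) ^ k) :
    (⇑D)^[d * k + 1] r = 0 := by
  induction k generalizing r with
  | zero =>
    rw [pow_zero, Submodule.mem_one] at hr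
    obtain ⟨c, rfl⟩ := hr
    simp
  | succ k ih =>
    rw [pow_succ] at hr
    refine Submodule.mul_induction_on hr ?_ ?_
    · intro a ha b hb
      have := iterate_mul_eq_zero D (ih a ha) (h1 b hb)
      rwa [← Nat.mul_succ] at this
    · intro a b ha hb
      rw [iterate_map_add, ha, hb, add_zero]

lemma mem_maxGen_zero_iff (D : Derivation ℂ R R) (r : R) :
    r ∈ Module.End.maxGenEigenspace (D : R →ₗ[ℂ] R) 0 ↔ ∃ n : ℕ, (⇑D)^[n] r = 0 := by
  rw [mem_maxGen_iff]
  refine exists_congr fun n => ?_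
  rw [zero_smul, sub_zero, Module.End.pow_apply]
  rfl

omit [GradedAlgebra 𝒜] in
/-- A degree-preserving derivation killing `𝒜 1` after `d + 1` steps kills `𝒜 k` after
`d * k + 1` steps, if all homogeneous elements are (homogeneously) integral over `𝒜 1`. -/
theorem iterate_eq_zero_of_integral [IsDomain R] (D : Derivation ℂ R R)
    (hfin : ∀ k, FiniteDimensional ℂ (𝒜 k))
    (hint : ∀ (k : ℕ) (r : R), r ∈ 𝒜 k → ∃ (m : ℕ) (s : ℕ → R), s 0 = 1 ∧
      (∀ i, s i ∈ (𝒜 1) ^ (i * k)) ∧ ∑ i ∈ Finset.range (m + 1), s i * r ^ (m - i) = 0)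
    (hD : ∀ k, ∀ r ∈ 𝒜 k, D r ∈ 𝒜 k) (d : ℕ)
    (h1 : ∀ r ∈ 𝒜 1, (⇑D)^[d + 1] r = 0) (k : ℕ) (r : R) (hr : r ∈ 𝒜 k) :
    (⇑D)^[d * k + 1] r = 0 := by
  set f : End ℂ R := (D : R →ₗ[ℂ] R) with hf
  -- multiplicativity of generalized eigenspaces
  have hmul : ∀ (μ ν : ℂ) (a b : R), a ∈ f.maxGenEigenspace μ → b ∈ f.maxGenEigenspace ν →
      a * b ∈ f.maxGenEigenspace (μ + ν) := fun μ ν a b ha hb =>
    mem_maxGen_add f (LinearMap.mul ℂ R) (fun a b => by
      simp [hf, Derivation.leibniz, mul_comm, add_comm]) μ ν a b ha hb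
  have hpow : ∀ (μ : ℂ) (a : R) (n : ℕ), a ∈ f.maxGenEigenspace μ →
      a ^ n ∈ f.maxGenEigenspace (n * μ) := by
    intro μ a n ha
    induction n with
    | zero =>
      apply mem_maxGen_of_eq_smul
      simp [hf]
    | succ n ih =>
      have := hmul _ _ _ _ ih ha
      rw [pow_succ]
      convert this using 2
      push_cast; ring
  -- nonzero eigenvalues do not occur on `𝒜 k`
  have hgen : ∀ (μ : ℂ), μ ≠ 0 → ∀ r ∈ 𝒜 k, r ∈ f.maxGenEigenspace μ → r = 0 := by
    intro μ hμ r hr hrμ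
    obtain ⟨m, s, hs0, hs, hsum⟩ := hint k r hr
    rw [Finset.sum_range_succ', Nat.sub_zero, hs0, one_mul] at hsum
    have hs' : ∀ i, s i ∈ f.maxGenEigenspace 0 := fun i =>
      (mem_maxGen_zero_iff D (s i)).mpr ⟨_, iterate_eq_zero_of_mem_pow 𝒜 D d h1 _ _ (hs i)⟩
    have hA : ∑ i ∈ Finset.range m, s (i + 1) * r ^ (m - (i + 1)) ∈
        ⨆ ν, ⨆ _ : ν ≠ (m : ℂ) * μ, f.maxGenEigenspace ν := by
      refine sum_mem fun i hi => ?_
      rw [Finset.mem_range] at hi
      have h2 := hmul _ _ _ _ (hs' (i + 1)) (hpow μ r (m - (i + 1)) hrμ)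
      refine Submodule.mem_iSup_of_mem _ (Submodule.mem_iSup_of_mem ?_ h2)
      intro h0
      rw [zero_add] at h0
      have h3 := mul_right_cancel₀ hμ h0
      have h4 : m - (i + 1) = m := by exact_mod_cast h3
      omega
    have hB : r ^ m ∈ f.maxGenEigenspace ((m : ℂ) * μ) := hpow μ r m hrμ
    have hd := (Module.End.independent_maxGenEigenspace f) ((m : ℂ) * μ)
    have hrm : r ^ m = 0 := by
      refine Submodule.disjoint_def.mp hd _ hB ?_
      have : r ^ m = -∑ i ∈ Finset.range m, s (i + 1) * r ^ (m - (i + 1)) := by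
        linear_combination hsum
      rw [this]
      exact neg_mem hA
    rcases Nat.eq_zero_or_pos m with rfl | hm
    · simp at hrm
    · exact pow_eq_zero_iff (hm.ne') |>.mp hrm
  -- hence `D` is locally nilpotent on `𝒜 k`
  have hnil : ∀ r ∈ 𝒜 k, ∃ n, (⇑D)^[n] r = 0 := by
    intro r hr
    rw [← mem_maxGen_zero_iff]
    have := hfin k
    let g : End ℂ (𝒜 k) := f.restrict (hD k)
    have htop : (⨆ μ : ℂ, g.maxGenEigenspace μ) = ⊤ := Module.End.iSup_maxGenEigenspace_eq_top g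
    have hmem : (⟨r, hr⟩ : 𝒜 k) ∈ ⨆ μ : ℂ, g.maxGenEigenspace μ := by rw [htop]; trivial
    have key : ∀ (μ : ℂ) (n : ℕ) (v : 𝒜 k), ((((g - μ • (1 : End ℂ (𝒜 k))) ^ n) v : 𝒜 k) : R) =
        ((f - μ • (1 : End ℂ R)) ^ n) (v : R) := by
      intro μ n v
      induction n with
      | zero => rfl
      | succ n ih =>
        rw [pow_succ', Module.End.mul_apply, pow_succ', Module.End.mul_apply, ← ih]
        rfl
    have hmap : r ∈ (⨆ μ : ℂ, g.maxGenEigenspace μ).map (𝒜 k).subtype := ⟨_, hmem, rfl⟩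
    rw [Submodule.map_iSup] at hmap
    refine (iSup_le fun μ => ?_ : (⨆ μ : ℂ, (g.maxGenEigenspace μ).map (𝒜 k).subtype) ≤ _) hmap
    rintro _ ⟨v, hv, rfl⟩
    have hv' : (v : R) ∈ f.maxGenEigenspace μ := by
      rw [SetLike.mem_coe, mem_maxGen_iff] at hv
      rw [mem_maxGen_iff]
      obtain ⟨n, hn⟩ := hv
      exact ⟨n, by rw [← key, hn]; rfl⟩
    by_cases hμ : μ = 0
    · subst hμ; exact hv'
    · have h0 := hgen μ hμ v v.2 hv'
      change (v : R) ∈ _
      rw [h0]; exact zero_mem _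
  -- the order of nilpotency
  by_cases hr0 : r = 0
  · rw [hr0]; exact Function.iterate_fixed (map_zero D) _
  obtain ⟨δ, hδ1, hδ2⟩ := Nat.exists_not_and_succ_of_not_zero_of_exists
      (p := fun j => (⇑D)^[j] r = 0) (by simpa using hr0) (hnil r hr)
  rcases Nat.lt_or_ge (d * k) δ with hlt | hge
  · exfalso
    obtain ⟨m, s, hs0, hs, hsum⟩ := hint k r hr
    have h2 := congrArg (⇑D)^[m * δ] hsum
    rw [Finset.sum_range_succ', Nat.sub_zero, hs0, one_mul, iterate_map_add, iterate_sum,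
      iterate_map_zero, Finset.sum_eq_zero, zero_add] at h2
    · obtain ⟨c, hc, h3⟩ := iterate_pow_top D hδ2 m
      rw [h3] at h2
      rw [nsmul_eq_mul, mul_eq_zero] at h2
      have : CharZero R :=
        charZero_of_injective_algebraMap (FaithfulSMul.algebraMap_injective ℂ R)
      rcases h2 with h2 | h2
      · exact hc (by exact_mod_cast h2)
      · exact pow_ne_zero m hδ1 h2
    · intro i hi
      rw [Finset.mem_range] at hi
      have h4 := iterate_mul_eq_zero D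
        (iterate_eq_zero_of_mem_pow 𝒜 D d h1 _ _ (hs (i + 1)))
        (iterate_pow_eq_zero D hδ2 (m - (i + 1)))
      refine iterate_zero_of_le D ?_ h4
      have h5 : m = (m - (i + 1)) + (i + 1) := by omega
      have h6 : m * δ = (m - (i + 1)) * δ + (i + 1) * δ := by
        rw [← add_mul, ← h5]
      have h7 : d * ((i + 1) * k) + 1 ≤ (i + 1) * δ := by
        calc d * ((i + 1) * k) + 1 = (i + 1) * (d * k) + 1 := by ring
          _ ≤ (i + 1) * (d * k) + (i + 1) := by omega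
          _ = (i + 1) * (d * k + 1) := by ring
          _ ≤ (i + 1) * δ := Nat.mul_le_mul_left _ hlt
      rw [h6]
      omega
  · exact iterate_zero_of_le D (by omega) hδ2

/-- the Taylor polynomial of the flow -/
noncomputable def taylorPoly (D : Derivation ℂ R R) (p : R →ₐ[ℂ] ℂ) (N : ℕ) : R →ₗ[ℂ] ℂ[X] :=
  ∑ l ∈ Finset.range (N + 1), (monomial l).comp
    (((l.factorial : ℂ)⁻¹) • (p.toLinearMap.comp (((D : R →ₗ[ℂ] R) : End ℂ R) ^ l)))

lemma taylorPoly_apply (D : Derivation ℂ R R) (p : R →ₐ[ℂ] ℂ) (N : ℕ) (r : R) :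
    taylorPoly D p N r = ∑ l ∈ Finset.range (N + 1),
      monomial l ((l.factorial : ℂ)⁻¹ * p ((⇑D)^[l] r)) := by
  simp [taylorPoly, LinearMap.sum_apply, Module.End.pow_apply]

lemma coeff_taylorPoly (D : Derivation ℂ R R) (p : R →ₐ[ℂ] ℂ) (N : ℕ) (r : R)
    (hr : (⇑D)^[N + 1] r = 0) (n : ℕ) :
    (taylorPoly D p N r).coeff n = (n.factorial : ℂ)⁻¹ * p ((⇑D)^[n] r) := by
  rw [taylorPoly_apply, finsetSum_coeff]
  simp only [coeff_monomial, Finset.sum_ite_eq', Finset.mem_range]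
  split_ifs with h
  · rfl
  · rw [iterate_zero_of_le D (by omega) hr, map_zero, mul_zero]

lemma natDegree_taylorPoly_le (D : Derivation ℂ R R) (p : R →ₐ[ℂ] ℂ) (N : ℕ) (r : R) :
    (taylorPoly D p N r).natDegree ≤ N := by
  rw [taylorPoly_apply]
  refine natDegree_sum_le_of_forall_le _ _ fun l hl => ?_
  rw [Finset.mem_range] at hl
  exact (natDegree_monomial_le _).trans (by omega)

lemma taylorPoly_mul (D : Derivation ℂ R R) (p : R →ₐ[ℂ] ℂ) (N M : ℕ) (a b : R)
    (ha : (⇑D)^[N + 1] a = 0) (hb : (⇑D)^[M + 1] b = 0) :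
    taylorPoly D p (N + M) (a * b) = taylorPoly D p N a * taylorPoly D p M b := by
  ext n
  rw [coeff_taylorPoly D p _ _ (iterate_mul_eq_zero D ha hb), coeff_mul, iterate_leibniz, map_sum,
    Finset.mul_sum]
  refine Finset.sum_congr rfl fun ij hij => ?_
  rw [Finset.HasAntidiagonal.mem_antidiagonal] at hij
  rw [coeff_taylorPoly D p _ _ ha, coeff_taylorPoly D p _ _ hb, map_nsmul, map_mul]
  have h1 : (n.choose ij.1 : ℂ) * (ij.1.factorial : ℂ) * (ij.2.factorial : ℂ) = n.factorial := by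
    rw [← hij, Nat.choose_symm_add]
    exact_mod_cast Nat.add_choose_mul_factorial_mul_factorial ij.1 ij.2
  have h2 : (ij.1.factorial : ℂ) ≠ 0 := by exact_mod_cast Nat.factorial_ne_zero _
  have h3 : (ij.2.factorial : ℂ) ≠ 0 := by exact_mod_cast Nat.factorial_ne_zero _
  have h4 : (n.factorial : ℂ) ≠ 0 := by exact_mod_cast Nat.factorial_ne_zero _
  rw [nsmul_eq_mul]
  field_simp
  rw [← h1]
  ring

/-- The homogenised flow `s ↦ s ^ d • exp (s⁻¹ D) p`. -/
theorem exists_flow (D : Derivation ℂ R R) (hD : ∀ k, ∀ r ∈ 𝒜 k, D r ∈ 𝒜 k) (d : ℕ)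
    (hnil : ∀ (k : ℕ) (r : R), r ∈ 𝒜 k → (⇑D)^[d * k + 1] r = 0) (p : R →ₐ[ℂ] ℂ) :
    ∃ c : R →ₐ[ℂ] ℂ[X], ∀ (k : ℕ) (r : R), r ∈ 𝒜 k →
      c r = ∑ l ∈ Finset.range (d * k + 1),
        C (p ((⇑D)^[l] r) / (l.factorial : ℂ)) * X ^ (d * k - l) := by
  classical
  have hrefl : ∀ (k : ℕ) (r : R), reflect (d * k) (taylorPoly D p (d * k) r) =
      ∑ l ∈ Finset.range (d * k + 1),
        C (p ((⇑D)^[l] r) / (l.factorial : ℂ)) * X ^ (d * k - l) := by
    intro k r
    ext n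
    rw [coeff_reflect, finsetSum_coeff, taylorPoly_apply, finsetSum_coeff]
    refine Finset.sum_congr rfl fun l hl => ?_
    rw [Finset.mem_range] at hl
    rw [coeff_monomial, coeff_C_mul_X_pow]
    have e1 : (l = revAt (d * k) n) ↔ (n = d * k - l) := by
      rcases Nat.lt_or_ge (d * k) n with h | h
      · rw [revAt_eq_self_of_lt h]; omega
      · rw [revAt_le h]; omega
    by_cases h : l = revAt (d * k) n
    · rw [if_pos h, if_pos (e1.mp h)]; ring
    · rw [if_neg h, if_neg (fun h' => h (e1.mpr h'))]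
  let F : ∀ k, (𝒜 k) →ₗ[ℂ] ℂ[X] := fun k =>
    { toFun := fun r => reflect (d * k) (taylorPoly D p (d * k) (r : R))
      map_add' := fun a b => by
        rw [Submodule.coe_add, map_add, reflect_add]
      map_smul' := fun c a => by
        rw [Submodule.coe_smul, map_smul, RingHom.id_apply, smul_eq_C_mul, reflect_C_mul,
          smul_eq_C_mul] }
  have hF : ∀ k (r : 𝒜 k), F k r = reflect (d * k) (taylorPoly D p (d * k) (r : R)) :=
    fun k r => rfl
  let c₀ : (DirectSum ℕ fun k => 𝒜 k) →ₐ[ℂ] ℂ[X] := DirectSum.toAlgebra ℂ (fun k => 𝒜 k) F (by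
      rw [hF, hrefl]
      change ∑ l ∈ Finset.range (d * 0 + 1),
        C (p ((⇑D)^[l] (1 : R)) / (l.factorial : ℂ)) * X ^ (d * 0 - l) = 1
      simp) (by
      intro i j a b
      rw [hF, hF, hF]
      change reflect (d * (i + j)) (taylorPoly D p (d * (i + j)) ((a : R) * (b : R))) = _
      rw [Nat.mul_add, taylorPoly_mul D p _ _ _ _ (hnil i a a.2) (hnil j b b.2)]
      exact reflect_mul _ _ (natDegree_taylorPoly_le D p _ _) (natDegree_taylorPoly_le D p _ _))
  refine ⟨c₀.comp (DirectSum.decomposeAlgEquiv 𝒜).toAlgHom, fun k r hr => ?_⟩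
  have e2 : (DirectSum.decomposeAlgEquiv 𝒜) r = DirectSum.of (fun k => 𝒜 k) k ⟨r, hr⟩ := by
    rw [DirectSum.decomposeAlgEquiv_apply, DirectSum.decompose_of_mem 𝒜 hr]
  rw [← hrefl]
  change c₀ ((DirectSum.decomposeAlgEquiv 𝒜) r) = _
  rw [e2]
  change DirectSum.toModule ℂ ℕ ℂ[X] F (DirectSum.lof ℂ ℕ (fun k => 𝒜 k) k ⟨r, hr⟩) = _
  rw [DirectSum.toModule_lof]
  rfl

end Vale.Agent.P292
end

section

/-! Part 1: if `|L|` is base point free, the contact automorphism algebra is semisimple. -/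

namespace Vale.Agent.P292

open Polynomial

universe u

variable {R : Type u} [CommRing R] [Algebra ℂ R] {𝒜 : ℕ → Submodule ℂ R} [GradedAlgebra 𝒜]
  {P : R →ₗ[ℂ] R →ₗ[ℂ] R}

lemma sq_dvd_of_mem_ker_sq (c : R →ₐ[ℂ] ℂ[X]) (t : ℂ) (q : R →ₐ[ℂ] ℂ)
    (hq : ∀ r, q r = (c r).eval t) (a : R) (ha : a ∈ RingHom.ker q ^ 2) :
    (X - C t) ^ 2 ∣ c a := by
  have h1 : RingHom.ker q ≤ Ideal.comap c (Ideal.span {X - C t}) := by
    intro r hr
    rw [Ideal.mem_comap, Ideal.mem_span_singleton, dvd_iff_isRoot]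
    have : q r = 0 := hr
    rw [IsRoot, ← hq, this]
  have h2 : RingHom.ker q ^ 2 ≤ Ideal.comap c (Ideal.span {(X - C t) ^ 2}) := by
    rw [← Ideal.span_singleton_pow, ← Ideal.map_le_iff_le_comap, Ideal.map_pow]
    exact Ideal.pow_right_mono (Ideal.map_le_iff_le_comap.mpr h1) 2
  have h3 := h2 ha
  rwa [Ideal.mem_comap, Ideal.mem_span_singleton] at h3

namespace IsContactFano

variable (hX : IsContactFano 𝒜 P)
include hX

/-- evaluation argument with the Euler field: an element of degree one with zero Hamiltonian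
vector field vanishes. -/
lemma eq_zero_of_forall_P_eq_zero (f : R) (hf : f ∈ 𝒜 1) (h : ∀ r, P f r = 0) : f = 0 := by
  have := hX.domain
  have := hX.finiteType
  by_contra hne
  obtain ⟨p, hp⟩ := exists_point_ne_zero f hne
  have hpv : ¬ IsVertex 𝒜 p := fun hv => hp (hv 1 one_pos f hf)
  have hmem := hX.nondegenerate p hpv f (fun b => by rw [h, map_zero])
  obtain ⟨c, hc⟩ := exists_flow 𝒜 (0 : Derivation ℂ R R) (fun k r _ => by simp) 1
    (fun k r _ => by
      rw [Function.iterate_succ_apply']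
      simp) p
  have hc' : ∀ (k : ℕ) (r : R), r ∈ 𝒜 k → c r = C (p r) * X ^ k := by
    intro k r hr
    rw [hc k r hr, Finset.sum_range_succ', Finset.sum_eq_zero]
    · simp
    · intro i _
      rw [Function.iterate_succ_apply']
      simp
  have hq : ∀ r, p r = (c r).eval 1 := by
    intro r
    have := forall_of_homogeneous' (𝒜 := 𝒜) p.toLinearMap
      ((Polynomial.leval (1 : ℂ)).comp c.toLinearMap) (fun k r hr => by
        simp [Polynomial.leval_apply, hc' k r hr]) r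
    simpa [Polynomial.leval_apply] using this
  have hdvd := sq_dvd_of_mem_ker_sq c 1 p hq _ hmem
  rw [map_sub, hc' 1 f hf, AlgHom.commutes, pow_one, Polynomial.algebraMap_apply] at hdvd
  have e1 : C (p f) * X - C ((algebraMap ℂ ℂ) (p f)) = C (p f) * (X - C 1) := by
    simp [mul_sub]
  rw [e1, sq, mul_comm (C (p f))] at hdvd
  have hXne : (X - C (1 : ℂ)) ≠ 0 := X_sub_C_ne_zero 1
  have h4 : (X - C (1 : ℂ)) ∣ C (p f) := (mul_dvd_mul_iff_left hXne).mp hdvd
  rw [dvd_iff_isRoot] at h4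
  simp only [IsRoot, eval_C] at h4
  exact hp h4

/-- Key lemma: if `|L|` is base point free, a contact vector field whose square kills the
contact algebra is zero. -/
theorem eq_zero_of_ad_sq_eq_zero (hb : IsBasePointFree 𝒜) (f : R) (hf : f ∈ 𝒜 1)
    (h2 : ∀ x ∈ 𝒜 1, P f (P f x) = 0) : f = 0 := by
  have := hX.domain
  have := hX.finiteType
  by_contra hne
  set D : Derivation ℂ R R := hX.ham f with hDdef
  have hDapp : ∀ r, D r = P f r := fun r => rfl
  have hDdeg : ∀ k, ∀ r ∈ 𝒜 k, D r ∈ 𝒜 k := fun k r hr => hX.mem_of_mem_one hf hr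
  have hfin := fun k => finiteDimensional_piece 𝒜 hX.connected k
  have hb' : ∀ p : R →ₐ[ℂ] ℂ, (∀ s ∈ 𝒜 1, p s = 0) → ∀ k : ℕ, 0 < k → ∀ r ∈ 𝒜 k, p r = 0 := by
    intro p hp
    by_contra hcon
    obtain ⟨s, hs, hps⟩ := hb p hcon
    exact hps (hp s hs)
  have hint := homogeneous_integral_equation 𝒜 hX.connected hb'
  have hnil : ∀ (k : ℕ) (r : R), r ∈ 𝒜 k → (⇑D)^[1 * k + 1] r = 0 :=
    fun k r hr => iterate_eq_zero_of_integral 𝒜 D hfin hint hDdeg 1
      (fun r hr => by simpa [hDapp] using h2 r hr) k r hr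
  have hDf : D f = 0 := hX.alternating f
  -- the alternative at each point
  have key : ∀ p : R →ₐ[ℂ] ℂ, p f = 0 ∨ ∀ x ∈ 𝒜 1, p (P f x) = 0 := by
    intro p
    obtain ⟨c, hc⟩ := exists_flow 𝒜 D hDdeg 1 hnil p
    set q : R →ₐ[ℂ] ℂ := (Polynomial.aeval (0 : ℂ)).comp c with hqdef
    have hq : ∀ r, q r = (c r).eval 0 := fun r => by
      simp [hqdef, Polynomial.coe_aeval_eq_eval]
    have hc1 : ∀ x ∈ 𝒜 1, c x = C (p (P f x)) + C (p x) * X := by
      intro x hx
      rw [hc 1 x hx]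
      simp [Finset.sum_range_succ, hDapp, add_comm]
    have hPq : ∀ r, q (P f r) = 0 := by
      intro r
      have := forall_of_homogeneous' (𝒜 := 𝒜)
        (q.toLinearMap.comp (P f)) 0 (fun k r hr => by
          simp only [LinearMap.comp_apply, LinearMap.zero_apply, AlgHom.toLinearMap_apply, hq]
          rw [hc k _ (hX.mem_of_mem_one hf hr), eval_finsetSum]
          apply Finset.sum_eq_zero
          intro l hl
          rw [Finset.mem_range] at hl
          rcases Nat.lt_or_ge l (1 * k) with h | h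
          · have : k - l ≠ 0 := by omega
            simp [this]
          · have hl' : l = 1 * k := by omega
            have h0 : (⇑D)^[l] (P f r) = 0 := by
              rw [← hDapp, ← Function.iterate_succ_apply, hl']
              exact hnil k r hr
            simp [h0]) r
      simpa using this
    by_cases hv : IsVertex 𝒜 q
    · right
      intro x hx
      have := hv 1 one_pos x hx
      rw [hq, hc1 x hx] at this
      simpa using this
    · left
      have hmem := hX.nondegenerate q hv f hPq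
      have hqf : q f = 0 := by
        rw [hq, hc1 f hf, hX.alternating]
        simp
      rw [hqf, map_zero, sub_zero] at hmem
      have hdvd := sq_dvd_of_mem_ker_sq c 0 q hq _ hmem
      rw [hc1 f hf, hX.alternating] at hdvd
      simp only [map_zero, zero_add, sub_zero, sq] at hdvd
      rw [mul_comm (C (p f))] at hdvd
      have h4 : (X : ℂ[X]) ∣ C (p f) := (mul_dvd_mul_iff_left X_ne_zero).mp hdvd
      rw [X_dvd_iff] at h4
      simpa using h4
  have hprod : ∀ x ∈ 𝒜 1, f * P f x = 0 := by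
    intro x hx
    by_contra hcon
    obtain ⟨p, hp⟩ := exists_point_ne_zero _ hcon
    rcases key p with h | h
    · exact hp (by rw [map_mul, h, zero_mul])
    · exact hp (by rw [map_mul, h x hx, mul_zero])
  have hzero : ∀ x ∈ 𝒜 1, P f x = 0 := fun x hx =>
    (mul_eq_zero.mp (hprod x hx)).resolve_left hne
  have hall : ∀ r, P f r = 0 := by
    intro r
    have := forall_of_homogeneous' (𝒜 := 𝒜) (P f) 0 (fun k r hr => by
      have := iterate_eq_zero_of_integral 𝒜 D hfin hint hDdeg 0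
        (fun r hr => by simpa [hDapp] using hzero r hr) k r hr
      simpa [hDapp] using this) r
    simpa using this
  exact hne (hX.eq_zero_of_forall_P_eq_zero f hf hall)

end IsContactFano

end Vale.Agent.P292
end

section

/-! The core argument: an `sl₂`-triple in `𝔤` with an isolated extremal fixed point at which all
functions of weight one come from `𝔤`. -/

namespace Vale.Agent.P292

open Module

universe u

variable {R : Type u} [CommRing R] [Algebra ℂ R] {𝒜 : ℕ → Submodule ℂ R} [GradedAlgebra 𝒜]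
  {P : R →ₗ[ℂ] R →ₗ[ℂ] R}

/-- The data used in the core argument. -/
structure IsPreCore (hX : IsContactFano 𝒜 P) (e h f : R) (x : R →ₐ[ℂ] ℂ) : Prop where
  he : e ∈ 𝒜 1
  hh : h ∈ 𝒜 1
  hf : f ∈ 𝒜 1
  ef : P e f = h
  h_e : P h e = (2 : ℂ) • e
  h_f : P h f = -((2 : ℂ) • f)
  xe : x e = 1
  flow : ∀ k, ∀ r ∈ 𝒜 k,
    (⇑(hX.ham f))^[2 * k] r = (((2 * k).factorial : ℂ) * x r) • (-f) ^ k

/-- The data used in the core argument, with the extension property for functions of weight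
one. -/
structure IsCore (hX : IsContactFano 𝒜 P) (e h f : R) (x : R →ₐ[ℂ] ℂ) : Prop
    extends IsPreCore hX e h f x where
  full : ∀ k, 0 < k → ∀ w ∈ 𝒜 k, w ∈ Module.End.maxGenEigenspace (P h) (2 * (k : ℂ) - 1) →
    ∃ u ∈ 𝒜 1, w = e ^ (k - 1) * u

namespace IsPreCore

variable {hX : IsContactFano 𝒜 P} {e h f : R} {x : R →ₐ[ℂ] ℂ} (hC : IsPreCore hX e h f x)
include hC

lemma not_isVertex : ¬ IsVertex 𝒜 x := fun hv => by
  have := hv 1 one_pos e hC.he
  rw [hC.xe] at this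
  exact one_ne_zero this

lemma e_ne_zero : e ≠ 0 := fun h0 => by
  have := hC.xe
  rw [h0, map_zero] at this
  exact zero_ne_one this

lemma h_ne_zero : h ≠ 0 := fun h0 => by
  have h1 := hC.h_e
  rw [h0, map_zero, LinearMap.zero_apply] at h1
  exact hC.e_ne_zero ((smul_eq_zero.mp h1.symm).resolve_left two_ne_zero)

lemma f_ne_zero : f ≠ 0 := fun h0 => by
  have h1 := hC.ef
  rw [h0, map_zero] at h1
  exact hC.h_ne_zero h1.symm

lemma f_h : P f h = (2 : ℂ) • f := by
  rw [hX.skew, hC.h_f, neg_neg]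

lemma iterate_succ_eq_zero (k : ℕ) (r : R) (hr : r ∈ 𝒜 k) : (⇑(hX.ham f))^[2 * k + 1] r = 0 := by
  rw [Function.iterate_succ_apply', hC.flow k r hr, Derivation.map_smul]
  have : hX.ham f ((-f) ^ k) = 0 := by
    rw [hX.ham_apply, hX.P_pow_right, map_neg, hX.alternating, neg_zero, mul_zero]
  rw [this, smul_zero]

lemma neg_f_pow_ne_zero (k : ℕ) : (-f) ^ k ≠ 0 := by
  have := hX.domain
  exact pow_ne_zero _ (neg_ne_zero.mpr hC.f_ne_zero)

lemma iterate_P_h (n : ℕ) (r : R) :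
    (⇑(hX.ham f))^[n] (P h r) = P h ((⇑(hX.ham f))^[n] r) + (2 * (n : ℂ)) • (⇑(hX.ham f))^[n] r := by
  induction n with
  | zero => simp
  | succ n ih =>
    rw [Function.iterate_succ_apply', ih, map_add, Derivation.map_smul,
      Function.iterate_succ_apply', hX.ham_apply, hX.ham_apply, hX.jacobi f h, hC.f_h,
      map_smul, LinearMap.smul_apply]
    push_cast
    module

lemma x_P_h (k : ℕ) (r : R) (hr : r ∈ 𝒜 k) : x (P h r) = 2 * (k : ℂ) * x r := by
  have h1 := hC.flow k (P h r) (hX.mem_of_mem_one hC.hh hr)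
  rw [hC.iterate_P_h, hC.flow k r hr, map_smul] at h1
  have h2 : P h ((-f) ^ k) = (-(2 * (k : ℂ))) • (-f) ^ k := by
    rcases k with _ | k
    · simp [hX.P_one_right]
    · rw [hX.P_pow_right, map_neg, hC.h_f, Nat.add_sub_cancel]
      simp only [Algebra.smul_def, map_neg, map_mul, map_natCast, map_ofNat, Nat.cast_add,
        Nat.cast_one, pow_succ, map_add, map_one]
      ring
  rw [h2, smul_smul, smul_smul, ← add_smul] at h1
  have h3 := smul_left_injective ℂ (hC.neg_f_pow_ne_zero k) h1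
  push_cast at h3
  have h4 : ((2 * k).factorial : ℂ) ≠ 0 := by exact_mod_cast Nat.factorial_ne_zero _
  have h5 : ((2 * k).factorial : ℂ) * (x (P h r) - 2 * (k : ℂ) * x r) = 0 := by
    linear_combination -h3
  have := (mul_eq_zero.mp h5).resolve_left h4
  linear_combination this

end IsPreCore

end Vale.Agent.P292
end

section

/-! Weights of `h`. -/

namespace Vale.Agent.P292

open Module LieModule

universe u

variable {R : Type u} [CommRing R] [Algebra ℂ R] {𝒜 : ℕ → Submodule ℂ R} [GradedAlgebra 𝒜]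
  {P : R →ₗ[ℂ] R →ₗ[ℂ] R}

/-- the part of `𝒜 k` of `h`-weight `2 k - i` -/
def wt (𝒜 : ℕ → Submodule ℂ R) (P : R →ₗ[ℂ] R →ₗ[ℂ] R) (h : R) (k i : ℕ) : Submodule ℂ R :=
  𝒜 k ⊓ Module.End.maxGenEigenspace (P h) (2 * (k : ℂ) - i)

instance (hX : IsContactFano 𝒜 P) (k : ℕ) : FiniteDimensional ℂ (Piece hX k) := by
  have := hX.finiteType
  exact finiteDimensional_piece 𝒜 hX.connected k

instance (hX : IsContactFano 𝒜 P) : FiniteDimensional ℂ (LieOne hX) := by
  have := hX.finiteType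
  exact finiteDimensional_piece 𝒜 hX.connected 1

lemma incl_toEnd_pow (hX : IsContactFano 𝒜 P) (k n : ℕ) (u : LieOne hX) (m : Piece hX k) :
    Piece.incl hX k (((toEnd ℂ (LieOne hX) (Piece hX k) u) ^ n) m) =
      (⇑(hX.ham (LieOne.incl hX u)))^[n] (Piece.incl hX k m) := by
  induction n with
  | zero => rfl
  | succ n ih =>
    rw [pow_succ', Module.End.mul_apply, toEnd_apply_apply, Piece.incl_lie, ih,
      Function.iterate_succ_apply']
    rfl

lemma mem_maxGen_incl_iff (hX : IsContactFano 𝒜 P) (k : ℕ) (u : LieOne hX) (m : Piece hX k)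
    (μ : ℂ) :
    Piece.incl hX k m ∈ Module.End.maxGenEigenspace (P (LieOne.incl hX u)) μ ↔
      m ∈ (toEnd ℂ (LieOne hX) (Piece hX k) u).maxGenEigenspace μ := by
  have key : ∀ n : ℕ, Piece.incl hX k
      (((toEnd ℂ (LieOne hX) (Piece hX k) u - μ • (1 : End ℂ (Piece hX k))) ^ n) m) =
      (((P (LieOne.incl hX u) - μ • (1 : End ℂ R)) : End ℂ R) ^ n) (Piece.incl hX k m) := by
    intro n
    induction n with
    | zero => rfl
    | succ n ih =>
      rw [pow_succ', Module.End.mul_apply, pow_succ', Module.End.mul_apply, ← ih]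
      simp
  rw [mem_maxGen_iff, mem_maxGen_iff]
  constructor
  · rintro ⟨n, hn⟩
    refine ⟨n, Piece.incl_injective hX k ?_⟩
    rw [key, hn, map_zero]
  · rintro ⟨n, hn⟩
    refine ⟨n, ?_⟩
    rw [← key, hn, map_zero]

namespace IsPreCore

variable {hX : IsContactFano 𝒜 P} {e h f : R} {x : R →ₐ[ℂ] ℂ} (hC : IsPreCore hX e h f x)
include hC

lemma isSl2Triple : IsSl2Triple (LieOne.mk hX hC.hh) (LieOne.mk hX hC.he)
    (LieOne.mk hX hC.hf) where
  h_ne_zero := fun h0 => hC.h_ne_zero (by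
    have := congrArg (LieOne.incl hX) h0
    simpa using this)
  lie_e_f := LieOne.incl_injective hX (by simpa using hC.ef)
  lie_h_e_nsmul := LieOne.incl_injective hX (by
    simp only [LieOne.incl_lie, LieOne.incl_mk, map_nsmul, hC.h_e]
    rw [ofNat_smul_eq_nsmul])
  lie_h_f_nsmul := LieOne.incl_injective hX (by
    simp only [LieOne.incl_lie, LieOne.incl_mk, map_neg, map_nsmul, hC.h_f]
    rw [ofNat_smul_eq_nsmul])

/-- eigenvectors of `h` in `𝒜 k` -/
lemma eigen (k : ℕ) (r : R) (hr : r ∈ 𝒜 k) (hr0 : r ≠ 0) (μ : ℂ) (hμ : P h r = μ • r) :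
    ∃ n i : ℕ, IsSl2Triple.HasPrimitiveVectorWith hC.isSl2Triple
        (((toEnd ℂ (LieOne hX) (Piece hX k) (LieOne.mk hX hC.he)) ^ n) (Piece.mk hX hr)) (i : ℂ) ∧
      μ + 2 * n = i ∧ i ≤ 2 * k := by
  apply exists_primitive_of_eigenvector hC.isSl2Triple (2 * k)
  · intro m
    apply Piece.incl_injective hX k
    rw [incl_toEnd_pow, map_zero, LieOne.incl_mk]
    exact hC.iterate_succ_eq_zero k _ (Piece.incl_mem hX k m)
  · intro h0
    apply hr0
    have := congrArg (Piece.incl hX k) h0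
    simpa using this
  · apply Piece.incl_injective hX k
    simpa using hμ

lemma eigenvalue_eq (k : ℕ) (r : R) (hr : r ∈ 𝒜 k) (hr0 : r ≠ 0) (μ : ℂ) (hμ : P h r = μ • r) :
    ∃ i : ℕ, μ = 2 * (k : ℂ) - i := by
  obtain ⟨n, i, -, h1, h2⟩ := hC.eigen k r hr hr0 μ hμ
  refine ⟨2 * k - i + 2 * n, ?_⟩
  push_cast [Nat.cast_sub h2]
  linear_combination h1

/-- `𝒜 k` is spanned by its weight parts. -/
lemma piece_le_iSup_wt (k : ℕ) : 𝒜 k ≤ ⨆ i, wt 𝒜 P h k i := by
  intro r hr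
  set δ := toEnd ℂ (LieOne hX) (Piece hX k) (LieOne.mk hX hC.hh) with hδ
  have htop : (⨆ μ : ℂ, δ.maxGenEigenspace μ) = ⊤ := Module.End.iSup_maxGenEigenspace_eq_top δ
  have hmem : Piece.mk hX hr ∈ ⨆ μ : ℂ, δ.maxGenEigenspace μ := by rw [htop]; trivial
  have hmap : r ∈ (⨆ μ : ℂ, δ.maxGenEigenspace μ).map (Piece.incl hX k) :=
    ⟨Piece.mk hX hr, hmem, rfl⟩
  rw [Submodule.map_iSup] at hmap
  refine (iSup_le fun μ => ?_ : (⨆ μ : ℂ, (δ.maxGenEigenspace μ).map (Piece.incl hX k)) ≤ _) hmap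
  rintro _ ⟨m, hm, rfl⟩
  by_cases hm0 : m = 0
  · rw [hm0, map_zero]; exact zero_mem _
  -- `μ` is an eigenvalue
  have hgen : δ.HasEigenvalue μ := by
    rw [Module.End.hasEigenvalue_iff]
    intro hbot
    rw [SetLike.mem_coe, mem_maxGen_iff] at hm
    obtain ⟨n, hn⟩ := hm
    obtain ⟨j, hj1, hj2⟩ := Nat.exists_not_and_succ_of_not_zero_of_exists
      (p := fun j => ((δ - μ • (1 : End ℂ (Piece hX k))) ^ j) m = 0) (by simpa using hm0) ⟨n, hn⟩
    apply hj1
    have : ((δ - μ • (1 : End ℂ (Piece hX k))) ^ j) m ∈ δ.eigenspace μ := by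
      rw [Module.End.mem_eigenspace_iff]
      rw [pow_succ', Module.End.mul_apply] at hj2
      simpa [sub_eq_zero] using hj2
    rw [hbot] at this
    exact this
  obtain ⟨v, hv⟩ := hgen.exists_hasEigenvector
  obtain ⟨i, hi⟩ := hC.eigenvalue_eq k (Piece.incl hX k v) (Piece.incl_mem hX k v)
    (fun h0 => hv.2 (Piece.incl_injective hX k (by rw [h0, map_zero]))) μ (by
      have := congrArg (Piece.incl hX k) hv.apply_eq_smul
      simpa [hδ] using this)
  refine le_iSup (fun i => wt 𝒜 P h k i) i ⟨Piece.incl_mem hX k m, ?_⟩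
  rw [SetLike.mem_coe, ← hi]
  exact (mem_maxGen_incl_iff hX k (LieOne.mk hX hC.hh) m μ).mpr hm

lemma P_h_mem (k : ℕ) (r : R) (hr : r ∈ 𝒜 k) : P h r ∈ 𝒜 k := hX.mem_of_mem_one hC.hh hr

/-- `x` kills the elements of non-extremal weight -/
lemma x_eq_zero_of_wt (k : ℕ) (r : R) (hr : r ∈ 𝒜 k) (μ : ℂ) (hμ : μ ≠ 2 * (k : ℂ))
    (hr' : r ∈ Module.End.maxGenEigenspace (P h) μ) : x r = 0 :=
  apply_eq_zero_of_mem_maxGen (P h) μ (2 * (k : ℂ)) hμ (𝒜 k) (hC.P_h_mem k) x.toLinearMap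
    (fun v hv => hC.x_P_h k v hv) r hr hr'

lemma x_eq_zero_of_mem_wt (k i : ℕ) (hi : 0 < i) (r : R) (hr : r ∈ wt 𝒜 P h k i) : x r = 0 :=
  hC.x_eq_zero_of_wt k r hr.1 _ (by
    intro h0
    have : (i : ℂ) = 0 := by linear_combination -h0
    exact hi.ne' (by exact_mod_cast this)) hr.2

/-- the extremal weight part is spanned by `e ^ k` -/
lemma eq_of_mem_wt_zero (k : ℕ) (r : R) (hr : r ∈ wt 𝒜 P h k 0) : r = x r • e ^ k := by
  have hek : e ^ k ∈ wt 𝒜 P h k 0 := by
    refine ⟨by simpa using SetLike.pow_mem_graded (A := 𝒜) k hC.he, mem_maxGen_of_eq_smul _ _ _ ?_⟩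
    rcases k with _ | k
    · simp [hX.P_one_right]
    · rw [hX.P_pow_right, hC.h_e, Nat.add_sub_cancel]
      simp only [Algebra.smul_def, map_mul, map_natCast, map_ofNat, Nat.cast_add,
        Nat.cast_one, pow_succ, map_add, map_one, Nat.cast_zero, sub_zero]
      ring
  by_contra hne
  set r' := r - x r • e ^ k with hr'
  have hr'0 : r' ≠ 0 := sub_ne_zero.mpr hne
  have hr'mem : r' ∈ wt 𝒜 P h k 0 := sub_mem hr (Submodule.smul_mem _ _ hek)
  have hxr' : x r' = 0 := by simp [hr', hC.xe]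
  obtain ⟨hA, hG⟩ := hr'mem
  rw [SetLike.mem_coe, mem_maxGen_iff] at hG
  obtain ⟨n, hn⟩ := hG
  simp only [Nat.cast_zero, sub_zero] at hn
  set T : End ℂ R := P h - (2 * (k : ℂ)) • (1 : End ℂ R) with hT
  obtain ⟨j, hj1, hj2⟩ := Nat.exists_not_and_succ_of_not_zero_of_exists
      (p := fun j => (T ^ j) r' = 0) (by simpa using hr'0) ⟨n, hn⟩
  have hTmem : ∀ v ∈ 𝒜 k, T v ∈ 𝒜 k := fun v hv => by
    simpa [hT] using sub_mem (hC.P_h_mem k v hv) ((𝒜 k).smul_mem _ hv)
  have hTx : ∀ v ∈ 𝒜 k, x (T v) = 0 := fun v hv => by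
    have := hC.x_P_h k v hv
    simp [hT, this]
  have hpow : ∀ j, (T ^ j) r' ∈ 𝒜 k := by
    intro j
    induction j with
    | zero => exact hA
    | succ j ih => rw [pow_succ', Module.End.mul_apply]; exact hTmem _ ih
  have hxpow : ∀ j, x ((T ^ j) r') = 0 := by
    intro j
    cases j with
    | zero => exact hxr'
    | succ j => rw [pow_succ', Module.End.mul_apply]; exact hTx _ (hpow j)
  set v := (T ^ j) r' with hv
  have hv0 : v ≠ 0 := hj1
  have hev : P h v = (2 * (k : ℂ)) • v := by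
    rw [pow_succ', Module.End.mul_apply] at hj2
    have : T v = 0 := hj2
    simpa [hT, sub_eq_zero] using this
  obtain ⟨n', i, hprim, h1, h2⟩ := hC.eigen k v (hpow j) hv0 _ hev
  have hn' : n' = 0 ∧ i = 2 * k := by
    have : 2 * k + 2 * n' = i := by exact_mod_cast h1
    omega
  obtain ⟨rfl, rfl⟩ := hn'
  have hne0 := hprim.pow_toEnd_f_ne_zero_of_eq_nat rfl (le_refl (2 * k))
  apply hne0
  apply Piece.incl_injective hX k
  rw [incl_toEnd_pow, map_zero, pow_zero, Module.End.one_apply, LieOne.incl_mk, Piece.incl_mk,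
    hC.flow k v (hpow j), hxpow j, mul_zero, zero_smul]

lemma mem_maxGen_P (μ ν : ℂ) (a b : R) (ha : a ∈ Module.End.maxGenEigenspace (P h) μ)
    (hb : b ∈ Module.End.maxGenEigenspace (P h) ν) :
    P a b ∈ Module.End.maxGenEigenspace (P h) (μ + ν) :=
  mem_maxGen_add (P h) P (fun a b => hX.jacobi h a b) μ ν a b ha hb

end IsPreCore

end Vale.Agent.P292
end

section

/-! The cotangent space at the extremal point is spanned by `𝔤`, and no nonzero element of `R`
is killed by `x ∘ U(𝔤)`. -/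

namespace Vale.Agent.P292

open Module LieModule

universe u

variable {R : Type u} [CommRing R] [Algebra ℂ R] {𝒜 : ℕ → Submodule ℂ R} [GradedAlgebra 𝒜]
  {P : R →ₗ[ℂ] R →ₗ[ℂ] R}

/-- iterated brackets -/
def iter (P : R →ₗ[ℂ] R →ₗ[ℂ] R) (us : List R) (r : R) : R := us.foldr (fun u r => P u r) r

@[simp] lemma iter_nil (r : R) : iter P [] r = r := rfl
@[simp] lemma iter_cons (u : R) (us : List R) (r : R) : iter P (u :: us) r = P u (iter P us r) := rfl

lemma iter_append (us vs : List R) (r : R) : iter P (us ++ vs) r = iter P us (iter P vs r) := by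
  simp [iter, List.foldr_append]

namespace IsPreCore

variable {hX : IsContactFano 𝒜 P} {e h f : R} {x : R →ₐ[ℂ] ℂ} (hC : IsPreCore hX e h f x)
include hC

/-- to show a linear statement on `𝒜 k` it is enough to treat weight vectors -/
lemma forall_of_wt {M : Type*} [AddCommGroup M] [Module ℂ M] (φ : R →ₗ[ℂ] M) (k : ℕ)
    (hφ : ∀ i, ∀ b ∈ wt 𝒜 P h k i, φ b = 0) (b : R) (hb : b ∈ 𝒜 k) : φ b = 0 := by
  have h1 : (⨆ i, wt 𝒜 P h k i) ≤ LinearMap.ker φ := iSup_le fun i b hb => hφ i b hb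
  exact h1 (hC.piece_le_iSup_wt k hb)

lemma forall_of_forall_wt {M : Type*} [AddCommGroup M] [Module ℂ M] (φ : R →ₗ[ℂ] M)
    (hφ : ∀ k i, ∀ b ∈ wt 𝒜 P h k i, φ b = 0) (b : R) : φ b = 0 := by
  have := forall_of_homogeneous' (𝒜 := 𝒜) φ 0 (fun k r hr => by
    simpa using hC.forall_of_wt φ k (hφ k) r hr) b
  simpa using this

omit hC in
lemma P_of_mem_zero_left (hX : IsContactFano 𝒜 P) (a b : R) (ha : a ∈ 𝒜 0) : P a b = 0 := by
  obtain ⟨c, rfl⟩ := hX.connected a ha
  exact hX.P_algebraMap_left b c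

omit hC in
lemma P_of_mem_zero_right (hX : IsContactFano 𝒜 P) (a b : R) (hb : b ∈ 𝒜 0) : P a b = 0 := by
  obtain ⟨c, rfl⟩ := hX.connected b hb
  exact hX.P_algebraMap_right a c

/-- weight count for the Poisson pairing at `x` -/
lemma x_P_eq_zero_of_wt (k i l j : ℕ) (hij : i + j ≠ 2) (a b : R) (ha : a ∈ wt 𝒜 P h k i)
    (hb : b ∈ wt 𝒜 P h l j) : x (P a b) = 0 := by
  rcases Nat.eq_zero_or_pos k with rfl | hk
  · rw [P_of_mem_zero_left hX a b ha.1, map_zero]
  rcases Nat.eq_zero_or_pos l with rfl | hl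
  · rw [P_of_mem_zero_right hX a b hb.1, map_zero]
  have hmem : P a b ∈ 𝒜 (k + l - 1) := hX.degree k l (k + l - 1) (by omega) a ha.1 b hb.1
  refine hC.x_eq_zero_of_wt (k + l - 1) _ hmem _ ?_ (hC.mem_maxGen_P _ _ a b ha.2 hb.2)
  intro h0
  apply hij
  have h1 : ((k + l - 1 : ℕ) : ℂ) = (k : ℂ) + l - 1 := by
    rw [Nat.cast_sub (by omega)]; push_cast; ring
  rw [h1] at h0
  have h2 : ((i + j : ℕ) : ℂ) = (2 : ℕ) := by push_cast; linear_combination -h0
  exact_mod_cast h2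

lemma h_mem_wt : h ∈ wt 𝒜 P h 1 2 :=
  ⟨hC.hh, mem_maxGen_of_eq_smul _ _ _ (by rw [hX.alternating]; norm_num)⟩

lemma x_h : x h = 0 := hC.x_eq_zero_of_mem_wt 1 2 (by omega) h hC.h_mem_wt

lemma x_P_pow (a : R) (l : ℕ) : x (P a (e ^ l)) = l * x (P a e) := by
  rw [hX.P_pow_right]
  simp [hC.xe]

/-- elements of relative weight at least `3` lie in `𝔪²` -/
lemma mem_sq_of_wt (k i : ℕ) (hi : 3 ≤ i) (a : R) (ha : a ∈ wt 𝒜 P h k i) :
    a ∈ RingHom.ker x ^ 2 := by
  have h1 : ∀ b, x (P a b) = 0 := fun b =>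
    hC.forall_of_forall_wt (x.toLinearMap.comp (P a)) (fun l j b hb => by
      simpa using hC.x_P_eq_zero_of_wt k i l j (by omega) a b ha hb) b
  have h2 := hX.nondegenerate x hC.not_isVertex a h1
  rwa [hC.x_eq_zero_of_mem_wt k i (by omega) a ha, map_zero, sub_zero] at h2

/-- elements of relative weight `2` are multiples of `h` modulo `𝔪²` -/
lemma exists_sub_mem_sq_of_wt_two (k : ℕ) (a : R) (ha : a ∈ wt 𝒜 P h k 2) :
    ∃ c : ℂ, a - c • h ∈ RingHom.ker x ^ 2 := by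
  refine ⟨x (P a e) / 2, ?_⟩
  set c := x (P a e) / 2 with hc
  have h1 : ∀ b, x (P (a - c • h) b) = 0 := fun b =>
    hC.forall_of_forall_wt (x.toLinearMap.comp (P (a - c • h))) (fun l j b hb => by
      simp only [LinearMap.comp_apply, map_sub, map_smul, LinearMap.sub_apply,
        LinearMap.smul_apply, AlgHom.toLinearMap_apply]
      rcases Nat.eq_zero_or_pos j with rfl | hj
      · rw [hC.eq_of_mem_wt_zero l b hb]
        simp only [map_smul, hC.x_P_pow, hC.h_e, hC.xe, smul_eq_mul, hc]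
        ring
      · rw [hC.x_P_eq_zero_of_wt k 2 l j (by omega) a b ha hb,
          hC.x_P_eq_zero_of_wt 1 2 l j (by omega) h b hC.h_mem_wt hb]
        simp) b
  have h2 := hX.nondegenerate x hC.not_isVertex _ h1
  rw [map_sub, map_smul, hC.x_h, hC.x_eq_zero_of_mem_wt k 2 (by omega) a ha] at h2
  simpa using h2

end IsPreCore

namespace IsCore

variable {hX : IsContactFano 𝒜 P} {e h f : R} {x : R →ₐ[ℂ] ℂ} (hC : IsCore hX e h f x)
include hC

omit hC in
lemma x_P_of_mem_sq (x : R →ₐ[ℂ] ℂ) (hX : IsContactFano 𝒜 P) (r z : R)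
    (hz : z ∈ RingHom.ker x ^ 2) : x (P r z) = 0 := by
  rw [sq] at hz
  refine Submodule.mul_induction_on hz ?_ ?_
  · intro a ha b hb
    rw [hX.leibniz, map_add, map_mul, map_mul, (RingHom.mem_ker).mp ha,
      (RingHom.mem_ker).mp hb]
    ring
  · intro a b ha hb
    rw [map_add, map_add, ha, hb, add_zero]

/-- the differentials of `𝔤` span the cotangent space at `x` -/
lemma sub_mem_sq_of_forall (r : R) (hr : ∀ u ∈ 𝒜 1, x (P u r) = 0) :
    r - algebraMap ℂ R (x r) ∈ RingHom.ker x ^ 2 := by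
  apply hX.nondegenerate x hC.not_isVertex
  have hr' : ∀ u ∈ 𝒜 1, x (P r u) = 0 := fun u hu => by
    rw [hX.skew, map_neg, hr u hu, neg_zero]
  intro b
  refine hC.forall_of_forall_wt (x.toLinearMap.comp (P r)) (fun k i b hb => ?_) b
  simp only [LinearMap.comp_apply, AlgHom.toLinearMap_apply]
  rcases Nat.eq_zero_or_pos k with rfl | hk
  · rw [IsPreCore.P_of_mem_zero_right hX r b hb.1, map_zero]
  rcases (by omega : i = 0 ∨ i = 1 ∨ i = 2 ∨ 3 ≤ i) with rfl | rfl | rfl | hi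
  · rw [hC.eq_of_mem_wt_zero k b hb]
    simp [hC.x_P_pow, hr' e hC.he]
  · obtain ⟨u, hu, rfl⟩ := hC.full k hk b hb.1 (by simpa using hb.2)
    rw [hX.leibniz, map_add, map_mul, map_mul, hC.x_P_pow, hr' e hC.he, hr' u hu]
    ring
  · obtain ⟨c, hc⟩ := hC.exists_sub_mem_sq_of_wt_two k b hb
    have h1 := x_P_of_mem_sq x hX r _ hc
    rw [map_sub, map_sub, map_smul, map_smul, hr' h hC.hh, smul_zero, sub_zero] at h1
    exact h1
  · exact x_P_of_mem_sq x hX r _ (hC.mem_sq_of_wt k i hi b hb)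

/-- the operator `Θ` which is the identity modulo `𝔪²` -/
lemma exists_theta : ∃ (n : ℕ) (u z : Fin n → R), (∀ i, u i ∈ 𝒜 1) ∧
    (∀ i, z i ∈ RingHom.ker x) ∧
    ∀ r, r - algebraMap ℂ R (x r) - ∑ i, x (P (u i) r) • z i ∈ RingHom.ker x ^ 2 := by
  classical
  let b := Module.finBasis ℂ (LieOne hX)
  -- the map `r ↦ (u ↦ x {u, r})`
  let T : R →ₗ[ℂ] (Fin (finrank ℂ (LieOne hX)) → ℂ) :=
    LinearMap.pi (fun i => x.toLinearMap.comp (P (LieOne.incl hX (b i))))
  have hT : ∀ r i, T r i = x (P (LieOne.incl hX (b i)) r) := fun r i => rfl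
  obtain ⟨σ₀, hσ₀⟩ := T.rangeRestrict.exists_rightInverse_of_surjective
    (LinearMap.range_rangeRestrict T)
  obtain ⟨π, hπ⟩ := Submodule.exists_isCompl (LinearMap.range T)
  let σ : (Fin (finrank ℂ (LieOne hX)) → ℂ) →ₗ[ℂ] R :=
    σ₀.comp (Submodule.projectionOnto _ _ hπ)
  have hσ : ∀ r, T (σ (T r)) = T r := by
    intro r
    have h1 : Submodule.projectionOnto _ _ hπ (T r) = T.rangeRestrict r :=
      Submodule.projectionOnto_apply_left hπ (T.rangeRestrict r)
    have h2 := LinearMap.congr_fun hσ₀ (T.rangeRestrict r)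
    have h3 := congrArg Subtype.val h2
    simpa [σ, h1] using h3
  refine ⟨_, fun i => LieOne.incl hX (b i),
    fun i => σ (Pi.single i 1) - algebraMap ℂ R (x (σ (Pi.single i 1))), fun i =>
      LieOne.incl_mem hX _, fun i => by simp [RingHom.mem_ker], ?_⟩
  intro r
  have hsum : ∑ i, x (P (LieOne.incl hX (b i)) r) •
      (σ (Pi.single i 1) - algebraMap ℂ R (x (σ (Pi.single i 1)))) =
      σ (T r) - algebraMap ℂ R (x (σ (T r))) := by
    have e1 : T r = ∑ i, T r i • Pi.single i (1 : ℂ) := by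
      conv_lhs => rw [← Finset.univ_sum_single (T r)]
      refine Finset.sum_congr rfl fun i _ => ?_
      rw [← Pi.single_smul']
      simp
    conv_rhs => rw [e1]
    simp only [map_sum, map_smul, hT]
    rw [← Finset.sum_sub_distrib]
    refine Finset.sum_congr rfl fun i _ => ?_
    rw [smul_sub, smul_eq_mul, map_mul, ← Algebra.smul_def]
  rw [hsum]
  set y := r - σ (T r) with hy
  have h1 : ∀ u ∈ 𝒜 1, x (P u y) = 0 := by
    intro u hu
    have hTy : T y = 0 := by rw [hy, map_sub, hσ, sub_self]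
    have h2 : ∀ u : LieOne hX, x (P (LieOne.incl hX u) y) = 0 := by
      intro u
      have e2 : (((LinearMap.flip P y).comp (LieOne.incl hX)) : LieOne hX →ₗ[ℂ] R) u =
        P (LieOne.incl hX u) y := rfl
      have e3 : (x.toLinearMap.comp ((LinearMap.flip P y).comp (LieOne.incl hX))) = 0 := by
        apply b.ext
        intro i
        have := congrFun hTy i
        simpa [hT] using this
      have := LinearMap.congr_fun e3 u
      simpa using this
    exact h2 (LieOne.mk hX hu)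
  have h2 := hC.sub_mem_sq_of_forall y h1
  have e4 : r - algebraMap ℂ R (x r) - (σ (T r) - algebraMap ℂ R (x (σ (T r)))) =
      y - algebraMap ℂ R (x y) := by
    rw [hy, map_sub, map_sub]; ring
  rw [e4]
  exact h2

/-- no nonzero element is killed by `x ∘ U(𝔤)` -/
theorem exists_iter_ne_zero (r : R) (hr : r ≠ 0) :
    ∃ us : List R, (∀ u ∈ us, u ∈ 𝒜 1) ∧ x (iter P us r) ≠ 0 := by
  by_contra hcon
  push Not at hcon
  have := hX.domain
  have := hX.finiteType
  obtain ⟨n, u, z, hu, hz, hθ⟩ := hC.exists_theta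
  set m : Ideal R := RingHom.ker x with hm
  -- `Θ`
  let Θ : R →ₗ[ℂ] R := ∑ i, (LinearMap.mulLeft ℂ (z i)).comp (P (u i))
  have hΘ : ∀ a, Θ a = ∑ i, z i * P (u i) a := fun a => by simp [Θ]
  have hΘmul : ∀ a b, Θ (a * b) = a * Θ b + b * Θ a := by
    intro a b
    simp only [hΘ, Finset.mul_sum, ← Finset.sum_add_distrib]
    refine Finset.sum_congr rfl fun i _ => ?_
    rw [hX.leibniz]; ring
  have hΘm : ∀ a, Θ a ∈ m := fun a => by
    rw [hΘ]
    exact Ideal.sum_mem _ fun i _ => Ideal.mul_mem_right _ _ (hz i)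
  have hΘ1 : ∀ a ∈ m, Θ a - a ∈ m ^ 2 := by
    intro a ha
    have h1 := hθ a
    have hxa : x a = 0 := ha
    rw [hxa, map_zero, sub_zero] at h1
    have h2 : Θ a - ∑ i, x (P (u i) a) • z i ∈ m ^ 2 := by
      rw [hΘ, ← Finset.sum_sub_distrib]
      refine Ideal.sum_mem _ fun i _ => ?_
      have e1 : z i * P (u i) a - x (P (u i) a) • z i =
          z i * (P (u i) a - algebraMap ℂ R (x (P (u i) a))) := by
        rw [Algebra.smul_def]; ring
      rw [e1, sq]
      exact Ideal.mul_mem_mul (hz i) (by simp [hm, RingHom.mem_ker])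
    have e2 : Θ a - a = (Θ a - ∑ i, x (P (u i) a) • z i) -
        (a - ∑ i, x (P (u i) a) • z i) := by ring
    rw [e2]
    exact sub_mem h2 h1
  have hΘN : ∀ N : ℕ, ∀ a ∈ m ^ N, Θ a - (N : R) * a ∈ m ^ (N + 1) := by
    intro N
    induction N with
    | zero => intro a _; simpa using hΘm a
    | succ N ih =>
      intro a ha
      rw [pow_succ] at ha
      refine Submodule.mul_induction_on ha ?_ ?_
      · intro y hy w hw
        have e1 : Θ (y * w) - ((N + 1 : ℕ) : R) * (y * w) =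
            y * (Θ w - w) + w * (Θ y - (N : R) * y) := by
          rw [hΘmul]; push_cast; ring
        rw [e1]
        refine add_mem ?_ ?_
        · have := Ideal.mul_mem_mul hy (hΘ1 w hw)
          rwa [← pow_add] at this
        · have := Ideal.mul_mem_mul hw (ih y hy)
          rwa [← pow_succ'] at this
      · intro a b ha hb
        have e1 : Θ (a + b) - ((N + 1 : ℕ) : R) * (a + b) =
            (Θ a - ((N + 1 : ℕ) : R) * a) + (Θ b - ((N + 1 : ℕ) : R) * b) := by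
          rw [map_add]; ring
        rw [e1]
        exact add_mem ha hb
  -- all iterated brackets lie in all powers of `m`
  have hJ : ∀ N : ℕ, ∀ r : R, (∀ us : List R, (∀ u ∈ us, u ∈ 𝒜 1) → x (iter P us r) = 0) →
      r ∈ m ^ N := by
    intro N
    induction N with
    | zero => intro r _; simp
    | succ N ih =>
      intro r hr
      rcases Nat.eq_zero_or_pos N with rfl | hN
      · have := hr [] (by simp)
        simpa [hm, RingHom.mem_ker] using this
      have h1 : r ∈ m ^ N := ih r hr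
      have h2 : Θ r ∈ m ^ (N + 1) := by
        rw [hΘ, pow_succ']
        refine Ideal.sum_mem _ fun i _ => Ideal.mul_mem_mul (hz i) (ih _ ?_)
        intro us hus
        have := hr (us ++ [u i]) (by
          intro v hv
          rcases List.mem_append.mp hv with hv | hv
          · exact hus v hv
          · simp at hv; rw [hv]; exact hu i)
        rwa [iter_append, iter_cons, iter_nil] at this
      have h3 := sub_mem h2 (hΘN N r h1)
      rw [sub_sub_cancel] at h3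
      have hNC : ((N : ℂ)) ≠ 0 := by exact_mod_cast hN.ne'
      have h4 := Ideal.mul_mem_left (m ^ (N + 1)) (algebraMap ℂ R ((N : ℂ)⁻¹)) h3
      have e5 : algebraMap ℂ R ((N : ℂ)⁻¹) * ((N : R) * r) = r := by
        rw [← mul_assoc, ← map_natCast (algebraMap ℂ R) N, ← map_mul, inv_mul_cancel₀ hNC, map_one,
          one_mul]
      rwa [e5] at h4
  have hnoeth : IsNoetherianRing R := Algebra.FiniteType.isNoetherianRing ℂ R
  have hinf := Ideal.iInf_pow_eq_bot_of_isDomain m (RingHom.ker_ne_top x)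
  have : r ∈ (⨅ i : ℕ, m ^ i : Ideal R) := by
    rw [Ideal.mem_iInf]
    exact fun N => hJ N r hcon
  rw [hinf] at this
  exact hr this

end IsCore

end Vale.Agent.P292
end

section

/-! Weyl's theorem (complete reducibility) for a simple complex Lie algebra. -/

namespace Vale.Agent.P292

open LieModule LinearMap

section casimir

variable {L : Type*} [LieRing L] [LieAlgebra ℂ L] {ι : Type*} [Fintype ι] [DecidableEq ι]

/-- Invariance of the canonical tensor of a nondegenerate invariant form. -/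
theorem casimir_invariance (B : LinearMap.BilinForm ℂ L) (hB : B.Nondegenerate)
    (hinv : ∀ x y z : L, B ⁅x, y⁆ z = - B y ⁅x, z⁆) (b : Module.Basis ι ℂ L)
    {W : Type*} [AddCommGroup W] [Module ℂ W] (F : L →ₗ[ℂ] L →ₗ[ℂ] W) (x : L) :
    ∑ i, (F ⁅x, b i⁆ (B.dualBasis hB b i) + F (b i) ⁅x, B.dualBasis hB b i⁆) = 0 := by
  have h1 : ∀ y, y = ∑ j, B (B.dualBasis hB b j) y • b j := by
    intro y
    conv_lhs => rw [← b.sum_repr y]
    refine Finset.sum_congr rfl fun j _ => ?_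
    congr 1
    conv_rhs => rw [← b.sum_repr y]
    simp only [map_sum, map_smul, LinearMap.BilinForm.apply_dualBasis_left, smul_eq_mul]
    simp
  have h2 : ∀ y, y = ∑ j, B y (b j) • B.dualBasis hB b j := by
    intro y
    conv_lhs => rw [← (B.dualBasis hB b).sum_repr y]
    refine Finset.sum_congr rfl fun j _ => ?_
    rw [LinearMap.BilinForm.dualBasis_repr_apply]
  rw [Finset.sum_add_distrib]
  have h3 : ∑ i, F ⁅x, b i⁆ (B.dualBasis hB b i) =
      ∑ i, ∑ j, B (B.dualBasis hB b j) ⁅x, b i⁆ • F (b j) (B.dualBasis hB b i) := by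
    refine Finset.sum_congr rfl fun i _ => ?_
    conv_lhs => rw [h1 ⁅x, b i⁆]
    simp [LinearMap.sum_apply]
  have h4 : ∑ i, F (b i) ⁅x, B.dualBasis hB b i⁆ =
      ∑ i, ∑ j, (- B (B.dualBasis hB b i) ⁅x, b j⁆) • F (b i) (B.dualBasis hB b j) := by
    refine Finset.sum_congr rfl fun i _ => ?_
    conv_lhs => rw [h2 ⁅x, B.dualBasis hB b i⁆]
    simp [hinv]
  rw [h3, h4, Finset.sum_comm]
  simp

end casimir

variable {L : Type*} [LieRing L] [LieAlgebra ℂ L] [FiniteDimensional ℂ L]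

/-- `H¹` for a module without proper submodules. -/
theorem exists_of_cocycle_of_irreducible [LieAlgebra.IsSimple ℂ L]
    (V : Type*) [AddCommGroup V] [Module ℂ V] [LieRingModule L V] [LieModule ℂ L V]
    [FiniteDimensional ℂ V]
    (hirr : ∀ N : LieSubmodule ℂ L V, N = ⊥ ∨ N = ⊤)
    (φ : L →ₗ[ℂ] V) (hφ : ∀ a b, φ ⁅a, b⁆ = ⁅a, φ b⁆ - ⁅b, φ a⁆) :
    ∃ v : V, ∀ a, φ a = ⁅a, v⁆ := by
  classical
  have hperf : ∀ I : LieIdeal ℂ L, (∀ a b : L, ⁅a, b⁆ ∈ I) → I = ⊤ := by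
    intro I hI
    rcases LieAlgebra.IsSimple.eq_bot_or_eq_top (R := ℂ) I with h | h
    · exfalso
      refine LieAlgebra.IsSimple.non_abelian (R := ℂ) (L := L) ⟨fun a b => ?_⟩
      have := hI a b
      rw [h] at this
      simpa using this
    · exact h
  by_cases htriv : LieModule.IsTrivial L V
  · refine ⟨0, fun a => ?_⟩
    rw [lie_zero]
    have h1 : ∀ a b : L, φ ⁅a, b⁆ = 0 := by
      intro a b
      rw [hφ, htriv.trivial a, htriv.trivial b, sub_zero]
    let K : LieIdeal ℂ L :=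
      { LinearMap.ker φ with
        lie_mem := fun {x m} _ => h1 x m }
    have hK := hperf K (fun a b => h1 a b)
    have : a ∈ K := by rw [hK]; trivial
    exact this
  · have hVn : Nontrivial V := by
      by_contra h
      rw [not_nontrivial_iff_subsingleton] at h
      exact htriv ⟨fun x m => Subsingleton.elim _ _⟩
    have hB0 : traceForm ℂ L V ≠ 0 := by
      intro h0
      have hnil := LieModule.isNilpotent_derivedSeries_of_traceForm_eq_zero h0
      have htop : LieAlgebra.derivedSeries ℂ L 1 = ⊤ := by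
        refine hperf _ fun a b => ?_
        rw [LieAlgebra.derivedSeries_def, LieAlgebra.derivedSeriesOfIdeal_succ,
          LieAlgebra.derivedSeriesOfIdeal_zero]
        exact LieSubmodule.lie_mem_lie (LieSubmodule.mem_top a) (LieSubmodule.mem_top b)
      have hnt := LieModule.nontrivial_max_triv_of_isNilpotent ℂ
        (LieAlgebra.derivedSeries ℂ L 1) V
      obtain ⟨⟨v, hv⟩, hv0⟩ := exists_ne (0 : maxTrivSubmodule ℂ (LieAlgebra.derivedSeries ℂ L 1) V)
      rcases hirr (maxTrivSubmodule ℂ L V) with h | h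
      · apply hv0
        have hv1 : v ∈ maxTrivSubmodule ℂ L V := by
          rw [mem_maxTrivSubmodule]
          intro x
          have hx : x ∈ LieAlgebra.derivedSeries ℂ L 1 := by rw [htop]; trivial
          exact hv ⟨x, hx⟩
        rw [h] at hv1
        apply Subtype.ext
        simpa using hv1
      · exact htriv ((isTrivial_iff_max_triv_eq_top ℂ L V).mpr h)
    have hB : (traceForm ℂ L V).Nondegenerate := by
      let K : LieIdeal ℂ L :=
        { LinearMap.ker (traceForm ℂ L V) with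
          lie_mem := fun {x m} hm => by
            change traceForm ℂ L V ⁅x, m⁆ = 0
            have hm' : traceForm ℂ L V m = 0 := hm
            ext z
            rw [traceForm_apply_lie_apply', hm']
            simp }
      have hK : K = ⊥ := by
        rcases LieAlgebra.IsSimple.eq_bot_or_eq_top (R := ℂ) K with h | h
        · exact h
        · exfalso
          apply hB0
          ext x y
          have : x ∈ K := by rw [h]; trivial
          have hx : traceForm ℂ L V x = 0 := this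
          rw [hx]
          rfl
      have hK0 : ∀ x : L, traceForm ℂ L V x = 0 → x = 0 := by
        intro x hx
        have : x ∈ K := hx
        rw [hK] at this
        simpa using this
      refine ⟨fun x hx => hK0 x (LinearMap.ext hx), fun x hx => hK0 x (LinearMap.ext fun y => ?_)⟩
      rw [traceForm_comm]
      exact hx y
    set B := traceForm ℂ L V with hBdef
    set b := Module.finBasis ℂ L with hb
    have hinv : ∀ x y z : L, B ⁅x, y⁆ z = - B y ⁅x, z⁆ := traceForm_apply_lie_apply' ℂ L V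
    let Ω : V →ₗ[ℂ] V := ∑ i, toEnd ℂ L V (b i) ∘ₗ toEnd ℂ L V (B.dualBasis hB b i)
    have hΩ : ∀ v, Ω v = ∑ i, ⁅b i, ⁅B.dualBasis hB b i, v⁆⁆ := by
      intro v
      simp [Ω, LinearMap.sum_apply]
    have hcomm : ∀ (x : L) (v : V), Ω ⁅x, v⁆ = ⁅x, Ω v⁆ := by
      intro x v
      have h := casimir_invariance B hB hinv b
        (LinearMap.mk₂ ℂ (fun a c : L => ⁅a, ⁅c, v⁆⁆) (by simp) (by simp) (by simp) (by simp)) x
      simp only [LinearMap.mk₂_apply] at h
      rw [hΩ, hΩ, lie_sum, eq_comm, ← sub_eq_zero, ← Finset.sum_sub_distrib, ← h]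
      refine Finset.sum_congr rfl fun i _ => ?_
      rw [lie_lie, lie_lie, lie_sub]
      abel
    have htr : LinearMap.trace ℂ V Ω = Fintype.card (Fin (Module.finrank ℂ L)) := by
      simp only [Ω, map_sum]
      have : ∀ i, LinearMap.trace ℂ V (toEnd ℂ L V (b i) ∘ₗ toEnd ℂ L V (B.dualBasis hB b i)) = 1 := by
        intro i
        rw [← traceForm_apply_apply, traceForm_comm, ← hBdef,
          LinearMap.BilinForm.apply_dualBasis_left, if_pos rfl]
      simp [this]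
    have hL : 0 < Module.finrank ℂ L := by
      rw [Module.finrank_pos_iff]
      by_contra h
      rw [not_nontrivial_iff_subsingleton] at h
      exact LieAlgebra.IsSimple.non_abelian (R := ℂ) (L := L) ⟨fun a b => Subsingleton.elim _ _⟩
    have hΩ0 : Ω ≠ 0 := by
      intro h
      rw [h, map_zero, Fintype.card_fin] at htr
      have : Module.finrank ℂ L = 0 := by exact_mod_cast htr.symm
      omega
    let K : LieSubmodule ℂ L V :=
      { LinearMap.ker Ω with
        lie_mem := fun {x m} hm => by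
          change Ω ⁅x, m⁆ = 0
          have hm' : Ω m = 0 := hm
          rw [hcomm, hm', lie_zero] }
    have hK : K = ⊥ := by
      rcases hirr K with h | h
      · exact h
      · exfalso
        apply hΩ0
        ext x
        have : x ∈ K := by rw [h]; trivial
        exact this
    have hinj : Function.Injective Ω := by
      rw [← LinearMap.ker_eq_bot, LinearMap.ker_eq_bot']
      intro m hm
      have : m ∈ K := hm
      rw [hK] at this
      simpa using this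
    have hsurj : Function.Surjective Ω := LinearMap.injective_iff_surjective.mp hinj
    -- the primitive
    have hφ2 : ∀ x : L, Ω (φ x) = ⁅x, ∑ i, ⁅b i, φ (B.dualBasis hB b i)⁆⁆ := by
      intro x
      have h := casimir_invariance B hB hinv b
        (LinearMap.mk₂ ℂ (fun a c : L => ⁅a, φ c⁆) (by simp) (by simp) (by simp) (by simp)) x
      simp only [LinearMap.mk₂_apply] at h
      rw [hΩ, lie_sum, eq_comm, ← sub_eq_zero, ← Finset.sum_sub_distrib, ← h]
      refine Finset.sum_congr rfl fun i _ => ?_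
      rw [hφ, lie_sub, lie_lie]
      abel
    obtain ⟨v, hv⟩ := hsurj (∑ i, ⁅b i, φ (B.dualBasis hB b i)⁆)
    refine ⟨v, fun a => hinj ?_⟩
    rw [hφ2, hcomm, hv]

/-- Whitehead's first lemma. -/
theorem exists_of_cocycle [LieAlgebra.IsSimple ℂ L] (n : ℕ) :
    ∀ (V : Type*) [AddCommGroup V] [Module ℂ V] [LieRingModule L V] [LieModule ℂ L V]
    [FiniteDimensional ℂ V], Module.finrank ℂ V = n →
    ∀ (φ : L →ₗ[ℂ] V), (∀ a b, φ ⁅a, b⁆ = ⁅a, φ b⁆ - ⁅b, φ a⁆) →
    ∃ v : V, ∀ a, φ a = ⁅a, v⁆ := by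
  induction n using Nat.strong_induction_on with
  | _ n ih =>
    intro V _ _ _ _ _ hn φ hφ
    by_cases hirr : ∀ N : LieSubmodule ℂ L V, N = ⊥ ∨ N = ⊤
    · exact exists_of_cocycle_of_irreducible V hirr φ hφ
    push Not at hirr
    obtain ⟨N, hN1, hN2⟩ := hirr
    have hsum : Module.finrank ℂ (V ⧸ (N : Submodule ℂ V)) + Module.finrank ℂ N = n := by
      rw [← hn]
      exact Submodule.finrank_quotient_add_finrank (N : Submodule ℂ V)
    have hs0 : 0 < Module.finrank ℂ N := by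
      have : (N : Submodule ℂ V) ≠ ⊥ := by
        intro h
        exact hN1 ((LieSubmodule.toSubmodule_eq_bot N).mp h)
      exact Module.finrank_pos_iff.mpr (Submodule.nontrivial_iff_ne_bot.mpr this)
    have hs : Module.finrank ℂ N < n := by
      rw [← hn]
      exact Submodule.finrank_lt fun h => hN2 ((LieSubmodule.toSubmodule_eq_top N).mp h)
    have : FiniteDimensional ℂ (V ⧸ N) :=
      inferInstanceAs (FiniteDimensional ℂ (V ⧸ (N : Submodule ℂ V)))
    have hq : Module.finrank ℂ (V ⧸ N) < n := by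
      change Module.finrank ℂ (V ⧸ (N : Submodule ℂ V)) < n
      omega
    obtain ⟨w, hw⟩ := ih _ hq (V ⧸ N) rfl ((LieSubmodule.Quotient.mk' N : V →ₗ[ℂ] V ⧸ N) ∘ₗ φ) (by
      intro a b
      simp only [LinearMap.comp_apply, hφ, map_sub]
      rfl)
    obtain ⟨w, rfl⟩ := LieSubmodule.Quotient.surjective_mk' N w
    have hmem : ∀ a, φ a - ⁅a, w⁆ ∈ N := by
      intro a
      rw [← LieSubmodule.Quotient.mk_eq_zero, map_sub, sub_eq_zero]
      exact hw a
    let ψ : L →ₗ[ℂ] N :=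
      { toFun := fun a => ⟨φ a - ⁅a, w⁆, hmem a⟩
        map_add' := fun a b => by
          apply Subtype.ext
          simp only [map_add, add_lie, LieSubmodule.coe_add]
          abel
        map_smul' := fun c a => by
          apply Subtype.ext
          simp only [map_smul, smul_lie, RingHom.id_apply, LieSubmodule.coe_smul, smul_sub] }
    obtain ⟨u, hu⟩ := ih _ hs N rfl ψ (by
      intro a b
      apply Subtype.ext
      simp only [ψ, LinearMap.coe_mk, AddHom.coe_mk, LieSubmodule.coe_sub, LieSubmodule.coe_bracket,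
        hφ, lie_lie, lie_sub]
      abel)
    refine ⟨w + u, fun a => ?_⟩
    have := congrArg (Subtype.val) (hu a)
    simp only [ψ, LinearMap.coe_mk, AddHom.coe_mk, LieSubmodule.coe_bracket] at this
    rw [lie_add, ← this]
    abel

/-- Weyl's theorem for a simple Lie algebra. -/
theorem exists_isCompl_lieSubmodule (L M : Type*) [LieRing L] [LieAlgebra ℂ L]
    [FiniteDimensional ℂ L] [LieAlgebra.IsSimple ℂ L]
    [AddCommGroup M] [Module ℂ M] [LieRingModule L M] [LieModule ℂ L M]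
    [FiniteDimensional ℂ M] (N : LieSubmodule ℂ L M) :
    ∃ N' : LieSubmodule ℂ L M, IsCompl N N' := by
  obtain ⟨π, hπ⟩ := LinearMap.exists_leftInverse_of_injective (N : Submodule ℂ M).subtype
    (Submodule.ker_subtype _)
  have hπ' : ∀ n : N, π (n : M) = n := fun n => LinearMap.congr_fun hπ n
  let π' : M →ₗ[ℂ] N := π
  let V : LieSubmodule ℂ L (M →ₗ[ℂ] N) :=
    { carrier := {ψ | ∀ n : N, ψ (n : M) = 0}
      add_mem' := fun {a b} ha hb n => by
        rw [LinearMap.add_apply, ha n, hb n, add_zero]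
      zero_mem' := fun n => rfl
      smul_mem' := fun c a ha n => by
        rw [LinearMap.smul_apply, ha n, smul_zero]
      lie_mem := fun {x ψ} hψ n => by
        rw [LieHom.lie_apply, hψ n, lie_zero]
        have : ⁅x, (n : M)⁆ = ((⁅x, n⁆ : N) : M) := rfl
        rw [this, hψ, sub_zero] }
  have hV : ∀ a : L, ⁅a, π'⁆ ∈ V := by
    intro a n
    rw [LieHom.lie_apply]
    have : ⁅a, (n : M)⁆ = ((⁅a, n⁆ : N) : M) := rfl
    rw [this]
    have h1 : π' (n : M) = n := hπ' n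
    have h2 : π' ((⁅a, n⁆ : N) : M) = ⁅a, n⁆ := hπ' ⁅a, n⁆
    rw [h1, h2, sub_self]
  let φ : L →ₗ[ℂ] V :=
    { toFun := fun a => ⟨⁅a, π'⁆, hV a⟩
      map_add' := fun a b => by apply Subtype.ext; simp
      map_smul' := fun c a => by apply Subtype.ext; simp }
  obtain ⟨ψ, hψ⟩ := exists_of_cocycle (L := L) _ V rfl φ (by
    intro a b
    apply Subtype.ext
    simp [φ])
  let ρ : M →ₗ[ℂ] N := π' - (ψ : M →ₗ[ℂ] N)
  have hρ : ∀ (a : L) (m : M), ρ ⁅a, m⁆ = ⁅a, ρ m⁆ := by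
    intro a m
    have h1 := congrArg (fun f : V => (f : M →ₗ[ℂ] N) m) (hψ a)
    simp only [φ, LinearMap.coe_mk, AddHom.coe_mk, LieSubmodule.coe_bracket, LieHom.lie_apply] at h1
    simp only [ρ, LinearMap.sub_apply, lie_sub]
    rw [sub_eq_sub_iff_add_eq_add] at h1 ⊢
    rw [h1]
    abel
  have hρN : ∀ n : N, ρ (n : M) = n := by
    intro n
    simp only [ρ, LinearMap.sub_apply]
    rw [ψ.2 n, sub_zero]
    exact hπ' n
  let N' : LieSubmodule ℂ L M :=
    { LinearMap.ker ρ with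
      lie_mem := fun {x m} hm => by
        change ρ ⁅x, m⁆ = 0
        have hm' : ρ m = 0 := hm
        rw [hρ, hm', lie_zero] }
  refine ⟨N', ?_⟩
  rw [isCompl_iff, disjoint_iff, codisjoint_iff]
  constructor
  · rw [LieSubmodule.eq_bot_iff]
    rintro m ⟨hm1, hm2⟩
    have h1 : ρ m = 0 := hm2
    have h2 := hρN ⟨m, hm1⟩
    rw [h1] at h2
    exact congrArg Subtype.val h2.symm
  · rw [eq_top_iff]
    intro m _
    rw [LieSubmodule.mem_sup]
    refine ⟨ρ m, (ρ m).2, m - ρ m, ?_, by abel⟩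
    change ρ (m - ρ m) = 0
    rw [map_sub, hρN, sub_self]

end Vale.Agent.P292
end

section

/-! `𝔤` is simple and `R` is generated by `𝔤`. -/

namespace Vale.Agent.P292

open Module LieModule

universe u

variable {R : Type u} [CommRing R] [Algebra ℂ R] {𝒜 : ℕ → Submodule ℂ R} [GradedAlgebra 𝒜]
  {P : R →ₗ[ℂ] R →ₗ[ℂ] R}

lemma pow_le_subalgebra {V : Submodule ℂ R} {S : Subalgebra ℂ R}
    (h : V ≤ Subalgebra.toSubmodule S) (k : ℕ) : V ^ k ≤ Subalgebra.toSubmodule S := by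
  induction k with
  | zero =>
    intro a ha
    rw [pow_zero, Submodule.mem_one] at ha
    obtain ⟨c, rfl⟩ := ha
    exact S.algebraMap_mem c
  | succ k ih =>
    rw [pow_succ]
    exact Submodule.mul_le.mpr fun a ha b hb => S.mul_mem (ih ha) (h hb)

namespace IsCore

variable {hX : IsContactFano 𝒜 P} {e h f : R} {x : R →ₐ[ℂ] ℂ} (hC : IsCore hX e h f x)
include hC

omit hC in
lemma pow_mem (k : ℕ) (a : R) (ha : a ∈ 𝒜 1) : a ^ k ∈ 𝒜 k := by
  simpa using SetLike.pow_mem_graded (A := 𝒜) k ha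

/-- a nonzero `𝔤`-submodule of `𝒜 k` contains `e ^ k` -/
theorem e_pow_mem (k : ℕ) (N : Submodule ℂ R) (hN : N ≤ 𝒜 k)
    (hst : ∀ u ∈ 𝒜 1, ∀ r ∈ N, P u r ∈ N) (hne : ∃ r ∈ N, r ≠ 0) : e ^ k ∈ N := by
  have := hX.domain
  obtain ⟨r, hr, hr0⟩ := hne
  obtain ⟨us, hus, hx⟩ := hC.exists_iter_ne_zero r hr0
  have hiter : ∀ us : List R, (∀ u ∈ us, u ∈ 𝒜 1) → iter P us r ∈ N := by
    intro us
    induction us with
    | nil => intro _; exact hr
    | cons u us ih =>
      intro hus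
      rw [iter_cons]
      exact hst u (hus u (by simp)) _ (ih fun v hv => hus v (by simp [hv]))
  have hitN : ∀ (w : R), w ∈ 𝒜 1 → ∀ n : ℕ, ∀ r ∈ N, (⇑(hX.ham w))^[n] r ∈ N := by
    intro w hw n
    induction n with
    | zero => intro r hr; exact hr
    | succ n ih =>
      intro r hr
      rw [Function.iterate_succ_apply']
      exact hst w hw _ (ih r hr)
  set r' := iter P us r with hr'
  have hr'N : r' ∈ N := hiter us hus
  have h1 := hitN f hC.hf (2 * k) r' hr'N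
  rw [hC.flow k r' (hN hr'N)] at h1
  have hc : (((2 * k).factorial : ℂ) * x r') ≠ 0 :=
    mul_ne_zero (by exact_mod_cast Nat.factorial_ne_zero _) hx
  have h2 : (-f) ^ k ∈ N := by
    have := N.smul_mem (((2 * k).factorial : ℂ) * x r')⁻¹ h1
    rwa [smul_smul, inv_mul_cancel₀ hc, one_smul] at this
  have h3 : f ^ k ∈ N := by
    have : f ^ k = ((-1 : ℂ) ^ k) • (-f) ^ k := by
      rw [Algebra.smul_def, map_pow, map_neg, map_one, ← mul_pow]
      ring
    rw [this]
    exact N.smul_mem _ h2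
  -- raise `f ^ k` to the top
  have hfk : f ^ k ∈ 𝒜 k := pow_mem k f hC.hf
  have hprim : IsSl2Triple.HasPrimitiveVectorWith hC.isSl2Triple.symm
      (Piece.mk hX hfk) ((2 * k : ℕ) : ℂ) :=
    { ne_zero := fun h0 => by
        have := congrArg (Piece.incl hX k) h0
        exact pow_ne_zero k hC.f_ne_zero (by simpa using this)
      lie_h := by
        apply Piece.incl_injective hX k
        rw [neg_lie, map_neg, Piece.incl_lie, map_smul, LieOne.incl_mk, Piece.incl_mk]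
        rcases k with _ | k
        · simp [hX.P_one_right]
        · rw [hX.P_pow_right, hC.h_f, Nat.add_sub_cancel]
          simp only [Algebra.smul_def, map_mul, map_natCast, map_ofNat, Nat.cast_add,
            Nat.cast_one, pow_succ, map_add, map_one, Nat.cast_mul, Nat.cast_ofNat]
          ring
      lie_e := by
        apply Piece.incl_injective hX k
        rw [Piece.incl_lie, LieOne.incl_mk, Piece.incl_mk, hX.P_pow_right, hX.alternating,
          mul_zero, map_zero] }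
  have hne' := hprim.pow_toEnd_f_ne_zero_of_eq_nat rfl (le_refl (2 * k))
  set v := ((toEnd ℂ (LieOne hX) (Piece hX k) (LieOne.mk hX hC.he)) ^ (2 * k))
    (Piece.mk hX hfk) with hv
  have hvN : Piece.incl hX k v ∈ N := by
    rw [hv, incl_toEnd_pow]
    exact hitN e hC.he (2 * k) _ h3
  have hvwt : Piece.incl hX k v ∈ wt 𝒜 P h k 0 := by
    refine ⟨Piece.incl_mem hX k v, mem_maxGen_of_eq_smul _ _ _ ?_⟩
    have h4 := hprim.lie_h_pow_toEnd_f (2 * k)
    have h5 := congrArg (Piece.incl hX k) h4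
    rw [neg_lie, map_neg, Piece.incl_lie, map_smul, LieOne.incl_mk, ← hv] at h5
    have h6 : P h (Piece.incl hX k v) = -((((2 * k : ℕ) : ℂ) - 2 * ((2 * k : ℕ) : ℂ)) •
        (Piece.incl hX k v)) := by rw [← h5, neg_neg]
    rw [h6, ← neg_smul]
    congr 1
    push_cast
    ring
  have h7 := hC.eq_of_mem_wt_zero k _ hvwt
  have h8 : x (Piece.incl hX k v) ≠ 0 := by
    intro h0
    rw [h0, zero_smul] at h7
    exact hne' (Piece.incl_injective hX k (by rw [h7, map_zero]))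
  have h9 := N.smul_mem (x (Piece.incl hX k v))⁻¹ hvN
  rw [h7, smul_smul] at h9
  have h10 : x (x (Piece.incl hX k v) • e ^ k) = x (Piece.incl hX k v) := by
    simp [hC.xe]
  rw [h10, inv_mul_cancel₀ h8, one_smul] at h9
  exact h9

/-- a nonzero ideal of `𝔤` contains `e` -/
lemma e_mem_of_ideal (I : LieIdeal ℂ (LieOne hX)) (hI : I ≠ ⊥) :
    LieOne.mk hX hC.he ∈ I := by
  have h1 : ∃ y ∈ I, y ≠ 0 := by
    by_contra hcon
    push Not at hcon
    exact hI ((LieSubmodule.eq_bot_iff I).mpr hcon)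
  obtain ⟨y, hy, hy0⟩ := h1
  have := hC.e_pow_mem 1 ((I : Submodule ℂ (LieOne hX)).map (LieOne.incl hX)) (by
      rintro _ ⟨z, -, rfl⟩; exact LieOne.incl_mem hX z) (by
      rintro u hu _ ⟨z, hz, rfl⟩
      refine ⟨⁅LieOne.mk hX hu, z⁆, I.lie_mem hz, ?_⟩
      simp) ⟨LieOne.incl hX y, ⟨y, hy, rfl⟩, fun h0 => hy0 (LieOne.incl_injective hX
        (by rw [h0, map_zero]))⟩
  obtain ⟨z, hz, hze⟩ := this
  rw [pow_one] at hze
  have : z = LieOne.mk hX hC.he := LieOne.incl_injective hX (by rw [hze, LieOne.incl_mk])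
  rw [← this]
  exact hz

theorem hasTrivialRadical : LieAlgebra.HasTrivialRadical ℂ (LieOne hX) := by
  rw [LieAlgebra.hasTrivialRadical_iff_no_abelian_ideals]
  intro I hI
  by_contra hne
  have he := hC.e_mem_of_ideal I hne
  have hh : LieOne.mk hX hC.hh ∈ I := by
    rw [← hC.isSl2Triple.lie_e_f, ← lie_skew]
    exact neg_mem (I.lie_mem he)
  have h1 : (⁅(⟨_, hh⟩ : I), (⟨_, he⟩ : I)⁆ : I) = 0 := trivial_lie_zero _ _ _ _
  have h2 : ⁅LieOne.mk hX hC.hh, LieOne.mk hX hC.he⁆ = 0 := congrArg Subtype.val h1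
  rw [hC.isSl2Triple.lie_h_e_nsmul] at h2
  have h3 : LieOne.mk hX hC.he = 0 := by
    have : (2 : ℂ) • LieOne.mk hX hC.he = 0 := by rw [ofNat_smul_eq_nsmul]; exact h2
    exact (smul_eq_zero.mp this).resolve_left two_ne_zero
  exact hC.isSl2Triple.e_ne_zero h3

theorem isSimple : LieAlgebra.IsSimple ℂ (LieOne hX) := by
  have h1 := hC.hasTrivialRadical
  have h2 : LieAlgebra.IsKilling ℂ (LieOne hX) := inferInstance
  have h3 : LieAlgebra.IsSemisimple ℂ (LieOne hX) := inferInstance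
  refine { eq_bot_or_eq_top := fun I => ?_, non_abelian := fun hab => ?_ }
  · by_contra hcon
    push Not at hcon
    obtain ⟨hbot, htop⟩ := hcon
    have hcompl : IsCompl I Iᶜ := isCompl_compl
    have hIc : Iᶜ ≠ ⊥ := fun h0 => htop (by simpa using h0)
    have h4 : LieOne.mk hX hC.he ∈ I ⊓ Iᶜ :=
      ⟨hC.e_mem_of_ideal I hbot, hC.e_mem_of_ideal Iᶜ hIc⟩
    rw [hcompl.inf_eq_bot] at h4
    exact hC.isSl2Triple.e_ne_zero h4
  · have := hC.isSl2Triple.lie_e_f
    rw [trivial_lie_zero] at this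
    exact hC.isSl2Triple.h_ne_zero this.symm

omit hC in
lemma P_mem_pow (hX : IsContactFano 𝒜 P) (k : ℕ) (u : R) (hu : u ∈ 𝒜 1) (r : R)
    (hr : r ∈ (𝒜 1) ^ k) : P u r ∈ (𝒜 1) ^ k := by
  induction k generalizing r with
  | zero =>
    rw [pow_zero, Submodule.mem_one] at hr
    obtain ⟨c, rfl⟩ := hr
    rw [hX.P_algebraMap_right]; exact zero_mem _
  | succ k ih =>
    rw [pow_succ] at hr ⊢
    refine Submodule.mul_induction_on hr ?_ ?_
    · intro a ha b hb
      rw [hX.leibniz]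
      exact add_mem (Submodule.mul_mem_mul (ih a ha) hb)
        (Submodule.mul_mem_mul ha (hX.mem_of_mem_one hu hb))
    · intro a b ha hb
      rw [map_add]; exact add_mem ha hb

omit hC in
lemma pow_le (k : ℕ) : (𝒜 1) ^ k ≤ 𝒜 k := by
  induction k with
  | zero =>
    rw [pow_zero]
    intro r hr
    rw [Submodule.mem_one] at hr
    obtain ⟨c, rfl⟩ := hr
    exact SetLike.algebraMap_mem_graded 𝒜 c
  | succ k ih =>
    rw [pow_succ]
    exact Submodule.mul_le.mpr fun a ha b hb => SetLike.mul_mem_graded (ih ha) hb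

theorem pow_eq (k : ℕ) : (𝒜 1) ^ k = 𝒜 k := by
  refine le_antisymm (pow_le k) ?_
  have := hC.isSimple
  let N : LieSubmodule ℂ (LieOne hX) (Piece hX k) :=
    { ((𝒜 1) ^ k).comap (Piece.incl hX k) with
      lie_mem := fun {u m} hm => by
        change Piece.incl hX k ⁅u, m⁆ ∈ (𝒜 1) ^ k
        rw [Piece.incl_lie]
        exact P_mem_pow hX k _ (LieOne.incl_mem hX u) _ hm }
  have hNmem : ∀ m, m ∈ N ↔ Piece.incl hX k m ∈ (𝒜 1) ^ k := fun m => Iff.rfl
  obtain ⟨N', hN'⟩ := exists_isCompl_lieSubmodule (LieOne hX) (Piece hX k) N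
  have hek : e ^ k ∈ (𝒜 1) ^ k := Submodule.pow_mem_pow _ hC.he k
  have hN'bot : N' = ⊥ := by
    by_contra hne
    have h1 : ∃ y ∈ N', y ≠ 0 := by
      by_contra hcon
      push Not at hcon
      exact hne ((LieSubmodule.eq_bot_iff N').mpr hcon)
    obtain ⟨y, hy, hy0⟩ := h1
    have := hC.e_pow_mem k ((N' : Submodule ℂ (Piece hX k)).map (Piece.incl hX k)) (by
      rintro _ ⟨z, -, rfl⟩; exact Piece.incl_mem hX k z) (by
      rintro u hu _ ⟨z, hz, rfl⟩
      refine ⟨⁅LieOne.mk hX hu, z⁆, N'.lie_mem hz, ?_⟩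
      simp) ⟨Piece.incl hX k y, ⟨y, hy, rfl⟩, fun h0 => hy0 (Piece.incl_injective hX k
        (by rw [h0, map_zero]))⟩
    obtain ⟨z, hz, hze⟩ := this
    have hzN : z ∈ N := by rw [hNmem, hze]; exact hek
    have hz0 : z ∈ N ⊓ N' := ⟨hzN, hz⟩
    rw [hN'.inf_eq_bot] at hz0
    have hz1 : z = 0 := hz0
    rw [hz1, map_zero] at hze
    have := hX.domain
    exact pow_ne_zero k hC.e_ne_zero hze.symm
  have hNtop : N = ⊤ := by
    have := hN'.sup_eq_top
    rwa [hN'bot, sup_bot_eq] at this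
  intro r hr
  have : Piece.mk hX hr ∈ N := by rw [hNtop]; trivial
  exact (hNmem _).mp this

/-- `R` is generated by `H⁰(X, L)`. -/
theorem adjoin_eq_top : Algebra.adjoin ℂ (𝒜 1 : Set R) = ⊤ := by
  classical
  rw [eq_top_iff]
  intro r _
  rw [← DirectSum.sum_support_decompose 𝒜 r]
  refine sum_mem fun k _ => ?_
  have h1 : ((DirectSum.decompose 𝒜 r k : R)) ∈ (𝒜 1) ^ k := by
    rw [hC.pow_eq k]; exact SetLike.coe_mem _
  have h2 : (𝒜 1) ^ k ≤ Subalgebra.toSubmodule (Algebra.adjoin ℂ (𝒜 1 : Set R)) :=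
    pow_le_subalgebra (fun a ha => Algebra.subset_adjoin ha) k
  exact h2 h1

end IsCore

end Vale.Agent.P292
end

section

/-! One-parameter groups of contact automorphisms. -/

namespace Vale.Agent.P292

universe u

variable {R : Type u} [CommRing R] [Algebra ℂ R]

/-- The nonzero contact vector field `H ∈ H⁰(X, L)` generates an algebraic action of `ℂ^*`:
it acts on every `H⁰(X, L ^ k)` diagonalisably and with integral eigenvalues. -/
structure IsContactTorus (𝒜 : ℕ → Submodule ℂ R) (P : R →ₗ[ℂ] R →ₗ[ℂ] R) (H : R) : Prop where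
  mem : H ∈ 𝒜 1
  ne_zero : H ≠ 0
  weights : ∀ k, 𝒜 k ≤ ⨆ m : ℤ, 𝒜 k ⊓ Module.End.eigenspace (P H) (m : ℂ)

/-- The point of `X` given by `p` is fixed by the action generated by `H`, which acts on the
fibre of `L` at this point with weight `a`. -/
def HasSlope (𝒜 : ℕ → Submodule ℂ R) (P : R →ₗ[ℂ] R →ₗ[ℂ] R) (H : R) (p : R →ₐ[ℂ] ℂ) (a : ℤ) :
    Prop :=
  ¬ IsVertex 𝒜 p ∧ ∀ k : ℕ, ∀ r ∈ 𝒜 k, p (P H r) = ((a * k : ℤ) : ℂ) * p r

/-- The point of `X` given by `p` is a fixed point of maximal weight: it lies in the source of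
the action. -/
def IsSource (𝒜 : ℕ → Submodule ℂ R) (P : R →ₗ[ℂ] R →ₗ[ℂ] R) (H : R) (p : R →ₐ[ℂ] ℂ) : Prop :=
  ∃ a : ℤ, HasSlope 𝒜 P H p a ∧ ∀ q b, HasSlope 𝒜 P H q b → b ≤ a

end Vale.Agent.P292
end

section

/-! Weight spaces; isolated sources. -/

namespace Vale.Agent.P292

universe u

variable {R : Type u} [CommRing R] [Algebra ℂ R]

/-- The elements of `H⁰(X, L ^ k)` of weight `m` for the contact vector field `H`. -/
def Wt (𝒜 : ℕ → Submodule ℂ R) (P : R →ₗ[ℂ] R →ₗ[ℂ] R) (H : R) (k : ℕ) (m : ℤ) :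
    Submodule ℂ R :=
  𝒜 k ⊓ Module.End.eigenspace (P H) (m : ℂ)

/-- The source of the action is a single point of `X`. -/
def HasIsolatedSource (𝒜 : ℕ → Submodule ℂ R) (P : R →ₗ[ℂ] R →ₗ[ℂ] R) (H : R) : Prop :=
  ∀ p q, IsSource 𝒜 P H p → IsSource 𝒜 P H q → ∃ c : ℂ, ∀ k, ∀ r ∈ 𝒜 k, q r = c ^ k * p r

/-- No base point of `|L|` lies in the source of the action. -/
def IsSourceFree (𝒜 : ℕ → Submodule ℂ R) (P : R →ₗ[ℂ] R →ₗ[ℂ] R) (H : R) : Prop :=
  ∀ p, IsSource 𝒜 P H p → ∃ s ∈ 𝒜 1, p s ≠ 0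

end Vale.Agent.P292
end

section

/-! The grading by relative weight and the uniqueness of the point `x`. -/

namespace Vale.Agent.P292

open Module Polynomial

universe u

variable {R : Type u} [CommRing R] [Algebra ℂ R] {𝒜 : ℕ → Submodule ℂ R} [GradedAlgebra 𝒜]
  {P : R →ₗ[ℂ] R →ₗ[ℂ] R}

variable (𝒜) in
/-- the Euler derivation -/
noncomputable def euler : R →ₗ[ℂ] R :=
  (DirectSum.toModule ℂ ℕ R (fun k => (k : ℂ) • (𝒜 k).subtype)) ∘ₗ
    (DirectSum.decomposeLinearEquiv 𝒜).toLinearMap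

lemma euler_apply (k : ℕ) (r : R) (hr : r ∈ 𝒜 k) : euler 𝒜 r = (k : ℂ) • r := by
  change DirectSum.toModule ℂ ℕ R (fun k => (k : ℂ) • (𝒜 k).subtype)
    (DirectSum.decompose 𝒜 r) = _
  rw [DirectSum.decompose_of_mem 𝒜 hr]
  change DirectSum.toModule ℂ ℕ R (fun k => (k : ℂ) • (𝒜 k).subtype)
    (DirectSum.lof ℂ ℕ (fun k => 𝒜 k) k ⟨r, hr⟩) = _
  rw [DirectSum.toModule_lof]
  rfl

lemma euler_mul (a b : R) : euler 𝒜 (a * b) = euler 𝒜 a * b + a * euler 𝒜 b := by
  refine forall_of_homogeneous' (𝒜 := 𝒜) (euler 𝒜 ∘ₗ LinearMap.mulRight ℂ b)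
    (LinearMap.mulRight ℂ b ∘ₗ euler 𝒜 + LinearMap.mulRight ℂ (euler 𝒜 b)) (fun k r hr => ?_) a
  refine forall_of_homogeneous' (𝒜 := 𝒜) (euler 𝒜 ∘ₗ LinearMap.mulLeft ℂ r)
    (LinearMap.mulLeft ℂ (euler 𝒜 r) + LinearMap.mulLeft ℂ r ∘ₗ euler 𝒜) (fun l s hs => ?_) b
  simp only [LinearMap.comp_apply, LinearMap.mulLeft_apply, LinearMap.add_apply]
  rw [euler_apply (k + l) (r * s) (SetLike.mul_mem_graded hr hs), euler_apply k r hr,
    euler_apply l s hs]
  simp only [Algebra.smul_def, Nat.cast_add, map_add, map_natCast]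
  ring

variable (𝒜) in
/-- the relative weight operator -/
noncomputable def relWeight (P : R →ₗ[ℂ] R →ₗ[ℂ] R) (h : R) : R →ₗ[ℂ] R :=
  (2 : ℂ) • euler 𝒜 - P h

lemma relWeight_mul (hX : IsContactFano 𝒜 P) (h a b : R) :
    relWeight 𝒜 P h (a * b) = relWeight 𝒜 P h a * b + a * relWeight 𝒜 P h b := by
  simp only [relWeight, LinearMap.sub_apply, LinearMap.smul_apply, euler_mul, hX.leibniz]
  rw [Algebra.smul_def, Algebra.smul_def, Algebra.smul_def]
  ring

lemma mem_maxGen_relWeight (hX : IsContactFano 𝒜 P) {h : R} (hh : h ∈ 𝒜 1) (k i : ℕ) (r : R)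
    (hr : r ∈ wt 𝒜 P h k i) :
    r ∈ Module.End.maxGenEigenspace (relWeight 𝒜 P h) (i : ℂ) := by
  obtain ⟨hA, hG⟩ := hr
  rw [SetLike.mem_coe, mem_maxGen_iff] at hG
  obtain ⟨n, hn⟩ := hG
  rw [mem_maxGen_iff]
  refine ⟨n, ?_⟩
  set μ : ℂ := 2 * (k : ℂ) - i with hμ
  have key : ∀ n : ℕ, ((P h - μ • (1 : End ℂ R)) ^ n) r ∈ 𝒜 k ∧
      ((relWeight 𝒜 P h - (i : ℂ) • (1 : End ℂ R)) ^ n) r =
      ((-1 : ℂ) ^ n) • ((P h - μ • (1 : End ℂ R)) ^ n) r := by
    intro n
    induction n with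
    | zero => exact ⟨hA, by simp⟩
    | succ n ih =>
      obtain ⟨ih1, ih2⟩ := ih
      rw [pow_succ', Module.End.mul_apply, pow_succ', Module.End.mul_apply, ih2]
      set v := ((P h - μ • (1 : End ℂ R)) ^ n) r with hv
      refine ⟨?_, ?_⟩
      · simpa using sub_mem (hX.mem_of_mem_one hh ih1) ((𝒜 k).smul_mem _ ih1)
      · rw [map_smul]
        have : (relWeight 𝒜 P h - (i : ℂ) • (1 : End ℂ R)) v =
            (-1 : ℂ) • (P h - μ • (1 : End ℂ R)) v := by
          simp only [relWeight, LinearMap.sub_apply, LinearMap.smul_apply, Module.End.one_apply,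
            euler_apply k v ih1, hμ]
          module
        rw [this, smul_smul, pow_succ]
  rw [(key n).2, hn, smul_zero]

namespace IsPreCore

variable {hX : IsContactFano 𝒜 P} {e h f : R} {x : R →ₐ[ℂ] ℂ} (hC : IsPreCore hX e h f x)
include hC

/-- the orbit of a point under the one-parameter group of relative weights -/
theorem exists_weight_hom (p : R →ₐ[ℂ] ℂ) : ∃ c : R →ₐ[ℂ] ℂ[X],
    ∀ k i, ∀ r ∈ wt 𝒜 P h k i, c r = monomial i (p r) := by
  classical
  set Δ : End ℂ R := relWeight 𝒜 P h with hΔ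
  let B : ℕ → Submodule ℂ R := fun i => Δ.maxGenEigenspace (i : ℂ)
  have hmul : ∀ (i j : ℕ) (a b : R), a ∈ B i → b ∈ B j → a * b ∈ B (i + j) := by
    intro i j a b ha hb
    have := mem_maxGen_add Δ (LinearMap.mul ℂ R)
      (fun a b => by simp [hΔ, relWeight_mul hX]) _ _ a b ha hb
    simpa [B] using this
  have hone : (1 : R) ∈ B 0 := by
    apply mem_maxGen_of_eq_smul
    have h1 : euler 𝒜 (1 : R) = 0 := by
      rw [euler_apply 0 1 SetLike.GradedOne.one_mem]; simp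
    simp [hΔ, relWeight, h1, hX.P_one_right]
  have hindep : iSupIndep B :=
    (Module.End.independent_maxGenEigenspace Δ).comp Nat.cast_injective
  have htop : ⨆ i, B i = ⊤ := by
    rw [eq_top_iff]
    intro r _
    rw [← DirectSum.sum_support_decompose 𝒜 r]
    refine sum_mem fun k _ => ?_
    refine (iSup_le fun i b hb => ?_ : (⨆ i, wt 𝒜 P h k i) ≤ _)
      (hC.piece_le_iSup_wt k (DirectSum.decompose 𝒜 r k).2)
    exact Submodule.mem_iSup_of_mem i (mem_maxGen_relWeight hX hC.hh k i b hb)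
  have hint := DirectSum.isInternal_submodule_of_iSupIndep_of_iSup_eq_top hindep htop
  let inst : GradedAlgebra B :=
    { one_mem := hone
      mul_mem := fun i j a b ha hb => hmul i j a b ha hb
      toDecomposition := hint.chooseDecomposition }
  let F : ∀ i, (B i) →ₗ[ℂ] ℂ[X] := fun i =>
    (monomial i) ∘ₗ p.toLinearMap ∘ₗ (B i).subtype
  have hF : ∀ i (r : B i), F i r = monomial i (p (r : R)) := fun i r => rfl
  let c₀ : (DirectSum ℕ fun k => B k) →ₐ[ℂ] ℂ[X] := DirectSum.toAlgebra ℂ (fun k => B k) F (by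
      change monomial 0 (p (1 : R)) = 1
      rw [map_one]; rfl) (by
      intro i j a b
      change monomial (i + j) (p ((a : R) * (b : R))) = _
      rw [hF, hF, monomial_mul_monomial, map_mul])
  refine ⟨c₀.comp (DirectSum.decomposeAlgEquiv B).toAlgHom, fun k i r hr => ?_⟩
  have hr' : r ∈ B i := mem_maxGen_relWeight hX hC.hh k i r hr
  have e2 : (DirectSum.decomposeAlgEquiv B) r = DirectSum.of (fun k => B k) i ⟨r, hr'⟩ := by
    rw [DirectSum.decomposeAlgEquiv_apply, DirectSum.decompose_of_mem B hr']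
  change c₀ ((DirectSum.decomposeAlgEquiv B) r) = _
  rw [e2]
  change DirectSum.toModule ℂ ℕ ℂ[X] F (DirectSum.lof ℂ ℕ (fun k => B k) i ⟨r, hr'⟩) = _
  rw [DirectSum.toModule_lof]
  rfl

end IsPreCore

namespace IsCore

variable {hX : IsContactFano 𝒜 P} {e h f : R} {x : R →ₐ[ℂ] ℂ} (hC : IsCore hX e h f x)
include hC

/-- A point with the same extremal coordinates as `x` is `x`. -/
theorem eq_of_normalized (p : R →ₐ[ℂ] ℂ) (he : p e = 1) (hh : p h = 0)
    (h1 : ∀ u ∈ wt 𝒜 P h 1 1, p u = 0) : p = x := by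
  obtain ⟨c, hc⟩ := hC.exists_weight_hom p
  have key : ∀ i : ℕ, 0 < i → ∀ k, ∀ r ∈ wt 𝒜 P h k i, p r = 0 := by
    intro i
    induction i using Nat.strong_induction_on with
    | _ i ih =>
      intro hi k r hr
      -- the coefficients of `c`
      have hcoeff0 : ∀ s, (c s).coeff 0 = x s := by
        intro s
        have := hC.forall_of_forall_wt (lcoeff ℂ 0 ∘ₗ c.toLinearMap - x.toLinearMap)
          (fun k j b hb => by
            simp only [LinearMap.sub_apply, LinearMap.comp_apply, AlgHom.toLinearMap_apply,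
              lcoeff_apply, hc k j b hb, coeff_monomial]
            rcases Nat.eq_zero_or_pos j with rfl | hj
            · rw [if_pos rfl, hC.eq_of_mem_wt_zero k b hb]
              simp [he, hC.xe]
            · rw [if_neg hj.ne', hC.x_eq_zero_of_mem_wt k j hj b hb, sub_zero]) s
        simpa [sub_eq_zero] using this
      have hcoeff : ∀ j, 0 < j → j < i → ∀ s, (c s).coeff j = 0 := by
        intro j hj hji s
        have := hC.forall_of_forall_wt (lcoeff ℂ j ∘ₗ c.toLinearMap)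
          (fun k l b hb => by
            simp only [LinearMap.comp_apply, AlgHom.toLinearMap_apply,
              lcoeff_apply, hc k l b hb, coeff_monomial]
            split_ifs with hlj
            · subst hlj
              exact ih l hji hj k b hb
            · rfl) s
        simpa using this
      have hdvd : ∀ m ∈ RingHom.ker x, X ^ i ∣ c m := by
        intro m hm
        rw [X_pow_dvd_iff]
        intro d hd
        rcases Nat.eq_zero_or_pos d with rfl | hd0
        · rw [hcoeff0]; exact hm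
        · exact hcoeff d hd0 hd m
      have hdvd2 : ∀ m ∈ RingHom.ker x ^ 2, X ^ (i + i) ∣ c m := by
        intro m hm
        rw [sq] at hm
        refine Submodule.mul_induction_on hm ?_ ?_
        · intro a ha b hb
          rw [map_mul, pow_add]
          exact mul_dvd_mul (hdvd a ha) (hdvd b hb)
        · intro a b ha hb
          rw [map_add]; exact dvd_add ha hb
      have hfin : ∀ m, m ∈ RingHom.ker x ^ 2 → ∀ a : ℂ, c m = monomial i a → a = 0 := by
        intro m hm a ha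
        have := hdvd2 m hm
        rw [ha, X_pow_dvd_iff] at this
        simpa using this i (by omega)
      rcases (by omega : i = 1 ∨ i = 2 ∨ 3 ≤ i) with rfl | rfl | hi3
      · rcases Nat.eq_zero_or_pos k with rfl | hk
        · have h0 := hC.x_eq_zero_of_mem_wt 0 1 one_pos r hr
          obtain ⟨a, rfl⟩ := hX.connected r hr.1
          rw [AlgHom.commutes] at h0 ⊢
          exact h0
        · obtain ⟨u, hu, hru⟩ := hC.full k hk r hr.1 (by simpa using hr.2)
          have hce : c e = 1 := by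
            have : e ∈ wt 𝒜 P h 1 0 :=
              ⟨hC.he, mem_maxGen_of_eq_smul _ _ _ (by rw [hC.h_e]; norm_num)⟩
            rw [hc 1 0 e this, he]; rfl
          have h2 := hc k 1 r hr
          rw [hru, map_mul, map_pow, hce, one_pow, one_mul, ← hru] at h2
          have h3 : (c u).coeff 1 = 0 := by
            have := hC.forall_of_wt (lcoeff ℂ 1 ∘ₗ c.toLinearMap) 1 (fun j b hb => by
              simp only [LinearMap.comp_apply, AlgHom.toLinearMap_apply,
                lcoeff_apply, hc 1 j b hb, coeff_monomial]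
              split_ifs with hj
              · subst hj
                exact h1 b hb
              · rfl) u hu
            simpa using this
          rw [h2] at h3
          simpa using h3
      · obtain ⟨a, ha⟩ := hC.exists_sub_mem_sq_of_wt_two k r hr
        refine hfin _ ha (p r) ?_
        rw [map_sub, map_smul, hc k 2 r hr, hc 1 2 h hC.h_mem_wt, hh]
        simp
      · exact hfin _ (hC.mem_sq_of_wt k i hi3 r hr) (p r) (hc k i r hr)
  apply AlgHom.ext
  intro s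
  have := hC.forall_of_forall_wt (p.toLinearMap - x.toLinearMap) (fun k j b hb => by
    simp only [LinearMap.sub_apply, AlgHom.toLinearMap_apply]
    rcases Nat.eq_zero_or_pos j with rfl | hj
    · rw [hC.eq_of_mem_wt_zero k b hb]
      simp [he, hC.xe]
    · rw [key j hj k b hb, hC.x_eq_zero_of_mem_wt k j hj b hb, sub_zero]) s
  simpa [sub_eq_zero] using this

end IsCore

end Vale.Agent.P292
end

section

/-! Weight spaces of a contact torus. -/

namespace Vale.Agent.P292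

open Module Polynomial

universe u

variable {R : Type u} [CommRing R] [Algebra ℂ R] {𝒜 : ℕ → Submodule ℂ R} [GradedAlgebra 𝒜]
  {P : R →ₗ[ℂ] R →ₗ[ℂ] R}

lemma mem_Wt {H : R} {k : ℕ} {m : ℤ} {r : R} :
    r ∈ Wt 𝒜 P H k m ↔ r ∈ 𝒜 k ∧ P H r = (m : ℂ) • r := by
  rw [Wt, Submodule.mem_inf, Module.End.mem_eigenspace_iff]

/-- A grading by the generalised eigenspaces of a derivation with eigenvalues in `ℕ` gives a
homomorphism to polynomials. -/
theorem exists_hom_of_maxGen (Δ : R →ₗ[ℂ] R) (hΔ : ∀ a b, Δ (a * b) = Δ a * b + a * Δ b)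
    (htop : ∀ r : R, r ∈ ⨆ i : ℕ, Module.End.maxGenEigenspace Δ (i : ℂ))
    {S : Type*} [CommRing S] [Algebra ℂ S] (p : R →ₐ[ℂ] S) :
    ∃ c : R →ₐ[ℂ] S[X], ∀ i : ℕ, ∀ r ∈ Module.End.maxGenEigenspace Δ (i : ℂ),
      c r = monomial i (p r) := by
  classical
  let B : ℕ → Submodule ℂ R := fun i => Module.End.maxGenEigenspace Δ (i : ℂ)
  have hmul : ∀ (i j : ℕ) (a b : R), a ∈ B i → b ∈ B j → a * b ∈ B (i + j) := by
    intro i j a b ha hb
    have := mem_maxGen_add Δ (LinearMap.mul ℂ R)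
      (fun a b => by simp [hΔ]) _ _ a b ha hb
    simpa [B] using this
  have hone : (1 : R) ∈ B 0 := by
    apply mem_maxGen_of_eq_smul
    have h1 := hΔ 1 1
    simp only [one_mul, mul_one] at h1
    have h2 : Δ 1 = 0 := by
      have h3 : Δ 1 + 0 = Δ 1 + Δ 1 := by rw [add_zero]; exact h1
      exact (add_left_cancel h3).symm
    simp [h2]
  have hindep : iSupIndep B :=
    (Module.End.independent_maxGenEigenspace Δ).comp Nat.cast_injective
  have htop : ⨆ i, B i = ⊤ := by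
    rw [eq_top_iff]
    intro r _
    exact htop r
  have hint := DirectSum.isInternal_submodule_of_iSupIndep_of_iSup_eq_top hindep htop
  let inst : GradedAlgebra B :=
    { one_mem := hone
      mul_mem := fun i j a b ha hb => hmul i j a b ha hb
      toDecomposition := hint.chooseDecomposition }
  let F : ∀ i, (B i) →ₗ[ℂ] S[X] := fun i =>
    ((monomial i : S →ₗ[S] S[X]).restrictScalars ℂ) ∘ₗ p.toLinearMap ∘ₗ (B i).subtype
  have hF : ∀ i (r : B i), F i r = monomial i (p (r : R)) := fun i r => rfl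
  let c₀ : (DirectSum ℕ fun k => B k) →ₐ[ℂ] S[X] := DirectSum.toAlgebra ℂ (fun k => B k) F (by
      change monomial 0 (p (1 : R)) = 1
      rw [map_one]; rfl) (by
      intro i j a b
      change monomial (i + j) (p ((a : R) * (b : R))) = _
      rw [hF, hF, monomial_mul_monomial, map_mul])
  refine ⟨c₀.comp (DirectSum.decomposeAlgEquiv B).toAlgHom, fun i r hr => ?_⟩
  have hr' : r ∈ B i := hr
  have e2 : (DirectSum.decomposeAlgEquiv B) r = DirectSum.of (fun k => B k) i ⟨r, hr'⟩ := by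
    rw [DirectSum.decomposeAlgEquiv_apply, DirectSum.decompose_of_mem B hr']
  change c₀ ((DirectSum.decomposeAlgEquiv B) r) = _
  rw [e2]
  change DirectSum.toModule ℂ ℕ S[X] F (DirectSum.lof ℂ ℕ (fun k => B k) i ⟨r, hr'⟩) = _
  rw [DirectSum.toModule_lof]
  rfl

lemma Wt_neg {H : R} {k : ℕ} {m : ℤ} : Wt 𝒜 P (-H) k m = Wt 𝒜 P H k (-m) := by
  ext r
  rw [mem_Wt, mem_Wt, map_neg, LinearMap.neg_apply]
  push_cast
  rw [neg_smul, neg_eq_iff_eq_neg]

lemma IsContactTorus.neg {H : R} (hH : IsContactTorus 𝒜 P H) : IsContactTorus 𝒜 P (-H) where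
  mem := neg_mem hH.mem
  ne_zero := neg_ne_zero.mpr hH.ne_zero
  weights := fun k => by
    have h1 : 𝒜 k ≤ ⨆ m : ℤ, Wt 𝒜 P H k m := hH.weights k
    have h2 : 𝒜 k ≤ ⨆ m : ℤ, Wt 𝒜 P (-H) k m := h1.trans (iSup_le fun m => by
      refine le_iSup_of_le (-m) ?_
      rw [Wt_neg, neg_neg])
    exact h2

lemma HasSlope.neg {H : R} {p : R →ₐ[ℂ] ℂ} {a : ℤ} (h : HasSlope 𝒜 P H p a) :
    HasSlope 𝒜 P (-H) p (-a) :=
  ⟨h.1, fun k r hr => by
    rw [map_neg, LinearMap.neg_apply, map_neg, h.2 k r hr]; push_cast; ring⟩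

lemma Wt_mul (hX : IsContactFano 𝒜 P) {H a b : R} {k l : ℕ} {m n : ℤ}
    (ha : a ∈ Wt 𝒜 P H k m) (hb : b ∈ Wt 𝒜 P H l n) : a * b ∈ Wt 𝒜 P H (k + l) (m + n) := by
  rw [mem_Wt] at ha hb ⊢
  refine ⟨SetLike.mul_mem_graded ha.1 hb.1, ?_⟩
  rw [hX.leibniz, ha.2, hb.2]
  push_cast
  simp only [Algebra.smul_def, map_add, map_intCast]
  ring

lemma Wt_pow (hX : IsContactFano 𝒜 P) {H a : R} {k : ℕ} {m : ℤ}
    (ha : a ∈ Wt 𝒜 P H k m) (n : ℕ) : a ^ n ∈ Wt 𝒜 P H (n * k) (n * m) := by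
  induction n with
  | zero =>
    rw [mem_Wt]
    refine ⟨?_, ?_⟩
    · rw [pow_zero, zero_mul]; exact SetLike.GradedOne.one_mem
    · simp [hX.P_one_right]
  | succ n ih =>
    have := Wt_mul hX ih ha
    rw [pow_succ]
    convert this using 2
    · ring
    · push_cast; ring

lemma Wt_P (hX : IsContactFano 𝒜 P) {H a b : R} {k l j : ℕ} {m n : ℤ} (hj : k + l = j + 1)
    (ha : a ∈ Wt 𝒜 P H k m) (hb : b ∈ Wt 𝒜 P H l n) : P a b ∈ Wt 𝒜 P H j (m + n) := by
  rw [mem_Wt] at ha hb ⊢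
  refine ⟨hX.degree k l j hj a ha.1 b hb.1, ?_⟩
  rw [hX.jacobi, ha.2, hb.2]
  push_cast
  rw [map_smul, map_smul, LinearMap.smul_apply, add_smul]

/-- linear extension from weight vectors -/
lemma IsContactTorus.forall_of_Wt {H : R} (hH : IsContactTorus 𝒜 P H) {M : Type*}
    [AddCommGroup M] [Module ℂ M] (φ : R →ₗ[ℂ] M) (k : ℕ)
    (h : ∀ m, ∀ r ∈ Wt 𝒜 P H k m, φ r = 0) (r : R) (hr : r ∈ 𝒜 k) : φ r = 0 := by
  have h1 : (⨆ m : ℤ, Wt 𝒜 P H k m) ≤ LinearMap.ker φ := iSup_le fun m r hr => h m r hr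
  exact h1 (hH.weights k hr)

/-- The weights grow at most linearly with the degree. -/
theorem IsContactTorus.exists_bound (hX : IsContactFano 𝒜 P) {H : R}
    (hH : IsContactTorus 𝒜 P H) :
    ∃ N : ℕ, ∀ k m, ∀ r ∈ Wt 𝒜 P H k m, r ≠ 0 → |m| ≤ N * k := by
  classical
  have := hX.finiteType
  obtain ⟨s, hs, hn⟩ := exists_generators 𝒜 hX.connected
  choose! n hn0 hn using hn
  -- a bound for the weights of the generators
  have hM : ∀ t ∈ s, ∃ M : ℕ, t ∈ ⨆ (m : ℤ) (_ : |m| ≤ M), Wt 𝒜 P H (n t) m := by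
    intro t ht
    obtain ⟨F, hF⟩ := (Submodule.mem_iSup_iff_exists_finset).mp (hH.weights (n t) (hn t ht))
    refine ⟨F.sup Int.natAbs, ?_⟩
    refine (iSup₂_le fun m hm => ?_ : (⨆ m ∈ F, Wt 𝒜 P H (n t) m) ≤ _) hF
    refine le_iSup₂_of_le m ?_ le_rfl
    have h1 : m.natAbs ≤ F.sup Int.natAbs := Finset.le_sup (f := Int.natAbs) hm
    rw [Int.abs_eq_natAbs]
    exact_mod_cast h1
  choose! M hM using hM
  set N : ℕ := s.sup M with hN
  let T : ℕ → Submodule ℂ R := fun k => ⨆ (m : ℤ) (_ : |m| ≤ N * k), Wt 𝒜 P H k m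
  have hTA : ∀ k, T k ≤ 𝒜 k := fun k => iSup₂_le fun m _ => inf_le_left
  have hTmul : ∀ k l, ∀ a ∈ T k, ∀ b ∈ T l, a * b ∈ T (k + l) := by
    intro k l a ha b hb
    have h1 : T k * T l ≤ T (k + l) := by
      simp only [T, Submodule.iSup_mul, Submodule.mul_iSup]
      refine iSup₂_le fun m hm => iSup₂_le fun m' hm' => ?_
      refine Submodule.mul_le.mpr fun a ha b hb => ?_
      refine Submodule.mem_iSup_of_mem (m' + m) (Submodule.mem_iSup_of_mem ?_ (Wt_mul hX ha hb))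
      refine (abs_add_le m' m).trans ?_
      push_cast
      linarith
    exact h1 (Submodule.mul_mem_mul ha hb)
  have hTgen : ∀ t ∈ s, t ∈ T (n t) := by
    intro t ht
    refine (iSup₂_le fun m hm => ?_ : (⨆ (m : ℤ) (_ : |m| ≤ M t), Wt 𝒜 P H (n t) m) ≤ _)
      (hM t ht)
    refine le_iSup₂_of_le m ?_ le_rfl
    have h1 : M t ≤ N := Finset.le_sup ht
    have h2 : 1 ≤ n t := Nat.pos_of_ne_zero (hn0 t ht)
    have h3 : (M t : ℤ) ≤ N := by exact_mod_cast h1
    have h4 : (1 : ℤ) ≤ n t := by exact_mod_cast h2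
    have h5 : (0 : ℤ) ≤ N := Int.natCast_nonneg N
    nlinarith
  have hclosure : ∀ x ∈ Submonoid.closure (s : Set R), ∃ k, x ∈ T k := by
    intro x hx
    induction hx using Submonoid.closure_induction_left with
    | one =>
      refine ⟨0, Submodule.mem_iSup_of_mem 0 (Submodule.mem_iSup_of_mem (by simp) ?_)⟩
      rw [mem_Wt]
      exact ⟨SetLike.GradedOne.one_mem, by simp [hX.P_one_right]⟩
    | mul_left t ht y hy ih =>
      obtain ⟨k, hk⟩ := ih
      exact ⟨n t + k, hTmul _ _ _ (hTgen t ht) _ hk⟩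
  have key : ∀ (k : ℕ) (r : R), GradedAlgebra.proj 𝒜 k r ∈ T k := by
    intro k r
    have hr : r ∈ Submodule.span ℂ (Submonoid.closure (s : Set R) : Set R) := by
      rw [← Algebra.adjoin_eq_span, hs]; trivial
    induction hr using Submodule.span_induction with
    | zero => rw [map_zero]; exact zero_mem _
    | add x y _ _ hx hy => rw [map_add]; exact add_mem hx hy
    | smul c x _ hx => rw [map_smul]; exact Submodule.smul_mem _ _ hx
    | mem x hx =>
      obtain ⟨l, hl⟩ := hclosure x hx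
      rw [GradedAlgebra.proj_apply]
      by_cases h : l = k
      · subst h
        rwa [DirectSum.decompose_of_mem_same 𝒜 (hTA _ hl)]
      · rw [DirectSum.decompose_of_mem_ne 𝒜 (hTA _ hl) h]
        exact zero_mem _
  refine ⟨N, fun k m r hr hr0 => ?_⟩
  by_contra hcon
  apply hr0
  have h1 : r ∈ T k := by
    have := key k r
    rwa [GradedAlgebra.proj_apply, DirectSum.decompose_of_mem_same 𝒜 (mem_Wt.mp hr).1] at this
  have h2 : T k ≤ ⨆ (μ : ℂ) (_ : μ ≠ (m : ℂ)), Module.End.eigenspace (P H) μ := by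
    refine iSup₂_le fun m' hm' => ?_
    refine le_iSup₂_of_le (m' : ℂ) ?_ inf_le_right
    intro h0
    have h3 : m' = m := by exact_mod_cast h0
    rw [h3] at hm'
    exact hcon hm'
  have hdisj := (Module.End.eigenspaces_iSupIndep (P H : End ℂ R)) (m : ℂ)
  exact Submodule.disjoint_def.mp hdisj r hr.2 (h2 h1)

/-- The coaction defining the action of the torus. -/
theorem IsContactTorus.exists_coaction (hX : IsContactFano 𝒜 P) {H : R}
    (hH : IsContactTorus 𝒜 P H) {S : Type*} [CommRing S] [Algebra ℂ S] (p : R →ₐ[ℂ] S) :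
    ∃ N : ℕ, (∀ k m, ∀ r ∈ Wt 𝒜 P H k m, r ≠ 0 → |m| ≤ N * k) ∧
      ∃ c : R →ₐ[ℂ] S[X], ∀ k m, ∀ r ∈ Wt 𝒜 P H k m,
        c r = monomial (N * k + m).toNat (p r) := by
  classical
  obtain ⟨N, hN⟩ := hH.exists_bound hX
  refine ⟨N, hN, ?_⟩
  set Δ : R →ₗ[ℂ] R := (N : ℂ) • euler 𝒜 + P H with hΔdef
  have hΔ : ∀ a b, Δ (a * b) = Δ a * b + a * Δ b := by
    intro a b
    simp only [hΔdef, LinearMap.add_apply, LinearMap.smul_apply, euler_mul, hX.leibniz,
      smul_add, mul_add, add_mul, smul_mul_assoc, mul_smul_comm]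
    abel
  have hW : ∀ k m, ∀ r ∈ Wt 𝒜 P H k m,
      r ∈ Module.End.maxGenEigenspace Δ (((N * k + m : ℤ).toNat : ℕ) : ℂ) := by
    intro k m r hr
    by_cases hr0 : r = 0
    · rw [hr0]; exact zero_mem _
    apply mem_maxGen_of_eq_smul
    have h1 := hN k m r hr hr0
    rw [abs_le] at h1
    have h2 : (((N * k + m : ℤ).toNat : ℕ) : ℤ) = N * k + m := Int.toNat_of_nonneg (by linarith)
    have h3 : (((N * k + m : ℤ).toNat : ℕ) : ℂ) = N * k + m := by exact_mod_cast h2
    obtain ⟨hr1, hr2⟩ := mem_Wt.mp hr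
    rw [h3]
    simp only [hΔdef, LinearMap.add_apply, LinearMap.smul_apply, euler_apply k r hr1, hr2]
    module
  obtain ⟨c, hc⟩ := exists_hom_of_maxGen Δ hΔ (fun r => by
    rw [← DirectSum.sum_support_decompose 𝒜 r]
    refine sum_mem fun k _ => ?_
    refine (iSup_le fun m b hb => ?_ : (⨆ m, Wt 𝒜 P H k m) ≤ _)
      (hH.weights k (DirectSum.decompose 𝒜 r k).2)
    exact Submodule.mem_iSup_of_mem _ (hW k m b hb)) p
  exact ⟨c, fun k m r hr => hc _ r (hW k m r hr)⟩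

end Vale.Agent.P292
end

section

/-! Slopes of one-parameter families of points are integers. -/

namespace Vale.Agent.P292

open Polynomial

universe u

variable {R : Type u} [CommRing R] [Algebra ℂ R] {𝒜 : ℕ → Submodule ℂ R} [GradedAlgebra 𝒜]
  {P : R →ₗ[ℂ] R →ₗ[ℂ] R}

/-- homogenisation of a family of points -/
theorem exists_homogenization (τ : R →ₐ[ℂ] ℂ[X]) (N : ℕ)
    (hN : ∀ k, ∀ r ∈ 𝒜 k, (τ r).natDegree ≤ N * k) :
    ∃ c : R →ₐ[ℂ] ℂ[X], ∀ k, ∀ r ∈ 𝒜 k, c r = reflect (N * k) (τ r) := by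
  classical
  let F : ∀ k, (𝒜 k) →ₗ[ℂ] ℂ[X] := fun k =>
    { toFun := fun r => reflect (N * k) (τ (r : R))
      map_add' := fun a b => by
        rw [Submodule.coe_add, map_add, reflect_add]
      map_smul' := fun c a => by
        rw [Submodule.coe_smul, map_smul, RingHom.id_apply, smul_eq_C_mul, reflect_C_mul,
          smul_eq_C_mul] }
  have hF : ∀ k (r : 𝒜 k), F k r = reflect (N * k) (τ (r : R)) := fun k r => rfl
  let c₀ : (DirectSum ℕ fun k => 𝒜 k) →ₐ[ℂ] ℂ[X] := DirectSum.toAlgebra ℂ (fun k => 𝒜 k) F (by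
      change reflect (N * 0) (τ (1 : R)) = 1
      rw [map_one, mul_zero]
      exact reflect_one 0) (by
      intro i j a b
      rw [hF, hF]
      change reflect (N * (i + j)) (τ ((a : R) * (b : R))) = _
      rw [Nat.mul_add, map_mul]
      exact reflect_mul _ _ (hN i a a.2) (hN j b b.2))
  refine ⟨c₀.comp (DirectSum.decomposeAlgEquiv 𝒜).toAlgHom, fun k r hr => ?_⟩
  have e2 : (DirectSum.decomposeAlgEquiv 𝒜) r = DirectSum.of (fun k => 𝒜 k) k ⟨r, hr⟩ := by
    rw [DirectSum.decomposeAlgEquiv_apply, DirectSum.decompose_of_mem 𝒜 hr]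
  change c₀ ((DirectSum.decomposeAlgEquiv 𝒜) r) = _
  rw [e2]
  change DirectSum.toModule ℂ ℕ ℂ[X] F (DirectSum.lof ℂ ℕ (fun k => 𝒜 k) k ⟨r, hr⟩) = _
  rw [DirectSum.toModule_lof]
  rfl

/-- Integrality of slopes. -/
theorem IsContactFano.exists_slope (hX : IsContactFano 𝒜 P) (τ : R →ₐ[ℂ] ℂ[X])
    (hτ : ∃ k, 0 < k ∧ ∃ r ∈ 𝒜 k, τ r ≠ 0) :
    ∃ d : ℕ, (∀ k, ∀ r ∈ 𝒜 k, (τ r).natDegree ≤ d * k) ∧
      ∃ k, 0 < k ∧ ∃ r ∈ 𝒜 k, (τ r).coeff (d * k) ≠ 0 := by
  classical
  have := hX.finiteType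
  obtain ⟨s, hs, hn⟩ := exists_generators 𝒜 hX.connected
  choose! n hn0 hn using hn
  -- some generator survives
  have hex : ∃ t ∈ s, τ t ≠ 0 := by
    by_contra hcon
    push Not at hcon
    obtain ⟨k, hk, r, hr, hr0⟩ := hτ
    apply hr0
    have key : ∀ r : R, τ (GradedAlgebra.proj 𝒜 k r) = 0 := by
      intro r
      have hr : r ∈ Submodule.span ℂ (Submonoid.closure (s : Set R) : Set R) := by
        rw [← Algebra.adjoin_eq_span, hs]; trivial
      induction hr using Submodule.span_induction with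
      | zero => rw [map_zero, map_zero]
      | add x y _ _ hx hy => rw [map_add, map_add, hx, hy, add_zero]
      | smul c x _ hx => rw [map_smul, map_smul, hx, smul_zero]
      | mem x hx =>
        induction hx using Submonoid.closure_induction_left with
        | one =>
          rw [GradedAlgebra.proj_apply, DirectSum.decompose_of_mem_ne 𝒜
            (SetLike.GradedOne.one_mem : (1 : R) ∈ 𝒜 0) hk.ne, map_zero]
        | mul_left t ht y hy ih =>
          rw [GradedAlgebra.proj_apply]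
          by_cases h : n t ≤ k
          · rw [DirectSum.coe_decompose_mul_of_left_mem_of_le 𝒜 (hn t ht) h, map_mul, hcon t ht,
              zero_mul]
          · rw [DirectSum.coe_decompose_mul_of_left_mem_of_not_le 𝒜 (hn t ht) h, map_zero]
    have := key r
    rwa [GradedAlgebra.proj_apply, DirectSum.decompose_of_mem_same 𝒜 hr] at this
  obtain ⟨t₀, ht₀, hmax⟩ := Finset.exists_max_image (s.filter fun t => τ t ≠ 0)
    (fun t => ((τ t).natDegree : ℚ) / n t) (by
      obtain ⟨t, ht, ht'⟩ := hex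
      exact ⟨t, Finset.mem_filter.mpr ⟨ht, ht'⟩⟩)
  rw [Finset.mem_filter] at ht₀
  set u := (τ t₀).natDegree with hu
  set v := n t₀ with hv
  have hv0 : 0 < v := Nat.pos_of_ne_zero (hn0 t₀ ht₀.1)
  have hgen : ∀ t ∈ s, τ t ≠ 0 → v * (τ t).natDegree ≤ u * n t := by
    intro t ht ht'
    have h1 := hmax t (Finset.mem_filter.mpr ⟨ht, ht'⟩)
    have h2 : (0 : ℚ) < n t := by
      have := hn0 t ht
      exact_mod_cast Nat.pos_of_ne_zero this
    have h3 : (0 : ℚ) < n t₀ := by exact_mod_cast hv0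
    rw [div_le_div_iff₀ h2 h3] at h1
    have h4 : (τ t).natDegree * n t₀ ≤ (τ t₀).natDegree * n t := by exact_mod_cast h1
    rw [mul_comm v]; exact h4
  have hbound : ∀ k, ∀ r ∈ 𝒜 k, v * (τ r).natDegree ≤ u * k := by
    intro k r hr
    have key : ∀ (r : R) (k : ℕ), v * (τ (GradedAlgebra.proj 𝒜 k r)).natDegree ≤ u * k := by
      intro r
      have hr : r ∈ Submodule.span ℂ (Submonoid.closure (s : Set R) : Set R) := by
        rw [← Algebra.adjoin_eq_span, hs]; trivial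
      induction hr using Submodule.span_induction with
      | zero => intro k; simp
      | add x y _ _ hx hy =>
        intro k
        rw [map_add, map_add]
        refine le_trans (Nat.mul_le_mul_left _ (natDegree_add_le _ _)) ?_
        rcases le_total (τ (GradedAlgebra.proj 𝒜 k x)).natDegree
          (τ (GradedAlgebra.proj 𝒜 k y)).natDegree with h | h
        · rw [max_eq_right h]; exact hy k
        · rw [max_eq_left h]; exact hx k
      | smul c x _ hx =>
        intro k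
        rw [map_smul, map_smul]
        exact le_trans (Nat.mul_le_mul_left _ (natDegree_smul_le _ _)) (hx k)
      | mem x hx =>
        induction hx using Submonoid.closure_induction_left with
        | one =>
          intro k
          rw [GradedAlgebra.proj_apply]
          by_cases h : k = 0
          · subst h
            rw [DirectSum.decompose_of_mem_same 𝒜 (SetLike.GradedOne.one_mem : (1 : R) ∈ 𝒜 0),
              map_one]
            simp
          · rw [DirectSum.decompose_of_mem_ne 𝒜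
              (SetLike.GradedOne.one_mem : (1 : R) ∈ 𝒜 0) (Ne.symm h), map_zero]
            simp
        | mul_left t ht y hy ih =>
          intro k
          rw [GradedAlgebra.proj_apply]
          by_cases h : n t ≤ k
          · rw [DirectSum.coe_decompose_mul_of_left_mem_of_le 𝒜 (hn t ht) h, map_mul]
            by_cases ht' : τ t = 0
            · rw [ht', zero_mul]; simp
            · have h1 := ih (k - n t)
              rw [GradedAlgebra.proj_apply] at h1
              have h2 := hgen t ht ht'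
              have h3 := natDegree_mul_le (p := τ t)
                (q := τ (DirectSum.decompose 𝒜 y (k - n t) : R))
              calc _ ≤ v * ((τ t).natDegree + (τ (DirectSum.decompose 𝒜 y (k - n t) : R)).natDegree) :=
                    Nat.mul_le_mul_left _ h3
                _ ≤ u * n t + u * (k - n t) := by rw [Nat.mul_add]; omega
                _ = u * k := by rw [← Nat.mul_add]; congr 1; omega
          · rw [DirectSum.coe_decompose_mul_of_left_mem_of_not_le 𝒜 (hn t ht) h, map_zero]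
            simp
    have := key r k
    rwa [GradedAlgebra.proj_apply, DirectSum.decompose_of_mem_same 𝒜 hr] at this
  -- the limit point
  obtain ⟨c, hc⟩ := exists_homogenization (𝒜 := 𝒜) ((expand ℂ v).comp τ) u (fun k r hr => by
    rw [AlgHom.comp_apply, natDegree_expand, mul_comm]
    exact hbound k r hr)
  set q : R →ₐ[ℂ] ℂ := (aeval (0 : ℂ)).comp c with hq
  have hqr : ∀ k, ∀ r ∈ 𝒜 k, q r = (expand ℂ v (τ r)).coeff (u * k) := by
    intro k r hr
    rw [hq, AlgHom.comp_apply, hc k r hr, ← coeff_zero_eq_aeval_zero, coeff_reflect]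
    simp [revAt_le]
  have hq0 : q t₀ ≠ 0 := by
    rw [hqr v t₀ (hn t₀ ht₀.1), coeff_expand_mul hv0, hu, coeff_natDegree]
    exact leadingCoeff_ne_zero.mpr ht₀.2
  have hqv : ¬ IsVertex 𝒜 q := fun h => hq0 (h v hv0 t₀ (hn t₀ ht₀.1))
  have hg : 0 < Nat.gcd u v := Nat.gcd_pos_of_pos_right _ hv0
  have hdvd : v / Nat.gcd u v = 1 := by
    apply hX.lineBundle q hqv
    intro k r hr hr0
    rw [hqr k r hr, coeff_expand hv0] at hr0
    have h1 : v ∣ u * k := by
      by_contra h; simp [h] at hr0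
    have h2 : v / Nat.gcd u v ∣ (u / Nat.gcd u v) * k := by
      obtain ⟨m, hm⟩ := h1
      refine ⟨m, Nat.eq_of_mul_eq_mul_left hg ?_⟩
      calc Nat.gcd u v * (u / Nat.gcd u v * k) = (Nat.gcd u v * (u / Nat.gcd u v)) * k := by ring
        _ = u * k := by rw [Nat.mul_div_cancel' (Nat.gcd_dvd_left u v)]
        _ = v * m := hm
        _ = (Nat.gcd u v * (v / Nat.gcd u v)) * m := by
            rw [Nat.mul_div_cancel' (Nat.gcd_dvd_right u v)]
        _ = _ := by ring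
    exact (Nat.Coprime.dvd_of_dvd_mul_left (Nat.coprime_div_gcd_div_gcd hg).symm h2)
  have hvu : v ∣ u := by
    have h1 : v = Nat.gcd u v := by
      have := Nat.div_mul_cancel (Nat.gcd_dvd_right u v)
      rw [hdvd, one_mul] at this
      exact this.symm
    rw [h1]; exact Nat.gcd_dvd_left u v
  obtain ⟨d, hd⟩ := hvu
  refine ⟨d, fun k r hr => ?_, v, hv0, t₀, hn t₀ ht₀.1, ?_⟩
  · have := hbound k r hr
    rw [hd, mul_assoc] at this
    exact Nat.le_of_mul_le_mul_left this hv0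
  · rw [mul_comm d v, ← hd, hu, coeff_natDegree]
    exact leadingCoeff_ne_zero.mpr ht₀.2

end Vale.Agent.P292
end

section

/-! Limit points of a contact torus. -/

namespace Vale.Agent.P292

open Module Polynomial

universe u

variable {R : Type u} [CommRing R] [Algebra ℂ R] {𝒜 : ℕ → Submodule ℂ R} [GradedAlgebra 𝒜]
  {P : R →ₗ[ℂ] R →ₗ[ℂ] R}

/-- The limit of a one-parameter family of points. -/
theorem IsContactFano.exists_limit (hX : IsContactFano 𝒜 P) (τ : R →ₐ[ℂ] ℂ[X])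
    (hτ : ∃ k, 0 < k ∧ ∃ r ∈ 𝒜 k, τ r ≠ 0) :
    ∃ (d : ℕ) (q : R →ₐ[ℂ] ℂ), ¬ IsVertex 𝒜 q ∧
      (∀ k, ∀ r ∈ 𝒜 k, (τ r).natDegree ≤ d * k) ∧
      ∀ k, ∀ r ∈ 𝒜 k, q r = (τ r).coeff (d * k) := by
  obtain ⟨d, hd, k, hk, r, hr, hr0⟩ := hX.exists_slope τ hτ
  obtain ⟨c, hc⟩ := exists_homogenization (𝒜 := 𝒜) τ d hd
  have hqr : ∀ k, ∀ r ∈ 𝒜 k, ((aeval (0 : ℂ)).comp c) r = (τ r).coeff (d * k) := by
    intro k r hr
    rw [AlgHom.comp_apply, hc k r hr, ← coeff_zero_eq_aeval_zero, coeff_reflect]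
    simp [revAt_le]
  refine ⟨d, (aeval (0 : ℂ)).comp c, ?_, hd, hqr⟩
  intro h
  exact hr0 (by rw [← hqr k r hr]; exact h k hk r hr)

theorem hasSlope_iff {H : R} (hH : IsContactTorus 𝒜 P H) (q : R →ₐ[ℂ] ℂ) (a : ℤ) :
    HasSlope 𝒜 P H q a ↔
      ¬ IsVertex 𝒜 q ∧ ∀ (k : ℕ) (m : ℤ), ∀ r ∈ Wt 𝒜 P H k m, m ≠ a * k → q r = 0 := by
  constructor
  · rintro ⟨h1, h2⟩
    refine ⟨h1, fun k m r hr hm => ?_⟩
    rw [mem_Wt] at hr
    have h3 := h2 k r hr.1
    rw [hr.2, map_smul, smul_eq_mul] at h3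
    have h4 : ((m : ℂ) - ((a * k : ℤ) : ℂ)) * q r = 0 := by
      rw [sub_mul, h3, sub_self]
    rcases mul_eq_zero.1 h4 with h5 | h5
    · exfalso
      apply hm
      rw [sub_eq_zero] at h5
      exact_mod_cast h5
    · exact h5
  · rintro ⟨h1, h2⟩
    refine ⟨h1, fun k r hr => ?_⟩
    have h3 := hH.forall_of_Wt (q.toLinearMap ∘ₗ (P H) - ((a * k : ℤ) : ℂ) • q.toLinearMap) k
      (fun m r hr => by
        have hr' := hr
        rw [mem_Wt] at hr'
        rw [LinearMap.sub_apply, LinearMap.comp_apply, LinearMap.smul_apply,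
          AlgHom.toLinearMap_apply, AlgHom.toLinearMap_apply, hr'.2, map_smul, smul_eq_mul,
          smul_eq_mul]
        by_cases hm : m = a * k
        · rw [hm, sub_self]
        · rw [h2 k m r hr hm, mul_zero, mul_zero, sub_zero]) r hr
    rw [LinearMap.sub_apply, LinearMap.comp_apply, LinearMap.smul_apply,
      AlgHom.toLinearMap_apply, AlgHom.toLinearMap_apply, smul_eq_mul, sub_eq_zero] at h3
    exact h3

/-- The limit `t → ∞` of the point `p` under the action. -/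
theorem exists_upper (hX : IsContactFano 𝒜 P) {H : R} (hH : IsContactTorus 𝒜 P H)
    (p : R →ₐ[ℂ] ℂ) (hp : ¬ IsVertex 𝒜 p) :
    ∃ (a : ℤ) (q : R →ₐ[ℂ] ℂ), HasSlope 𝒜 P H q a ∧ ∀ (k : ℕ) (m : ℤ), ∀ r ∈ Wt 𝒜 P H k m,
      (p r ≠ 0 → m ≤ a * k) ∧ (m = a * k → q r = p r) := by
  obtain ⟨N, hN, c, hc⟩ := hH.exists_coaction hX p
  have hτ : ∃ k, 0 < k ∧ ∃ r ∈ 𝒜 k, c r ≠ 0 := by
    by_contra hcon
    push Not at hcon
    apply hp
    intro k hk r hr
    refine hH.forall_of_Wt p.toLinearMap k (fun m r hr => ?_) r hr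
    have h1 := hcon k hk r (mem_Wt.1 hr).1
    rw [hc k m r hr, monomial_eq_zero_iff] at h1
    exact h1
  obtain ⟨d, q, hqv, hdeg, hq⟩ := hX.exists_limit c hτ
  have key : ∀ (k : ℕ) (m : ℤ), ∀ r ∈ Wt 𝒜 P H k m,
      (m ≠ ((d : ℤ) - N) * k → q r = 0) ∧ (m = ((d : ℤ) - N) * k → q r = p r) := by
    intro k m r hr
    by_cases hr0 : r = 0
    · subst hr0
      simp
    · have h1 := hN k m r hr hr0
      have h2 : (0 : ℤ) ≤ N * k + m := by
        have := neg_abs_le m
        linarith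
      have h3 : ((N * k + m).toNat : ℤ) = N * k + m := Int.toNat_of_nonneg h2
      have h4 := hq k r (mem_Wt.1 hr).1
      rw [hc k m r hr, coeff_monomial] at h4
      constructor
      · intro hm
        rw [h4, if_neg]
        intro h5
        apply hm
        have h6 : ((N * k + m).toNat : ℤ) = ((d * k : ℕ) : ℤ) := by rw [h5]
        rw [h3] at h6
        push_cast at h6
        linarith
      · intro hm
        rw [h4, if_pos]
        have h6 : ((N * k + m).toNat : ℤ) = ((d * k : ℕ) : ℤ) := by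
          rw [h3, hm]
          push_cast
          ring
        exact_mod_cast h6
  refine ⟨(d : ℤ) - N, q, (hasSlope_iff hH q _).2 ⟨hqv, fun k m r hr hm => (key k m r hr).1 hm⟩,
    fun k m r hr => ⟨fun hpr => ?_, (key k m r hr).2⟩⟩
  have hr0 : r ≠ 0 := by
    rintro rfl
    exact hpr (map_zero p)
  have h1 := hN k m r hr hr0
  have h2 : (0 : ℤ) ≤ N * k + m := by
    have := neg_abs_le m
    linarith
  have h3 : ((N * k + m).toNat : ℤ) = N * k + m := Int.toNat_of_nonneg h2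
  have h4 := hdeg k r (mem_Wt.1 hr).1
  rw [hc k m r hr, natDegree_monomial_eq _ hpr] at h4
  have h5 : ((N * k + m).toNat : ℤ) ≤ ((d * k : ℕ) : ℤ) := by exact_mod_cast h4
  rw [h3] at h5
  push_cast at h5
  linarith

end Vale.Agent.P292
end

section

/-! Limit points and slopes of a contact torus. -/

namespace Vale.Agent.P292

open Module Polynomial

universe u

variable {R : Type u} [CommRing R] [Algebra ℂ R] {𝒜 : ℕ → Submodule ℂ R} [GradedAlgebra 𝒜]
  {P : R →ₗ[ℂ] R →ₗ[ℂ] R}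

/-- `a` is the weight of `L` along the source. -/
structure IsMaxSlope (𝒜 : ℕ → Submodule ℂ R) (P : R →ₗ[ℂ] R →ₗ[ℂ] R) (H : R) (a : ℤ) :
    Prop where
  exists_slope : ∃ q, HasSlope 𝒜 P H q a
  le : ∀ (k : ℕ) (m : ℤ), ∀ r ∈ Wt 𝒜 P H k m, r ≠ 0 → m ≤ a * k

/-- At a fixed point of slope `b` some weight vector does not vanish. -/
lemma HasSlope.torus2_exists {H : R} (hH : IsContactTorus 𝒜 P H) {q : R →ₐ[ℂ] ℂ} {b : ℤ}
    (hq : HasSlope 𝒜 P H q b) : ∃ k : ℕ, 0 < k ∧ ∃ r ∈ Wt 𝒜 P H k (b * k), q r ≠ 0 := by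
  by_contra hne
  push Not at hne
  apply hq.1
  intro k hk r hr
  refine hH.forall_of_Wt q.toLinearMap k (fun m s hs => ?_) r hr
  change q s = 0
  by_contra h0
  by_cases hm : m = b * k
  · subst hm
    exact h0 (hne k hk s hs)
  · obtain ⟨hs1, hs2⟩ := mem_Wt.mp hs
    have h1 := hq.2 k s hs1
    rw [hs2, map_smul, smul_eq_mul] at h1
    have h2 := mul_right_cancel₀ h0 h1
    exact hm (by exact_mod_cast h2)

theorem exists_isMaxSlope (hX : IsContactFano 𝒜 P) {H : R} (hH : IsContactTorus 𝒜 P H) :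
    ∃ a, IsMaxSlope 𝒜 P H a := by
  have := hX.domain
  have := hX.finiteType
  obtain ⟨N, hN⟩ := hH.exists_bound hX
  obtain ⟨a, ⟨q₀, hq₀⟩, hmax⟩ := Int.exists_greatest_of_bdd
    (P := fun a : ℤ => ∃ q, HasSlope 𝒜 P H q a) ⟨N, by
      rintro a ⟨q, hq⟩
      obtain ⟨k, hk, r, hr, hqr⟩ := hq.torus2_exists hH
      have h1 := hN k _ r hr (by rintro rfl; exact hqr (map_zero q))
      have h2 := (le_abs_self _).trans h1
      have h3 : (0 : ℤ) < k := by exact_mod_cast hk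
      exact le_of_mul_le_mul_right h2 h3⟩ (by
      obtain ⟨p, hp⟩ := hX.nonempty
      obtain ⟨a, q, hq, -⟩ := exists_upper hX hH p hp
      exact ⟨a, q, hq⟩)
  refine ⟨a, ⟨⟨q₀, hq₀⟩, fun k m r hr hr0 => ?_⟩⟩
  rcases Nat.eq_zero_or_pos k with rfl | hk
  · obtain ⟨hr1, hr2⟩ := mem_Wt.mp hr
    obtain ⟨c, rfl⟩ := hX.connected r hr1
    rw [hX.P_algebraMap_right] at hr2
    rcases smul_eq_zero.mp hr2.symm with h | h
    · have h1 : m = 0 := by exact_mod_cast h
      simp [h1]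
    · exact absurd h hr0
  · obtain ⟨p, hp⟩ := exists_point_ne_zero r hr0
    have hpv : ¬ IsVertex 𝒜 p := fun hv => hp (hv k hk r (mem_Wt.mp hr).1)
    obtain ⟨b, q, hq, h⟩ := exists_upper hX hH p hpv
    have h1 := (h k m r hr).1 hp
    have h2 := hmax b ⟨q, hq⟩
    exact h1.trans (mul_le_mul_of_nonneg_right h2 (Int.natCast_nonneg k))

theorem IsMaxSlope.slope_le {H : R} (hH : IsContactTorus 𝒜 P H) {a b : ℤ}
    (ha : IsMaxSlope 𝒜 P H a) {q : R →ₐ[ℂ] ℂ} (hq : HasSlope 𝒜 P H q b) : b ≤ a := by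
  obtain ⟨k, hk, r, hr, hqr⟩ := hq.torus2_exists hH
  have h1 := ha.le k _ r hr (by rintro rfl; exact hqr (map_zero q))
  have h3 : (0 : ℤ) < k := by exact_mod_cast hk
  exact le_of_mul_le_mul_right h1 h3

theorem IsMaxSlope.isSource_iff {H : R} (hH : IsContactTorus 𝒜 P H) {a : ℤ}
    (ha : IsMaxSlope 𝒜 P H a) (q : R →ₐ[ℂ] ℂ) : IsSource 𝒜 P H q ↔ HasSlope 𝒜 P H q a := by
  constructor
  · rintro ⟨b, hb, hmax⟩
    obtain ⟨q', hq'⟩ := ha.exists_slope
    have h1 := hmax q' a hq'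
    have h2 := ha.slope_le hH hb
    have h3 : b = a := le_antisymm h2 h1
    rwa [h3] at hb
  · intro h
    exact ⟨a, h, fun q' b hb => ha.slope_le hH hb⟩

theorem IsMaxSlope.exists_point (hX : IsContactFano 𝒜 P) {H : R} (hH : IsContactTorus 𝒜 P H)
    {a : ℤ} (ha : IsMaxSlope 𝒜 P H a) {k : ℕ} (hk : 0 < k) {r : R}
    (hr : r ∈ Wt 𝒜 P H k (a * k)) (hr0 : r ≠ 0) : ∃ q, HasSlope 𝒜 P H q a ∧ q r ≠ 0 := by
  have := hX.domain
  have := hX.finiteType
  obtain ⟨p, hp⟩ := exists_point_ne_zero r hr0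
  have hpv : ¬ IsVertex 𝒜 p := fun hv => hp (hv k hk r (mem_Wt.mp hr).1)
  obtain ⟨b, q, hq, h⟩ := exists_upper hX hH p hpv
  have h1 := (h k _ r hr).1 hp
  have h3 : (0 : ℤ) < k := by exact_mod_cast hk
  have h2 : b = a := le_antisymm (ha.slope_le hH hq) (le_of_mul_le_mul_right h1 h3)
  subst h2
  refine ⟨q, hq, ?_⟩
  rw [(h k _ r hr).2 rfl]
  exact hp

end Vale.Agent.P292
end

section

/-! Flows of locally nilpotent Hamiltonians. -/

namespace Vale.Agent.P292

open Module Polynomial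

universe u

variable {R : Type u} [CommRing R] [Algebra ℂ R] {𝒜 : ℕ → Submodule ℂ R} [GradedAlgebra 𝒜]
  {P : R →ₗ[ℂ] R →ₗ[ℂ] R}

/-- The flow of a locally nilpotent derivation through a point. -/
theorem exists_taylor (D : Derivation ℂ R R) (hD : ∀ r, ∃ n, (⇑D)^[n] r = 0)
    (p : R →ₐ[ℂ] ℂ) :
    ∃ τ : R →ₐ[ℂ] ℂ[X], ∀ (r : R) (j : ℕ),
      (τ r).coeff j = (j.factorial : ℂ)⁻¹ * p ((⇑D)^[j] r) := by
  classical
  let τ : R → ℂ[X] := fun r => taylorPoly D p (Nat.find (hD r)) r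
  have hco : ∀ (r : R) (j : ℕ), (τ r).coeff j = (j.factorial : ℂ)⁻¹ * p ((⇑D)^[j] r) :=
    fun r j => coeff_taylorPoly D p _ r
      (iterate_zero_of_le D (Nat.le_succ _) (Nat.find_spec (hD r))) j
  have halg : ∀ c : ℂ, τ (algebraMap ℂ R c) = C c := by
    intro c
    ext j
    rw [hco, coeff_C]
    rcases j with _ | j
    · simp
    · rw [Function.iterate_succ_apply, Derivation.map_algebraMap,
        Function.iterate_fixed (map_zero D)]
      simp
  have hadd : ∀ a b, τ (a + b) = τ a + τ b := by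
    intro a b
    ext j
    rw [coeff_add, hco, hco, hco, iterate_map_add, map_add, mul_add]
  have hmul : ∀ a b, τ (a * b) = τ a * τ b := by
    intro a b
    ext n
    rw [hco, coeff_mul, iterate_leibniz, map_sum, Finset.mul_sum]
    refine Finset.sum_congr rfl fun ij hij => ?_
    rw [Finset.HasAntidiagonal.mem_antidiagonal] at hij
    rw [hco, hco, map_nsmul, map_mul]
    have h1 : (n.choose ij.1 : ℂ) * (ij.1.factorial : ℂ) * (ij.2.factorial : ℂ) =
        n.factorial := by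
      rw [← hij, Nat.choose_symm_add]
      exact_mod_cast Nat.add_choose_mul_factorial_mul_factorial ij.1 ij.2
    have h2 : (ij.1.factorial : ℂ) ≠ 0 := by exact_mod_cast Nat.factorial_ne_zero _
    have h3 : (ij.2.factorial : ℂ) ≠ 0 := by exact_mod_cast Nat.factorial_ne_zero _
    have h4 : (n.factorial : ℂ) ≠ 0 := by exact_mod_cast Nat.factorial_ne_zero _
    rw [nsmul_eq_mul]
    field_simp
    rw [← h1]
    ring
  refine ⟨{ toFun := τ
            map_one' := by
              have := halg 1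
              rwa [map_one, C_1] at this
            map_mul' := hmul
            map_zero' := by
              have := halg 0
              rwa [map_zero, C_0] at this
            map_add' := hadd
            commutes' := fun c => halg c }, hco⟩

theorem iterate_mem_Wt (hX : IsContactFano 𝒜 P) {H b : R} {k₀ : ℕ} {m₀ : ℤ} (hk₀ : 0 < k₀)
    (hb : b ∈ Wt 𝒜 P H k₀ m₀) (k : ℕ) (m : ℤ) (r : R) (hr : r ∈ Wt 𝒜 P H k m) (j : ℕ) :
    (⇑(hX.ham b))^[j] r ∈ Wt 𝒜 P H (k + j * (k₀ - 1)) (m + j * m₀) := by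
  obtain ⟨n, rfl⟩ : ∃ n, k₀ = n + 1 := ⟨k₀ - 1, by omega⟩
  rw [Nat.add_sub_cancel]
  induction j with
  | zero => simpa using hr
  | succ j ih =>
    rw [Function.iterate_succ_apply', hX.ham_apply]
    have := Wt_P hX (j := k + (j + 1) * n) (by ring) hb ih
    have e1 : m + ((j + 1 : ℕ) : ℤ) * m₀ = m₀ + (m + (j : ℤ) * m₀) := by
      push_cast
      ring
    rw [e1]
    exact this

theorem exists_iterate_eq_zero (hX : IsContactFano 𝒜 P) {H : R} (hH : IsContactTorus 𝒜 P H)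
    {a : ℤ} (hmax : IsMaxSlope 𝒜 P H a) (ha : 0 < a)
    {k₀ : ℕ} (hk₀ : 0 < k₀) {b : R} (hb : b ∈ Wt 𝒜 P H k₀ (a * k₀)) (r : R) :
    ∃ n, (⇑(hX.ham b))^[n] r = 0 := by
  classical
  rw [← mem_maxGen_zero_iff]
  have hWt : ∀ k m, ∀ r ∈ Wt 𝒜 P H k m,
      r ∈ Module.End.maxGenEigenspace (hX.ham b : R →ₗ[ℂ] R) 0 := by
    intro k m r hr
    rw [mem_maxGen_zero_iff]
    by_contra hne
    rw [not_exists] at hne
    have h1 := hmax.le _ _ _ (iterate_mem_Wt hX hk₀ hb k m r hr ((a * k - m).toNat + 1))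
      (hne _)
    obtain ⟨n, rfl⟩ : ∃ n, k₀ = n + 1 := ⟨k₀ - 1, by omega⟩
    rw [Nat.add_sub_cancel] at h1
    have h2 : a * k - m ≤ ((a * k - m).toNat : ℤ) := Int.self_le_toNat _
    have h3 : (0 : ℤ) ≤ ((a * k - m).toNat : ℤ) := Int.natCast_nonneg _
    generalize ((a * k - m).toNat) = t at *
    push_cast at h1
    nlinarith
  have hA : ∀ k, ∀ r ∈ 𝒜 k, r ∈ Module.End.maxGenEigenspace (hX.ham b : R →ₗ[ℂ] R) 0 :=
    fun k r hr => (iSup_le fun m r hr => hWt k m r hr :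
      (⨆ m : ℤ, Wt 𝒜 P H k m) ≤ _) (hH.weights k hr)
  rw [← DirectSum.sum_support_decompose 𝒜 r]
  exact sum_mem fun i _ => hA i _ (SetLike.coe_mem _)

end Vale.Agent.P292
end

section

/-! Flows from the source to the sink of a contact torus. -/

namespace Vale.Agent.P292

open Module Polynomial

universe u

variable {R : Type u} [CommRing R] [Algebra ℂ R] {𝒜 : ℕ → Submodule ℂ R} [GradedAlgebra 𝒜]
  {P : R →ₗ[ℂ] R →ₗ[ℂ] R}

/-- The Euler derivation kills the square of the kernel of a point, at this point. -/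
lemma torus3_euler_sq (q : R →ₐ[ℂ] ℂ) (z : R) (hz : z ∈ RingHom.ker q ^ 2) :
    q (euler 𝒜 z) = 0 := by
  rw [sq] at hz
  refine Submodule.mul_induction_on hz ?_ ?_
  · intro u hu v hv
    have hu' : q u = 0 := hu
    have hv' : q v = 0 := hv
    rw [euler_mul, map_add, map_mul, map_mul, hu', hv', mul_zero, zero_mul, add_zero]
  · intro u v hu hv
    rw [map_add, map_add, hu, hv, add_zero]

/-- A point of slope zero lies on the zero locus of `H`. -/
lemma torus3_slope_zero (hX : IsContactFano 𝒜 P) {H : R} (hH : H ∈ 𝒜 1) {q : R →ₐ[ℂ] ℂ}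
    (hq : HasSlope 𝒜 P H q 0) : q H = 0 := by
  have h1 : ∀ r, q (P H r) = 0 := by
    intro r
    have := forall_of_homogeneous' (𝒜 := 𝒜) (q.toLinearMap ∘ₗ P H) 0 (fun k r hr => by
      have := hq.2 k r hr
      simpa using this) r
    simpa using this
  have h2 := hX.nondegenerate q hq.1 H h1
  have h3 := torus3_euler_sq (𝒜 := 𝒜) q _ h2
  rw [map_sub, map_sub, euler_apply 1 H hH] at h3
  have h4 : (algebraMap ℂ R (q H)) ∈ 𝒜 0 := by
    rw [Algebra.algebraMap_eq_smul_one]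
    exact (𝒜 0).smul_mem _ SetLike.GradedOne.one_mem
  rw [euler_apply 0 _ h4] at h3
  simpa using h3

/-- A weight vector which does not vanish at a given point of the source. -/
lemma torus3_exists_weight {H : R} (hH : IsContactTorus 𝒜 P H) {a : ℤ} {y : R →ₐ[ℂ] ℂ}
    (hy : HasSlope 𝒜 P H y a) : ∃ k₀ : ℕ, 0 < k₀ ∧ ∃ b ∈ Wt 𝒜 P H k₀ (a * k₀), y b ≠ 0 := by
  have h1 : ∃ k : ℕ, 0 < k ∧ ∃ r ∈ 𝒜 k, y r ≠ 0 := by
    have := hy.1
    unfold IsVertex at this
    push Not at this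
    exact this
  obtain ⟨k, hk, r, hr, hyr⟩ := h1
  refine ⟨k, hk, ?_⟩
  by_contra hcon
  push Not at hcon
  refine hyr (hH.forall_of_Wt y.toLinearMap k (fun m s hs => ?_) r hr)
  by_cases hm : m = a * k
  · subst hm
    exact hcon s hs
  · exact ((hasSlope_iff hH y a).1 hy).2 k m s hs hm

/-- Key lemma: the flow of `b` moves points of the source to fixed points of smaller slope. -/
theorem flow_limit (hX : IsContactFano 𝒜 P) {H : R} (hH : IsContactTorus 𝒜 P H)
    {a : ℤ} (hmax : IsMaxSlope 𝒜 P H a) (ha : 0 < a) {y : R →ₐ[ℂ] ℂ} (hy : HasSlope 𝒜 P H y a)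
    {k₀ : ℕ} (hk₀ : 0 < k₀) {b : R} (hb : b ∈ Wt 𝒜 P H k₀ (a * k₀)) (hyb : y b ≠ 0) :
    ∃ d : ℕ, 2 ≤ d ∧ ∃ q : R →ₐ[ℂ] ℂ, HasSlope 𝒜 P H q (-(a * ((d : ℤ) - 1))) ∧
      ∀ k, ∀ r ∈ 𝒜 k, q r = ((d * k).factorial : ℂ)⁻¹ * y ((⇑(hX.ham b))^[d * k] r) := by
  have hD : ∀ r, ∃ n, (⇑(hX.ham b))^[n] r = 0 :=
    exists_iterate_eq_zero hX hH hmax ha hk₀ hb
  obtain ⟨τ, hτ⟩ := exists_taylor (hX.ham b) hD y
  have hne : ∃ k, 0 < k ∧ ∃ r ∈ 𝒜 k, τ r ≠ 0 := by
    refine ⟨k₀, hk₀, b, (mem_Wt.1 hb).1, fun h => hyb ?_⟩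
    have := hτ b 0
    rw [h] at this
    simpa using this.symm
  obtain ⟨d, q, hqv, hdeg, hq⟩ := hX.exists_limit τ hne
  have hform : ∀ k, ∀ r ∈ 𝒜 k,
      q r = ((d * k).factorial : ℂ)⁻¹ * y ((⇑(hX.ham b))^[d * k] r) := by
    intro k r hr
    rw [hq k r hr, hτ]
  have hslope : HasSlope 𝒜 P H q (-(a * ((d : ℤ) - 1))) := by
    rw [hasSlope_iff hH]
    refine ⟨hqv, fun k m r hr hm => ?_⟩
    rw [hform k r (mem_Wt.1 hr).1]
    have h1 := iterate_mem_Wt hX hk₀ hb k m r hr (d * k)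
    have h2 := ((hasSlope_iff hH y a).1 hy).2 _ _ _ h1 (by
      intro h
      apply hm
      have h3 : ((k₀ - 1 : ℕ) : ℤ) = (k₀ : ℤ) - 1 := by
        rw [Nat.cast_sub (by omega)]
        simp
      push_cast at h
      rw [h3] at h
      linear_combination h)
    rw [h2, mul_zero]
  have hc1 : (τ H).coeff 1 ≠ 0 := by
    rw [hτ]
    have h1 : (⇑(hX.ham b))^[1] H = - P H b := by
      rw [Function.iterate_one, hX.ham_apply, hX.skew]
    rw [h1, (mem_Wt.1 hb).2, map_neg, map_smul]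
    have h2 : (a : ℂ) ≠ 0 := by exact_mod_cast ha.ne'
    have h3 : (k₀ : ℂ) ≠ 0 := by exact_mod_cast hk₀.ne'
    simp [h2, h3, hyb]
  have hd0 : d ≠ 0 := by
    rintro rfl
    have h1 := hdeg 1 H hH.mem
    rw [zero_mul] at h1
    exact hc1 (coeff_eq_zero_of_natDegree_lt (by omega))
  have hd1 : d ≠ 1 := by
    rintro rfl
    have h1 : q H ≠ 0 := by
      rw [hq 1 H hH.mem]
      exact hc1
    refine h1 (torus3_slope_zero hX hH.mem ?_)
    simpa using hslope
  exact ⟨d, by omega, q, hslope, hform⟩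

/-- One half of the symmetry. -/
lemma torus3_le (hX : IsContactFano 𝒜 P) {H : R} (hH : IsContactTorus 𝒜 P H)
    {a b : ℤ} (ha : IsMaxSlope 𝒜 P H a) (hb : IsMaxSlope 𝒜 P (-H) b) (ha0 : 0 < a) : a ≤ b := by
  obtain ⟨y, hy⟩ := ha.exists_slope
  obtain ⟨k₀, hk₀, v, hv, hyv⟩ := torus3_exists_weight hH hy
  obtain ⟨d, hd, q, hq, -⟩ := flow_limit hX hH ha ha0 hy hk₀ hv hyv
  have h1 := hb.slope_le hH.neg hq.neg
  rw [neg_neg] at h1
  have h2 : (1 : ℤ) ≤ (d : ℤ) - 1 := by omega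
  nlinarith

/-- The extremal slopes of a contact torus are opposite. -/
theorem IsMaxSlope.symm (hX : IsContactFano 𝒜 P) {H : R} (hH : IsContactTorus 𝒜 P H)
    {a b : ℤ} (ha : IsMaxSlope 𝒜 P H a) (hb : IsMaxSlope 𝒜 P (-H) b) : a = b ∧ 0 < a := by
  have ha' : IsMaxSlope 𝒜 P (-(-H)) a := by rwa [neg_neg]
  by_cases h1 : 0 < a
  · have h2 := torus3_le hX hH ha hb h1
    have h3 := torus3_le hX hH.neg hb ha' (h1.trans_le h2)
    exact ⟨le_antisymm h2 h3, h1⟩
  by_cases h2 : 0 < b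
  · have h3 := torus3_le hX hH.neg hb ha' h2
    exact absurd (h2.trans_le h3) h1
  exfalso
  rw [not_lt] at h1 h2
  refine hH.ne_zero (hX.eq_zero_of_forall_P_eq_zero H hH.mem fun r => ?_)
  have h3 := forall_of_homogeneous' (𝒜 := 𝒜) (P H) 0 (fun k r hr => by
    rw [LinearMap.zero_apply]
    refine hH.forall_of_Wt (P H) k (fun m s hs => ?_) r hr
    by_cases hs0 : s = 0
    · rw [hs0, map_zero]
    have h4 := ha.le k m s hs hs0
    have h5 := hb.le k (-m) s (by rw [Wt_neg, neg_neg]; exact hs) hs0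
    have h6 : (0 : ℤ) ≤ k := Int.natCast_nonneg k
    have h7 : a * k ≤ 0 := mul_nonpos_of_nonpos_of_nonneg h1 h6
    have h8 : b * k ≤ 0 := mul_nonpos_of_nonpos_of_nonneg h2 h6
    have h9 : m = 0 := by omega
    rw [(mem_Wt.1 hs).2, h9]
    simp) r
  simpa using h3

/-- The extremal slopes of a contact torus are opposite. -/
theorem IsMaxSlope.neg (hX : IsContactFano 𝒜 P) {H : R} (hH : IsContactTorus 𝒜 P H)
    {a : ℤ} (ha : IsMaxSlope 𝒜 P H a) : IsMaxSlope 𝒜 P (-H) a ∧ 0 < a := by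
  obtain ⟨b, hb⟩ := exists_isMaxSlope hX hH.neg
  obtain ⟨rfl, h⟩ := ha.symm hX hH hb
  exact ⟨hb, h⟩

/-- The flow of `b` moves points of the source to the sink. -/
theorem flow_limit_two (hX : IsContactFano 𝒜 P) {H : R} (hH : IsContactTorus 𝒜 P H)
    {a : ℤ} (hmax : IsMaxSlope 𝒜 P H a) {y : R →ₐ[ℂ] ℂ} (hy : HasSlope 𝒜 P H y a)
    {k₀ : ℕ} (hk₀ : 0 < k₀) {b : R} (hb : b ∈ Wt 𝒜 P H k₀ (a * k₀)) (hyb : y b ≠ 0) :
    ∃ q : R →ₐ[ℂ] ℂ, HasSlope 𝒜 P H q (-a) ∧
      ∀ k, ∀ r ∈ 𝒜 k, q r = ((2 * k).factorial : ℂ)⁻¹ * y ((⇑(hX.ham b))^[2 * k] r) := by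
  obtain ⟨hneg, ha⟩ := hmax.neg hX hH
  obtain ⟨d, hd, q, hq, hform⟩ := flow_limit hX hH hmax ha hy hk₀ hb hyb
  have h1 := hneg.slope_le hH.neg hq.neg
  rw [neg_neg] at h1
  have hd2 : d = 2 := by
    have h2 : (d : ℤ) - 1 ≤ 1 := by
      by_contra hcon
      rw [not_le] at hcon
      nlinarith
    omega
  subst hd2
  refine ⟨q, ?_, hform⟩
  have h3 : (-(a * (((2 : ℕ) : ℤ) - 1))) = -a := by push_cast; ring
  rwa [h3] at hq

end Vale.Agent.P292
end

section

/-! # Theorem E: definitions.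

`R = ⊕ H⁰(X, L^k)`, `P = {·,·}`, `H ∈ R_1` contact torus with maximal slope `a > 0`
(and minimal slope `-a`).  `Wt 𝒜 P H k m` = elements of degree `k` and weight `m`.
`A₊ = ⊕ Wt k (a k)`, `A₋ = ⊕ Wt k (- a k)` (= `A₊` for `-H`).
All Points are algebra homomorphisms `x : R →ₐ[ℂ] B`. -/

namespace Vale.Agent.P292

open Module

universe u v

/-- The standing assumptions of Theorem E. -/
structure Ctx {R : Type u} [CommRing R] [Algebra ℂ R] (𝒜 : ℕ → Submodule ℂ R)
    [GradedAlgebra 𝒜] (P : R →ₗ[ℂ] R →ₗ[ℂ] R) (H : R) (a : ℤ) : Prop where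
  hX : IsContactFano 𝒜 P
  hH : IsContactTorus 𝒜 P H
  hmax : IsMaxSlope 𝒜 P H a

section
variable {R : Type u} [CommRing R] [Algebra ℂ R] (𝒜 : ℕ → Submodule ℂ R)
  (P : R →ₗ[ℂ] R →ₗ[ℂ] R) (H : R) (a : ℤ)

/-- The algebra `A₊` of the functions of extremal slope.  `A₋` is `Ap 𝒜 P (-H) a`. -/
def Ap : Subalgebra ℂ R := Algebra.adjoin ℂ {r | ∃ k : ℕ, r ∈ Wt 𝒜 P H k (a * k)}

variable {B : Type v} [CommRing B] [Algebra ℂ B]

/-- `x` kills all weights not divisible by `a`. -/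
def TypeW (x : R →ₐ[ℂ] B) : Prop :=
  ∀ (k : ℕ) (m : ℤ), ¬ a ∣ m → ∀ r ∈ Wt 𝒜 P H k m, x r = 0

/-- `x` factors through the projection to `A₊`. -/
def PureA (x : R →ₐ[ℂ] B) : Prop :=
  ∀ (k : ℕ) (m : ℤ), m ≠ a * k → ∀ r ∈ Wt 𝒜 P H k m, x r = 0

/-- `x` does not restrict to the vertex of `Spec A₊`. -/
def NV (x : R →ₐ[ℂ] B) : Prop :=
  ∃ k : ℕ, 0 < k ∧ ∃ r ∈ Wt 𝒜 P H k (a * k), x r ≠ 0

/-- `x` is injective on `A₊`. -/
def InjA (x : R →ₐ[ℂ] B) : Prop := ∀ r ∈ Ap 𝒜 P H a, x r = 0 → r = 0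

/-- There is a line: a closed point of type W, not in the source itself, with nonvertex
limit in the source and whose restriction to `A₋` is the vertex. -/
def HasLine : Prop :=
  ∃ x : R →ₐ[ℂ] ℂ, TypeW 𝒜 P H a x ∧ NV 𝒜 P H a x ∧ ¬ NV 𝒜 P (-H) a x ∧
    ∃ (k : ℕ) (m : ℤ), m ≠ a * k ∧ ∃ r ∈ Wt 𝒜 P H k m, x r ≠ 0

/-- A frame: `n` homogeneous elements `b i` of `A₊` of positive degree and `n` elements `r i` of
weights `a k - a` (defect one). -/
structure Frame (n : ℕ) where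
  b : Fin n → R
  kb : Fin n → ℕ
  kb_pos : ∀ i, 0 < kb i
  hb : ∀ i, b i ∈ Wt 𝒜 P H (kb i) (a * kb i)
  r : Fin n → R
  kr : Fin n → ℕ
  hr : ∀ i, r i ∈ Wt 𝒜 P H (kr i) (a * kr i - a)

end

section
variable {R : Type u} [CommRing R] [Algebra ℂ R] {𝒜 : ℕ → Submodule ℂ R}
  {P : R →ₗ[ℂ] R →ₗ[ℂ] R} {H : R} {a : ℤ} {n : ℕ}

/-- The matrix `{b i, r j}` of a frame (entries in `A₊`). -/
def Frame.mat (f : Frame 𝒜 P H a n) : Matrix (Fin n) (Fin n) R :=
  Matrix.of fun i j => P (f.b i) (f.r j)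

/-- The determinant of a frame (in `A₊`). -/
def Frame.Δ (f : Frame 𝒜 P H a n) : R := f.mat.det

/-- The `b i` generate the cotangent space of `Spec A₊` at `y`. -/
def Frame.Complete (f : Frame 𝒜 P H a n) (y : R →ₐ[ℂ] ℂ) : Prop :=
  ∀ c ∈ Ap 𝒜 P H a, ∃ γ : Fin n → ℂ,
    (c - algebraMap ℂ R (y c)) - ∑ i, γ i • (f.b i - algebraMap ℂ R (y (f.b i))) ∈
      RingHom.ker y ^ 2

/-- `e r = exp (∑ T_i {b i, ·}) r`. -/
structure IsExp (P : R →ₗ[ℂ] R →ₗ[ℂ] R) (b : Fin n → R)
    (e : R →ₐ[ℂ] MvPolynomial (Fin n) R) : Prop where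
  pderiv : ∀ i r, MvPolynomial.pderiv i (e r) = e (P (b i) r)
  const : ∀ r, MvPolynomial.constantCoeff (e r) = r

/-- Parametrised cells of the source: homomorphisms `R → κ[T]` like
`r ↦ y (exp (∑ T_i {b i, ·}) r)`. -/
structure IsCell (𝒜 : ℕ → Submodule ℂ R) (P : R →ₗ[ℂ] R →ₗ[ℂ] R) (H : R) (a : ℤ)
    {κ : Type v} [Field κ] [Algebra ℂ κ] (Ψ : R →ₐ[ℂ] MvPolynomial (Fin n) κ) : Prop where
  typeW : TypeW 𝒜 P H a Ψ
  homog : ∀ (k j : ℕ), ∀ r ∈ Wt 𝒜 P H k (a * k - a * j), (Ψ r).IsHomogeneous j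
  nonvertex : NV 𝒜 P H a Ψ
  lin : ∀ i, (MvPolynomial.X i : MvPolynomial (Fin n) κ) ∈
    Submodule.span κ {p | ∃ (k : ℕ), ∃ r ∈ Wt 𝒜 P H k (a * k - a), p = Ψ r}
  ne : Ψ H ≠ 0

/-- A line in `Spec A₊`, not through the vertex. -/
structure IsLine (𝒜 : ℕ → Submodule ℂ R) (P : R →ₗ[ℂ] R →ₗ[ℂ] R) (H : R) (a : ℤ)
    {κ : Type v} [Field κ] [Algebra ℂ κ] (μ : R →ₐ[ℂ] MvPolynomial (Fin 2) κ) : Prop where
  pure : PureA 𝒜 P H a μ
  homog : ∀ (k : ℕ), ∀ c ∈ Wt 𝒜 P H k (a * k), (μ c).IsHomogeneous k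
  nonvertex : ∀ u : Fin 2 → κ, u ≠ 0 →
    ∃ k : ℕ, 0 < k ∧ ∃ c ∈ Wt 𝒜 P H k (a * k), MvPolynomial.eval u (μ c) ≠ 0
  inj : InjA 𝒜 P H a μ

end

end Vale.Agent.P292
end

section

/-! # The bigrading by degree and weight; construction of homomorphisms piece by piece. -/

namespace Vale.Agent.P292

open Module

universe u v

variable {R : Type u} [CommRing R] [Algebra ℂ R] {𝒜 : ℕ → Submodule ℂ R} [GradedAlgebra 𝒜]
  {P : R →ₗ[ℂ] R →ₗ[ℂ] R} {H : R} {a : ℤ}

lemma Wt_one (hX : IsContactFano 𝒜 P) : (1 : R) ∈ Wt 𝒜 P H 0 0 := by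
  rw [mem_Wt]
  exact ⟨SetLike.GradedOne.one_mem, by simp [hX.P_one_right]⟩

/-- The operator `euler + i {H, ·}` has eigenvalue `k + m i` on `Wt k m`. -/
lemma Wt_le_maxGen (k : ℕ) (m : ℤ) : Wt 𝒜 P H k m ≤
    Module.End.maxGenEigenspace (euler 𝒜 + Complex.I • P H : End ℂ R)
      ((k : ℂ) + m * Complex.I) := by
  intro r hr
  apply mem_maxGen_of_eq_smul
  obtain ⟨h1, h2⟩ := mem_Wt.mp hr
  simp only [LinearMap.add_apply, LinearMap.smul_apply, euler_apply k r h1, h2]
  module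

lemma bideg_injective : Function.Injective
    (fun i : ℕ × ℤ => ((i.1 : ℂ) + i.2 * Complex.I)) := by
  rintro ⟨k, m⟩ ⟨l, n⟩ h
  have h1 := congrArg Complex.re h
  have h2 := congrArg Complex.im h
  simp at h1 h2
  have h3 : k = l := by exact_mod_cast h1
  have h4 : m = n := by exact_mod_cast h2
  rw [h3, h4]

lemma Wt_iSupIndep : iSupIndep (fun i : ℕ × ℤ => Wt 𝒜 P H i.1 i.2) :=
  ((Module.End.independent_maxGenEigenspace
    (euler 𝒜 + Complex.I • P H : End ℂ R)).comp bideg_injective).mono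
    fun i => Wt_le_maxGen i.1 i.2

lemma Wt_iSup (hH : IsContactTorus 𝒜 P H) :
    ⨆ i : ℕ × ℤ, Wt 𝒜 P H i.1 i.2 = ⊤ := by
  classical
  rw [eq_top_iff]
  rintro r -
  rw [← DirectSum.sum_support_decompose 𝒜 r]
  refine sum_mem fun k _ => ?_
  refine (iSup_le fun m b hb => ?_ : (⨆ m, Wt 𝒜 P H k m) ≤ _)
    (hH.weights k (DirectSum.decompose 𝒜 r k).2)
  exact Submodule.mem_iSup_of_mem ((k, m) : ℕ × ℤ) hb

/-- The bigrading. -/
@[instance_reducible]
noncomputable def bigrading (hX : IsContactFano 𝒜 P) (hH : IsContactTorus 𝒜 P H) :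
    GradedAlgebra (fun i : ℕ × ℤ => Wt 𝒜 P H i.1 i.2) :=
  { one_mem := Wt_one hX
    mul_mem := fun _ _ _ _ ha hb => Wt_mul hX ha hb
    toDecomposition := (DirectSum.isInternal_submodule_of_iSupIndep_of_iSup_eq_top
      Wt_iSupIndep (Wt_iSup hH)).chooseDecomposition }

/-- Induction on elements. -/
theorem Wt_induction (hH : IsContactTorus 𝒜 P H) {p : R → Prop}
    (hadd : ∀ r s, p r → p s → p (r + s)) (h0 : p 0)
    (h : ∀ k m, ∀ r ∈ Wt 𝒜 P H k m, p r) (r : R) : p r := by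
  have hr : r ∈ ⨆ i : ℕ × ℤ, Wt 𝒜 P H i.1 i.2 := by rw [Wt_iSup hH]; trivial
  exact Submodule.iSup_induction _ (motive := p) hr (fun i x hx => h i.1 i.2 x hx) h0 hadd

theorem linearMap_ext_of_Wt (hH : IsContactTorus 𝒜 P H) {M : Type*} [AddCommMonoid M]
    [Module ℂ M] {f g : R →ₗ[ℂ] M} (h : ∀ k m, ∀ r ∈ Wt 𝒜 P H k m, f r = g r) : f = g := by
  ext r
  refine Wt_induction hH (p := fun r => f r = g r) ?_ (by simp) h r
  intro r s hr hs
  rw [map_add, map_add, hr, hs]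

/-- (BIG) Piecewise definition of algebra homomorphisms. -/
theorem exists_algHom_of_Wt (hX : IsContactFano 𝒜 P) (hH : IsContactTorus 𝒜 P H)
    {B : Type v} [CommRing B] [Algebra ℂ B] (F : ℕ → ℤ → R →ₗ[ℂ] B) (h1 : F 0 0 1 = 1)
    (hmul : ∀ k l m n, ∀ r ∈ Wt 𝒜 P H k m, ∀ s ∈ Wt 𝒜 P H l n,
      F (k + l) (m + n) (r * s) = F k m r * F l n s) :
    ∃ x : R →ₐ[ℂ] B, ∀ k m, ∀ r ∈ Wt 𝒜 P H k m, x r = F k m r := by
  classical
  let Bi : ℕ × ℤ → Submodule ℂ R := fun i => Wt 𝒜 P H i.1 i.2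
  let inst : GradedAlgebra Bi := bigrading hX hH
  let G : ∀ i, (Bi i) →ₗ[ℂ] B := fun i => (F i.1 i.2) ∘ₗ (Bi i).subtype
  have hG : ∀ i (r : Bi i), G i r = F i.1 i.2 (r : R) := fun i r => rfl
  let c₀ : (DirectSum (ℕ × ℤ) fun k => Bi k) →ₐ[ℂ] B :=
    DirectSum.toAlgebra ℂ (fun k => Bi k) G (by
      change F 0 0 (1 : R) = 1
      exact h1) (by
      intro i j a b
      change F (i.1 + j.1) (i.2 + j.2) ((a : R) * (b : R)) = _
      rw [hG, hG]
      exact hmul _ _ _ _ _ a.2 _ b.2)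
  refine ⟨c₀.comp (DirectSum.decomposeAlgEquiv Bi).toAlgHom, fun k m r hr => ?_⟩
  have hr' : r ∈ Bi (k, m) := hr
  have e2 : (DirectSum.decomposeAlgEquiv Bi) r = DirectSum.of (fun k => Bi k) (k, m) ⟨r, hr'⟩ := by
    rw [DirectSum.decomposeAlgEquiv_apply, DirectSum.decompose_of_mem Bi hr']
  change c₀ ((DirectSum.decomposeAlgEquiv Bi) r) = _
  rw [e2]
  change DirectSum.toModule ℂ (ℕ × ℤ) B G (DirectSum.lof ℂ (ℕ × ℤ) (fun k => Bi k) (k, m) ⟨r, hr'⟩)
    = _
  rw [DirectSum.toModule_lof]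
  rfl

/-- Twisting a homomorphism by a character of the torus. -/
theorem exists_twist (hX : IsContactFano 𝒜 P) (hH : IsContactTorus 𝒜 P H)
    {B : Type v} [CommRing B] [Algebra ℂ B] (x : R →ₐ[ℂ] B) (χ : ℕ → ℤ → B) (h1 : χ 0 0 = 1)
    (hmul : ∀ k l m n, (∃ r ∈ Wt 𝒜 P H k m, x r ≠ 0) → (∃ s ∈ Wt 𝒜 P H l n, x s ≠ 0) →
      χ (k + l) (m + n) = χ k m * χ l n) :
    ∃ x' : R →ₐ[ℂ] B, ∀ k m, ∀ r ∈ Wt 𝒜 P H k m, x' r = χ k m * x r := by
  refine exists_algHom_of_Wt hX hH (fun k m => (LinearMap.mulLeft ℂ (χ k m)) ∘ₗ x.toLinearMap)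
    ?_ ?_
  · change χ 0 0 * x 1 = 1
    rw [h1, map_one, mul_one]
  · intro k l m n r hr s hs
    change χ (k + l) (m + n) * x (r * s) = (χ k m * x r) * (χ l n * x s)
    rw [map_mul]
    by_cases hxr : x r = 0
    · rw [hxr]; ring
    by_cases hxs : x s = 0
    · rw [hxs]; ring
    rw [hmul k l m n ⟨r, hr, hxr⟩ ⟨s, hs, hxs⟩]
    ring

lemma Wt_unique {k l : ℕ} {m n : ℤ} {r : R} (hr : r ≠ 0) (h1 : r ∈ Wt 𝒜 P H k m)
    (h2 : r ∈ Wt 𝒜 P H l n) : k = l ∧ m = n := by
  constructor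
  · by_contra hne
    exact hr (by
      have := DirectSum.decompose_of_mem_ne 𝒜 (mem_Wt.mp h1).1 hne
      rwa [DirectSum.decompose_of_mem_same 𝒜 (mem_Wt.mp h2).1] at this)
  · have h3 := (mem_Wt.mp h1).2
    rw [(mem_Wt.mp h2).2] at h3
    have h4 : ((n : ℂ) - (m : ℂ)) • r = 0 := by rw [sub_smul, h3, sub_self]
    rcases smul_eq_zero.mp h4 with h | h
    · rw [sub_eq_zero] at h; exact (by exact_mod_cast h.symm)
    · exact absurd h hr

/-- Bihomogeneous generators. -/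
theorem exists_Wt_generators (hX : IsContactFano 𝒜 P) (hH : IsContactTorus 𝒜 P H) :
    ∃ s : Finset R, Algebra.adjoin ℂ (s : Set R) = ⊤ ∧
      ∀ g ∈ s, g ≠ 0 ∧ ∃ (k : ℕ) (m : ℤ), 0 < k ∧ g ∈ Wt 𝒜 P H k m := by
  classical
  have := hX.finiteType
  obtain ⟨s, hs, hn⟩ := exists_generators 𝒜 hX.connected
  let Bi : ℕ × ℤ → Submodule ℂ R := fun i => Wt 𝒜 P H i.1 i.2
  let inst : GradedAlgebra Bi := bigrading hX hH
  let F : Finset R := s.biUnion fun t =>
    (DirectSum.decompose Bi t).support.image fun i => (DirectSum.decompose Bi t i : R)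
  refine ⟨F.filter fun r => r ≠ 0 ∧ ∃ (k : ℕ) (m : ℤ), 0 < k ∧ r ∈ Wt 𝒜 P H k m, ?_, ?_⟩
  · rw [← top_le_iff, ← hs, Algebra.adjoin_le_iff]
    intro t ht
    rw [← DirectSum.sum_support_decompose Bi t]
    refine sum_mem fun i hi => ?_
    by_cases h0 : (DirectSum.decompose Bi t i : R) = 0
    · rw [h0]; exact zero_mem _
    rcases Nat.eq_zero_or_pos i.1 with h | h
    · have h2 : (DirectSum.decompose Bi t i : R) ∈ 𝒜 0 := by
        have h3 := (mem_Wt.mp (DirectSum.decompose Bi t i).2).1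
        rwa [h] at h3
      obtain ⟨c, hc⟩ := hX.connected _ h2
      rw [hc]
      exact Subalgebra.algebraMap_mem _ c
    · refine Algebra.subset_adjoin ?_
      rw [Finset.mem_coe, Finset.mem_filter]
      refine ⟨?_, h0, i.1, i.2, h, (DirectSum.decompose Bi t i).2⟩
      rw [Finset.mem_biUnion]
      exact ⟨t, ht, Finset.mem_image.mpr ⟨i, hi, rfl⟩⟩
  · intro g hg
    rw [Finset.mem_filter] at hg
    exact hg.2

/-- Induction on weight vectors along bihomogeneous generators: to prove a statement on all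
elements of `Wt k m` closed under linear combinations it is enough to treat products. -/
theorem Wt_le_of_generators (hX : IsContactFano 𝒜 P) (hH : IsContactTorus 𝒜 P H)
    {s : Finset R} (hs : Algebra.adjoin ℂ (s : Set R) = ⊤)
    (hg : ∀ g ∈ s, ∃ (k : ℕ) (m : ℤ), g ∈ Wt 𝒜 P H k m)
    (M : ℕ → ℤ → Submodule ℂ R) (h1 : (1 : R) ∈ M 0 0)
    (hmul : ∀ g ∈ s, ∀ k m, g ∈ Wt 𝒜 P H k m → ∀ l n, ∀ r ∈ M l n, r ∈ Wt 𝒜 P H l n →
      g * r ∈ M (k + l) (m + n)) (k : ℕ) (m : ℤ) : Wt 𝒜 P H k m ≤ M k m := by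
  classical
  intro r hr
  let Bi : ℕ × ℤ → Submodule ℂ R := fun i => Wt 𝒜 P H i.1 i.2
  let inst : GradedAlgebra Bi := bigrading hX hH
  have hcl : ∀ x ∈ Submonoid.closure (s : Set R), ∃ l n, x ∈ M l n ∧ x ∈ Wt 𝒜 P H l n := by
    intro x hx
    induction hx using Submonoid.closure_induction_left with
    | one => exact ⟨0, 0, h1, Wt_one hX⟩
    | mul_left t ht y hy ih =>
      obtain ⟨l, n, h2, h3⟩ := ih
      obtain ⟨k, m, h4⟩ := hg t ht
      exact ⟨k + l, m + n, hmul t ht k m h4 l n y h2 h3, Wt_mul hX h4 h3⟩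
  have key : ∀ (r : R) (i : ℕ × ℤ), GradedAlgebra.proj Bi i r ∈ M i.1 i.2 := by
    intro r i
    have hr : r ∈ Submodule.span ℂ (Submonoid.closure (s : Set R) : Set R) := by
      rw [← Algebra.adjoin_eq_span, hs]; trivial
    induction hr using Submodule.span_induction with
    | zero => rw [map_zero]; exact zero_mem _
    | add x y _ _ hx hy => rw [map_add]; exact add_mem hx hy
    | smul c x _ hx => rw [map_smul]; exact Submodule.smul_mem _ _ hx
    | mem x hx =>
      obtain ⟨l, n, h2, h3⟩ := hcl x hx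
      have h3' : x ∈ Bi (l, n) := h3
      rw [GradedAlgebra.proj_apply]
      by_cases h : (l, n) = i
      · subst h
        rwa [DirectSum.decompose_of_mem_same Bi h3']
      · rw [DirectSum.decompose_of_mem_ne Bi h3' h]
        exact zero_mem _
  have hr' : r ∈ Bi (k, m) := hr
  have := key r (k, m)
  rwa [GradedAlgebra.proj_apply, DirectSum.decompose_of_mem_same Bi hr'] at this

end Vale.Agent.P292
end

section

/-! # Section 1: points. -/

namespace Vale.Agent.P292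

open Module

universe u v

variable {R : Type u} [CommRing R] [Algebra ℂ R] {𝒜 : ℕ → Submodule ℂ R} [GradedAlgebra 𝒜]
  {P : R →ₗ[ℂ] R →ₗ[ℂ] R} {H : R} {a : ℤ}

/-- (S1a) for a prime ideal. -/
theorem exists_closed_of_prime (hX : IsContactFano 𝒜 P) (I : Ideal R)
    (hI : ∀ (r : R) (n : ℕ), r ^ n ∈ I → r ∈ I) (g : R) (hg : g ∉ I) :
    ∃ x : R →ₐ[ℂ] ℂ, (∀ r ∈ I, x r = 0) ∧ x g ≠ 0 := by
  have := hX.finiteType
  by_contra hcon
  push Not at hcon
  obtain ⟨n, hn⟩ := mem_radical_of_forall I g hcon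
  exact hg (hI g n hn)

/-- (S1a) -/
theorem exists_closed (hX : IsContactFano 𝒜 P) {B : Type v} [CommRing B] [IsDomain B]
    [Algebra ℂ B] (x : R →ₐ[ℂ] B) (g : R) (hg : x g ≠ 0) :
    ∃ x' : R →ₐ[ℂ] ℂ, (∀ r, x r = 0 → x' r = 0) ∧ x' g ≠ 0 := by
  obtain ⟨x', h1, h2⟩ := exists_closed_of_prime hX (RingHom.ker x) (fun r n h => by
    rw [RingHom.mem_ker, map_pow] at h
    rw [RingHom.mem_ker]
    exact eq_zero_of_pow_eq_zero h) g (by rwa [RingHom.mem_ker])
  exact ⟨x', fun r hr => h1 r (by rwa [RingHom.mem_ker]), h2⟩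

/-- Closed points above a valuation ring. -/
theorem exists_closed_of_valuation (hX : IsContactFano 𝒜 P) {K : Type v} [Field K]
    [Algebra ℂ K] {Γ : Type*} [LinearOrderedCommGroupWithZero Γ] (v : Valuation K Γ)
    (x : R →ₐ[ℂ] K) (hx : ∀ r, v (x r) ≤ 1) (g : R) (hg : ¬ v (x g) < 1) :
    ∃ w : R →ₐ[ℂ] ℂ, (∀ r, v (x r) < 1 → w r = 0) ∧ w g ≠ 0 := by
  let I : Ideal R :=
    { carrier := {r | v (x r) < 1}
      add_mem' := fun {r s} hr hs => by
        change v (x (r + s)) < 1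
        rw [map_add]
        exact v.map_add_lt hr hs
      zero_mem' := by
        change v (x 0) < 1
        rw [map_zero, map_zero]; exact zero_lt_one
      smul_mem' := fun c r hr => by
        change v (x (c • r)) < 1
        rw [smul_eq_mul, map_mul, map_mul]
        exact (mul_le_of_le_one_left' (hx c)).trans_lt hr }
  exact exists_closed_of_prime hX I (fun r n h => by
    change v (x (r ^ n)) < 1 at h
    change v (x r) < 1
    by_contra hcon
    rw [not_lt] at hcon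
    have h1 : v (x r) = 1 := le_antisymm (hx r) hcon
    rw [map_pow, map_pow, h1, one_pow] at h
    exact lt_irrefl _ h) g hg

lemma Wt_zero_eq (hX : IsContactFano 𝒜 P) {m : ℤ} (hm : m ≠ 0) {r : R}
    (hr : r ∈ Wt 𝒜 P H 0 m) : r = 0 := by
  obtain ⟨h1, h2⟩ := mem_Wt.mp hr
  obtain ⟨c, rfl⟩ := hX.connected r h1
  rw [hX.P_algebraMap_right] at h2
  rcases smul_eq_zero.mp h2.symm with h | h
  · exact absurd (by exact_mod_cast h) hm
  · exact h

lemma pos_of_ne_zero_of_Wt (hX : IsContactFano 𝒜 P) {k : ℕ} {m : ℤ} (hm : m ≠ 0) {r : R}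
    (hr : r ∈ Wt 𝒜 P H k m) (hr0 : r ≠ 0) : 0 < k := by
  rcases Nat.eq_zero_or_pos k with rfl | hk
  · exact absurd (Wt_zero_eq hX hm hr) hr0
  · exact hk

lemma IsMaxSlope.le' (hX : IsContactFano 𝒜 P) (hH : IsContactTorus 𝒜 P H)
    (hmax : IsMaxSlope 𝒜 P H a) {k : ℕ} {m : ℤ} {r : R}
    (hr : r ∈ Wt 𝒜 P H k m) (hr0 : r ≠ 0) : |m| ≤ a * k := by
  rw [abs_le]
  refine ⟨?_, hmax.le k m r hr hr0⟩
  have := (hmax.neg hX hH).1.le k (-m) r (by rw [Wt_neg, neg_neg]; exact hr) hr0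
  linarith

/-- A point which does not kill an element of degree `k` does not kill a weight vector of
degree `k`. -/
lemma exists_Wt_of_ne (hH : IsContactTorus 𝒜 P H) {B : Type v} [CommRing B] [Algebra ℂ B]
    (x : R →ₐ[ℂ] B) {k : ℕ} {r : R} (hr : r ∈ 𝒜 k) (hxr : x r ≠ 0) :
    ∃ m, ∃ s ∈ Wt 𝒜 P H k m, x s ≠ 0 := by
  by_contra hcon
  push Not at hcon
  exact hxr (hH.forall_of_Wt x.toLinearMap k hcon r hr)

/-- (SLOPE) A fixed point of type W has slope `a`, `0` or `-a`. -/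
theorem slope_trichotomy (hX : IsContactFano 𝒜 P) (hH : IsContactTorus 𝒜 P H)
    (hmax : IsMaxSlope 𝒜 P H a) {B : Type v} [CommRing B] [IsDomain B] [Algebra ℂ B]
    (x : R →ₐ[ℂ] B) (hW : TypeW 𝒜 P H a x) {k₀ : ℕ} {m₀ : ℤ} (hk₀ : 0 < k₀)
    {g : R} (hg : g ∈ Wt 𝒜 P H k₀ m₀) (hxg : x g ≠ 0)
    (hs : ∀ (k : ℕ) (m : ℤ), ∀ r ∈ Wt 𝒜 P H k m, x r ≠ 0 → m * k₀ = m₀ * k) :
    m₀ = a * k₀ ∨ m₀ = 0 ∨ m₀ = -(a * k₀) := by
  have ha : 0 < a := (hmax.neg hX hH).2
  obtain ⟨x', hx', hx'g⟩ := exists_closed hX x g hxg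
  have hv : ¬ IsVertex 𝒜 x' := fun h => hx'g (h k₀ hk₀ g (mem_Wt.mp hg).1)
  set D : ℕ := a.natAbs * k₀ with hD
  have hDa : (D : ℤ) = a * k₀ := by
    rw [hD]; push_cast; rw [abs_of_pos ha]
  have hD0 : 0 < D := Nat.mul_pos (Int.natAbs_pos.mpr ha.ne') hk₀
  set G : ℕ := Nat.gcd m₀.natAbs D with hG
  have hG0 : 0 < G := Nat.gcd_pos_of_pos_right _ hD0
  have key : D / G = 1 := by
    apply hX.lineBundle x' hv
    intro k r hr hr0
    obtain ⟨m, s, hs1, hs2⟩ := exists_Wt_of_ne hH x' hr hr0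
    have hxs : x s ≠ 0 := fun h => hs2 (hx' s h)
    have h1 := hs k m s hs1 hxs
    have h2 : a ∣ m := by
      by_contra h
      exact hxs (hW k m h s hs1)
    obtain ⟨j, rfl⟩ := h2
    have h3 : (D : ℤ) ∣ m₀ * k := ⟨j, by rw [hDa, ← h1]; ring⟩
    have h4 : D ∣ m₀.natAbs * k := by
      have := Int.natAbs_dvd_natAbs.mpr h3
      rwa [Int.natAbs_mul, Int.natAbs_natCast, Int.natAbs_natCast] at this
    have h5 : D / G ∣ (m₀.natAbs / G) * k := by
      obtain ⟨c, hc⟩ := h4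
      refine ⟨c, Nat.eq_of_mul_eq_mul_left hG0 ?_⟩
      calc G * (m₀.natAbs / G * k) = (G * (m₀.natAbs / G)) * k := by ring
        _ = m₀.natAbs * k := by rw [Nat.mul_div_cancel' (Nat.gcd_dvd_left _ _)]
        _ = D * c := hc
        _ = (G * (D / G)) * c := by rw [Nat.mul_div_cancel' (Nat.gcd_dvd_right _ _)]
        _ = _ := by ring
    exact (Nat.Coprime.dvd_of_dvd_mul_left (Nat.coprime_div_gcd_div_gcd hG0).symm h5)
  have h1 : D ∣ m₀.natAbs := by
    have h2 : D = G := by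
      have := Nat.div_mul_cancel (Nat.gcd_dvd_right m₀.natAbs D)
      rw [← hG, key, one_mul] at this
      exact this.symm
    rw [h2]; exact Nat.gcd_dvd_left _ _
  have h2 : (D : ℤ) ∣ m₀ := Int.natCast_dvd.mpr h1
  obtain ⟨t, ht⟩ := h2
  have h3 : |m₀| ≤ a * k₀ := hmax.le' hX hH hg (by rintro rfl; exact hxg (map_zero x))
  rw [ht, hDa, abs_mul, abs_of_pos (mul_pos ha (by exact_mod_cast hk₀))] at h3
  have h4 : 0 < a * (k₀ : ℤ) := mul_pos ha (by exact_mod_cast hk₀)
  have h5 : |t| ≤ 1 := by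
    by_contra hcon
    rw [not_le] at hcon
    nlinarith
  rw [abs_le] at h5
  have h6 : t = 1 ∨ t = 0 ∨ t = -1 := by omega
  rw [ht, hDa]
  rcases h6 with rfl | rfl | rfl
  · left; ring
  · right; left; ring
  · right; right; ring

/-- (MAXFACE) The limit of a point under the action. -/
theorem exists_maxface (hX : IsContactFano 𝒜 P) (hH : IsContactTorus 𝒜 P H)
    {B : Type v} [CommRing B] [Algebra ℂ B] (x : R →ₐ[ℂ] B)
    (hx : ∃ k : ℕ, 0 < k ∧ ∃ m, ∃ r ∈ Wt 𝒜 P H k m, x r ≠ 0) :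
    ∃ (k₀ : ℕ) (m₀ : ℤ), 0 < k₀ ∧ (∃ g ∈ Wt 𝒜 P H k₀ m₀, x g ≠ 0) ∧
      (∀ (k : ℕ) (m : ℤ), ∀ r ∈ Wt 𝒜 P H k m, x r ≠ 0 → m * k₀ ≤ m₀ * k) ∧
      ∃ x' : R →ₐ[ℂ] B, ∀ (k : ℕ) (m : ℤ), ∀ r ∈ Wt 𝒜 P H k m,
        x' r = if m * k₀ = m₀ * k then x r else 0 := by
  classical
  obtain ⟨s, hs, hg⟩ := exists_Wt_generators hX hH
  choose! hg0 K M hK hKM using hg
  have hex : ∃ g ∈ s, x g ≠ 0 := by
    by_contra hcon
    push Not at hcon
    obtain ⟨k, hk, m, r, hr, hxr⟩ := hx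
    have := Wt_le_of_generators hX hH hs (fun g hg => ⟨K g, M g, hKM g hg⟩)
      (fun k m => if k = 0 then ⊤ else LinearMap.ker x.toLinearMap) (by simp) (by
        intro g hg k m _ l n r _ _
        by_cases h : k + l = 0
        · rw [if_pos h]; trivial
        · rw [if_neg h, LinearMap.mem_ker]
          change x (g * r) = 0
          rw [map_mul, hcon g hg, zero_mul]) k m hr
    rw [if_neg hk.ne', LinearMap.mem_ker] at this
    exact hxr this
  obtain ⟨g₀, hg₀, hmax⟩ := Finset.exists_max_image (s.filter fun t => x t ≠ 0)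
    (fun t => ((M t : ℤ) : ℚ) / K t) (by
      obtain ⟨t, ht, ht'⟩ := hex
      exact ⟨t, Finset.mem_filter.mpr ⟨ht, ht'⟩⟩)
  rw [Finset.mem_filter] at hg₀
  have hk₀ : 0 < K g₀ := hK g₀ hg₀.1
  have hk₀' : (0 : ℤ) < K g₀ := by exact_mod_cast hk₀
  have hgen : ∀ g ∈ s, x g ≠ 0 → M g * K g₀ ≤ M g₀ * K g := by
    intro g hg hxg
    have h1 := hmax g (Finset.mem_filter.mpr ⟨hg, hxg⟩)
    have h2 : (0 : ℚ) < K g := by exact_mod_cast hK g hg
    have h3 : (0 : ℚ) < K g₀ := by exact_mod_cast hk₀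
    rw [div_le_div_iff₀ h2 h3] at h1
    exact_mod_cast h1
  have hbound : ∀ (k : ℕ) (m : ℤ), ∀ r ∈ Wt 𝒜 P H k m, x r ≠ 0 → m * K g₀ ≤ M g₀ * k := by
    intro k m r hr hxr
    by_contra hlt
    have := Wt_le_of_generators hX hH hs (fun g hg => ⟨K g, M g, hKM g hg⟩)
      (fun k m => if m * K g₀ ≤ M g₀ * k then ⊤ else LinearMap.ker x.toLinearMap) (by simp) (by
        intro g hg k m hgkm l n r hr _
        by_cases h : (m + n) * (K g₀ : ℤ) ≤ M g₀ * ((k + l : ℕ) : ℤ)
        · rw [if_pos h]; trivial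
        · rw [if_neg h, LinearMap.mem_ker]
          change x (g * r) = 0
          rw [map_mul]
          by_cases hxg : x g = 0
          · rw [hxg, zero_mul]
          by_cases hn : n * (K g₀ : ℤ) ≤ M g₀ * l
          · exfalso
            have hg1 : g ≠ 0 := hg0 g hg
            have h1 : k = K g := by
              have h2 := (mem_Wt.mp hgkm).1
              have h3 := (mem_Wt.mp (hKM g hg)).1
              by_contra hne
              exact hg1 (by
                have := DirectSum.decompose_of_mem_ne 𝒜 h2 hne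
                rwa [DirectSum.decompose_of_mem_same 𝒜 h3] at this)
            have h2 : m = M g := by
              have h2 := (mem_Wt.mp hgkm).2
              have h3 := (mem_Wt.mp (hKM g hg)).2
              rw [h2] at h3
              have h4 : ((m : ℂ) - (M g : ℂ)) • g = 0 := by rw [sub_smul, h3, sub_self]
              rcases smul_eq_zero.mp h4 with h | h
              · rw [sub_eq_zero] at h; exact_mod_cast h
              · exact absurd h hg1
            have h3 := hgen g hg hxg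
            rw [← h1, ← h2] at h3
            apply h
            push_cast
            linarith
          · rw [if_neg hn, LinearMap.mem_ker] at hr
            change x r = 0 at hr
            rw [hr, mul_zero]) k m hr
    rw [if_neg hlt, LinearMap.mem_ker] at this
    exact hxr this
  refine ⟨K g₀, M g₀, hk₀, ⟨g₀, hKM g₀ hg₀.1, hg₀.2⟩, hbound, ?_⟩
  obtain ⟨x', hx'⟩ := exists_twist hX hH x
    (fun k m => if m * (K g₀ : ℤ) = M g₀ * k then 1 else 0) (by simp) (by
      rintro k l m n ⟨r, hr, hxr⟩ ⟨s, hs, hxs⟩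
      have h1 := hbound k m r hr hxr
      have h2 := hbound l n s hs hxs
      by_cases h3 : m * (K g₀ : ℤ) = M g₀ * k
      · by_cases h4 : n * (K g₀ : ℤ) = M g₀ * l
        · rw [if_pos h3, if_pos h4, if_pos, one_mul]
          push_cast; linarith
        · rw [if_neg h4, mul_zero, if_neg]
          intro h5
          push_cast at h5
          apply h4
          linarith
      · rw [if_neg h3, zero_mul, if_neg]
        intro h5
        push_cast at h5
        apply h3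
        linarith)
  refine ⟨x', fun k m r hr => ?_⟩
  rw [hx' k m r hr]
  by_cases h : m * (K g₀ : ℤ) = M g₀ * k
  · rw [if_pos h, if_pos h, one_mul]
  · rw [if_neg h, if_neg h, zero_mul]

/-- The common part of the two halves of (TRI). -/
theorem tri_aux (hX : IsContactFano 𝒜 P) (hH : IsContactTorus 𝒜 P H)
    (hmax : IsMaxSlope 𝒜 P H a) {B : Type v} [CommRing B] [IsDomain B] [Algebra ℂ B]
    {x : R →ₐ[ℂ] B} (hW : TypeW 𝒜 P H a x) (hNV : ¬ NV 𝒜 P H a x)
    {k : ℕ} (hk : 0 < k) {m : ℤ} {r : R} (hr : r ∈ Wt 𝒜 P H k m) (hxr : x r ≠ 0) :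
    (m ≤ 0 ∧ ∃ k₀ : ℕ, 0 < k₀ ∧ ∃ g ∈ Wt 𝒜 P H k₀ 0, x g ≠ 0) ∨ m ≤ -(a * k) := by
  have ha : 0 < a := (hmax.neg hX hH).2
  obtain ⟨k₀, m₀, hk₀, ⟨g, hg, hxg⟩, hb, x', hx'⟩ :=
    exists_maxface hX hH x ⟨k, hk, m, r, hr, hxr⟩
  have h1 := hb k m r hr hxr
  have hk' : (0 : ℤ) < k := by exact_mod_cast hk
  have hk₀' : (0 : ℤ) < k₀ := by exact_mod_cast hk₀
  have hW' : TypeW 𝒜 P H a x' := by
    intro k m hm r hr
    rw [hx' k m r hr, hW k m hm r hr, ite_self]
  rcases slope_trichotomy hX hH hmax x' hW' hk₀ hg (by rw [hx' k₀ m₀ g hg, if_pos rfl]; exact hxg)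
    (fun k m r hr h => by
      by_contra hne
      rw [hx' k m r hr, if_neg hne] at h
      exact h rfl) with h2 | h2 | h2
  · exfalso
    subst h2
    exact hNV ⟨k₀, hk₀, g, hg, hxg⟩
  · left
    subst h2
    rw [zero_mul] at h1
    refine ⟨?_, k₀, hk₀, g, hg, hxg⟩
    by_contra hcon
    rw [not_le] at hcon
    have := mul_pos hcon hk₀'
    linarith
  · right
    subst h2
    by_contra hcon
    rw [not_le] at hcon
    have := mul_lt_mul_of_pos_right hcon hk₀'
    linarith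

/-- (TRI), first half. -/
theorem tri_pos (hX : IsContactFano 𝒜 P) (hH : IsContactTorus 𝒜 P H)
    (hmax : IsMaxSlope 𝒜 P H a) {B : Type v} [CommRing B] [IsDomain B] [Algebra ℂ B]
    {x : R →ₐ[ℂ] B} (hW : TypeW 𝒜 P H a x) (hNV : ¬ NV 𝒜 P H a x)
    {k : ℕ} {m : ℤ} (hm : 0 < m) {r : R} (hr : r ∈ Wt 𝒜 P H k m) : x r = 0 := by
  have ha : 0 < a := (hmax.neg hX hH).2
  by_contra hxr
  have hk : 0 < k := pos_of_ne_zero_of_Wt hX hm.ne' hr (by rintro rfl; exact hxr (map_zero x))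
  have hk' : (0 : ℤ) < k := by exact_mod_cast hk
  rcases tri_aux hX hH hmax hW hNV hk hr hxr with ⟨h, -⟩ | h
  · linarith
  · have := mul_pos ha hk'
    linarith

/-- (TRI), second half. -/
theorem tri_all (hX : IsContactFano 𝒜 P) (hH : IsContactTorus 𝒜 P H)
    (hmax : IsMaxSlope 𝒜 P H a) {B : Type v} [CommRing B] [IsDomain B] [Algebra ℂ B]
    {x : R →ₐ[ℂ] B} (hW : TypeW 𝒜 P H a x) (hNV : ¬ NV 𝒜 P H a x)
    (h0 : ∀ k : ℕ, 0 < k → ∀ r ∈ Wt 𝒜 P H k 0, x r = 0)
    {k : ℕ} {m : ℤ} (hm : -(a * k) < m) {r : R} (hr : r ∈ Wt 𝒜 P H k m) : x r = 0 := by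
  by_contra hxr
  rcases Nat.eq_zero_or_pos k with rfl | hk
  · rw [Nat.cast_zero, mul_zero, neg_zero] at hm
    exact hxr (tri_pos hX hH hmax hW hNV hm hr)
  rcases tri_aux hX hH hmax hW hNV hk hr hxr with ⟨-, k₀, hk₀, g, hg, hxg⟩ | h
  · exact hxg (h0 k₀ hk₀ g hg)
  · linarith

/-- Change of sign of `H`. -/
lemma TypeW.neg {B : Type v} [CommRing B] [Algebra ℂ B] {x : R →ₐ[ℂ] B}
    (hW : TypeW 𝒜 P H a x) : TypeW 𝒜 P (-H) a x := by
  intro k m hm r hr
  rw [Wt_neg] at hr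
  exact hW k (-m) (by rwa [dvd_neg]) r hr

lemma NV_neg_iff {B : Type v} [CommRing B] [Algebra ℂ B] {x : R →ₐ[ℂ] B} :
    NV 𝒜 P (-H) a x ↔ ∃ k : ℕ, 0 < k ∧ ∃ r ∈ Wt 𝒜 P H k (-(a * k)), x r ≠ 0 := by
  simp only [NV, Wt_neg]

/-- (TRI) for `-H`. -/
theorem tri_neg (hX : IsContactFano 𝒜 P) (hH : IsContactTorus 𝒜 P H)
    (hmax : IsMaxSlope 𝒜 P H a) {B : Type v} [CommRing B] [IsDomain B] [Algebra ℂ B]
    {x : R →ₐ[ℂ] B} (hW : TypeW 𝒜 P H a x) (hNV : ¬ NV 𝒜 P (-H) a x)
    {k : ℕ} {m : ℤ} (hm : m < 0) {r : R} (hr : r ∈ Wt 𝒜 P H k m) : x r = 0 :=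
  tri_pos hX hH.neg (hmax.neg hX hH).1 hW.neg hNV (m := -m) (by linarith)
    (by rw [Wt_neg, neg_neg]; exact hr)

end Vale.Agent.P292
end

section

/-! Theorem E, basic facts on the bigrading. See `PROOF.md`. -/

namespace Vale.Agent.P292

open Module

universe u v

variable {R : Type u} [CommRing R] [Algebra ℂ R] {𝒜 : ℕ → Submodule ℂ R} [GradedAlgebra 𝒜]
  {P : R →ₗ[ℂ] R →ₗ[ℂ] R} {H : R} {a : ℤ} {n : ℕ}

/-! ### Task BA1 -/

theorem Ctx.neg (C : Ctx 𝒜 P H a) : Ctx 𝒜 P (-H) a :=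
  ⟨C.hX, C.hH.neg, (C.hmax.neg C.hX C.hH).1⟩

theorem Ctx.pos (C : Ctx 𝒜 P H a) : 0 < a := (C.hmax.neg C.hX C.hH).2

theorem Ctx.abs_le (C : Ctx 𝒜 P H a) {k : ℕ} {m : ℤ} {r : R} (hr : r ∈ Wt 𝒜 P H k m)
    (h0 : r ≠ 0) : |m| ≤ a * k := C.hmax.le' C.hX C.hH hr h0

theorem Ctx.ext_Wt (C : Ctx 𝒜 P H a) {M : Type*} [AddCommGroup M] [Module ℂ M]
    (φ ψ : R →ₗ[ℂ] M) (h : ∀ (k : ℕ) (m : ℤ), ∀ r ∈ Wt 𝒜 P H k m, φ r = ψ r) : φ = ψ :=
  linearMap_ext_of_Wt C.hH h

/-- Every element is a finite sum of bihomogeneous ones; induction principle. -/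
theorem Ctx.induction_Wt (C : Ctx 𝒜 P H a) {p : R → Prop}
    (h : ∀ (k : ℕ) (m : ℤ), ∀ r ∈ Wt 𝒜 P H k m, p r) (h0 : p 0)
    (hadd : ∀ r s, p r → p s → p (r + s)) (r : R) : p r :=
  Wt_induction C.hH hadd h0 h r

/-- (BIG) A homomorphism defined on bihomogeneous elements. -/
theorem Ctx.exists_hom (C : Ctx 𝒜 P H a) {B : Type*} [CommRing B] [Algebra ℂ B]
    (F : ℕ → ℤ → R →ₗ[ℂ] B) (h1 : F 0 0 1 = 1)
    (hmul : ∀ (k l : ℕ) (m n : ℤ), ∀ r ∈ Wt 𝒜 P H k m, ∀ s ∈ Wt 𝒜 P H l n,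
      F (k + l) (m + n) (r * s) = F k m r * F l n s) :
    ∃ x : R →ₐ[ℂ] B, ∀ (k : ℕ) (m : ℤ), ∀ r ∈ Wt 𝒜 P H k m, x r = F k m r :=
  exists_algHom_of_Wt C.hX C.hH F h1 hmul

/-- Bihomogeneous generators of positive degree. -/
theorem Ctx.exists_generators (C : Ctx 𝒜 P H a) :
    ∃ (N : ℕ) (g : Fin N → R) (k : Fin N → ℕ) (m : Fin N → ℤ),
      (∀ i, 0 < k i ∧ g i ∈ Wt 𝒜 P H (k i) (m i)) ∧
      Algebra.adjoin ℂ (Set.range g) = ⊤ := by
  classical
  obtain ⟨s, hs, hg⟩ := exists_Wt_generators C.hX C.hH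
  choose! _ K M hK hKM using hg
  refine ⟨s.card, fun i => (s.equivFin.symm i : R), fun i => K (s.equivFin.symm i : R),
    fun i => M (s.equivFin.symm i : R), fun i => ⟨hK _ (s.equivFin.symm i).2,
      hKM _ (s.equivFin.symm i).2⟩, ?_⟩
  have h1 : Set.range (fun i => (s.equivFin.symm i : R)) = (s : Set R) := by
    ext r
    constructor
    · rintro ⟨i, rfl⟩
      exact (s.equivFin.symm i).2
    · intro hr
      exact ⟨s.equivFin ⟨r, hr⟩, by simp⟩
  rw [h1, hs]

/-- Every element of `W(k,m)` is a combination of monomials in the generators of bidegree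
`(k,m)`. -/
theorem Ctx.mem_span_monomials (C : Ctx 𝒜 P H a) {N : ℕ} {g : Fin N → R} {kk : Fin N → ℕ}
    {mm : Fin N → ℤ} (hg : ∀ i, 0 < kk i ∧ g i ∈ Wt 𝒜 P H (kk i) (mm i))
    (htop : Algebra.adjoin ℂ (Set.range g) = ⊤) {k : ℕ} {m : ℤ} {r : R}
    (hr : r ∈ Wt 𝒜 P H k m) :
    r ∈ Submodule.span ℂ {s | ∃ e : Fin N → ℕ, ∑ i, e i * kk i = k ∧
      ∑ i, (e i : ℤ) * mm i = m ∧ s = ∏ i, g i ^ e i} := by
  classical
  refine Wt_le_of_generators C.hX C.hH (s := Finset.univ.image g) (by simpa using htop)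
    (fun t ht => ?_) (fun k m => Submodule.span ℂ {s | ∃ e : Fin N → ℕ, ∑ i, e i * kk i = k ∧
      ∑ i, (e i : ℤ) * mm i = m ∧ s = ∏ i, g i ^ e i}) ?_ ?_ k m hr
  · obtain ⟨i, -, rfl⟩ := Finset.mem_image.mp ht
    exact ⟨kk i, mm i, (hg i).2⟩
  · exact Submodule.subset_span ⟨fun _ => 0, by simp, by simp, by simp⟩
  · intro t ht k m htkm l n r hr _
    obtain ⟨i, -, rfl⟩ := Finset.mem_image.mp ht
    by_cases h0 : g i = 0
    · rw [h0, zero_mul]; exact zero_mem _
    obtain ⟨rfl, rfl⟩ := Wt_unique h0 htkm (hg i).2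
    have hle : Submodule.span ℂ {s | ∃ e : Fin N → ℕ, ∑ i, e i * kk i = l ∧
        ∑ i, (e i : ℤ) * mm i = n ∧ s = ∏ i, g i ^ e i} ≤
        Submodule.comap (LinearMap.mulLeft ℂ (g i)) (Submodule.span ℂ
          {s | ∃ e : Fin N → ℕ, ∑ j, e j * kk j = kk i + l ∧
            ∑ j, (e j : ℤ) * mm j = mm i + n ∧ s = ∏ j, g j ^ e j}) := by
      rw [Submodule.span_le]
      rintro _ ⟨e, he1, he2, rfl⟩
      refine Submodule.subset_span ⟨fun j => e j + if j = i then 1 else 0, ?_, ?_, ?_⟩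
      · simp only [add_mul, Finset.sum_add_distrib, he1, ite_mul, one_mul, zero_mul,
          Finset.sum_ite_eq', Finset.mem_univ, if_true]
        ring
      · push_cast
        simp only [add_mul, Finset.sum_add_distrib, he2, ite_mul, one_mul, zero_mul,
          Finset.sum_ite_eq', Finset.mem_univ, if_true]
        ring
      · simp only [LinearMap.mulLeft_apply, pow_add, Finset.prod_mul_distrib, pow_ite, pow_one,
          pow_zero, Finset.prod_ite_eq', Finset.mem_univ, if_true]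
        ring
    exact hle hr

end Vale.Agent.P292
end

section

/-! Theorem E, the algebra `A₊`. See `PROOF.md`. -/

namespace Vale.Agent.P292

open Module
open scoped Polynomial

universe u v

variable {R : Type u} [CommRing R] [Algebra ℂ R] {𝒜 : ℕ → Submodule ℂ R} [GradedAlgebra 𝒜]
  {P : R →ₗ[ℂ] R →ₗ[ℂ] R} {H : R} {a : ℤ} {n : ℕ}

/-! ### Task BA2 -/

theorem mem_Ap {k : ℕ} {r : R} (hr : r ∈ Wt 𝒜 P H k (a * k)) : r ∈ Ap 𝒜 P H a :=
  Algebra.subset_adjoin ⟨k, hr⟩

theorem ba2_mem_iSup (C : Ctx 𝒜 P H a) {r : R} (hr : r ∈ Ap 𝒜 P H a) :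
    r ∈ ⨆ k : ℕ, Wt 𝒜 P H k (a * k) := by
  have h1 : r ∈ Submodule.span ℂ
      (Submonoid.closure {r | ∃ k : ℕ, r ∈ Wt 𝒜 P H k (a * k)} : Set R) := by
    rw [← Algebra.adjoin_eq_span]
    exact hr
  have h2 : ∀ x ∈ Submonoid.closure {r | ∃ k : ℕ, r ∈ Wt 𝒜 P H k (a * k)},
      ∃ k : ℕ, x ∈ Wt 𝒜 P H k (a * k) := by
    intro x hx
    induction hx using Submonoid.closure_induction with
    | mem x hx => exact hx
    | one =>
      refine ⟨0, ?_⟩
      rw [mem_Wt]
      exact ⟨SetLike.GradedOne.one_mem, by simp [C.hX.P_one_right]⟩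
    | mul x y _ _ hx hy =>
      obtain ⟨k, hk⟩ := hx
      obtain ⟨l, hl⟩ := hy
      refine ⟨k + l, ?_⟩
      have := Wt_mul C.hX hk hl
      convert this using 2
      push_cast
      ring
  clear hr
  induction h1 using Submodule.span_induction with
  | zero => exact zero_mem _
  | add x y _ _ hx hy => exact add_mem hx hy
  | smul c x _ hx => exact Submodule.smul_mem _ c hx
  | mem x hx =>
    obtain ⟨k, hk⟩ := h2 x hx
    exact Submodule.mem_iSup_of_mem k hk

theorem ba2_Ap_induction (C : Ctx 𝒜 P H a) {p : R → Prop}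
    (h : ∀ (k : ℕ), ∀ r ∈ Wt 𝒜 P H k (a * k), p r) (h0 : p 0)
    (hadd : ∀ r s, p r → p s → p (r + s)) : ∀ r ∈ Ap 𝒜 P H a, p r := by
  intro r hr
  exact Submodule.iSup_induction (fun k : ℕ => Wt 𝒜 P H k (a * k)) (motive := p)
    (ba2_mem_iSup C hr) h h0 hadd

theorem Ctx.mem_Ap_iff (C : Ctx 𝒜 P H a) {r : R} :
    r ∈ Ap 𝒜 P H a ↔
      ∀ k : ℕ, ((DirectSum.decompose 𝒜 r k : 𝒜 k) : R) ∈ Wt 𝒜 P H k (a * k) := by
  classical
  constructor
  · intro hr
    refine ba2_Ap_induction C (p := fun r => ∀ k : ℕ,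
      ((DirectSum.decompose 𝒜 r k : 𝒜 k) : R) ∈ Wt 𝒜 P H k (a * k)) ?_ ?_ ?_ r hr
    · intro l s hs k
      by_cases h : l = k
      · subst h
        rwa [DirectSum.decompose_of_mem_same 𝒜 (mem_Wt.mp hs).1]
      · rw [DirectSum.decompose_of_mem_ne 𝒜 (mem_Wt.mp hs).1 h]
        exact zero_mem _
    · intro k
      rw [DirectSum.decompose_zero]
      exact zero_mem _
    · intro s t hs ht k
      rw [DirectSum.decompose_add]
      exact add_mem (hs k) (ht k)
  · intro h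
    rw [← DirectSum.sum_support_decompose 𝒜 r]
    exact sum_mem fun k _ => mem_Ap (h k)

/-- Linear statements on `A₊` can be checked on homogeneous elements. -/
theorem Ctx.Ap_induction (C : Ctx 𝒜 P H a) {p : R → Prop}
    (h : ∀ (k : ℕ), ∀ r ∈ Wt 𝒜 P H k (a * k), p r) (h0 : p 0)
    (hadd : ∀ r s, p r → p s → p (r + s)) : ∀ r ∈ Ap 𝒜 P H a, p r :=
  ba2_Ap_induction C h h0 hadd

theorem ba2_le (C : Ctx 𝒜 P H a) {k : ℕ} {m : ℤ} {r : R} (hr : r ∈ Wt 𝒜 P H k m)
    (h0 : r ≠ 0) : m ≤ a * k :=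
  (abs_le.mp (C.abs_le hr h0)).2

/-- The projection to `A₊`. -/
theorem Ctx.exists_pr (C : Ctx 𝒜 P H a) :
    ∃ pr : R →ₐ[ℂ] R, PureA 𝒜 P H a pr ∧ (∀ c ∈ Ap 𝒜 P H a, pr c = c) ∧
      ∀ r, pr r ∈ Ap 𝒜 P H a := by
  classical
  obtain ⟨pr, hpr⟩ := C.exists_hom (B := R)
    (fun k m => if m = a * k then LinearMap.id else 0) (by simp) (by
      intro k l m n r hr s hs
      by_cases hr0 : r = 0
      · subst hr0; simp
      by_cases hs0 : s = 0
      · subst hs0; simp
      have h1 := ba2_le C hr hr0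
      have h2 := ba2_le C hs hs0
      by_cases hm : m = a * k
      · by_cases hn : n = a * l
        · have h3 : m + n = a * ((k + l : ℕ) : ℤ) := by push_cast; rw [hm, hn]; ring
          simp only [if_pos hm, if_pos hn, if_pos h3, LinearMap.id_apply]
        · have h3 : m + n ≠ a * ((k + l : ℕ) : ℤ) := by
            push_cast
            intro h
            apply hn
            linarith
          simp only [if_neg hn, if_neg h3, LinearMap.zero_apply, mul_zero]
      · have h3 : m + n ≠ a * ((k + l : ℕ) : ℤ) := by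
          push_cast
          intro h
          apply hm
          linarith
        simp only [if_neg hm, if_neg h3, LinearMap.zero_apply, zero_mul])
  refine ⟨pr, ?_, ?_, ?_⟩
  · intro k m hm r hr
    rw [hpr k m r hr, if_neg hm, LinearMap.zero_apply]
  · refine ba2_Ap_induction C (fun k r hr => ?_) (map_zero pr) (fun r s hr hs => ?_)
    · rw [hpr k _ r hr, if_pos rfl, LinearMap.id_apply]
    · rw [map_add, hr, hs]
  · refine C.induction_Wt (fun k m r hr => ?_) ?_ ?_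
    · rw [hpr k m r hr]
      split_ifs with hm
      · subst hm
        exact mem_Ap hr
      · rw [LinearMap.zero_apply]
        exact zero_mem _
    · rw [map_zero]
      exact zero_mem _
    · intro r s hr hs
      rw [map_add]
      exact add_mem hr hs

/-- The grading by the defect. -/
theorem ba2_exists_defect (C : Ctx 𝒜 P H a) :
    ∃ c : R →ₐ[ℂ] R[X], (∀ r, (c r).eval 1 = r) ∧ (∀ r ∈ Ap 𝒜 P H a, c r = Polynomial.C r) ∧
      ∀ r, (c r).natDegree = 0 → r ∈ Ap 𝒜 P H a := by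
  classical
  obtain ⟨c, hc⟩ := C.exists_hom (B := R[X])
    (fun k m => (Polynomial.monomial (a * k - m).toNat : R →ₗ[R] R[X]).restrictScalars ℂ)
    (by simp) (by
      intro k l m n r hr s hs
      by_cases hr0 : r = 0
      · subst hr0; simp
      by_cases hs0 : s = 0
      · subst hs0; simp
      have h1 := ba2_le C hr hr0
      have h2 := ba2_le C hs hs0
      simp only [LinearMap.restrictScalars_apply]
      rw [Polynomial.monomial_mul_monomial]
      congr 1
      push_cast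
      have h3 : a * (k + l) - (m + n) = (a * k - m) + (a * l - n) := by ring
      rw [h3, Int.toNat_add (by linarith) (by linarith)])
  have hc' : ∀ (k : ℕ) (m : ℤ), ∀ r ∈ Wt 𝒜 P H k m,
      c r = Polynomial.monomial (a * k - m).toNat r := hc
  have heval : ∀ r, (c r).eval 1 = r := by
    refine C.induction_Wt (fun k m r hr => ?_) ?_ ?_
    · rw [hc' k m r hr, Polynomial.eval_monomial, one_pow, mul_one]
    · rw [map_zero, Polynomial.eval_zero]
    · intro r s hr hs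
      rw [map_add, Polynomial.eval_add, hr, hs]
  have hcoeff : ∀ r, (c r).coeff 0 ∈ Ap 𝒜 P H a := by
    refine C.induction_Wt (fun k m r hr => ?_) ?_ ?_
    · rw [hc' k m r hr, Polynomial.coeff_monomial]
      split_ifs with h
      · by_cases hr0 : r = 0
        · rw [hr0]; exact zero_mem _
        have h1 := ba2_le C hr hr0
        have h2 : a * k - m ≤ 0 := Int.toNat_eq_zero.mp h
        have h3 : m = a * k := by linarith
        subst h3
        exact mem_Ap hr
      · exact zero_mem _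
    · rw [map_zero, Polynomial.coeff_zero]
      exact zero_mem _
    · intro r s hr hs
      rw [map_add, Polynomial.coeff_add]
      exact add_mem hr hs
  refine ⟨c, heval, ?_, ?_⟩
  · refine ba2_Ap_induction C (fun k r hr => ?_) ?_ ?_
    · rw [hc' k _ r hr, sub_self, Int.toNat_zero, Polynomial.monomial_zero_left]
    · rw [map_zero, map_zero]
    · intro r s hr hs
      rw [map_add, map_add, hr, hs]
  · intro r hr
    have h1 := Polynomial.eq_C_of_natDegree_eq_zero hr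
    have h2 := heval r
    rw [h1, Polynomial.eval_C] at h2
    rw [← h2]
    exact hcoeff r

theorem Ctx.mem_Ap_of_mul (C : Ctx 𝒜 P H a) {b c : R} (h : b * c ∈ Ap 𝒜 P H a)
    (h0 : b * c ≠ 0) : b ∈ Ap 𝒜 P H a := by
  have := C.hX.domain
  obtain ⟨φ, hev, hC, hmem⟩ := ba2_exists_defect C
  apply hmem
  have hne : ∀ r : R, r ≠ 0 → φ r ≠ 0 := by
    intro r hr h1
    apply hr
    rw [← hev r, h1, Polynomial.eval_zero]
  have h1 : (φ (b * c)).natDegree = 0 := by
    rw [hC _ h, Polynomial.natDegree_C]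
  rw [map_mul, Polynomial.natDegree_mul (hne b (left_ne_zero_of_mul h0))
    (hne c (right_ne_zero_of_mul h0))] at h1
  omega

theorem Ctx.mem_Ap_of_isAlgebraic (C : Ctx 𝒜 P H a) {r : R}
    (h : IsAlgebraic (Ap 𝒜 P H a) r) : r ∈ Ap 𝒜 P H a := by
  have := C.hX.domain
  obtain ⟨φ, hev, hC, hmem⟩ := ba2_exists_defect C
  obtain ⟨p, hp0, hp⟩ := h
  have h1 : (p.map (algebraMap (Ap 𝒜 P H a) R)).comp (φ r) = 0 := by
    have h2 : φ (Polynomial.aeval r p) = 0 := by rw [hp, map_zero]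
    rw [← h2, Polynomial.comp, Polynomial.eval₂_map, Polynomial.aeval_def,
      ← AlgHom.coe_toRingHom, Polynomial.hom_eval₂]
    congr 1
    ext b : 1
    simp only [RingHom.comp_apply, AlgHom.coe_toRingHom]
    exact (hC _ b.2).symm
  rw [Polynomial.comp_eq_zero_iff] at h1
  rcases h1 with h1 | ⟨-, h1⟩
  · exfalso
    apply hp0
    rwa [Polynomial.map_eq_zero_iff] at h1
    exact Subtype.val_injective
  · apply hmem
    rw [h1, Polynomial.natDegree_C]

theorem Ctx.finiteType_Ap (C : Ctx 𝒜 P H a) : Algebra.FiniteType ℂ (Ap 𝒜 P H a) := by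
  have := C.hX.finiteType
  obtain ⟨pr, -, h1, h2⟩ := C.exists_pr
  refine Algebra.FiniteType.of_surjective (pr.codRestrict (Ap 𝒜 P H a) h2) ?_
  intro c
  exact ⟨c, Subtype.ext (h1 c c.2)⟩

theorem Ctx.isDomain_Ap (C : Ctx 𝒜 P H a) : IsDomain (Ap 𝒜 P H a) := by
  have := C.hX.domain
  infer_instance

theorem Ctx.isIntegrallyClosed_Ap (C : Ctx 𝒜 P H a) : IsIntegrallyClosed (Ap 𝒜 P H a) := by
  have := C.hX.domain
  have := C.hX.normal
  have := C.isDomain_Ap
  have hinj : Function.Injective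
      ((algebraMap R (FractionRing R)).comp (algebraMap (Ap 𝒜 P H a) R)) :=
    (IsFractionRing.injective R (FractionRing R)).comp Subtype.val_injective
  rw [isIntegrallyClosed_iff (FractionRing (Ap 𝒜 P H a))]
  intro x hx
  set f : FractionRing (Ap 𝒜 P H a) →+* FractionRing R := IsFractionRing.lift hinj with hf
  have hf' : ∀ b : Ap 𝒜 P H a, f (algebraMap _ _ b) = algebraMap R (FractionRing R) (b : R) := by
    intro b
    rw [hf, IsFractionRing.lift_algebraMap]
    rfl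
  have h1 : IsIntegral R (f x) := by
    refine IsIntegral.map_of_comp_eq (algebraMap (Ap 𝒜 P H a) R) f ?_ hx
    ext b : 1
    exact (hf' b).symm
  obtain ⟨y, hy⟩ := IsIntegrallyClosed.isIntegral_iff.mp h1
  obtain ⟨b, d, hd, rfl⟩ := IsFractionRing.div_surjective (A := Ap 𝒜 P H a) x
  have hd0 : d ≠ 0 := nonZeroDivisors.ne_zero hd
  have hd1 : algebraMap (Ap 𝒜 P H a) (FractionRing (Ap 𝒜 P H a)) d ≠ 0 := by
    intro h
    exact hd0 (IsFractionRing.injective (Ap 𝒜 P H a) (FractionRing (Ap 𝒜 P H a))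
      (h.trans (map_zero _).symm))
  have h2 : y * (d : R) = b := by
    apply IsFractionRing.injective R (FractionRing R)
    rw [map_mul, hy, ← hf' b, ← hf' d, ← map_mul, div_mul_cancel₀ _ hd1]
  by_cases hb : b = 0
  · refine ⟨0, ?_⟩
    rw [hb, map_zero, zero_div]
  · have hy' : y ∈ Ap 𝒜 P H a := by
      refine C.mem_Ap_of_mul (c := (d : R)) ?_ ?_
      · rw [h2]; exact b.2
      · rw [h2]
        intro h
        exact hb (Subtype.ext h)
    refine ⟨⟨y, hy'⟩, ?_⟩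
    rw [eq_div_iff hd1, ← map_mul]
    congr 1
    exact Subtype.ext h2

theorem Ctx.P_Ap (C : Ctx 𝒜 P H a) {b c : R} (hb : b ∈ Ap 𝒜 P H a) (hc : c ∈ Ap 𝒜 P H a) :
    P b c = 0 := by
  have key : ∀ (k l : ℕ), ∀ b ∈ Wt 𝒜 P H k (a * k), ∀ c ∈ Wt 𝒜 P H l (a * l), P b c = 0 := by
    intro k l b hb c hc
    rcases Nat.eq_zero_or_pos k with rfl | hk
    · obtain ⟨z, rfl⟩ := C.hX.connected b (mem_Wt.mp hb).1
      exact C.hX.P_algebraMap_left _ _
    · by_contra h0
      have h1 := Wt_P C.hX (j := k + l - 1) (by omega) hb hc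
      have h2 := ba2_le C h1 h0
      have h3 : ((k + l - 1 : ℕ) : ℤ) = k + l - 1 := by
        rw [Nat.cast_sub (by omega)]
        push_cast
        ring
      rw [h3] at h2
      have h4 := C.pos
      have h5 : a * ((k : ℤ) + l - 1) = a * k + a * l - a := by ring
      rw [h5] at h2
      linarith
  refine ba2_Ap_induction C (p := fun b => P b c = 0) (fun k b hb => ?_) ?_ ?_ b hb
  · refine ba2_Ap_induction C (p := fun c => P b c = 0) (fun l c hc => key k l b hb c hc)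
      (map_zero _) ?_ c hc
    intro r s hr hs
    rw [map_add, hr, hs, add_zero]
  · rw [map_zero, LinearMap.zero_apply]
  · intro r s hr hs
    rw [map_add, LinearMap.add_apply, hr, hs, add_zero]

/-- `{b, r}` lies in `A₊` if `b ∈ A₊` and `r` has defect one. -/
theorem Ctx.P_defect_one (C : Ctx 𝒜 P H a) {k l : ℕ} {b r : R}
    (hb : b ∈ Wt 𝒜 P H k (a * k)) (hr : r ∈ Wt 𝒜 P H l (a * l - a)) :
    P b r ∈ Wt 𝒜 P H (k + l - 1) (a * ((k + l - 1 : ℕ) : ℤ)) := by
  by_cases hkl : k + l = 0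
  · have hk : k = 0 := by omega
    subst hk
    obtain ⟨z, rfl⟩ := C.hX.connected b (mem_Wt.mp hb).1
    rw [C.hX.P_algebraMap_left]
    exact zero_mem _
  · have h1 := Wt_P C.hX (j := k + l - 1) (by omega) hb hr
    have h3 : ((k + l - 1 : ℕ) : ℤ) = k + l - 1 := by
      rw [Nat.cast_sub (by omega)]
      push_cast
      ring
    convert h1 using 2
    rw [h3]
    ring

theorem Frame.Δ_mem (C : Ctx 𝒜 P H a) {n : ℕ} (f : Frame 𝒜 P H a n) :
    f.Δ ∈ Ap 𝒜 P H a := by
  rw [Frame.Δ, Matrix.det_apply]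
  refine sum_mem fun σ _ => ?_
  rw [Units.smul_def]
  refine zsmul_mem (prod_mem fun i _ => ?_) _
  exact mem_Ap (C.P_defect_one (f.hb _) (f.hr _))

/-- The determinant of a frame has positive degree: a pure point not killing it is not the
vertex. -/
theorem Frame.nv (C : Ctx 𝒜 P H a) {n : ℕ} (hn : 0 < n) (f : Frame 𝒜 P H a n)
    {B : Type*} [CommRing B] [Algebra ℂ B] (x : R →ₐ[ℂ] B) (h : x f.Δ ≠ 0) :
    NV 𝒜 P H a x := by
  classical
  have h1 : ∃ i j, x (P (f.b i) (f.r j)) ≠ 0 := by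
    by_contra hcon
    push Not at hcon
    apply h
    rw [Frame.Δ, Matrix.det_apply, map_sum]
    refine Finset.sum_eq_zero fun σ _ => ?_
    rw [Units.smul_def, map_zsmul, map_prod,
      Finset.prod_eq_zero (Finset.mem_univ (⟨0, hn⟩ : Fin n)), smul_zero]
    exact hcon _ _
  obtain ⟨i, j, hij⟩ := h1
  refine ⟨f.kb i + f.kr j - 1, ?_, _, C.P_defect_one (f.hb i) (f.hr j), hij⟩
  by_contra hcon
  have h2 := f.kb_pos i
  have h3 : f.kr j = 0 := by omega
  have h4 := f.hr j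
  apply hij
  have h5 : f.r j = 0 := by
    by_contra h6
    have h7 := abs_le.mp (C.abs_le h4 h6)
    rw [h3] at h7
    have h8 := C.pos
    push_cast at h7
    linarith [h7.1]
  rw [h5, map_zero, map_zero]

end Vale.Agent.P292
end

section

/-! Theorem E, sorts of points. See `PROOF.md`. -/

namespace Vale.Agent.P292

open Module

universe u v

variable {R : Type u} [CommRing R] [Algebra ℂ R] {𝒜 : ℕ → Submodule ℂ R} [GradedAlgebra 𝒜]
  {P : R →ₗ[ℂ] R →ₗ[ℂ] R} {H : R} {a : ℤ} {n : ℕ}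

variable {B : Type v} [CommRing B] [Algebra ℂ B]

variable {B : Type v} [CommRing B] [Algebra ℂ B]

theorem typeW_neg {x : R →ₐ[ℂ] B} : TypeW 𝒜 P (-H) a x ↔ TypeW 𝒜 P H a x := by
  constructor
  · intro h k m hm r hr
    refine h k (-m) (by rwa [dvd_neg]) r ?_
    rwa [Wt_neg, neg_neg]
  · intro h k m hm r hr
    refine h k (-m) (by rwa [dvd_neg]) r ?_
    rwa [Wt_neg] at hr

theorem PureA.typeW {x : R →ₐ[ℂ] B} (h : PureA 𝒜 P H a x) : TypeW 𝒜 P H a x := by
  intro k m hm r hr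
  refine h k m (fun e => hm ?_) r hr
  rw [e]
  exact dvd_mul_right _ _

theorem TypeW.comp {B' : Type*} [CommRing B'] [Algebra ℂ B'] {x : R →ₐ[ℂ] B}
    (h : TypeW 𝒜 P H a x) (g : B →ₐ[ℂ] B') : TypeW 𝒜 P H a (g.comp x) := by
  intro k m hm r hr
  rw [AlgHom.comp_apply, h k m hm r hr, map_zero]

theorem PureA.comp {B' : Type*} [CommRing B'] [Algebra ℂ B'] {x : R →ₐ[ℂ] B}
    (h : PureA 𝒜 P H a x) (g : B →ₐ[ℂ] B') : PureA 𝒜 P H a (g.comp x) := by
  intro k m hm r hr
  rw [AlgHom.comp_apply, h k m hm r hr, map_zero]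

/-- Pure points are determined on `A₊`. -/
theorem PureA.ext (C : Ctx 𝒜 P H a) {x y : R →ₐ[ℂ] B} (hx : PureA 𝒜 P H a x)
    (hy : PureA 𝒜 P H a y) (h : ∀ c ∈ Ap 𝒜 P H a, x c = y c) : x = y := by
  apply AlgHom.toLinearMap_injective
  refine C.ext_Wt _ _ fun k m r hr => ?_
  rw [AlgHom.toLinearMap_apply, AlgHom.toLinearMap_apply]
  by_cases hm : m = a * k
  · subst hm
    exact h r (mem_Ap hr)
  · rw [hx k m hm r hr, hy k m hm r hr]

/-- The pure point with the same restriction to `A₊`. -/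
theorem Ctx.exists_pure (C : Ctx 𝒜 P H a) (x : R →ₐ[ℂ] B) :
    ∃ ν : R →ₐ[ℂ] B, PureA 𝒜 P H a ν ∧ ∀ c ∈ Ap 𝒜 P H a, ν c = x c := by
  obtain ⟨pr, h1, h2, -⟩ := C.exists_pr
  refine ⟨x.comp pr, h1.comp x, fun c hc => ?_⟩
  rw [AlgHom.comp_apply, h2 c hc]

theorem Ctx.hasSlope_iff_pure (C : Ctx 𝒜 P H a) {y : R →ₐ[ℂ] ℂ} :
    HasSlope 𝒜 P H y a ↔ PureA 𝒜 P H a y ∧ NV 𝒜 P H a y := by
  rw [hasSlope_iff C.hH]
  constructor
  · rintro ⟨h1, h2⟩
    refine ⟨fun k m hm r hr => h2 k m r hr hm, ?_⟩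
    by_contra hcon
    apply h1
    intro k hk r hr
    refine C.hH.forall_of_Wt y.toLinearMap k (fun m s hs => ?_) r hr
    rw [AlgHom.toLinearMap_apply]
    by_cases hm : m = a * k
    · subst hm
      by_contra h0
      exact hcon ⟨k, hk, s, hs, h0⟩
    · exact h2 k m s hs hm
  · rintro ⟨h1, k, hk, r, hr, h0⟩
    exact ⟨fun hv => h0 (hv k hk r (mem_Wt.1 hr).1), fun k m r hr hm => h1 k m hm r hr⟩

/-- `x` is not `NV` iff `x` kills the elements of positive degree of `A₊`. -/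
theorem not_NV_iff {x : R →ₐ[ℂ] B} : ¬ NV 𝒜 P H a x ↔
    ∀ k : ℕ, 0 < k → ∀ r ∈ Wt 𝒜 P H k (a * k), x r = 0 := by
  constructor
  · intro h k hk r hr
    by_contra h0
    exact h ⟨k, hk, r, hr, h0⟩
  · rintro h ⟨k, hk, r, hr, h0⟩
    exact h0 (h k hk r hr)

end Vale.Agent.P292
end

section

/-! Theorem E, section 1: (MAXFACE). See `PROOF.md`. -/

namespace Vale.Agent.P292

open Module

universe u v

variable {R : Type u} [CommRing R] [Algebra ℂ R] {𝒜 : ℕ → Submodule ℂ R} [GradedAlgebra 𝒜]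
  {P : R →ₗ[ℂ] R →ₗ[ℂ] R} {H : R} {a : ℤ} {n : ℕ}

variable {B : Type v} [CommRing B] [Algebra ℂ B] [IsDomain B]

end Vale.Agent.P292
end

section

/-! Theorem E, section 3: (INT) (b). See `PROOF.md`. -/

namespace Vale.Agent.P292

open Module

universe u v

variable {R : Type u} [CommRing R] [Algebra ℂ R] {𝒜 : ℕ → Submodule ℂ R} [GradedAlgebra 𝒜]
  {P : R →ₗ[ℂ] R →ₗ[ℂ] R} {H : R} {a : ℤ} {n : ℕ}

/-- (INT), steps (b): the first scaling. -/
theorem Ctx.valuation_scale (C : Ctx 𝒜 P H a) {𝔽 : Type v} [Field 𝔽] [IsAlgClosed 𝔽]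
    [Algebra ℂ 𝔽] (𝒪 : ValuationSubring 𝔽) (φ : R →ₐ[ℂ] 𝔽) (hW : TypeW 𝒜 P H a φ)
    (hp : ∀ (k : ℕ), ∀ c ∈ Wt 𝒜 P H k (a * k), φ c ∈ 𝒪)
    (hm : ∀ (k : ℕ), ∀ c ∈ Wt 𝒜 P H k (-(a * k)), φ c ∈ 𝒪) (hne : ∃ r, φ r ∉ 𝒪) :
    ∃ θ : 𝔽, θ ≠ 0 ∧ 𝒪.valuation θ < 1 ∧
      (∀ k : ℕ, ∀ r ∈ 𝒜 k, θ ^ k * φ r ∈ 𝒪) ∧
      (∀ (k : ℕ) (m : ℤ), m ≠ 0 → ∀ r ∈ Wt 𝒜 P H k m, 𝒪.valuation (θ ^ k * φ r) < 1) ∧
      (∃ w : R →ₐ[ℂ] ℂ, HasSlope 𝒜 P H w 0 ∧
        ∀ k : ℕ, ∀ r ∈ Wt 𝒜 P H k 0, w r ≠ 0 → 𝒪.valuation (θ ^ k * φ r) = 1) := by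
  classical
  have hX := C.hX
  have hH := C.hH
  have hmax := C.hmax
  have hO : ∀ x : 𝔽, x ∈ 𝒪 ↔ 𝒪.valuation x ≤ 1 := fun x => (𝒪.valuation_le_one_iff x).symm
  have hconst : ∀ c : ℂ, algebraMap ℂ 𝔽 c ∈ 𝒪 := by
    intro c
    rw [← AlgHom.commutes φ c]
    refine hp 0 _ ?_
    rw [Nat.cast_zero, mul_zero, Algebra.algebraMap_eq_smul_one]
    exact Submodule.smul_mem _ _ (Wt_one hX)
  obtain ⟨s, hs, hg⟩ := exists_Wt_generators hX hH
  -- some generator is outside `𝒪`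
  have hout : ∃ g ∈ s, φ g ∉ 𝒪 := by
    by_contra hcon
    push Not at hcon
    obtain ⟨r, hr⟩ := hne
    apply hr
    have hr' : r ∈ Algebra.adjoin ℂ (s : Set R) := by rw [hs]; trivial
    refine Algebra.adjoin_induction (p := fun r _ => φ r ∈ 𝒪) (fun g hg => hcon g hg) ?_ ?_ ?_ hr'
    · intro c
      rw [φ.commutes]
      exact hconst c
    · intro x y _ _ hx hy
      rw [map_add]
      exact add_mem hx hy
    · intro x y _ _ hx hy
      rw [map_mul]
      exact mul_mem hx hy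
  choose! hg0 K M hK hKM using hg
  have hroot : ∀ g ∈ s, φ g ≠ 0 → ∃ t : 𝔽, t ^ K g * φ g = 1 := by
    intro g hgs hne
    obtain ⟨t, ht⟩ := IsAlgClosed.exists_pow_nat_eq (φ g)⁻¹ (hK g hgs)
    exact ⟨t, by rw [ht, inv_mul_cancel₀ hne]⟩
  choose! T hT using hroot
  have hnz : ∀ g, φ g ∉ 𝒪 → φ g ≠ 0 := fun g hφ h => hφ (by rw [h]; exact 𝒪.zero_mem)
  obtain ⟨g₀, hg₀, hmin⟩ := Finset.exists_min_image (s.filter fun g => φ g ≠ 0)
    (fun g => 𝒪.valuation (T g)) (by
      obtain ⟨g, hg, hφ⟩ := hout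
      exact ⟨g, Finset.mem_filter.2 ⟨hg, hnz g hφ⟩⟩)
  rw [Finset.mem_filter] at hg₀
  obtain ⟨hg₀s, hg₀0⟩ := hg₀
  have hθg : T g₀ ^ K g₀ * φ g₀ = 1 := hT g₀ hg₀s hg₀0
  have hθ0 : T g₀ ≠ 0 := by
    intro h
    rw [h, zero_pow (hK g₀ hg₀s).ne', zero_mul] at hθg
    exact zero_ne_one hθg
  have hgen : ∀ g ∈ s, 𝒪.valuation (T g₀ ^ K g * φ g) ≤ 1 := by
    intro g hgs
    by_cases h0 : φ g = 0
    · rw [h0, mul_zero, map_zero]
      exact zero_le_one
    · have h1 := hmin g (Finset.mem_filter.2 ⟨hgs, h0⟩)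
      have h2 : 𝒪.valuation (T g ^ K g * φ g) = 1 := by rw [hT g hgs h0, map_one]
      rw [← h2, map_mul, map_mul, map_pow, map_pow]
      exact mul_le_mul_left (pow_le_pow_left' h1 _) _
  have hθ1 : 𝒪.valuation (T g₀) < 1 := by
    obtain ⟨g, hgs, hφ⟩ := hout
    have h0 := hnz g hφ
    refine (hmin g (Finset.mem_filter.2 ⟨hgs, h0⟩)).trans_lt ?_
    by_contra hcon
    rw [not_lt] at hcon
    have h2 : 𝒪.valuation (T g) ^ K g * 𝒪.valuation (φ g) = 1 := by
      rw [← map_pow, ← map_mul, hT g hgs h0, map_one]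
    have h3 : 1 < 𝒪.valuation (φ g) := by
      rw [hO, not_le] at hφ
      exact hφ
    exact (lt_of_lt_of_le h3 (le_mul_of_one_le_left' (one_le_pow_of_one_le' hcon _))).ne' h2
  -- the twisted point
  obtain ⟨x, hx⟩ := exists_twist hX hH φ (fun k _ => T g₀ ^ k) (pow_zero _)
    (fun k l _ _ _ _ => pow_add _ k l)
  have hxle : ∀ r, 𝒪.valuation (x r) ≤ 1 := by
    intro r
    have hr' : r ∈ Algebra.adjoin ℂ (s : Set R) := by rw [hs]; trivial
    refine Algebra.adjoin_induction (p := fun r _ => 𝒪.valuation (x r) ≤ 1) ?_ ?_ ?_ ?_ hr'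
    · intro g hg
      rw [hx (K g) (M g) g (hKM g hg)]
      exact hgen g hg
    · intro c
      rw [x.commutes, ← hO]
      exact hconst c
    · intro y z _ _ hy hz
      rw [map_add]
      exact (Valuation.map_add _ _ _).trans (max_le hy hz)
    · intro y z _ _ hy hz
      rw [map_mul, map_mul]
      exact mul_le_one' hy hz
  have hxA : ∀ k : ℕ, ∀ r ∈ 𝒜 k, x r = T g₀ ^ k * φ r := by
    intro k r hr
    have h1 := hH.forall_of_Wt
      (x.toLinearMap - (LinearMap.mulLeft ℂ (T g₀ ^ k)) ∘ₗ φ.toLinearMap) k (fun m s hs => by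
        rw [LinearMap.sub_apply, AlgHom.toLinearMap_apply, LinearMap.comp_apply,
          AlgHom.toLinearMap_apply, LinearMap.mulLeft_apply, hx k m s hs, sub_self]) r hr
    rw [LinearMap.sub_apply, AlgHom.toLinearMap_apply, LinearMap.comp_apply,
      AlgHom.toLinearMap_apply, LinearMap.mulLeft_apply, sub_eq_zero] at h1
    exact h1
  -- closed points below `x`
  have hclosed : ∀ g, ¬ 𝒪.valuation (x g) < 1 → ∃ w : R →ₐ[ℂ] ℂ,
      (∀ r, 𝒪.valuation (x r) < 1 → w r = 0) ∧ w g ≠ 0 ∧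
      ∀ (k : ℕ) (m : ℤ), m ≠ 0 → ∀ r ∈ Wt 𝒜 P H k m, w r = 0 := by
    intro g hg
    obtain ⟨w, hw1, hw2⟩ := exists_closed_of_valuation hX 𝒪.valuation x hxle g hg
    refine ⟨w, hw1, hw2, ?_⟩
    have hwW : TypeW 𝒜 P H a w := by
      intro k m hkm r hr
      refine hw1 r ?_
      rw [hx k m r hr, hW k m hkm r hr, mul_zero, map_zero]
      exact zero_lt_one
    have hlt : ∀ k : ℕ, 0 < k → ∀ z : 𝔽, z ∈ 𝒪 → 𝒪.valuation (T g₀ ^ k * z) < 1 := by
      intro k hk z hz
      rw [map_mul, map_pow]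
      exact (mul_le_of_le_one_right' ((hO z).1 hz)).trans_lt (pow_lt_one' hθ1 hk.ne')
    have hp' : ¬ NV 𝒜 P H a w := by
      rintro ⟨k, hk, r, hr, hwr⟩
      refine hwr (hw1 r ?_)
      rw [hx k _ r hr]
      exact hlt k hk _ (hp k r hr)
    have hm' : ¬ NV 𝒜 P (-H) a w := by
      rw [NV_neg_iff]
      rintro ⟨k, hk, r, hr, hwr⟩
      refine hwr (hw1 r ?_)
      rw [hx k _ r hr]
      exact hlt k hk _ (hm k r hr)
    intro k m hm0 r hr
    rcases lt_or_gt_of_ne hm0 with h | h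
    · exact tri_neg hX hH hmax hwW hm' h hr
    · exact tri_pos hX hH hmax hwW hp' h hr
  refine ⟨T g₀, hθ0, hθ1, fun k r hr => ?_, fun k m hm0 r hr => ?_, ?_⟩
  · rw [← hxA k r hr, hO]
    exact hxle r
  · by_contra hcon
    rw [← hx k m r hr] at hcon
    obtain ⟨w, -, hw2, hw3⟩ := hclosed r hcon
    exact hw2 (hw3 k m hm0 r hr)
  · obtain ⟨w, hw1, hw2, hw3⟩ := hclosed g₀ (by
      rw [hx (K g₀) (M g₀) g₀ (hKM g₀ hg₀s), hθg, map_one]
      exact lt_irrefl _)
    refine ⟨w, (hasSlope_iff hH w 0).2 ⟨fun h => ?_, fun k m r hr hm0 => ?_⟩, ?_⟩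
    · exact hw2 (h (K g₀) (hK g₀ hg₀s) g₀ (mem_Wt.1 (hKM g₀ hg₀s)).1)
    · exact hw3 k m (by simpa using hm0) r hr
    · intro k r hr hwr
      rw [← hx k 0 r hr]
      exact le_antisymm (hxle r) (not_lt.1 fun h => hwr (hw1 r h))

end Vale.Agent.P292
end

section

/-! Theorem E, section 3: (INT) (c). See `PROOF.md`. -/

namespace Vale.Agent.P292

open Module

universe u v

variable {R : Type u} [CommRing R] [Algebra ℂ R] {𝒜 : ℕ → Submodule ℂ R} [GradedAlgebra 𝒜]
  {P : R →ₗ[ℂ] R →ₗ[ℂ] R} {H : R} {a : ℤ} {n : ℕ}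

theorem in2_unique {g : R} (hg : g ≠ 0) {k l : ℕ} {m n : ℤ} (h1 : g ∈ Wt 𝒜 P H k m)
    (h2 : g ∈ Wt 𝒜 P H l n) : k = l ∧ m = n := by
  obtain ⟨a1, a2⟩ := mem_Wt.mp h1
  obtain ⟨b1, b2⟩ := mem_Wt.mp h2
  constructor
  · by_contra hne
    have h3 := DirectSum.decompose_of_mem_ne 𝒜 a1 hne
    rw [DirectSum.decompose_of_mem_same 𝒜 b1] at h3
    exact hg h3
  · rw [a2] at b2
    have h5 : ((m : ℂ) - (n : ℂ)) • g = 0 := by rw [sub_smul, b2, sub_self]
    rcases smul_eq_zero.mp h5 with h | h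
    · rw [sub_eq_zero] at h
      exact_mod_cast h
    · exact absurd h hg

theorem in2_all (C : Ctx 𝒜 P H a) {𝔽 : Type v} [Field 𝔽] [Algebra ℂ 𝔽]
    (𝒪 : ValuationSubring 𝔽) (φ : R →ₐ[ℂ] 𝔽) {θ χ : 𝔽}
    (hc : ∀ c : ℂ, 𝒪.valuation (algebraMap ℂ 𝔽 c) ≤ 1) (hχ0 : χ ≠ 0)
    {S : Finset R} (hS : Algebra.adjoin ℂ (S : Set R) = ⊤)
    (hg : ∀ g ∈ S, ∃ (k : ℕ) (m : ℤ), g ∈ Wt 𝒜 P H k m)
    (hv : ∀ g ∈ S, ∀ (k : ℕ) (m : ℤ), g ∈ Wt 𝒜 P H k m →
      𝒪.valuation (θ ^ k * χ ^ m * φ g) ≤ 1)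
    {k : ℕ} {m : ℤ} {r : R} (hr : r ∈ Wt 𝒜 P H k m) :
    𝒪.valuation (θ ^ k * χ ^ m * φ r) ≤ 1 := by
  let M : ℕ → ℤ → Submodule ℂ R := fun k m =>
    { carrier := {r | 𝒪.valuation (θ ^ k * χ ^ m * φ r) ≤ 1}
      add_mem' := fun {x y} hx hy => by
        change 𝒪.valuation (θ ^ k * χ ^ m * φ (x + y)) ≤ 1
        rw [map_add, mul_add]
        exact 𝒪.valuation.map_add_le hx hy
      zero_mem' := by
        change 𝒪.valuation (θ ^ k * χ ^ m * φ 0) ≤ 1
        rw [map_zero, mul_zero, map_zero]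
        exact zero_le_one
      smul_mem' := fun c x hx => by
        change 𝒪.valuation (θ ^ k * χ ^ m * φ (c • x)) ≤ 1
        rw [map_smul, Algebra.smul_def, mul_left_comm, map_mul]
        exact mul_le_one' (hc c) hx }
  refine Wt_le_of_generators C.hX C.hH hS hg M ?_ ?_ k m hr
  · change 𝒪.valuation (θ ^ 0 * χ ^ (0 : ℤ) * φ 1) ≤ 1
    rw [pow_zero, zpow_zero, map_one, mul_one, mul_one, map_one]
  · intro g hgs k m hgk l n r hrl _
    change 𝒪.valuation (θ ^ (k + l) * χ ^ (m + n) * φ (g * r)) ≤ 1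
    have e : θ ^ (k + l) * χ ^ (m + n) * φ (g * r) =
        (θ ^ k * χ ^ m * φ g) * (θ ^ l * χ ^ n * φ r) := by
      rw [pow_add, zpow_add₀ hχ0, map_mul]
      ring
    rw [e, map_mul]
    exact mul_le_one' (hv g hgs k m hgk) hrl

theorem in2_gen {𝔽 : Type v} [Field 𝔽] [Algebra ℂ 𝔽]
    (𝒪 : ValuationSubring 𝔽) (φ : R →ₐ[ℂ] 𝔽) {θ χ : 𝔽} (hχ1 : 1 ≤ 𝒪.valuation χ)
    (h1 : ∀ k : ℕ, ∀ r ∈ 𝒜 k, θ ^ k * φ r ∈ 𝒪)
    {S : Finset R} {K : R → ℕ} {M : R → ℤ} (hg0 : ∀ g ∈ S, g ≠ 0)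
    (hKM : ∀ g ∈ S, g ∈ Wt 𝒜 P H (K g) (M g)) (χ₁ : R → 𝔽)
    (hχ₁ : ∀ g ∈ S, 0 < M g → φ g ≠ 0 → χ₁ g ^ (M g) = (θ ^ K g * φ g)⁻¹)
    (hle : ∀ g ∈ S, 0 < M g → φ g ≠ 0 → 𝒪.valuation χ ≤ 𝒪.valuation (χ₁ g)) :
    ∀ g ∈ S, ∀ (k : ℕ) (m : ℤ), g ∈ Wt 𝒜 P H k m → 𝒪.valuation (θ ^ k * χ ^ m * φ g) ≤ 1 := by
  intro g hgS k m hgk
  obtain ⟨rfl, rfl⟩ := in2_unique (hg0 g hgS) hgk (hKM g hgS)
  have e : 𝒪.valuation (θ ^ K g * χ ^ M g * φ g) =
      𝒪.valuation χ ^ M g * 𝒪.valuation (θ ^ K g * φ g) := by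
    rw [mul_right_comm, mul_comm, map_mul, map_zpow₀]
  rw [e]
  have h3 : 𝒪.valuation (θ ^ K g * φ g) ≤ 1 :=
    (𝒪.valuation_le_one_iff _).2 (h1 (K g) g (mem_Wt.mp hgk).1)
  rcases le_or_gt (M g) 0 with hm | hm
  · exact mul_le_one' (zpow_le_one_of_nonpos₀ hχ1 hm) h3
  · by_cases hφ : φ g = 0
    · rw [hφ, mul_zero, map_zero, mul_zero]
      exact zero_le_one
    · have h4 : 𝒪.valuation χ ^ M g ≤ (𝒪.valuation (θ ^ K g * φ g))⁻¹ := by
        rw [← map_inv₀, ← hχ₁ g hgS hm hφ, map_zpow₀]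
        exact zpow_le_zpow_left₀ hm.le zero_le (hle g hgS hm hφ)
      refine (mul_le_mul_left h4 _).trans ?_
      exact inv_mul_le_one

/-- (INT), step (c): the second scaling. -/
theorem Ctx.valuation_second (C : Ctx 𝒜 P H a) {𝔽 : Type v} [Field 𝔽] [IsAlgClosed 𝔽]
    [Algebra ℂ 𝔽] (𝒪 : ValuationSubring 𝔽) (φ : R →ₐ[ℂ] 𝔽) (hW : TypeW 𝒜 P H a φ)
    (hp : ∀ (k : ℕ), ∀ c ∈ Wt 𝒜 P H k (a * k), φ c ∈ 𝒪)
    {θ : 𝔽} (hθ0 : θ ≠ 0) (hθ : 𝒪.valuation θ < 1)
    (h1 : ∀ k : ℕ, ∀ r ∈ 𝒜 k, θ ^ k * φ r ∈ 𝒪)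
    (h2 : ∀ (k : ℕ) (m : ℤ), m ≠ 0 → ∀ r ∈ Wt 𝒜 P H k m, 𝒪.valuation (θ ^ k * φ r) < 1)
    {k : ℕ} {s : ℤ} {r : R} (hr : r ∈ Wt 𝒜 P H k (a * s)) (hs : 0 ≤ s) :
    𝒪.valuation (θ ^ ((k : ℤ) - s) * φ r) ≤ 1 := by
  classical
  obtain ⟨S, hS, hgen⟩ := exists_Wt_generators C.hX C.hH
  choose! hg0 K M hK hKM using hgen
  have hc : ∀ c : ℂ, 𝒪.valuation (algebraMap ℂ 𝔽 c) ≤ 1 := by
    intro c
    have h3 := h1 0 (algebraMap ℂ R c) (SetLike.algebraMap_mem_graded 𝒜 c)
    rw [pow_zero, one_mul, AlgHom.commutes] at h3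
    exact (𝒪.valuation_le_one_iff _).2 h3
  have ha : 0 < a := (C.hmax.neg C.hX C.hH).2
  have hvθ : 𝒪.valuation θ ≠ 0 := (Valuation.ne_zero_iff _).2 hθ0
  obtain ⟨χ', hχ'⟩ := IsAlgClosed.exists_pow_nat_eq θ⁻¹ (n := a.natAbs) (Int.natAbs_pos.2 ha.ne')
  have hχ'a : χ' ^ a = θ⁻¹ := by
    rw [← hχ', ← zpow_natCast, Int.natCast_natAbs, abs_of_pos ha]
  have hχ'0 : χ' ≠ 0 := by
    rintro rfl
    rw [zero_zpow _ ha.ne'] at hχ'a
    exact inv_ne_zero hθ0 hχ'a.symm
  have hvχ' : 𝒪.valuation χ' ^ a = (𝒪.valuation θ)⁻¹ := by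
    rw [← map_zpow₀, hχ'a, map_inv₀]
  have hχ'1 : 1 ≤ 𝒪.valuation χ' := by
    by_contra hcon
    rw [not_le] at hcon
    have h3 : 𝒪.valuation χ' ^ a ≤ 1 :=
      zpow_le_one₀ (zero_lt_iff.2 ((Valuation.ne_zero_iff _).2 hχ'0)) hcon.le ha.le
    rw [hvχ'] at h3
    have h4 := (inv_le_one₀ (zero_lt_iff.2 hvθ)).1 h3
    exact absurd hθ (not_lt.2 h4)
  have hex : ∀ g : R, ∃ χ : 𝔽, g ∈ S → 0 < M g → φ g ≠ 0 →
      χ ^ (M g) = (θ ^ K g * φ g)⁻¹ := by
    intro g
    by_cases hm : 0 < M g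
    · obtain ⟨χ, hχ⟩ := IsAlgClosed.exists_pow_nat_eq (θ ^ K g * φ g)⁻¹
        (n := (M g).natAbs) (Int.natAbs_pos.2 hm.ne')
      refine ⟨χ, fun _ _ _ => ?_⟩
      rw [← hχ, ← zpow_natCast, Int.natCast_natAbs, abs_of_pos hm]
    · exact ⟨0, fun _ h => absurd h hm⟩
  choose χ₁ hχ₁ using hex
  have hle : ∀ g ∈ S, 0 < M g → φ g ≠ 0 → 𝒪.valuation χ' ≤ 𝒪.valuation (χ₁ g) := by
    intro g hg hm hφ
    set T : Finset R := S.filter fun g => 0 < M g ∧ φ g ≠ 0 with hT
    obtain ⟨g₀, hg₀, hmin⟩ := Finset.exists_min_image T (fun g => 𝒪.valuation (χ₁ g))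
      ⟨g, by rw [hT, Finset.mem_filter]; exact ⟨hg, hm, hφ⟩⟩
    rw [hT, Finset.mem_filter] at hg₀
    obtain ⟨hg₀S, hm₀, hφ₀⟩ := hg₀
    refine le_trans ?_ (hmin g (by rw [hT, Finset.mem_filter]; exact ⟨hg, hm, hφ⟩))
    by_contra hcon
    rw [not_le] at hcon
    set χ := χ₁ g₀ with hχdef
    have hχe : χ ^ M g₀ = (θ ^ K g₀ * φ g₀)⁻¹ := hχ₁ g₀ hg₀S hm₀ hφ₀
    have hne : θ ^ K g₀ * φ g₀ ≠ 0 := mul_ne_zero (pow_ne_zero _ hθ0) hφ₀
    have hχ0 : χ ≠ 0 := by
      intro h0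
      rw [h0, zero_zpow _ hm₀.ne'] at hχe
      exact inv_ne_zero hne hχe.symm
    have hvχ0 : 𝒪.valuation χ ≠ 0 := (Valuation.ne_zero_iff _).2 hχ0
    have hlt := h2 (K g₀) (M g₀) hm₀.ne' g₀ (hKM g₀ hg₀S)
    have hχ1 : 1 ≤ 𝒪.valuation χ := by
      by_contra hcon
      rw [not_le] at hcon
      have h3 : 𝒪.valuation χ ^ M g₀ ≤ 1 :=
        zpow_le_one₀ (zero_lt_iff.2 hvχ0) hcon.le hm₀.le
      rw [← map_zpow₀, hχe, map_inv₀] at h3
      have h4 := (inv_le_one₀ (zero_lt_iff.2 ((Valuation.ne_zero_iff _).2 hne))).1 h3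
      exact absurd hlt (not_lt.2 h4)
    have hall : ∀ {k : ℕ} {m : ℤ} {r : R}, r ∈ Wt 𝒜 P H k m →
        𝒪.valuation (θ ^ k * χ ^ m * φ r) ≤ 1 := fun hr =>
      in2_all C 𝒪 φ hc hχ0 hS (fun g hg => ⟨K g, M g, hKM g hg⟩)
        (in2_gen 𝒪 φ hχ1 h1 hg0 hKM χ₁ hχ₁ (fun g hg hm hφ =>
          hmin g (by rw [hT, Finset.mem_filter]; exact ⟨hg, hm, hφ⟩))) hr
    obtain ⟨φ', hφ'⟩ := exists_twist C.hX C.hH φ (fun k m => θ ^ k * χ ^ m)
      (by rw [pow_zero, zpow_zero, mul_one]) (fun k l m n _ _ => by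
        rw [pow_add, zpow_add₀ hχ0]
        ring)
    have hφ'1 : ∀ r, 𝒪.valuation (φ' r) ≤ 1 := by
      refine Wt_induction (𝒜 := 𝒜) (P := P) (H := H) C.hH ?_ ?_ ?_
      · intro x y hx hy
        rw [map_add]
        exact 𝒪.valuation.map_add_le hx hy
      · rw [map_zero, map_zero]
        exact zero_le_one
      · intro k m r hr
        rw [hφ' k m r hr]
        exact hall hr
    have hone : 𝒪.valuation (φ' g₀) = 1 := by
      rw [hφ' (K g₀) (M g₀) g₀ (hKM g₀ hg₀S), hχe, mul_right_comm, mul_inv_cancel₀ hne, map_one]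
    obtain ⟨w, hw1, hw2⟩ := exists_closed_of_valuation C.hX 𝒪.valuation φ' hφ'1 g₀
      (by rw [hone]; exact lt_irrefl _)
    have hwW : TypeW 𝒜 P H a w := by
      intro k m hm r hr
      apply hw1
      rw [hφ' k m r hr, hW k m hm r hr, mul_zero, map_zero]
      exact zero_lt_one
    have hwN : ¬ NV 𝒜 P H a w := by
      rintro ⟨k, hk, r, hr, hwr⟩
      apply hwr
      apply hw1
      rw [hφ' k _ r hr, map_mul, map_mul, map_pow, map_zpow₀, zpow_mul, zpow_natCast, ← mul_pow]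
      have h5 : 𝒪.valuation θ * 𝒪.valuation χ ^ a < 1 := by
        have h6 : 𝒪.valuation χ ^ a < 𝒪.valuation χ' ^ a := zpow_lt_zpow_left₀ ha zero_le hcon
        rw [hvχ'] at h6
        calc 𝒪.valuation θ * 𝒪.valuation χ ^ a < 𝒪.valuation θ * (𝒪.valuation θ)⁻¹ :=
              mul_lt_mul_of_pos_left h6 (zero_lt_iff.2 hvθ)
          _ = 1 := mul_inv_cancel₀ hvθ
      have h7 : 𝒪.valuation (φ r) ≤ 1 := (𝒪.valuation_le_one_iff _).2 (hp k r hr)
      calc (𝒪.valuation θ * 𝒪.valuation χ ^ a) ^ k * 𝒪.valuation (φ r)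
          ≤ (𝒪.valuation θ * 𝒪.valuation χ ^ a) ^ k * 1 := mul_le_mul_right h7 _
        _ < 1 := by
          rw [mul_one]
          exact pow_lt_one₀ zero_le h5 hk.ne'
    exact hw2 (tri_pos C.hX C.hH C.hmax hwW hwN hm₀ (hKM g₀ hg₀S))
  have hfin := in2_all C 𝒪 φ hc hχ'0 hS (fun g hg => ⟨K g, M g, hKM g hg⟩)
    (in2_gen 𝒪 φ hχ'1 h1 hg0 hKM χ₁ hχ₁ hle) hr
  have e : θ ^ ((k : ℤ) - s) * φ r = θ ^ k * χ' ^ (a * s) * φ r := by
    rw [zpow_mul, hχ'a, inv_zpow, zpow_sub₀ hθ0, zpow_natCast, div_eq_mul_inv]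
  rwa [e]

end Vale.Agent.P292
end

section

/-! Theorem E, section 2: Euler derivation at a point of slope zero. See `PROOF.md`. -/

namespace Vale.Agent.P292

open Module

universe u v

variable {R : Type u} [CommRing R] [Algebra ℂ R] {𝒜 : ℕ → Submodule ℂ R} [GradedAlgebra 𝒜]
  {P : R →ₗ[ℂ] R →ₗ[ℂ] R} {H : R} {a : ℤ} {n : ℕ}

/-- The point `w` of slope zero kills the brackets of nonzero total weight. -/
theorem lo1_wP (C : Ctx 𝒜 P H a) {w : R →ₐ[ℂ] ℂ} (hw : HasSlope 𝒜 P H w 0) {k l : ℕ} {m n : ℤ}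
    {r s : R} (hr : r ∈ Wt 𝒜 P H k m) (hs : s ∈ Wt 𝒜 P H l n) (hmn : m + n ≠ 0) :
    w (P r s) = 0 := by
  rcases Nat.eq_zero_or_pos (k + l) with h | h
  · have hl : l = 0 := by omega
    subst hl
    obtain ⟨c, hc⟩ := C.hX.connected s (mem_Wt.mp hs).1
    rw [hc, C.hX.P_algebraMap_right, map_zero]
  · exact ((hasSlope_iff C.hH w 0).1 hw).2 (k + l - 1) (m + n) _ (Wt_P C.hX (by omega) hr hs)
      (by simpa using hmn)

/-- The elements of weight zero. -/
def lo1R0 (𝒜 : ℕ → Submodule ℂ R) (P : R →ₗ[ℂ] R →ₗ[ℂ] R) (H : R) : Submodule ℂ R :=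
  ⨆ k : ℕ, Wt 𝒜 P H k 0

/-- The bihomogeneous elements of nonzero weight. -/
def lo1S (𝒜 : ℕ → Submodule ℂ R) (P : R →ₗ[ℂ] R →ₗ[ℂ] R) (H : R) : Set R :=
  {r | ∃ (k : ℕ) (m : ℤ), m ≠ 0 ∧ r ∈ Wt 𝒜 P H k m}

theorem lo1_decomp (C : Ctx 𝒜 P H a) (r : R) :
    ∃ r0 ∈ lo1R0 𝒜 P H, ∃ r' ∈ Submodule.span ℂ (lo1S 𝒜 P H), r = r0 + r' := by
  induction r using C.induction_Wt with
  | h k m r hr =>
    by_cases hm : m = 0
    · subst hm
      exact ⟨r, le_iSup (fun k : ℕ => Wt 𝒜 P H k 0) k hr, 0, zero_mem _, (add_zero r).symm⟩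
    · exact ⟨0, zero_mem _, r, Submodule.subset_span ⟨k, m, hm, hr⟩, (zero_add r).symm⟩
  | h0 => exact ⟨0, zero_mem _, 0, zero_mem _, (add_zero 0).symm⟩
  | hadd r s hr hs =>
    obtain ⟨r0, h0, r', h', e⟩ := hr
    obtain ⟨s0, h1, s', h'', e'⟩ := hs
    exact ⟨r0 + s0, add_mem h0 h1, r' + s', add_mem h' h'', by rw [e, e']; ring⟩

theorem lo1_w_span (C : Ctx 𝒜 P H a) {w : R →ₐ[ℂ] ℂ} (hw : HasSlope 𝒜 P H w 0) {r : R}
    (hr : r ∈ Submodule.span ℂ (lo1S 𝒜 P H)) : w r = 0 := by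
  have h : Submodule.span ℂ (lo1S 𝒜 P H) ≤ LinearMap.ker w.toLinearMap := by
    rw [Submodule.span_le]
    rintro r ⟨k, m, hm, hr⟩
    exact ((hasSlope_iff C.hH w 0).1 hw).2 k m r hr (by simpa using hm)
  exact h hr

/-- Weight zero pairs to zero with weight nonzero. -/
theorem lo1_wP_span (C : Ctx 𝒜 P H a) {w : R →ₐ[ℂ] ℂ} (hw : HasSlope 𝒜 P H w 0) {y r : R}
    (hy : y ∈ lo1R0 𝒜 P H) (hr : r ∈ Submodule.span ℂ (lo1S 𝒜 P H)) : w (P y r) = 0 := by
  have h1 : lo1R0 𝒜 P H ≤ LinearMap.ker (w.toLinearMap ∘ₗ P.flip r) := by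
    refine iSup_le fun k y hy => ?_
    have h2 : Submodule.span ℂ (lo1S 𝒜 P H) ≤ LinearMap.ker (w.toLinearMap ∘ₗ P y) := by
      rw [Submodule.span_le]
      rintro r ⟨l, m, hm, hr⟩
      exact lo1_wP C hw hy hr (by simpa using hm)
    exact h2 hr
  exact h1 hy

/-- The ideal `𝔪² + 𝔫`. -/
def lo1I (𝒜 : ℕ → Submodule ℂ R) (P : R →ₗ[ℂ] R →ₗ[ℂ] R) (H : R) (w : R →ₐ[ℂ] ℂ) : Ideal R :=
  RingHom.ker w ^ 2 ⊔ Ideal.span (lo1S 𝒜 P H)

/-- The left kernel of the pairing. -/
theorem lo1_mem (C : Ctx 𝒜 P H a) {w : R →ₐ[ℂ] ℂ} (hw : HasSlope 𝒜 P H w 0) {u : R}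
    (hu : w u = 0) (h : ∀ y ∈ lo1R0 𝒜 P H, w (P y u) = 0) : u ∈ lo1I 𝒜 P H w := by
  obtain ⟨u0, hu0, u', hu', rfl⟩ := lo1_decomp C u
  have h1 : w u0 = 0 := by
    rw [map_add, lo1_w_span C hw hu', add_zero] at hu
    exact hu
  have h2 : ∀ y ∈ lo1R0 𝒜 P H, w (P y u0) = 0 := by
    intro y hy
    have := h y hy
    rwa [map_add, map_add, lo1_wP_span C hw hy hu', add_zero] at this
  have h3 : ∀ v, w (P u0 v) = 0 := by
    intro v
    obtain ⟨v0, hv0, v', hv', rfl⟩ := lo1_decomp C v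
    rw [map_add, map_add, lo1_wP_span C hw hu0 hv', add_zero, C.hX.skew, map_neg, h2 v0 hv0,
      neg_zero]
  have h4 := C.hX.nondegenerate w hw.1 u0 h3
  rw [h1, map_zero, sub_zero] at h4
  refine add_mem (Ideal.mem_sup_left h4) (Ideal.mem_sup_right ?_)
  have h5 : Submodule.span ℂ (lo1S 𝒜 P H) ≤ (Ideal.span (lo1S 𝒜 P H)).restrictScalars ℂ := by
    rw [Submodule.span_le]
    exact Ideal.subset_span
  exact h5 hu'

/-- Derivations of Euler type at a point of slope zero. -/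
theorem Ctx.L1_euler (C : Ctx 𝒜 P H a) (w : R →ₐ[ℂ] ℂ) (hw : HasSlope 𝒜 P H w 0) :
    ∃ (N : ℕ) (x y : Fin N → R),
      (∀ i, x i ∈ RingHom.ker w) ∧ (∀ i, y i ∈ ⨆ k : ℕ, Wt 𝒜 P H k 0) ∧
      ∀ u ∈ RingHom.ker w, u - ∑ i, x i * P (y i) u ∈
        RingHom.ker w ^ 2 ⊔ Ideal.span {r | ∃ (k : ℕ) (m : ℤ), m ≠ 0 ∧ r ∈ Wt 𝒜 P H k m} := by
  classical
  have hft := C.hX.finiteType
  have hnoeth : IsNoetherianRing R := Algebra.FiniteType.isNoetherianRing ℂ R
  let M : Submodule ℂ R := (RingHom.ker w).restrictScalars ℂ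
  let Φ : M →ₗ[ℂ] lo1R0 𝒜 P H →ₗ[ℂ] ℂ :=
    (LinearMap.domRestrict₁₂ (P.compr₂ w.toLinearMap) (lo1R0 𝒜 P H) M).flip
  have hΦ : ∀ (u : M) (y : lo1R0 𝒜 P H), Φ u y = w (P (y : R) (u : R)) := fun u y => rfl
  have hMw : ∀ u : M, w (u : R) = 0 := fun u => u.2
  -- the range of `Φ` is finite dimensional
  have hfd : FiniteDimensional ℂ (LinearMap.range Φ) := by
    obtain ⟨s, hs⟩ := (isNoetherianRing_iff_ideal_fg R).1 hnoeth (RingHom.ker w)
    have hsM : ∀ z ∈ s, z ∈ M := fun z hz => by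
      have : z ∈ RingHom.ker w := by rw [← hs]; exact Ideal.subset_span hz
      exact this
    have hle : LinearMap.range Φ ≤
        Submodule.span ℂ (Set.range fun z : s => Φ ⟨z.1, hsM z.1 z.2⟩) := by
      rintro _ ⟨u, rfl⟩
      have hu : (u : R) ∈ Ideal.span (s : Set R) := by
        have h1 : (u : R) ∈ RingHom.ker w := u.2
        rwa [← hs] at h1
      obtain ⟨f, -, hf⟩ := Submodule.mem_span_finset.1 hu
      have h2 : Φ u = ∑ z ∈ s.attach, w (f z.1) • Φ ⟨z.1, hsM z.1 z.2⟩ := by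
        ext y
        rw [LinearMap.sum_apply]
        simp only [LinearMap.smul_apply, hΦ]
        have h3 : w (P (y : R) (∑ z ∈ s, f z • z)) = ∑ z ∈ s, w (f z) • w (P (y : R) z) := by
          rw [map_sum, map_sum]
          refine Finset.sum_congr rfl fun z hz => ?_
          have h4 : w z = 0 := hMw ⟨z, hsM z hz⟩
          rw [smul_eq_mul, smul_eq_mul, C.hX.leibniz, map_add, map_mul, map_mul, h4, mul_zero,
            zero_add]
        rw [← hf, h3, ← Finset.sum_attach s]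
      rw [h2]
      exact Submodule.sum_mem _ fun z _ => Submodule.smul_mem _ _
        (Submodule.subset_span ⟨z, rfl⟩)
    have hfin : FiniteDimensional ℂ
        (Submodule.span ℂ (Set.range fun z : s => Φ ⟨z.1, hsM z.1 z.2⟩)) :=
      FiniteDimensional.span_of_finite ℂ (Set.finite_range _)
    exact Submodule.finiteDimensional_of_le hle
  -- the evaluation map is surjective
  let B : LinearMap.range Φ →ₗ[ℂ] lo1R0 𝒜 P H →ₗ[ℂ] ℂ := (LinearMap.range Φ).subtype
  have hB : Function.Injective B := Subtype.val_injective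
  have hsurj : Function.Surjective B.flip := LinearMap.flip_surjective_iff₁.2 hB
  let b := Module.finBasis ℂ (LinearMap.range Φ)
  have hx : ∀ i, ∃ x : M, Φ x = (b i : lo1R0 𝒜 P H →ₗ[ℂ] ℂ) := fun i => (b i).2
  have hy : ∀ i, ∃ y : lo1R0 𝒜 P H, B.flip y = b.coord i := fun i => hsurj _
  choose x hx using hx
  choose y hy using hy
  refine ⟨_, fun i => (x i : R), fun i => (y i : R), fun i => (x i).2, fun i => (y i).2, ?_⟩
  intro u hu
  show u - ∑ i, (x i : R) * P (y i : R) u ∈ lo1I 𝒜 P H w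
  -- the expansion of `Φ u`
  have h1 : Φ ⟨u, hu⟩ = ∑ i, w (P (y i : R) u) • Φ (x i) := by
    have h2 := b.sum_repr ⟨Φ ⟨u, hu⟩, LinearMap.mem_range_self _ _⟩
    have h3 := congrArg (fun z : LinearMap.range Φ => (z : lo1R0 𝒜 P H →ₗ[ℂ] ℂ)) h2
    simp only at h3
    rw [← h3, AddSubmonoidClass.coe_finsetSum]
    refine Finset.sum_congr rfl fun i _ => ?_
    rw [Submodule.coe_smul, hx i]
    congr 1
    have h4 := LinearMap.congr_fun (hy i) ⟨Φ ⟨u, hu⟩, LinearMap.mem_range_self _ _⟩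
    exact h4.symm
  have h5 : u - ∑ i, w (P (y i : R) u) • (x i : R) ∈ lo1I 𝒜 P H w := by
    refine lo1_mem C hw ?_ ?_
    · have h6 : w u = 0 := hu
      rw [map_sub, h6, map_sum, zero_sub, neg_eq_zero]
      refine Finset.sum_eq_zero fun i _ => ?_
      rw [map_smul, hMw, smul_zero]
    · intro z hz
      have h7 := LinearMap.congr_fun h1 ⟨z, hz⟩
      rw [LinearMap.sum_apply] at h7
      simp only [LinearMap.smul_apply, hΦ] at h7
      rw [map_sub, map_sub, h7, map_sum, map_sum, sub_eq_zero]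
      refine Finset.sum_congr rfl fun i _ => ?_
      rw [map_smul, map_smul]
  have h8 : ∑ i, (x i : R) * P (y i : R) u - ∑ i, w (P (y i : R) u) • (x i : R) ∈
      lo1I 𝒜 P H w := by
    rw [← Finset.sum_sub_distrib]
    refine Submodule.sum_mem _ fun i _ => Ideal.mem_sup_left ?_
    have h9 : (x i : R) * P (y i : R) u - w (P (y i : R) u) • (x i : R) =
        (x i : R) * (P (y i : R) u - algebraMap ℂ R (w (P (y i : R) u))) := by
      rw [Algebra.smul_def]
      ring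
    rw [h9, sq]
    refine Ideal.mul_mem_mul (x i).2 ?_
    show w _ = 0
    rw [map_sub, AlgHom.commutes]
    simp
  have h10 : u - ∑ i, (x i : R) * P (y i : R) u =
      (u - ∑ i, w (P (y i : R) u) • (x i : R)) -
        (∑ i, (x i : R) * P (y i : R) u - ∑ i, w (P (y i : R) u) • (x i : R)) := by ring
  rw [h10]
  exact sub_mem h5 h8

end Vale.Agent.P292
end

section

/-! Theorem E, section 2: (L1). See `PROOF.md`. -/

namespace Vale.Agent.P292

open Module

universe u v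

variable {R : Type u} [CommRing R] [Algebra ℂ R] {𝒜 : ℕ → Submodule ℂ R} [GradedAlgebra 𝒜]
  {P : R →ₗ[ℂ] R →ₗ[ℂ] R} {H : R} {a : ℤ} {n : ℕ}

/-- Projections to the bihomogeneous components. -/
theorem lo2_proj (C : Ctx 𝒜 P H a) : ∃ π : ℕ → ℤ → R →ₗ[ℂ] R,
    (∀ k m, ∀ r ∈ Wt 𝒜 P H k m, π k m r = r) ∧
    (∀ k m k' m', (k, m) ≠ (k', m') → ∀ r ∈ Wt 𝒜 P H k m, π k' m' r = 0) ∧
    (∀ r, ∃ F : Finset (ℕ × ℤ), r = ∑ x ∈ F, π x.1 x.2 r) := by
  classical
  obtain ⟨D, hD⟩ := C.exists_hom (B := AddMonoidAlgebra R (ℕ × ℤ))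
    (fun k m => AddMonoidAlgebra.lsingle (R := ℂ) (k, m)) (by
      rw [AddMonoidAlgebra.lsingle_apply]; rfl) (by
      intro k l m n r _ s _
      simp only [AddMonoidAlgebra.lsingle_apply, AddMonoidAlgebra.single_mul_single]
      rfl)
  simp only [AddMonoidAlgebra.lsingle_apply] at hD
  let cf : AddMonoidAlgebra R (ℕ × ℤ) →ₗ[ℂ] (ℕ × ℤ →₀ R) :=
    (AddMonoidAlgebra.coeffLinearEquiv ℂ).toLinearMap
  have hcf : ∀ x (r : R), cf (AddMonoidAlgebra.single x r) = Finsupp.single x r := fun x r => rfl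
  let π : ℕ → ℤ → R →ₗ[ℂ] R := fun k m =>
    (Finsupp.lapply (k, m) : (ℕ × ℤ →₀ R) →ₗ[ℂ] R) ∘ₗ cf ∘ₗ D.toLinearMap
  have hπ : ∀ k m r, π k m r = cf (D r) (k, m) := fun k m r => rfl
  refine ⟨π, ?_, ?_, ?_⟩
  · intro k m r hr
    rw [hπ, hD k m r hr, hcf, Finsupp.single_eq_same]
  · intro k m k' m' hne r hr
    rw [hπ, hD k m r hr, hcf, Finsupp.single_eq_of_ne (Ne.symm hne)]
  · intro r
    let σ : (ℕ × ℤ →₀ R) →ₗ[ℂ] R := Finsupp.lsum ℂ (fun _ => LinearMap.id)
    have h1 : σ ∘ₗ cf ∘ₗ D.toLinearMap = LinearMap.id := by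
      apply C.ext_Wt
      intro k m r hr
      change σ (cf (D r)) = r
      rw [hD k m r hr, hcf]
      simp [σ]
    have h2 := LinearMap.congr_fun h1 r
    refine ⟨(cf (D r)).support, ?_⟩
    conv_lhs => rw [← LinearMap.id_apply (R := ℂ) r, ← h2]
    rfl

/-- The ideal generated by the elements of nonzero weight. -/
theorem lo2_P_mem (C : Ctx 𝒜 P H a) {y : R} (hy : y ∈ ⨆ k : ℕ, Wt 𝒜 P H k 0) {k : ℕ} {m : ℤ}
    (hm : m ≠ 0) {r : R} (hr : r ∈ Wt 𝒜 P H k m) :
    P y r ∈ Ideal.span {r | ∃ (k : ℕ) (m : ℤ), m ≠ 0 ∧ r ∈ Wt 𝒜 P H k m} := by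
  induction hy using Submodule.iSup_induction' with
  | mem k' y hy =>
    by_cases hk : k' + k = 0
    · have hk0 : k = 0 := by omega
      subst hk0
      obtain ⟨hr1, hr2⟩ := mem_Wt.mp hr
      obtain ⟨c, rfl⟩ := C.hX.connected r hr1
      rw [C.hX.P_algebraMap_right]
      exact zero_mem _
    · have := Wt_P C.hX (j := k' + k - 1) (by omega) hy hr
      rw [zero_add] at this
      exact Ideal.subset_span ⟨_, _, hm, this⟩
  | zero => rw [map_zero, LinearMap.zero_apply]; exact zero_mem _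
  | add y z _ _ hy hz => rw [map_add, LinearMap.add_apply]; exact add_mem hy hz

/-- (L1) -/
theorem Ctx.L1 (C : Ctx 𝒜 P H a) (w : R →ₐ[ℂ] ℂ) (hw : HasSlope 𝒜 P H w 0) :
    ∃ k : ℕ, ∃ u ∈ Wt 𝒜 P H k 0, w u ≠ 0 ∧
      u * H ∈ Submodule.span ℂ {s | ∃ (k₁ k₂ : ℕ) (m : ℤ), k₁ + k₂ = k + 1 ∧ 0 < m ∧
        ∃ p ∈ Wt 𝒜 P H k₁ m, ∃ q ∈ Wt 𝒜 P H k₂ (-m), s = p * q} := by
  classical
  obtain ⟨N, x, y, hx, hy, hE⟩ := C.L1_euler w hw
  set M : Ideal R := RingHom.ker w with hM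
  set I : Ideal R := Ideal.span {r | ∃ (k : ℕ) (m : ℤ), m ≠ 0 ∧ r ∈ Wt 𝒜 P H k m} with hI
  have hHW : H ∈ Wt 𝒜 P H 1 0 := by
    rw [mem_Wt]
    exact ⟨C.hH.mem, by rw [C.hX.alternating]; simp⟩
  let E : R →ₗ[ℂ] R := ∑ i, LinearMap.mulLeft ℂ (x i) ∘ₗ P (y i)
  have hEapp : ∀ u, E u = ∑ i, x i * P (y i) u := by
    intro u; simp [E]
  have hEmul : ∀ u v, E (u * v) = E u * v + u * E v := by
    intro u v
    rw [hEapp, hEapp, hEapp, Finset.sum_mul, Finset.mul_sum, ← Finset.sum_add_distrib]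
    refine Finset.sum_congr rfl fun i _ => ?_
    rw [C.hX.leibniz]; ring
  -- `E` preserves `I`
  have hEI : ∀ u ∈ I, E u ∈ I := by
    intro u hu
    rw [hI] at hu
    induction hu using Submodule.span_induction with
    | mem r hr =>
      obtain ⟨k, m, hm, hr⟩ := hr
      rw [hEapp]
      exact sum_mem fun i _ => Ideal.mul_mem_left _ _ (lo2_P_mem C (hy i) hm hr)
    | zero => rw [map_zero]; exact zero_mem _
    | add u v _ _ hu hv => rw [map_add]; exact add_mem hu hv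
    | smul c u hu' hu =>
      rw [smul_eq_mul, hEmul]
      exact add_mem (Ideal.mul_mem_left _ _ hu') (Ideal.mul_mem_left _ _ hu)
  -- `E H = 0`
  have hEH : E H = 0 := by
    rw [hEapp]
    refine Finset.sum_eq_zero fun i _ => ?_
    have h1 : P H (y i) = 0 := by
      refine Submodule.iSup_induction _ (motive := fun z => P H z = 0) (hy i) ?_ ?_ ?_
      · intro k z hz
        rw [(mem_Wt.mp hz).2]; simp
      · exact map_zero _
      · intro z z' hz hz'
        rw [map_add, hz, hz', add_zero]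
    rw [C.hX.skew, h1, neg_zero, mul_zero]
  -- `E = j` on `M ^ j`
  have hEj : ∀ (j : ℕ), ∀ u ∈ M ^ j, E u - (j : ℂ) • u ∈ M ^ (j + 1) ⊔ I := by
    intro j
    induction j with
    | zero =>
      intro u _
      rw [Nat.cast_zero, zero_smul, sub_zero, zero_add, pow_one, hEapp]
      refine Ideal.mem_sup_left (sum_mem fun i _ => Ideal.mul_mem_right _ _ (hx i))
    | succ j ih =>
      intro u hu
      rw [pow_succ] at hu
      refine Submodule.mul_induction_on hu ?_ ?_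
      · intro v hv z hz
        have e1 : E (v * z) - ((j + 1 : ℕ) : ℂ) • (v * z) =
            (E v - (j : ℂ) • v) * z + v * (E z - z) := by
          rw [hEmul]
          simp only [Algebra.smul_def, Nat.cast_add, Nat.cast_one, map_add, map_one]
          ring
        rw [e1]
        refine add_mem ?_ ?_
        · have h1 : (E v - (j : ℂ) • v) * z ∈ (M ^ (j + 1) ⊔ I) * M :=
            Ideal.mul_mem_mul (ih v hv) hz
          rw [Ideal.sup_mul, ← pow_succ] at h1
          have h3 : M ^ (j + 1 + 1) ⊔ I * M ≤ M ^ (j + 1 + 1) ⊔ I :=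
            sup_le_sup_left Ideal.mul_le_left _
          exact h3 h1
        · have h2 : E z - z ∈ M ^ 2 ⊔ I := by
            have := hE z hz
            rw [← hEapp] at this
            rw [← neg_sub]
            exact neg_mem this
          have h1 : v * (E z - z) ∈ M ^ j * (M ^ 2 ⊔ I) := Ideal.mul_mem_mul hv h2
          rw [Ideal.mul_sup, ← pow_add] at h1
          have h3 : M ^ (j + 2) ⊔ M ^ j * I ≤ M ^ (j + 2) ⊔ I :=
            sup_le_sup_left Ideal.mul_le_right _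
          exact h3 h1
      · intro v z hv hz
        rw [map_add, smul_add, add_sub_add_comm]
        exact add_mem hv hz
  -- `H ∈ M ^ j + I`
  have hHM : H ∈ M := by
    rw [hM, RingHom.mem_ker]
    exact torus3_slope_zero C.hX C.hH.mem hw
  have hHj : ∀ j : ℕ, H ∈ M ^ (j + 1) ⊔ I := by
    intro j
    induction j with
    | zero => rw [zero_add, pow_one]; exact Ideal.mem_sup_left hHM
    | succ j ih =>
      obtain ⟨p, hp, q, hq, hpq⟩ := Submodule.mem_sup.mp ih
      have h1 := hEj (j + 1) p hp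
      have h2 : E p = - E q := by
        rw [eq_neg_iff_add_eq_zero, ← map_add, hpq, hEH]
      have h3 : ((j + 1 : ℕ) : ℂ) • p ∈ M ^ (j + 1 + 1) ⊔ I := by
        have h4 : ((j + 1 : ℕ) : ℂ) • p = -(E p - ((j + 1 : ℕ) : ℂ) • p) - E q := by
          rw [h2]; abel
        rw [h4]
        exact sub_mem (neg_mem h1) (Ideal.mem_sup_right (hEI q hq))
      have h5 : p ∈ M ^ (j + 1 + 1) ⊔ I := by
        have h6 : ((j + 1 : ℕ) : ℂ) ≠ 0 := Nat.cast_ne_zero.mpr (Nat.succ_ne_zero j)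
        have h7 := Ideal.mul_mem_left (M ^ (j + 1 + 1) ⊔ I)
          (algebraMap ℂ R (((j + 1 : ℕ) : ℂ)⁻¹)) h3
        rwa [← Algebra.smul_def, smul_smul, inv_mul_cancel₀ h6, one_smul] at h7
      rw [← hpq]
      exact add_mem h5 (Ideal.mem_sup_right hq)
  -- Krull
  obtain ⟨g, hg, hgH⟩ : ∃ g : R, w g ≠ 0 ∧ g * H ∈ I := by
    have := C.hX.finiteType
    have : IsNoetherianRing R := Algebra.FiniteType.isNoetherianRing ℂ R
    have h1 : (Submodule.Quotient.mk H : R ⧸ I) ∈ (⨅ i : ℕ, M ^ i • ⊤ : Submodule R (R ⧸ I)) := by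
      rw [Submodule.mem_iInf]
      intro i
      rcases Nat.eq_zero_or_pos i with rfl | hi
      · simp
      · obtain ⟨j, rfl⟩ : ∃ j, i = j + 1 := ⟨i - 1, by omega⟩
        obtain ⟨p, hp, q, hq, hpq⟩ := Submodule.mem_sup.mp (hHj j)
        have h2 : (Submodule.Quotient.mk H : R ⧸ I) =
            p • (Submodule.Quotient.mk 1 : R ⧸ I) := by
          rw [← Submodule.Quotient.mk_smul, smul_eq_mul, mul_one, Submodule.Quotient.eq, ← hpq,
            add_sub_cancel_left]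
          exact hq
        rw [h2]
        exact Submodule.smul_mem_smul hp trivial
    obtain ⟨r, hr⟩ := (Ideal.mem_iInf_smul_pow_eq_bot_iff M _).mp h1
    refine ⟨1 - r, ?_, ?_⟩
    · rw [map_sub, map_one, (RingHom.mem_ker (f := w)).mp r.2, sub_zero]
      exact one_ne_zero
    · rw [← Submodule.Quotient.mk_smul, Submodule.Quotient.eq] at hr
      have h2 : (1 - (r : R)) * H = -((r : R) • H - H) := by
        rw [smul_eq_mul]; ring
      rw [h2]
      exact neg_mem hr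
  -- components
  obtain ⟨π, hπ1, hπ2, hπ3⟩ := lo2_proj C
  have hπW : ∀ k m r, π k m r ∈ Wt 𝒜 P H k m := by
    intro k m r
    refine C.induction_Wt (p := fun r => π k m r ∈ Wt 𝒜 P H k m) ?_ ?_ ?_ r
    · intro k' m' r hr
      by_cases h : (k', m') = (k, m)
      · obtain ⟨rfl, rfl⟩ := Prod.mk.inj h
        rw [hπ1 _ _ r hr]; exact hr
      · rw [hπ2 _ _ _ _ h r hr]; exact zero_mem _
    · rw [map_zero]; exact zero_mem _
    · intro r s hr hs
      rw [map_add]; exact add_mem hr hs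
  obtain ⟨k, hk⟩ : ∃ k : ℕ, w (π k 0 g) ≠ 0 := by
    by_contra hcon
    push Not at hcon
    apply hg
    obtain ⟨F, hF⟩ := hπ3 g
    rw [hF, map_sum]
    refine Finset.sum_eq_zero fun z _ => ?_
    by_cases hz : z.2 = 0
    · rw [hz]; exact hcon _
    · exact ((hasSlope_iff C.hH w 0).1 hw).2 _ _ _ (hπW z.1 z.2 g) (by simpa using hz)
  refine ⟨k, π k 0 g, hπW k 0 g, hk, ?_⟩
  -- the component of `g * H`
  have hc1 : π (k + 1) 0 (g * H) = π k 0 g * H := by
    refine C.induction_Wt (p := fun g => π (k + 1) 0 (g * H) = π k 0 g * H) ?_ ?_ ?_ g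
    · intro k' m' r hr
      have h1 := Wt_mul C.hX hr hHW
      rw [add_zero] at h1
      by_cases h : (k', m') = (k, 0)
      · obtain ⟨rfl, rfl⟩ := Prod.mk.inj h
        rw [hπ1 _ _ _ h1, hπ1 _ _ _ hr]
      · rw [hπ2 _ _ _ _ h r hr, hπ2 _ _ _ _ ?_ _ h1, zero_mul]
        intro h2
        apply h
        have h3 := Prod.mk.inj h2
        rw [Prod.mk.injEq]
        exact ⟨by omega, h3.2⟩
    · rw [zero_mul, map_zero, map_zero, zero_mul]
    · intro r s hr hs
      rw [add_mul, map_add, hr, hs, map_add, add_mul]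
  rw [← hc1]
  set J := Submodule.span ℂ {s | ∃ (k₁ k₂ : ℕ) (m : ℤ), k₁ + k₂ = k + 1 ∧ 0 < m ∧
        ∃ p ∈ Wt 𝒜 P H k₁ m, ∃ q ∈ Wt 𝒜 P H k₂ (-m), s = p * q} with hJ
  -- components of elements of `I`
  have hc2 : ∀ (f r : R) (k' : ℕ) (m' : ℤ), m' ≠ 0 → r ∈ Wt 𝒜 P H k' m' →
      π (k + 1) 0 (f * r) ∈ J := by
    intro f r k' m' hm' hr
    refine C.induction_Wt (p := fun f => π (k + 1) 0 (f * r) ∈ J) ?_ ?_ ?_ f
    · intro k'' m'' f hf
      have h1 := Wt_mul C.hX hf hr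
      by_cases h : (k'' + k', m'' + m') = (k + 1, 0)
      · have h3 := Prod.mk.inj h
        rw [h3.1, h3.2] at h1
        rw [hπ1 _ _ _ h1]
        apply Submodule.subset_span
        rcases lt_or_gt_of_ne hm' with h4 | h4
        · have h5 : m' = -m'' := by linarith [h3.2]
          refine ⟨k'', k', m'', h3.1, by omega, f, hf, r, ?_, rfl⟩
          rw [← h5]; exact hr
        · have h5 : m'' = -m' := by linarith [h3.2]
          refine ⟨k', k'', m', by rw [add_comm]; exact h3.1, h4, r, hr, f, ?_, mul_comm _ _⟩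
          rw [← h5]; exact hf
      · rw [hπ2 _ _ _ _ h _ h1]; exact zero_mem _
    · rw [zero_mul, map_zero]; exact zero_mem _
    · intro r s hr hs
      rw [add_mul, map_add]; exact add_mem hr hs
  have hc3 : ∀ z ∈ I, ∀ f : R, π (k + 1) 0 (f * z) ∈ J := by
    intro z hz
    rw [hI] at hz
    induction hz using Submodule.span_induction with
    | mem r hr =>
      obtain ⟨k', m', hm', hr⟩ := hr
      exact fun f => hc2 f r k' m' hm' hr
    | zero => intro f; rw [mul_zero, map_zero]; exact zero_mem _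
    | add u v _ _ hu hv => intro f; rw [mul_add, map_add]; exact add_mem (hu f) (hv f)
    | smul c u _ hu =>
      intro f
      rw [smul_eq_mul, ← mul_assoc]
      exact hu (f * c)
  have := hc3 _ hgH 1
  rwa [one_mul] at this

end Vale.Agent.P292
end

section

/-! Theorem E, section 3: (INT) (d),(e). See `PROOF.md`. -/

namespace Vale.Agent.P292

open Module

universe u v

variable {R : Type u} [CommRing R] [Algebra ℂ R] {𝒜 : ℕ → Submodule ℂ R} [GradedAlgebra 𝒜]
  {P : R →ₗ[ℂ] R →ₗ[ℂ] R} {H : R} {a : ℤ} {n : ℕ}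

/-- scalars are weight vectors of bidegree `(0,0)` -/
theorem in3_const (C : Ctx 𝒜 P H a) (c : ℂ) : algebraMap ℂ R c ∈ Wt 𝒜 P H 0 0 := by
  have h1 : P H 1 = 0 := by
    have h := C.hX.leibniz H 1 1
    simpa using h
  rw [mem_Wt, Algebra.algebraMap_eq_smul_one]
  refine ⟨(𝒜 0).smul_mem _ SetLike.GradedOne.one_mem, ?_⟩
  rw [map_smul, h1]
  simp

/-- both signs of the slope -/
theorem in3_both (C : Ctx 𝒜 P H a) {𝔽 : Type v} [Field 𝔽] [IsAlgClosed 𝔽]
    [Algebra ℂ 𝔽] (𝒪 : ValuationSubring 𝔽) (φ : R →ₐ[ℂ] 𝔽) (hW : TypeW 𝒜 P H a φ)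
    (hp : ∀ (k : ℕ), ∀ c ∈ Wt 𝒜 P H k (a * k), φ c ∈ 𝒪)
    (hm : ∀ (k : ℕ), ∀ c ∈ Wt 𝒜 P H k (-(a * k)), φ c ∈ 𝒪)
    {θ : 𝔽} (hθ0 : θ ≠ 0) (hθ : 𝒪.valuation θ < 1)
    (h1 : ∀ k : ℕ, ∀ r ∈ 𝒜 k, θ ^ k * φ r ∈ 𝒪)
    (h2 : ∀ (k : ℕ) (m : ℤ), m ≠ 0 → ∀ r ∈ Wt 𝒜 P H k m, 𝒪.valuation (θ ^ k * φ r) < 1)
    {k : ℕ} {s : ℤ} {r : R} (hr : r ∈ Wt 𝒜 P H k (a * s)) :
    𝒪.valuation (θ ^ ((k : ℤ) - |s|) * φ r) ≤ 1 := by
  rcases le_or_gt 0 s with hs | hs
  · rw [abs_of_nonneg hs]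
    exact C.valuation_second 𝒪 φ hW hp hθ0 hθ h1 h2 hr hs
  · rw [abs_of_neg hs]
    refine C.neg.valuation_second 𝒪 φ (typeW_neg.2 hW) (fun k c hc => ?_) hθ0 hθ h1
      (fun k m hm0 r hr => ?_) (s := -s) ?_ (by omega)
    · rw [Wt_neg] at hc
      exact hm k c hc
    · rw [Wt_neg] at hr
      exact h2 k (-m) (neg_ne_zero.2 hm0) r hr
    · rw [Wt_neg]
      have e : -(a * -s) = a * s := by ring
      rw [e]
      exact hr

/-- (INT), valuative form. -/
theorem Ctx.valuation_bound (C : Ctx 𝒜 P H a) {𝔽 : Type v} [Field 𝔽] [IsAlgClosed 𝔽]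
    [Algebra ℂ 𝔽] (𝒪 : ValuationSubring 𝔽) (φ : R →ₐ[ℂ] 𝔽) (hW : TypeW 𝒜 P H a φ)
    (hp : ∀ (k : ℕ), ∀ c ∈ Wt 𝒜 P H k (a * k), φ c ∈ 𝒪)
    (hm : ∀ (k : ℕ), ∀ c ∈ Wt 𝒜 P H k (-(a * k)), φ c ∈ 𝒪)
    {k : ℕ} {s : ℤ} {r : R} (hr : r ∈ Wt 𝒜 P H k (a * s)) :
    φ (r * H ^ (k - s.natAbs)) ∈ 𝒪 := by
  by_cases hall : ∀ r, φ r ∈ 𝒪
  · exact hall _
  push Not at hall
  obtain ⟨θ, hθ0, hθ, h1, h2, w, hw, hw1⟩ := C.valuation_scale 𝒪 φ hW hp hm hall
  have hbd : ∀ {k : ℕ} {s : ℤ} {r : R}, r ∈ Wt 𝒜 P H k (a * s) →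
      𝒪.valuation (θ ^ ((k : ℤ) - |s|) * φ r) ≤ 1 := fun hr =>
    in3_both C 𝒪 φ hW hp hm hθ0 hθ h1 h2 hr
  have hpos := C.pos
  have hc : ∀ c : ℂ, 𝒪.valuation (algebraMap ℂ 𝔽 c) ≤ 1 := by
    intro c
    rw [ValuationSubring.valuation_le_one_iff, ← φ.commutes]
    exact hp 0 _ (by simpa using in3_const C c)
  -- the bound for `H`
  obtain ⟨ku, u, hu, hwu, hsum⟩ := C.L1 w hw
  have hu1 := hw1 ku u hu hwu
  have hspan : ∀ x ∈ Submodule.span ℂ {s | ∃ (k₁ k₂ : ℕ) (m : ℤ), k₁ + k₂ = ku + 1 ∧ 0 < m ∧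
        ∃ p ∈ Wt 𝒜 P H k₁ m, ∃ q ∈ Wt 𝒜 P H k₂ (-m), s = p * q},
      𝒪.valuation (θ ^ ((ku : ℤ) - 1) * φ x) ≤ 1 := by
    intro x hx
    induction hx using Submodule.span_induction with
    | mem x hx =>
      obtain ⟨k₁, k₂, m, hk, hm0, p, hpm, q, hq, rfl⟩ := hx
      by_cases hdvd : a ∣ m
      · obtain ⟨s, rfl⟩ := hdvd
        have hs : 1 ≤ s := by
          by_contra hcon
          have : s ≤ 0 := by omega
          have := mul_nonpos_of_nonneg_of_nonpos hpos.le this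
          omega
        have b1 := hbd hpm
        have e1 : -(a * s) = a * (-s) := by ring
        rw [e1] at hq
        have b2 := hbd hq
        rw [abs_neg] at b2
        rw [abs_of_pos (by omega : 0 < s)] at b1 b2
        obtain ⟨t, rfl⟩ : ∃ t : ℕ, s = t + 1 := ⟨(s - 1).toNat, by omega⟩
        have e2 : θ ^ ((ku : ℤ) - 1) * φ (p * q) =
            (θ ^ (2 * t)) * ((θ ^ ((k₁ : ℤ) - (t + 1)) * φ p) *
              (θ ^ ((k₂ : ℤ) - (t + 1)) * φ q)) := by
          have e3 : (ku : ℤ) - 1 = ((2 * t : ℕ) : ℤ) + (((k₁ : ℤ) - (t + 1)) +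
              ((k₂ : ℤ) - (t + 1))) := by
            push_cast
            omega
          rw [e3, zpow_add₀ hθ0, zpow_add₀ hθ0, zpow_natCast, map_mul]
          ring
        rw [e2, map_mul, map_mul, map_pow]
        exact mul_le_one' (pow_le_one' hθ.le _) (mul_le_one' b1 b2)
      · rw [map_mul φ, hW k₁ m hdvd p hpm, zero_mul, mul_zero, map_zero]
        exact zero_le_one
    | zero => rw [map_zero, mul_zero, map_zero]; exact zero_le_one
    | add x y _ _ hx hy =>
      rw [map_add, mul_add]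
      exact 𝒪.valuation.map_add_le hx hy
    | smul c x _ hx =>
      rw [map_smul, Algebra.smul_def, mul_left_comm, map_mul]
      exact mul_le_one' (hc c) hx
  have hH : 𝒪.valuation (φ H) ≤ 𝒪.valuation θ := by
    have h3 := hspan _ hsum
    have e : θ ^ ((ku : ℤ) - 1) * φ (u * H) = (θ ^ ku * φ u) * (θ⁻¹ * φ H) := by
      rw [zpow_sub₀ hθ0, zpow_natCast, zpow_one, map_mul]
      ring
    rw [e, map_mul, hu1, one_mul, map_mul, map_inv₀] at h3
    have hθv : 𝒪.valuation θ ≠ 0 := (Valuation.ne_zero_iff _).2 hθ0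
    calc 𝒪.valuation (φ H) = 𝒪.valuation θ * ((𝒪.valuation θ)⁻¹ * 𝒪.valuation (φ H)) := by
          rw [← mul_assoc, mul_inv_cancel₀ hθv, one_mul]
      _ ≤ 𝒪.valuation θ * 1 := mul_le_mul_right h3 _
      _ = _ := mul_one _
  -- conclusion
  by_cases hr0 : r = 0
  · rw [hr0, zero_mul, map_zero]
    exact zero_mem _
  have hle := C.abs_le hr hr0
  have hsk : s.natAbs ≤ k := by
    rw [abs_mul, abs_of_pos hpos] at hle
    have h5 := le_of_mul_le_mul_left hle hpos
    rw [Int.abs_eq_natAbs] at h5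
    omega
  rw [← ValuationSubring.valuation_le_one_iff, map_mul, map_mul, map_pow, map_pow]
  have h4 := hbd hr
  have e5 : ((k : ℤ) - |s|) = ((k - s.natAbs : ℕ) : ℤ) := by
    rw [Int.abs_eq_natAbs]
    omega
  rw [e5, zpow_natCast, map_mul, map_pow] at h4
  calc 𝒪.valuation (φ r) * 𝒪.valuation (φ H) ^ (k - s.natAbs)
      ≤ 𝒪.valuation (φ r) * 𝒪.valuation θ ^ (k - s.natAbs) :=
        mul_le_mul_right (pow_le_pow_left' hH _) _
    _ = 𝒪.valuation θ ^ (k - s.natAbs) * 𝒪.valuation (φ r) := mul_comm _ _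
    _ ≤ 1 := h4

end Vale.Agent.P292
end

section

/-! # Integrality over normal domains from discrete valuation rings. -/

namespace Vale.Agent.P292

open Module Polynomial

universe u v

set_option linter.style.haveILetI false

/-- A criterion for discrete valuation rings. -/
theorem zb2a_dvr {V K : Type*} [CommRing V] [IsDomain V] [IsLocalRing V] [IsNoetherianRing V]
    [IsIntegrallyClosed V] [Field K] [Algebra V K] [IsFractionRing V K] (u : K)
    (hu : ∀ v : V, algebraMap V K v ≠ u)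
    (h : ∀ m ∈ IsLocalRing.maximalIdeal V, ∃ v : V, algebraMap V K v = u * algebraMap V K m) :
    IsDiscreteValuationRing V := by
  have hinj := IsFractionRing.injective V K
  have hnf : ¬ IsField V := by
    intro hV
    obtain ⟨x, y, hy, hxy⟩ := IsFractionRing.div_surjective (A := V) u
    obtain ⟨z, hz⟩ := hV.mul_inv_cancel (nonZeroDivisors.ne_zero hy)
    apply hu (x * z)
    rw [← hxy, eq_div_iff (by
      rw [Ne, map_eq_zero_iff _ hinj]; exact nonZeroDivisors.ne_zero hy), ← map_mul, mul_assoc,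
      mul_comm z y, hz, mul_one]
  have hmax : IsLocalRing.maximalIdeal V ≠ ⊥ := IsLocalRing.isField_iff_maximalIdeal_eq.not.mp hnf
  by_cases hc : ∀ m ∈ IsLocalRing.maximalIdeal V, ∃ v ∈ IsLocalRing.maximalIdeal V,
      algebraMap V K v = u * algebraMap V K m
  · exfalso
    have hint : IsIntegral V u := by
      refine isIntegral_of_smul_mem_submodule (M := K)
        (Submodule.map (Algebra.linearMap V K) (IsLocalRing.maximalIdeal V)) ?_ ?_ u ?_
      · obtain ⟨m, hm, hm0⟩ := Submodule.exists_mem_ne_zero_of_ne_bot hmax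
        refine (Submodule.ne_bot_iff _).2 ⟨algebraMap V K m, ⟨m, hm, rfl⟩, ?_⟩
        rw [Ne, map_eq_zero_iff _ hinj]
        exact hm0
      · exact (IsNoetherian.noetherian (IsLocalRing.maximalIdeal V)).map _
      · rintro _ ⟨m, hm, rfl⟩
        obtain ⟨v, hv, hvm⟩ := hc m hm
        exact ⟨v, hv, hvm⟩
    obtain ⟨v, hv⟩ := IsIntegrallyClosed.isIntegral_iff.1 hint
    exact hu v hv
  · push Not at hc
    obtain ⟨m, hm, hmv⟩ := hc
    obtain ⟨v, hv⟩ := h m hm
    have hvu : IsUnit v := by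
      by_contra hcon
      exact hmv v ((IsLocalRing.mem_maximalIdeal v).2 hcon) hv
    have hp : IsLocalRing.maximalIdeal V = Ideal.span {m} := by
      apply le_antisymm
      · intro x hx
        obtain ⟨y, hy⟩ := h x hx
        obtain ⟨w, rfl⟩ := hvu
        rw [Ideal.mem_span_singleton]
        refine ⟨y * (↑w⁻¹ : V), hinj ?_⟩
        have h1 : algebraMap V K (w : V) * algebraMap V K (↑w⁻¹ : V) = 1 := by
          rw [← map_mul, Units.mul_inv, map_one]
        rw [map_mul, map_mul, hy]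
        calc algebraMap V K x = algebraMap V K x *
              (algebraMap V K (w : V) * algebraMap V K (↑w⁻¹ : V)) := by rw [h1, mul_one]
          _ = _ := by rw [hv]; ring
      · rw [Ideal.span_singleton_le_iff_mem]
        exact hm
    have hpr : (IsLocalRing.maximalIdeal V).IsPrincipal := ⟨⟨m, hp⟩⟩
    have hiff : IsDiscreteValuationRing V ↔ (IsLocalRing.maximalIdeal V).IsPrincipal :=
      (IsDiscreteValuationRing.TFAE V hnf).out 0 4
    exact hiff.2 hpr

/-- The fraction field of `R` is the fraction field of its localizations. -/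
theorem zb2a_fraction {R : Type u} (K : Type v) [CommRing R] [IsDomain R] [Field K] [Algebra R K]
    [IsFractionRing R K] (𝔭 : Ideal R) [𝔭.IsPrime] (V : Type u) [CommRing V] [IsDomain V]
    [Algebra R V] [IsLocalization.AtPrime V 𝔭] :
    ∃ (_ : Algebra V K), IsScalarTower R V K ∧ IsFractionRing V K := by
  have hu : ∀ y : 𝔭.primeCompl, IsUnit (algebraMap R K y) := by
    intro y
    rw [isUnit_iff_ne_zero]
    intro h
    have h1 : (y : R) = 0 := (IsFractionRing.injective R K) (by rw [h, map_zero])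
    exact y.2 (by rw [h1]; exact 𝔭.zero_mem)
  let φ : V →+* K := IsLocalization.lift hu
  letI i : Algebra V K := φ.toAlgebra
  have hφ : ∀ r : R, algebraMap V K (algebraMap R V r) = algebraMap R K r :=
    fun r => IsLocalization.lift_eq hu r
  haveI : IsScalarTower R V K := IsScalarTower.of_algebraMap_eq fun r => (hφ r).symm
  exact ⟨i, this, IsFractionRing.isFractionRing_of_isDomain_of_isLocalization 𝔭.primeCompl V K⟩

/-- A normal noetherian domain is the intersection of its discrete valuation rings. -/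
theorem zb2a_mem {R : Type u} {K : Type v} [CommRing R] [IsDomain R] [IsNoetherianRing R]
    [IsIntegrallyClosed R] [Field K] [Algebra R K] [IsFractionRing R K] (c : K)
    (h : ∀ (𝔭 : Ideal R) [𝔭.IsPrime], IsDiscreteValuationRing (Localization.AtPrime 𝔭) →
      ∃ a b : R, b ∉ 𝔭 ∧ algebraMap R K b * c = algebraMap R K a) :
    ∃ r : R, algebraMap R K r = c := by
  by_contra hcon
  push Not at hcon
  let I : K → Ideal R := fun u =>
    (LinearMap.range (Algebra.linearMap R K)).comap (LinearMap.toSpanSingleton R K u)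
  have hI : ∀ (u : K) (r : R), r ∈ I u ↔ ∃ a : R, algebraMap R K a = r • u := fun u r => Iff.rfl
  let 𝒮 : Set (Ideal R) := {J | ∃ t : R, (∀ r : R, algebraMap R K r ≠ t • c) ∧ J = I (t • c)}
  have hne : 𝒮.Nonempty := ⟨_, 1, by simpa using hcon, rfl⟩
  obtain ⟨𝔭, ⟨t, ht, rfl⟩, hmax⟩ := set_has_maximal_iff_noetherian.2
    (inferInstanceAs (IsNoetherian R R)) 𝒮 hne
  set u : K := t • c with hu
  haveI hprime : (I u).IsPrime := by
    refine ⟨?_, ?_⟩
    · rw [Ideal.ne_top_iff_one, hI]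
      rintro ⟨a, ha⟩
      rw [one_smul] at ha
      exact ht a ha
    · intro r s hrs
      by_contra hcon2
      push Not at hcon2
      have h1 : I ((s * t) • c) ∈ 𝒮 := by
        refine ⟨s * t, fun a ha => hcon2.2 ?_, rfl⟩
        rw [hI]
        exact ⟨a, by rw [ha, mul_smul]⟩
      apply hmax _ h1
      refine lt_of_le_of_ne ?_ ?_
      · intro x hx
        obtain ⟨a, ha⟩ := (hI _ _).1 hx
        rw [hI]
        refine ⟨s * a, ?_⟩
        rw [map_mul, ha, mul_smul, ← hu, smul_comm x s u, Algebra.smul_def s (x • u)]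
      · intro heq
        apply hcon2.1
        rw [heq, hI]
        obtain ⟨a, ha⟩ := (hI _ _).1 hrs
        exact ⟨a, by rw [ha, mul_smul, mul_smul]⟩
  haveI : IsNoetherianRing (Localization.AtPrime (I u)) :=
    IsLocalization.isNoetherianRing (I u).primeCompl _ inferInstance
  have hle : (I u).primeCompl ≤ nonZeroDivisors R := Ideal.primeCompl_le_nonZeroDivisors _
  haveI : IsDomain (Localization.AtPrime (I u)) := IsLocalization.isDomain_localization hle
  haveI : IsIntegrallyClosed (Localization.AtPrime (I u)) :=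
    isIntegrallyClosed_of_isLocalization _ (I u).primeCompl hle
  obtain ⟨i, htw, hfr⟩ := zb2a_fraction K (I u) (Localization.AtPrime (I u))
  have huV : ∀ v : Localization.AtPrime (I u), algebraMap _ K v ≠ u := by
    intro v hv
    obtain ⟨⟨r, s⟩, hrs⟩ := IsLocalization.surj (I u).primeCompl v
    refine s.2 ((hI _ _).2 ⟨r, ?_⟩)
    have h2 := congrArg (algebraMap _ K) hrs
    rw [map_mul, hv, ← IsScalarTower.algebraMap_apply, ← IsScalarTower.algebraMap_apply] at h2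
    rw [← h2, Algebra.smul_def, mul_comm]
  have hdvr : IsDiscreteValuationRing (Localization.AtPrime (I u)) := by
    refine zb2a_dvr (K := K) u huV ?_
    intro m hm
    obtain ⟨⟨r, s⟩, hrs⟩ := IsLocalization.surj (I u).primeCompl m
    have hr : r ∈ I u := by
      rw [← IsLocalization.AtPrime.to_map_mem_maximal_iff (Localization.AtPrime (I u)) (I u) r,
        ← hrs]
      exact Ideal.mul_mem_right _ _ hm
    obtain ⟨a, ha⟩ := (hI _ _).1 hr
    refine ⟨IsLocalization.mk' _ a s, ?_⟩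
    have hs0 : algebraMap R K (s : R) ≠ 0 := by
      rw [Ne, map_eq_zero_iff _ (IsFractionRing.injective R K)]
      exact nonZeroDivisors.ne_zero (hle s.2)
    apply mul_right_cancel₀ hs0
    have h3 : algebraMap (Localization.AtPrime (I u)) K (IsLocalization.mk' _ a s) *
        algebraMap R K (s : R) = algebraMap R K a := by
      rw [IsScalarTower.algebraMap_apply R (Localization.AtPrime (I u)) K (s : R), ← map_mul,
        IsLocalization.mk'_spec, ← IsScalarTower.algebraMap_apply]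
    have h4 : algebraMap _ K m * algebraMap R K (s : R) = algebraMap R K r := by
      have h2 := congrArg (algebraMap _ K) hrs
      rw [map_mul, ← IsScalarTower.algebraMap_apply, ← IsScalarTower.algebraMap_apply] at h2
      exact h2
    rw [h3, mul_assoc, h4, ha, Algebra.smul_def, mul_comm]
  obtain ⟨a, b, hb, hbc⟩ := h (I u) hdvr
  apply hb
  rw [hI]
  refine ⟨t * a, ?_⟩
  rw [map_mul, ← hbc, hu, Algebra.smul_def, Algebra.smul_def]
  ring

/-- Integrality over all the discrete valuation rings `R_𝔭` implies integrality over the normal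
noetherian domain `R`. -/
theorem isIntegral_of_forall_dvr {R : Type u} {M : Type v} [CommRing R] [IsDomain R]
    [IsNoetherianRing R] [IsIntegrallyClosed R] [Field M] [Algebra R M] [FaithfulSMul R M]
    (s : M) (hs : IsAlgebraic R s)
    (h : ∀ (𝔭 : Ideal R) [𝔭.IsPrime] (V : Type u) [CommRing V] [IsDomain V]
      [IsDiscreteValuationRing V] [Algebra R V] [IsLocalization.AtPrime V 𝔭] [Algebra V M]
      [IsScalarTower R V M] [FaithfulSMul V M], IsIntegral V s) : IsIntegral R s := by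
  let K := FractionRing R
  letI : Algebra K M := FractionRing.liftAlgebra R M
  haveI : IsScalarTower R K M := FractionRing.isScalarTower_liftAlgebra R M
  have hsK : IsIntegral K s := ((IsFractionRing.isAlgebraic_iff R K M).1 hs).isIntegral
  have hcoef : ∀ n : ℕ, ∃ r : R, algebraMap R K r = (minpoly K s).coeff n := by
    intro n
    refine zb2a_mem _ ?_
    intro 𝔭 _ hdvr
    haveI := hdvr
    obtain ⟨i, htw, hfr⟩ := zb2a_fraction K 𝔭 (Localization.AtPrime 𝔭)
    letI : Algebra (Localization.AtPrime 𝔭) M :=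
      ((algebraMap K M).comp (algebraMap (Localization.AtPrime 𝔭) K)).toAlgebra
    haveI : IsScalarTower (Localization.AtPrime 𝔭) K M := IsScalarTower.of_algebraMap_eq' rfl
    haveI : IsScalarTower R (Localization.AtPrime 𝔭) M := by
      refine IsScalarTower.of_algebraMap_eq fun r => ?_
      rw [IsScalarTower.algebraMap_apply (Localization.AtPrime 𝔭) K M,
        ← IsScalarTower.algebraMap_apply R (Localization.AtPrime 𝔭) K,
        ← IsScalarTower.algebraMap_apply R K M]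
    haveI : FaithfulSMul (Localization.AtPrime 𝔭) M := by
      rw [faithfulSMul_iff_algebraMap_injective]
      exact (algebraMap K M).injective.comp (IsFractionRing.injective _ K)
    have h1 := h 𝔭 (Localization.AtPrime 𝔭)
    have h2 := minpoly.isIntegrallyClosed_eq_field_fractions' K h1
    rw [h2, coeff_map]
    obtain ⟨⟨a, b⟩, hab⟩ := IsLocalization.surj 𝔭.primeCompl
      ((minpoly (Localization.AtPrime 𝔭) s).coeff n)
    refine ⟨a, b, b.2, ?_⟩
    have h3 := congrArg (algebraMap _ K) hab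
    rw [map_mul, ← IsScalarTower.algebraMap_apply, ← IsScalarTower.algebraMap_apply] at h3
    rw [← h3, mul_comm]
  have hlift : minpoly K s ∈ Polynomial.lifts (algebraMap R K) := by
    rw [Polynomial.lifts_iff_coeff_lifts]
    intro n
    obtain ⟨r, hr⟩ := hcoef n
    exact ⟨r, hr⟩
  obtain ⟨q, hq, -, hqm⟩ :=
    Polynomial.lifts_and_natDegree_eq_and_monic hlift (minpoly.monic hsK)
  refine ⟨q, hqm, ?_⟩
  have h5 := minpoly.aeval K s
  rw [← hq, aeval_map_algebraMap] at h5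
  exact h5

end Vale.Agent.P292
end

section

/-! The Jordan pair formed by the extremal weight spaces of the contact algebra. -/

namespace Vale.Agent.P292

open Module Polynomial

universe u

variable {R : Type u} [CommRing R] [Algebra ℂ R] {𝒜 : ℕ → Submodule ℂ R} [GradedAlgebra 𝒜]
  {P : R →ₗ[ℂ] R →ₗ[ℂ] R}

/-- a source point outside the base locus sees a weight vector of degree one -/
theorem exists_Wt_one_of_sourceFree (hX : IsContactFano 𝒜 P) {H : R}
    (hH : IsContactTorus 𝒜 P H) {a : ℤ} (hmax : IsMaxSlope 𝒜 P H a)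
    (hfree : IsSourceFree 𝒜 P H) {y : R →ₐ[ℂ] ℂ} (hy : HasSlope 𝒜 P H y a) :
    ∃ s ∈ Wt 𝒜 P H 1 a, y s ≠ 0 := by
  obtain ⟨s, hs, hys⟩ := hfree y ((hmax.isSource_iff hH y).2 hy)
  by_contra hcon
  push Not at hcon
  refine hys (hH.forall_of_Wt y.toLinearMap 1 (fun m r hr => ?_) s hs)
  by_cases hm : m = a
  · subst hm
    exact hcon r hr
  · exact ((hasSlope_iff hH y a).1 hy).2 1 m r hr (by simpa using hm)

/-- Nondegeneracy of the Jordan pair. -/
theorem exists_P_P_ne_zero (hX : IsContactFano 𝒜 P) {H : R}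
    (hH : IsContactTorus 𝒜 P H) {a : ℤ} (hmax : IsMaxSlope 𝒜 P H a)
    (hfree : IsSourceFree 𝒜 P (-H)) {e : R} (he : e ∈ Wt 𝒜 P H 1 a) (he0 : e ≠ 0) :
    ∃ f ∈ Wt 𝒜 P H 1 (-a), P e (P e f) ≠ 0 := by
  have he' : e ∈ Wt 𝒜 P H 1 (a * (1 : ℕ)) := by simpa using he
  obtain ⟨y, hy, hye⟩ := hmax.exists_point hX hH one_pos he' he0
  obtain ⟨q, hq, hform⟩ := flow_limit_two hX hH hmax hy one_pos he' hye
  have hq' : HasSlope 𝒜 P (-H) q a := by simpa using hq.neg
  obtain ⟨f, hf, hqf⟩ :=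
    exists_Wt_one_of_sourceFree hX hH.neg (hmax.neg hX hH).1 hfree hq'
  refine ⟨f, by rwa [Wt_neg] at hf, fun h0 => hqf ?_⟩
  rw [hform 1 f (mem_Wt.1 hf).1]
  have h2 : (⇑(hX.ham e))^[2 * 1] f = P e (P e f) := rfl
  rw [h2, h0, map_zero, mul_zero]

/-- brackets of elements of degree one whose weights add up to more than `a` vanish -/
theorem P_eq_zero_of_lt (hX : IsContactFano 𝒜 P) {H : R} {a : ℤ} (hmax : IsMaxSlope 𝒜 P H a)
    {m n : ℤ} (hmn : a < m + n) {u v : R} (hu : u ∈ Wt 𝒜 P H 1 m) (hv : v ∈ Wt 𝒜 P H 1 n) :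
    P u v = 0 := by
  by_contra h0
  have h1 : P u v ∈ Wt 𝒜 P H 1 (m + n) := Wt_P hX (by norm_num) hu hv
  have h2 := hmax.le 1 (m + n) _ h1 h0
  simp only [Nat.cast_one, mul_one] at h2
  omega

/-- The fundamental formula of the Jordan pair. -/
theorem fundamental_formula (hX : IsContactFano 𝒜 P) {H : R}
    (hH : IsContactTorus 𝒜 P H) {a : ℤ} (hmax : IsMaxSlope 𝒜 P H a)
    (hmax' : IsMaxSlope 𝒜 P (-H) a) {e f g : R} (he : e ∈ Wt 𝒜 P H 1 a)
    (hf : f ∈ Wt 𝒜 P H 1 (-a)) (hg : g ∈ Wt 𝒜 P H 1 (-a)) :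
    P (P e (P e f)) (P (P e (P e f)) g) = P e (P e (P f (P f (P e (P e g))))) := by
  have ha : 0 < a := (hmax.neg hX hH).2
  have hP : ∀ {u v : R} {m n : ℤ}, u ∈ Wt 𝒜 P H 1 m → v ∈ Wt 𝒜 P H 1 n →
      P u v ∈ Wt 𝒜 P H 1 (m + n) := fun hu hv => Wt_P hX (by norm_num) hu hv
  -- everything of weight `> a` or `< -a` vanishes
  have hzero : ∀ {x : R} {m : ℤ}, x ∈ Wt 𝒜 P H 1 m → a < m → x = 0 := by
    intro x m hx hm
    by_contra h0
    have := hmax.le 1 m x hx h0
    simp only [Nat.cast_one, mul_one] at this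
    omega
  have hzero' : ∀ {x : R} {m : ℤ}, x ∈ Wt 𝒜 P H 1 m → m < -a → x = 0 := by
    intro x m hx hm
    by_contra h0
    have := hmax'.le 1 (-m) x (by rw [Wt_neg, neg_neg]; exact hx) h0
    simp only [Nat.cast_one, mul_one] at this
    omega
  -- the Jacobi identity
  have jac : ∀ x y z : R, P (P x y) z = P x (P y z) - P y (P x z) := by
    intro x y z
    rw [hX.jacobi x y z]
    abel
  have hG : ∀ x, P (P e (P e f)) x
      = P e (P e (P f x)) - (2 : ℂ) • P e (P f (P e x)) + P f (P e (P e x)) := by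
    intro x
    rw [jac, jac, jac, map_sub, two_smul]
    abel
  have hFg : P f g = 0 := hzero' (hP hf hg) (by omega)
  have h1 : P e g ∈ Wt 𝒜 P H 1 (a + -a) := hP he hg
  have h2 : P e (P e g) ∈ Wt 𝒜 P H 1 (a + (a + -a)) := hP he h1
  have h3 : P f (P e g) ∈ Wt 𝒜 P H 1 (-a + (a + -a)) := hP hf h1
  have h4 : P e (P f (P e g)) ∈ Wt 𝒜 P H 1 (a + (-a + (a + -a))) := hP he h3
  have h5 : P f (P e (P e g)) ∈ Wt 𝒜 P H 1 (-a + (a + (a + -a))) := hP hf h2
  -- the vanishing of `E ^ 3 f`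
  have hE3f : P e (P e (P e f)) = 0 := hzero (hP he (hP he (hP he hf))) (by omega)
  have key : ∀ x, P e (P e (P e x)) = 0 → P e (P e (P e (P f x))) = 0 →
      P e (P e (P f (P e x))) = P e (P f (P e (P e x))) := by
    intro x hx1 hx2
    have h6 : P (P e (P e (P e f))) x = 0 := by rw [hE3f, map_zero, LinearMap.zero_apply]
    rw [jac, hG, hG, hx1, map_add, map_sub, hx2, map_zero, map_smul] at h6
    have h7 : (3 : ℂ) • (P e (P e (P f (P e x))) - P e (P f (P e (P e x)))) = 0 := by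
      rw [← neg_eq_zero, ← h6, smul_sub]
      simp only [show (3 : ℂ) = 2 + 1 by norm_num, add_smul, one_smul]
      abel
    rw [smul_eq_zero] at h7
    rcases h7 with h7 | h7
    · norm_num at h7
    · exact sub_eq_zero.1 h7
  have e3g : P e (P e (P e g)) = 0 := hzero (hP he h2) (by omega)
  have k1 : P e (P e (P f (P e g))) = P e (P f (P e (P e g))) :=
    key g e3g (by rw [hFg, map_zero, map_zero, map_zero])
  have k2 : P e (P e (P f (P e (P f (P e g))))) = P e (P f (P e (P e (P f (P e g))))) := by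
    refine key _ ?_ ?_
    · exact hzero (hP he (hP he h4)) (by omega)
    · have : P f (P f (P e g)) = 0 := hzero' (hP hf h3) (by omega)
      rw [this, map_zero, map_zero, map_zero]
  have e4 : P e (P e (P e (P f (P e g)))) = 0 := hzero (hP he (hP he h4)) (by omega)
  have e5 : P e (P e (P f (P e (P e g)))) = 0 := hzero (hP he (hP he h5)) (by omega)
  rw [hG g, hFg, map_zero, map_zero, zero_sub, hG]
  simp only [map_add, map_neg, map_smul, e4, e5, k2, k1, map_zero, smul_zero, neg_zero, zero_add,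
    add_zero]
  simp only [smul_add, smul_neg, smul_smul]
  rw [show (2 : ℂ) * 2 = 2 + 2 by norm_num, add_smul]
  abel

end Vale.Agent.P292
end

section

/-! Contact tori with isolated source. -/

namespace Vale.Agent.P292

open Module Polynomial

universe u

variable {R : Type u} [CommRing R] [Algebra ℂ R] {𝒜 : ℕ → Submodule ℂ R} [GradedAlgebra 𝒜]
  {P : R →ₗ[ℂ] R →ₗ[ℂ] R}

/-- A weight vector of maximal slope which vanishes at the source is zero. -/
lemma isoSource1_eq_zero (hX : IsContactFano 𝒜 P) {H : R} (hH : IsContactTorus 𝒜 P H)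
    {a : ℤ} (hmax : IsMaxSlope 𝒜 P H a) (hiso : HasIsolatedSource 𝒜 P H)
    {y : R →ₐ[ℂ] ℂ} (hy : HasSlope 𝒜 P H y a) (k : ℕ) (r : R)
    (hr : r ∈ Wt 𝒜 P H k (a * k)) (h : y r = 0) : r = 0 := by
  rcases Nat.eq_zero_or_pos k with rfl | hk
  · obtain ⟨c, rfl⟩ := hX.connected r (mem_Wt.mp hr).1
    rw [AlgHom.commutes] at h
    have h' : c = 0 := h
    rw [h', map_zero]
  · by_contra h0
    obtain ⟨q, hq, hqr⟩ := hmax.exists_point hX hH hk hr h0
    obtain ⟨c, hc⟩ := hiso y q ((hmax.isSource_iff hH y).mpr hy) ((hmax.isSource_iff hH q).mpr hq)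
    apply hqr
    rw [hc k r (mem_Wt.mp hr).1, h, mul_zero]

/-- If some section of `L ^ k` does not vanish at the source, there is one of maximal weight. -/
lemma isoSource1_exists {H : R} (hH : IsContactTorus 𝒜 P H)
    {a : ℤ} {y : R →ₐ[ℂ] ℂ} (hy : HasSlope 𝒜 P H y a) (k : ℕ) (r : R)
    (hr : r ∈ 𝒜 k) (h : y r ≠ 0) : ∃ s ∈ Wt 𝒜 P H k (a * k), y s = 1 := by
  by_contra hne
  push Not at hne
  apply h
  refine hH.forall_of_Wt y.toLinearMap k (fun m s hs => ?_) r hr
  change y s = 0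
  by_contra h0
  by_cases hm : m = a * k
  · subst hm
    refine hne ((y s)⁻¹ • s) (Submodule.smul_mem _ _ hs) ?_
    rw [map_smul, smul_eq_mul, inv_mul_cancel₀ h0]
  · obtain ⟨hs1, hs2⟩ := mem_Wt.mp hs
    have h1 := hy.2 k s hs1
    rw [hs2, map_smul, smul_eq_mul] at h1
    have h2 := mul_right_cancel₀ h0 h1
    exact hm (by exact_mod_cast h2)

/-- If the source is a single point, the functions of maximal slope are the powers of an element
of degree one. -/
theorem exists_source_generator (hX : IsContactFano 𝒜 P) {H : R} (hH : IsContactTorus 𝒜 P H)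
    {a : ℤ} (hmax : IsMaxSlope 𝒜 P H a) (hiso : HasIsolatedSource 𝒜 P H) :
    ∃ (e : R) (y : R →ₐ[ℂ] ℂ), e ∈ Wt 𝒜 P H 1 a ∧ HasSlope 𝒜 P H y a ∧ y e = 1 ∧
      ∀ k : ℕ, ∀ r ∈ Wt 𝒜 P H k (a * k), r = y r • e ^ k := by
  classical
  have := hX.domain
  have := hX.normal
  obtain ⟨y, hy⟩ := hmax.exists_slope
  have hinj := fun k r hr h => isoSource1_eq_zero hX hH hmax hiso hy k r hr h
  -- the semigroup of degrees
  let S : AddSubmonoid ℕ :=
    { carrier := {k | ∃ s ∈ Wt 𝒜 P H k (a * k), y s = 1}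
      zero_mem' := by
        refine ⟨1, ?_, map_one y⟩
        rw [mem_Wt]
        exact ⟨SetLike.GradedOne.one_mem, by simp [hX.P_one_right]⟩
      add_mem' := by
        rintro k l ⟨s, hs, hs1⟩ ⟨t, ht, ht1⟩
        refine ⟨s * t, ?_, by rw [map_mul, hs1, ht1, mul_one]⟩
        have := Wt_mul hX hs ht
        convert this using 2
        push_cast; ring }
  have hgcd : Nat.setGcd (S : Set ℕ) = 1 := by
    refine hX.lineBundle y hy.1 _ fun k r hr h => ?_
    exact Nat.setGcd_dvd_of_mem (isoSource1_exists hH hy k r hr h)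
  obtain ⟨n, hn⟩ := Nat.exists_mem_closure_of_ge (S : Set ℕ)
  have hS : ∀ m ≥ n, m ∈ S := by
    intro m hm
    have := hn m hm (by rw [hgcd]; exact one_dvd m)
    rwa [AddSubmonoid.closure_eq] at this
  obtain ⟨s, hs, hs1⟩ : (n + 1) ∈ S := hS _ (by omega)
  obtain ⟨t, ht, ht1⟩ : (n + 2) ∈ S := hS _ (by omega)
  have hs0 : s ≠ 0 := by rintro rfl; simp at hs1
  have hst : t ^ (n + 1) = s ^ (n + 2) := by
    have h1 := Wt_pow hX ht (n + 1)
    have h2 := Wt_pow hX hs (n + 2)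
    have h3 : t ^ (n + 1) - s ^ (n + 2) ∈
        Wt 𝒜 P H ((n + 1) * (n + 2)) (a * ((n + 1) * (n + 2) : ℕ)) := by
      refine sub_mem ?_ ?_
      · convert h1 using 2
        push_cast; ring
      · convert h2 using 2
        · ring
        · push_cast; ring
    refine sub_eq_zero.mp (hinj _ _ h3 ?_)
    rw [map_sub, map_pow, map_pow, hs1, ht1, one_pow, one_pow, sub_self]
  -- the quotient is integral
  obtain ⟨u, hu⟩ : ∃ u : R, u * s = t := by
    let F := FractionRing R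
    have hsF : algebraMap R F s ≠ 0 := by
      rw [Ne, map_eq_zero_iff _ (IsFractionRing.injective R F)]; exact hs0
    have hint : IsIntegral R (algebraMap R F t / algebraMap R F s) := by
      refine IsIntegral.of_pow (n := n + 1) (Nat.succ_pos n) ?_
      have h1 : (algebraMap R F t / algebraMap R F s) ^ (n + 1) = algebraMap R F s := by
        rw [div_pow, ← map_pow, hst, map_pow, pow_succ, mul_div_cancel_left₀ _ (pow_ne_zero _ hsF)]
      rw [h1]
      exact isIntegral_algebraMap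
    obtain ⟨u, hu⟩ := IsIntegrallyClosed.algebraMap_eq_of_integral hint
    refine ⟨u, ?_⟩
    apply IsFractionRing.injective R F
    rw [map_mul, hu, div_mul_cancel₀ _ hsF]
  obtain ⟨hs2, hs3⟩ := mem_Wt.mp hs
  obtain ⟨ht2, ht3⟩ := mem_Wt.mp ht
  obtain ⟨e, he1, he⟩ : ∃ e ∈ 𝒜 1, e * s = t := by
    refine ⟨(DirectSum.decompose 𝒜 u 1 : R), SetLike.coe_mem _, ?_⟩
    have h2 := DirectSum.coe_decompose_mul_add_of_right_mem 𝒜 (i := 1) hs2 (a := u)
    rw [hu] at h2
    have e1 : 1 + (n + 1) = n + 2 := by omega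
    rw [e1, DirectSum.decompose_of_mem_same 𝒜 ht2] at h2
    exact h2.symm
  have hye : y e = 1 := by
    have := congrArg y he
    rwa [map_mul, hs1, ht1, mul_one] at this
  have heW : e ∈ Wt 𝒜 P H 1 a := by
    rw [mem_Wt]
    refine ⟨he1, ?_⟩
    apply mul_right_cancel₀ hs0
    have h1 := hX.leibniz H e s
    rw [he, ht3, hs3, ← he] at h1
    have h2 : P H e * s = ((a * ((n + 2 : ℕ) : ℤ) : ℤ) : ℂ) • (e * s) -
        e * (((a * ((n + 1 : ℕ) : ℤ) : ℤ) : ℂ) • s) := by rw [h1]; ring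
    rw [h2]
    push_cast
    simp only [Algebra.smul_def, map_mul, map_add, map_natCast, map_intCast, map_one, map_ofNat]
    ring
  refine ⟨e, y, heW, hy, hye, fun k r hr => ?_⟩
  have h1 := Wt_pow hX heW k
  have h2 : r - y r • e ^ k ∈ Wt 𝒜 P H k (a * k) := by
    refine sub_mem hr (Submodule.smul_mem _ _ ?_)
    convert h1 using 2
    · ring
    · ring
  refine sub_eq_zero.mp (hinj _ _ h2 ?_)
  rw [map_sub, map_smul, map_pow, hye, one_pow, smul_eq_mul, mul_one, sub_self]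

end Vale.Agent.P292
end

section

/-! Theorem E without (SC), part E (fixed points of automorphisms), definitions. -/

namespace Vale.Agent.P292

open Module LieAlgebra

universe u

variable {g : Type u} [LieRing g] [LieAlgebra ℂ g]

/-- `ad h` is diagonalisable with integral eigenvalues. -/
def IsInt (h : g) : Prop :=
  ∀ x : g, x ∈ ⨆ m : ℤ, Module.End.eigenspace (ad ℂ g h) (m : ℂ)

/-- The eigenspace of `ad h` for the integer `a`. -/
def TopSp (h : g) (a : ℤ) : Submodule ℂ g := Module.End.eigenspace (ad ℂ g h) (a : ℂ)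

theorem mem_TopSp {h : g} {a : ℤ} {v : g} : v ∈ TopSp h a ↔ ⁅h, v⁆ = (a : ℂ) • v :=
  Module.End.mem_eigenspace_iff

/-- `a` is the largest integral eigenvalue of `ad h`. -/
structure IsTop (h : g) (a : ℤ) : Prop where
  ne : ∃ v : g, v ≠ 0 ∧ v ∈ TopSp h a
  le : ∀ (m : ℤ) (v : g), v ≠ 0 → v ∈ TopSp h m → m ≤ a

end Vale.Agent.P292
end

section

/-! Part E: from a common eigenvector to a one-dimensional top space. -/

namespace Vale.Agent.P292

open Module LieAlgebra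

universe u

variable {g : Type u} [LieRing g] [LieAlgebra ℂ g] [FiniteDimensional ℂ g]

omit [FiniteDimensional ℂ g] in
private theorem x8_lie_mem {h u v : g} {m k : ℤ} (hu : u ∈ TopSp h m) (hv : v ∈ TopSp h k) :
    ⁅u, v⁆ ∈ TopSp h (m + k) := by
  rw [mem_TopSp] at hu hv ⊢
  rw [leibniz_lie, hu, hv, smul_lie, lie_smul, ← add_smul]
  push_cast
  rfl

/-- Submodules containing `v₁` and stable under the eigenspaces of non-positive weight. -/
private def x8_Adm (h v₁ : g) (S : Submodule ℂ g) : Prop :=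
  v₁ ∈ S ∧ ∀ m : ℤ, m ≤ 0 → ∀ u ∈ TopSp h m, ∀ y ∈ S, ⁅u, y⁆ ∈ S

omit [FiniteDimensional ℂ g] in
private theorem x8_sInf (h v₁ : g) : x8_Adm h v₁ (sInf {S | x8_Adm h v₁ S}) := by
  refine ⟨?_, fun m hm u hu y hy => ?_⟩
  · rw [Submodule.mem_sInf]
    exact fun S hS => hS.1
  · rw [Submodule.mem_sInf] at hy ⊢
    exact fun S hS => hS.2 m hm u hu y (hy S hS)

omit [FiniteDimensional ℂ g] in
private theorem x8_top [IsSimple ℂ g] {h : g} {a : ℤ} (hh : IsInt h) (ha : IsTop h a) {v₁ : g}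
    (hv₁ : v₁ ≠ 0) (h₁ : v₁ ∈ TopSp h a) {J : Submodule ℂ g} (hJ : x8_Adm h v₁ J) : J = ⊤ := by
  set I : Submodule ℂ g := sInf {S | x8_Adm h v₁ S} with hI
  have hIa : x8_Adm h v₁ I := x8_sInf h v₁
  have hle : ∀ {S : Submodule ℂ g}, x8_Adm h v₁ S → I ≤ S := fun hS => sInf_le hS
  let I' : Submodule ℂ g :=
    { carrier := {y | y ∈ I ∧ ∀ m : ℤ, 0 < m → ∀ w ∈ TopSp h m, ⁅w, y⁆ ∈ I}
      add_mem' := fun {x y} hx hy => ⟨I.add_mem hx.1 hy.1, fun m hm w hw => by
        rw [lie_add]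
        exact I.add_mem (hx.2 m hm w hw) (hy.2 m hm w hw)⟩
      zero_mem' := ⟨I.zero_mem, fun m _ w _ => by
        rw [lie_zero]
        exact I.zero_mem⟩
      smul_mem' := fun c x hx => ⟨I.smul_mem c hx.1, fun m hm w hw => by
        rw [lie_smul]
        exact I.smul_mem c (hx.2 m hm w hw)⟩ }
  have hI'a : x8_Adm h v₁ I' := by
    refine ⟨⟨hIa.1, fun m hm w hw => ?_⟩, fun m' hm' u hu y hy =>
      ⟨hIa.2 m' hm' u hu y hy.1, fun m hm w hw => ?_⟩⟩
    · have h2 : ⁅w, v₁⁆ = 0 := by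
        by_contra h0
        have h3 := ha.le (m + a) _ h0 (x8_lie_mem hw h₁)
        omega
      rw [h2]
      exact I.zero_mem
    · rw [leibniz_lie]
      refine I.add_mem ?_ (hIa.2 m' hm' u hu _ (hy.2 m hm w hw))
      rcases le_or_gt (m + m') 0 with h3 | h3
      · exact hIa.2 _ h3 _ (x8_lie_mem hw hu) y hy.1
      · exact hy.2 _ h3 _ (x8_lie_mem hw hu)
  have hst : ∀ x y : g, y ∈ I → ⁅x, y⁆ ∈ I := by
    intro x y hy
    have hy' := hle hI'a hy
    refine Submodule.iSup_induction (fun m : ℤ => Module.End.eigenspace (ad ℂ g h) (m : ℂ))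
      (motive := fun x => ⁅x, y⁆ ∈ I) (hh x) (fun m w hw => ?_) ?_ (fun w z hw hz => ?_)
    · rcases le_or_gt m 0 with h3 | h3
      · exact hIa.2 m h3 w hw y hy
      · exact hy'.2 m h3 w hw
    · rw [zero_lie]
      exact I.zero_mem
    · rw [add_lie]
      exact I.add_mem hw hz
  let L : LieIdeal ℂ g := { I with lie_mem := fun {x y} hy => hst x y hy }
  have hL : ∀ y, y ∈ L ↔ y ∈ I := fun y => Iff.rfl
  rcases LieAlgebra.IsSimple.eq_bot_or_eq_top (R := ℂ) L with h0 | h0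
  · exfalso
    apply hv₁
    have h2 : v₁ ∈ L := (hL v₁).2 hIa.1
    rw [h0] at h2
    exact (LieSubmodule.mem_bot v₁).1 h2
  · rw [eq_top_iff]
    intro y _
    refine hle hJ ((hL y).1 ?_)
    rw [h0]
    exact LieSubmodule.mem_top y

/-- If the centraliser of `h` preserves a line in the top eigenspace, then the latter is this
line. -/
theorem topSp_eq_span [IsSimple ℂ g] {h : g} {a : ℤ} (hh : IsInt h) (ha : IsTop h a) {v₁ : g}
    (hv₁ : v₁ ≠ 0) (h₁ : v₁ ∈ TopSp h a) (hz : ∀ z : g, ⁅h, z⁆ = 0 → ∃ c : ℂ, ⁅z, v₁⁆ = c • v₁) :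
    ∀ v ∈ TopSp h a, ∃ c : ℂ, v = c • v₁ := by
  set K : Submodule ℂ g := ⨆ m : {m : ℤ // m < a}, TopSp h m with hK
  have hKm : ∀ {m : ℤ} {y : g}, m < a → y ∈ TopSp h m → y ∈ K := fun {m y} hm hy =>
    Submodule.mem_iSup_of_mem (p := fun m : {m : ℤ // m < a} => TopSp h m) ⟨m, hm⟩ hy
  have hJ : x8_Adm h v₁ (Submodule.span ℂ {v₁} ⊔ K) := by
    refine ⟨Submodule.mem_sup_left (Submodule.mem_span_singleton_self v₁),
      fun m' hm' u hu y hy => ?_⟩
    obtain ⟨y₁, hy₁, y₂, hy₂, rfl⟩ := Submodule.mem_sup.1 hy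
    rw [lie_add]
    refine Submodule.add_mem _ ?_ ?_
    · obtain ⟨c, rfl⟩ := Submodule.mem_span_singleton.1 hy₁
      rw [lie_smul]
      refine Submodule.smul_mem _ c ?_
      rcases hm'.lt_or_eq with h3 | h3
      · exact Submodule.mem_sup_right (hKm (by omega) (x8_lie_mem hu h₁))
      · subst h3
        have h4 : ⁅h, u⁆ = 0 := by
          rw [mem_TopSp] at hu
          rw [hu, Int.cast_zero, zero_smul]
        obtain ⟨c', hc'⟩ := hz u h4
        rw [hc']
        exact Submodule.mem_sup_left (Submodule.smul_mem _ _ (Submodule.mem_span_singleton_self v₁))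
    · refine Submodule.mem_sup_right ?_
      refine Submodule.iSup_induction (fun m : {m : ℤ // m < a} => TopSp h m)
        (motive := fun y => ⁅u, y⁆ ∈ K) hy₂ (fun m w hw => ?_) ?_ (fun w z hw hz => ?_)
      · exact hKm (by have := m.2; omega) (x8_lie_mem hu hw)
      · rw [lie_zero]
        exact K.zero_mem
      · rw [lie_add]
        exact K.add_mem hw hz
  have hJt := x8_top hh ha hv₁ h₁ hJ
  intro v hv
  have hvJ : v ∈ Submodule.span ℂ {v₁} ⊔ K := by
    rw [hJt]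
    exact Submodule.mem_top
  obtain ⟨y₁, hy₁, y₂, hy₂, hsum⟩ := Submodule.mem_sup.1 hvJ
  obtain ⟨c, rfl⟩ := Submodule.mem_span_singleton.1 hy₁
  refine ⟨c, ?_⟩
  have h5 : y₂ ∈ TopSp h a := by
    have h6 : y₂ = v - c • v₁ := by rw [← hsum]; abel
    rw [h6]
    exact Submodule.sub_mem _ hv (Submodule.smul_mem _ _ h₁)
  have hind := (Module.End.eigenspaces_iSupIndep (ad ℂ g h)) (a : ℂ)
  have hKle : K ≤ ⨆ (μ : ℂ) (_ : μ ≠ (a : ℂ)), Module.End.eigenspace (ad ℂ g h) μ := by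
    refine iSup_le fun m => ?_
    have hne : ((m.1 : ℤ) : ℂ) ≠ (a : ℂ) := by
      intro h7
      have := m.2
      have h8 : m.1 = a := by exact_mod_cast h7
      omega
    exact le_iSup₂_of_le ((m.1 : ℤ) : ℂ) hne le_rfl
  have h9 : y₂ = 0 := by
    have := Submodule.disjoint_def.1 hind y₂ h5 (hKle hy₂)
    exact this
  rw [← hsum, h9, add_zero]

end Vale.Agent.P292
end
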