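import Vale.Agent.P292.MathlibUsed
import Vale.Agent.P292.AdjVar

set_option linter.all false

section

/-! A long-root `sl₂`-triple in a semisimple complex Lie algebra. -/

namespace Vale.Agent.P292

open LieAlgebra LieAlgebra.IsKilling LieModule Module

variable {L : Type*} [LieRing L] [LieAlgebra ℂ L] [FiniteDimensional ℂ L]
  [LieAlgebra.IsKilling ℂ L]

theorem exists_root_weight [Nontrivial L] (H : LieSubalgebra ℂ L) [H.IsCartanSubalgebra] :
    ∃ α : Weight ℂ H L, α.IsNonZero := by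
  by_contra hcon
  push Not at hcon
  have h0 : ∀ x : H, x = 0 := by
    intro x
    have hspan := span_weight_isNonZero_eq_top (K := ℂ) (L := L) (H := H)
    have hd : ∀ f : Dual ℂ H, f x = 0 := by
      intro f
      have hf : f ∈ Submodule.span ℂ
          ({α : Weight ℂ H L | α.IsNonZero}.image (Weight.toLinear ℂ H L)) := by
        rw [hspan]; trivial
      have : ({α : Weight ℂ H L | α.IsNonZero}.image (Weight.toLinear ℂ H L)) =
          (∅ : Set (Dual ℂ H)) := by
        rw [Set.image_eq_empty, Set.eq_empty_iff_forall_notMem]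
        intro α hα
        exact hα (hcon α)
      rw [this, Submodule.span_empty, Submodule.mem_bot] at hf
      rw [hf]; rfl
    exact (Module.forall_dual_apply_eq_zero_iff ℂ x).mp hd
  have h1 : ∀ x : L, x ∈ (⨆ α : Weight ℂ H L, genWeightSpace L α : LieSubmodule ℂ H L) := by
    intro x
    rw [iSup_genWeightSpace_eq_top' ℂ H L]; trivial
  have h2 : (⨆ α : Weight ℂ H L, genWeightSpace L α : LieSubmodule ℂ H L) = ⊥ := by
    rw [iSup_eq_bot]
    intro α
    have hα : (α : H → ℂ) = 0 := by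
      have := hcon α
      simpa [Weight.IsNonZero, Weight.IsZero] using this
    have hroot : genWeightSpace L (0 : H → ℂ) = H.toLieSubmodule :=
      rootSpace_zero_eq ℂ L H
    rw [hα, LieSubmodule.eq_bot_iff]
    intro y hy
    have hy' : y ∈ H := by
      rw [hroot] at hy
      exact hy
    have := h0 ⟨y, hy'⟩
    exact congrArg Subtype.val this
  obtain ⟨x, hx⟩ := exists_ne (0 : L)
  have := h1 x
  rw [h2] at this
  exact hx (by simpa using this)

omit [LieAlgebra.IsKilling ℂ L] in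
theorem mem_rootSpace_of_eigen (H : LieSubalgebra ℂ L) [H.IsCartanSubalgebra] (h : L) (lam : ℂ)
    (θ : Weight ℂ H L)
    (hθ : ∀ α : Weight ℂ H L, α ≠ θ → ∃ μ : ℂ, μ ≠ lam ∧ ∀ x ∈ rootSpace H α, ⁅h, x⁆ = μ • x)
    (hθ' : ∀ x ∈ rootSpace H θ, ⁅h, x⁆ = lam • x)
    (x : L) (hx : ⁅h, x⁆ = lam • x) : x ∈ rootSpace H θ := by
  have h1 : x ∈ (⨆ α : Weight ℂ H L, (genWeightSpace L α : LieSubmodule ℂ H L)).toSubmodule := by
    rw [iSup_genWeightSpace_eq_top' ℂ H L]; trivial
  rw [LieSubmodule.iSup_toSubmodule] at h1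
  have h2 : (⨆ α : Weight ℂ H L, (genWeightSpace L α : LieSubmodule ℂ H L).toSubmodule) ≤
      (rootSpace H θ).toSubmodule ⊔ ⨆ μ, ⨆ _ : μ ≠ lam, Module.End.eigenspace (ad ℂ L h) μ := by
    refine iSup_le fun α => ?_
    by_cases hα : α = θ
    · rw [hα]; exact le_sup_left
    · obtain ⟨μ, hμ, hμ'⟩ := hθ α hα
      refine le_trans (fun y hy => ?_) le_sup_right
      refine Submodule.mem_iSup_of_mem μ (Submodule.mem_iSup_of_mem hμ ?_)
      rw [Module.End.mem_eigenspace_iff]
      exact hμ' y hy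
  obtain ⟨y, hy, z, hz, hyz⟩ := Submodule.mem_sup.mp (h2 h1)
  have hz' : z ∈ Module.End.eigenspace (ad ℂ L h) lam := by
    rw [Module.End.mem_eigenspace_iff]
    have : z = x - y := by rw [← hyz]; abel
    rw [this, map_sub, LieAlgebra.ad_apply, LieAlgebra.ad_apply, hx, hθ' y hy, smul_sub]
  have hd := (Module.End.eigenspaces_iSupIndep (ad ℂ L h)) lam
  have := Submodule.disjoint_def.mp hd z hz' hz
  rw [← hyz, this, add_zero]
  exact hy

theorem exists_long_sl2 (L : Type*) [LieRing L] [LieAlgebra ℂ L]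
    [FiniteDimensional ℂ L] [LieAlgebra.IsKilling ℂ L] [Nontrivial L] :
    ∃ h e f : L, IsSl2Triple h e f ∧
      (∀ x : L, x ∈ ⨆ i : Fin 5,
        Module.End.eigenspace (LieAlgebra.ad ℂ L h) ((i : ℂ) - 2)) ∧
      (∀ x : L, ⁅h, x⁆ = (2 : ℂ) • x → ∃ c : ℂ, x = c • e) ∧
      (∀ x : L, ⁅h, x⁆ = (-2 : ℂ) • x → ∃ c : ℂ, x = c • f) := by
  obtain ⟨x₀, hx₀⟩ := LieAlgebra.exists_isCartanSubalgebra_engel (K := ℂ) (L := L)
  set H := LieSubalgebra.engel ℂ x₀ with hH
  obtain ⟨α₀, hα₀⟩ := exists_root_weight H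
  have hne : Nonempty H.root := ⟨⟨α₀, by simpa using hα₀⟩⟩
  set B := (rootSystem H).posRootForm ℤ with hB
  obtain ⟨θ, hθ⟩ := Finite.exists_max (fun i : H.root => B.rootLength i)
  have hθ0 : (θ : Weight ℂ H L).IsNonZero := H.isNonZero_coe_root θ
  obtain ⟨h, e, f, hsl, he, hf⟩ := exists_isSl2Triple_of_weight_isNonZero hθ0
  have hh := hsl.h_eq_coroot hθ0 he hf
  have hact : ∀ (α : Weight ℂ H L) (x : L), x ∈ rootSpace H α →
      ⁅h, x⁆ = (α (coroot (θ : Weight ℂ H L))) • x := by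
    intro α x hx
    rw [hh]
    exact lie_eq_smul_of_mem_rootSpace hx _
  have hθθ : (θ : Weight ℂ H L) (coroot (θ : Weight ℂ H L)) = 2 := root_apply_coroot hθ0
  have hval : ∀ α : Weight ℂ H L, α ≠ θ → α ≠ -θ →
      α (coroot (θ : Weight ℂ H L)) = -1 ∨ α (coroot (θ : Weight ℂ H L)) = 0 ∨
      α (coroot (θ : Weight ℂ H L)) = 1 := by
    intro α h1 h2
    by_cases hα : α.IsZero
    · right; left
      have : (α : H → ℂ) = 0 := hα
      rw [this]; rfl
    · let a : H.root := ⟨α, by simpa using hα⟩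
      have hne : (rootSystem H).root a ≠ (rootSystem H).root θ := by
        intro h
        have := (rootSystem H).root.injective h
        exact h1 (congrArg Subtype.val this)
      have hne' : (rootSystem H).root a ≠ -(rootSystem H).root θ := by
        intro h
        apply h2
        ext x
        exact LinearMap.congr_fun h x
      have hin : (rootSystem H).pairingIn ℤ a θ ∈ ({-1, 0, 1} : Set ℤ) := by
        by_contra hcon
        have := RootPairing.RootPositiveForm.rootLength_lt_of_pairingIn_notMem B hne hne' hcon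
        exact absurd (hθ a) (not_le.mpr this)
      have hp : (algebraMap ℤ ℂ ((rootSystem H).pairingIn ℤ a θ)) =
          α (coroot (θ : Weight ℂ H L)) := by
        rw [RootPairing.algebraMap_pairingIn]
        rfl
      rw [← hp]
      simp only [Set.mem_insert_iff, Set.mem_singleton_iff] at hin
      rcases hin with h | h | h <;> rw [h] <;> simp
  refine ⟨h, e, f, hsl, ?_, ?_, ?_⟩
  · intro x
    have h1 : x ∈ (⨆ α : Weight ℂ H L, (genWeightSpace L α : LieSubmodule ℂ H L)).toSubmodule := by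
      rw [iSup_genWeightSpace_eq_top' ℂ H L]; trivial
    rw [LieSubmodule.iSup_toSubmodule] at h1
    refine (iSup_le fun α y hy => ?_ : (⨆ α : Weight ℂ H L,
      (genWeightSpace L α : LieSubmodule ℂ H L).toSubmodule) ≤ _) h1
    have key : ∃ i : Fin 5, α (coroot (θ : Weight ℂ H L)) = (i : ℂ) - 2 := by
      by_cases h1 : α = θ
      · rw [h1, hθθ]; exact ⟨4, by norm_num⟩
      by_cases h2 : α = -θ
      · rw [h2]
        refine ⟨0, ?_⟩
        change -((θ : Weight ℂ H L) (coroot (θ : Weight ℂ H L))) = _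
        rw [hθθ]; simp
      rcases hval α h1 h2 with h | h | h
      · exact ⟨1, by rw [h]; norm_num⟩
      · exact ⟨2, by rw [h]; norm_num⟩
      · exact ⟨3, by rw [h]; norm_num⟩
    obtain ⟨i, hi⟩ := key
    refine Submodule.mem_iSup_of_mem i ?_
    rw [Module.End.mem_eigenspace_iff, LieAlgebra.ad_apply, hact α y hy, hi]
  · intro x hx
    have hxθ := mem_rootSpace_of_eigen H h 2 θ (fun α hα => by
      refine ⟨α (coroot (θ : Weight ℂ H L)), ?_, hact α⟩
      by_cases h2 : α = -θ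
      · rw [h2]
        change -((θ : Weight ℂ H L) (coroot (θ : Weight ℂ H L))) ≠ _
        rw [hθθ]; norm_num
      rcases hval α hα h2 with h | h | h <;> rw [h] <;> norm_num) (fun x hx => by
        rw [hact _ x hx, hθθ]) x hx
    have h1 := finrank_rootSpace_eq_one (θ : Weight ℂ H L) hθ0
    have he0 : (⟨e, he⟩ : rootSpace H (θ : Weight ℂ H L)) ≠ 0 := by
      intro h
      exact hsl.e_ne_zero (congrArg Subtype.val h)
    obtain ⟨c, hc⟩ := (finrank_eq_one_iff_of_nonzero' _ he0).mp h1 ⟨x, hxθ⟩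
    exact ⟨c, (congrArg Subtype.val hc).symm⟩
  · intro x hx
    have hxθ := mem_rootSpace_of_eigen H h (-2) (-θ) (fun α hα => by
      refine ⟨α (coroot (θ : Weight ℂ H L)), ?_, hact α⟩
      by_cases h2 : α = θ
      · rw [h2, hθθ]; norm_num
      rcases hval α h2 hα with h | h | h <;> rw [h] <;> norm_num) (fun x hx => by
        rw [hact _ x hx]
        change (-((θ : Weight ℂ H L) (coroot (θ : Weight ℂ H L)))) • x = _
        rw [hθθ]) x hx
    have h1 := finrank_rootSpace_eq_one (-(θ : Weight ℂ H L)) hθ0.neg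
    have he0 : (⟨f, hf⟩ : rootSpace H (-(θ : Weight ℂ H L))) ≠ 0 := by
      intro h
      exact hsl.f_ne_zero (congrArg Subtype.val h)
    obtain ⟨c, hc⟩ := (finrank_eq_one_iff_of_nonzero' _ he0).mp h1 ⟨x, hxθ⟩
    exact ⟨c, (congrArg Subtype.val hc).symm⟩

end Vale.Agent.P292
end

section

/-! Exponentials of nilpotent inner derivations. -/

namespace Vale.Agent.P292

open LieAlgebra

variable {g : Type*} [LieRing g] [LieAlgebra ℂ g]

/-- the truncated exponential of `ad x` -/
noncomputable def expSum (x : g) (n : ℕ) : Module.End ℂ g :=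
  ∑ l ∈ Finset.range (n + 1), ((l.factorial : ℂ)⁻¹) • (ad ℂ g x) ^ l

lemma ad_neg_pow (x : g) (l : ℕ) : (ad ℂ g (-x)) ^ l = (-1 : ℂ) ^ l • (ad ℂ g x) ^ l := by
  rw [map_neg, ← neg_one_smul ℂ, smul_pow]

lemma expSum_mul_neg (x : g) (n : ℕ) (hx : (ad ℂ g x) ^ (n + 1) = 0) :
    expSum x n * expSum (-x) n = 1 := by
  let inst : Module ℚ (Module.End ℂ g) := Module.compHom _ (algebraMap ℚ ℂ)
  have h1 : ∀ y : g, (ad ℂ g y) ^ (n + 1) = 0 →
      IsNilpotent.exp (ad ℂ g y) = expSum y n := by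
    intro y hy
    rw [IsNilpotent.exp_eq_sum hy, expSum]
    refine Finset.sum_congr rfl fun l _ => ?_
    change (algebraMap ℚ ℂ (l.factorial : ℚ)⁻¹) • (ad ℂ g y) ^ l = _
    rw [map_inv₀, map_natCast]
  have hx' : (ad ℂ g (-x)) ^ (n + 1) = 0 := by
    rw [map_neg, neg_pow, hx, mul_zero]
  rw [← h1 x hx, ← h1 (-x) hx', map_neg]
  exact IsNilpotent.exp_mul_exp_neg_self ⟨n + 1, hx⟩

/-- `exp (ad x)` as a linear automorphism -/
noncomputable def expAd (x : g) (n : ℕ) (hx : (ad ℂ g x) ^ (n + 1) = 0) : g ≃ₗ[ℂ] g :=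
  LinearEquiv.ofLinearMap (expSum x n) (expSum (-x) n) (expSum_mul_neg x n hx) (by
    have hx' : (ad ℂ g (-x)) ^ (n + 1) = 0 := by
      rw [map_neg, neg_pow, hx, mul_zero]
    have := expSum_mul_neg (-x) n hx'
    rw [neg_neg] at this
    exact this)

lemma expAd_mem (x : g) (n : ℕ) (hx : (ad ℂ g x) ^ (n + 1) = 0) :
    expAd x n hx ∈ adjointGroup g :=
  Subgroup.subset_closure ⟨x, n, hx, rfl⟩

lemma expAd_inv (x : g) (n : ℕ) (hx : (ad ℂ g x) ^ (n + 1) = 0)
    (hx' : (ad ℂ g (-x)) ^ (n + 1) = 0) :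
    (expAd x n hx)⁻¹ = expAd (-x) n hx' := by
  apply LinearEquiv.toLinearMap_injective
  rfl

/-- induction principle for the adjoint group -/
theorem adjointGroup_induction {Q : (g ≃ₗ[ℂ] g) → Prop}
    (hexp : ∀ (x : g) (n : ℕ) (hx : (ad ℂ g x) ^ (n + 1) = 0), Q (expAd x n hx))
    (hone : Q 1) (hmul : ∀ σ τ, Q σ → Q τ → Q (σ * τ))
    (σ : g ≃ₗ[ℂ] g) (hσ : σ ∈ adjointGroup g) : Q σ := by
  have key : ∀ σ ∈ adjointGroup g, Q σ ∧ Q σ⁻¹ := by
    intro σ hσ
    induction hσ using Subgroup.closure_induction with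
    | mem σ hσ =>
      obtain ⟨x, n, hx, h⟩ := hσ
      have hx' : (ad ℂ g (-x)) ^ (n + 1) = 0 := by
        rw [map_neg, neg_pow, hx, mul_zero]
      have : σ = expAd x n hx := LinearEquiv.toLinearMap_injective h
      rw [this, expAd_inv x n hx hx']
      exact ⟨hexp _ _ _, hexp _ _ _⟩
    | one => rw [inv_one]; exact ⟨hone, hone⟩
    | mul σ τ _ _ h1 h2 => rw [mul_inv_rev]; exact ⟨hmul _ _ h1.1 h2.1, hmul _ _ h2.2 h1.2⟩
    | inv σ _ h1 => rw [inv_inv]; exact ⟨h1.2, h1.1⟩
  exact (key σ hσ).1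

lemma expAd_apply (x : g) (n : ℕ) (hx : (ad ℂ g x) ^ (n + 1) = 0) (y : g) :
    expAd x n hx y = ∑ l ∈ Finset.range (n + 1), ((l.factorial : ℂ)⁻¹) • ((ad ℂ g x) ^ l) y := by
  change (expSum x n) y = _
  simp [expSum, LinearMap.sum_apply]

lemma expAd_apply_of_cube (x : g) (hx : (ad ℂ g x) ^ (4 + 1) = 0) (y : g)
    (h : ⁅x, ⁅x, ⁅x, y⁆⁆⁆ = 0) :
    expAd x 4 hx y = y + ⁅x, y⁆ + (2 : ℂ)⁻¹ • ⁅x, ⁅x, y⁆⁆ := by
  rw [expAd_apply]
  simp [Finset.sum_range_succ, pow_succ, h]

/-- invariance of the Killing form -/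
theorem killingForm_apply_left (σ : g ≃ₗ[ℂ] g) (hσ : σ ∈ adjointGroup g) (u v : g) :
    killingForm ℂ g (σ u) v = killingForm ℂ g u (σ⁻¹ v) := by
  refine adjointGroup_induction (Q := fun σ => ∀ u v, killingForm ℂ g (σ u) v =
    killingForm ℂ g u (σ⁻¹ v)) ?_ ?_ ?_ σ hσ u v
  · intro x n hx u v
    have hx' : (ad ℂ g (-x)) ^ (n + 1) = 0 := by
      rw [map_neg, neg_pow, hx, mul_zero]
    rw [expAd_inv x n hx hx', expAd_apply, expAd_apply]
    simp only [map_sum, map_smul, LinearMap.sum_apply, LinearMap.smul_apply]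
    refine Finset.sum_congr rfl fun l _ => ?_
    congr 1
    rw [ad_neg_pow, LinearMap.smul_apply, map_smul, smul_eq_mul]
    have key : ∀ (l : ℕ) (u v : g), killingForm ℂ g (((ad ℂ g x) ^ l) u) v =
        (-1) ^ l * killingForm ℂ g u (((ad ℂ g x) ^ l) v) := by
      intro l
      induction l with
      | zero => intro u v; simp
      | succ l ih =>
        intro u v
        have e1 : ((ad ℂ g x) ^ (l + 1)) u = ⁅x, ((ad ℂ g x) ^ l) u⁆ := by
          rw [pow_succ', Module.End.mul_apply, ad_apply]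
        have e2 : ((ad ℂ g x) ^ (l + 1)) v = ((ad ℂ g x) ^ l) ⁅x, v⁆ := by
          rw [pow_succ, Module.End.mul_apply, ad_apply]
        rw [e1, e2, LieModule.traceForm_apply_lie_apply', ih]
        ring
    exact key l u v
  · intro u v; rfl
  · intro σ τ h1 h2 u v
    rw [mul_inv_rev]
    change killingForm ℂ g (σ (τ u)) v = killingForm ℂ g u (τ⁻¹ (σ⁻¹ v))
    rw [h1, h2]

end Vale.Agent.P292
end

section

/-! Theorem E, section 4: exponential of commuting locally nilpotent derivations. See `PROOF.md`. -/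

namespace Vale.Agent.P292

open Module

universe u v

section ex1

variable {S : Type u} [CommRing S] [Algebra ℂ S]

/-- coefficientwise extension of a linear map. -/
noncomputable def ex1L (σ : Type v) (f : S →ₗ[ℂ] S) : MvPolynomial σ S →ₗ[ℂ] MvPolynomial σ S :=
  (((MvPolynomial.basisMonomials σ S).repr.symm.restrictScalars ℂ :
    ((σ →₀ ℕ) →₀ S) ≃ₗ[ℂ] MvPolynomial σ S) : ((σ →₀ ℕ) →₀ S) →ₗ[ℂ] MvPolynomial σ S) ∘ₗ
    (Finsupp.mapRange.linearMap f) ∘ₗ
    (((MvPolynomial.basisMonomials σ S).repr.restrictScalars ℂ :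
    MvPolynomial σ S ≃ₗ[ℂ] ((σ →₀ ℕ) →₀ S)) : MvPolynomial σ S →ₗ[ℂ] ((σ →₀ ℕ) →₀ S))

theorem ex1L_coeff {σ : Type v} (f : S →ₗ[ℂ] S) (p : MvPolynomial σ S) (α : σ →₀ ℕ) :
    MvPolynomial.coeff α (ex1L σ f p) = f (MvPolynomial.coeff α p) := rfl

theorem ex1L_monomial {σ : Type v} (f : S →ₗ[ℂ] S) (α : σ →₀ ℕ) (a : S) :
    ex1L σ f (MvPolynomial.monomial α a) = MvPolynomial.monomial α (f a) := by
  classical
  ext β
  rw [ex1L_coeff, MvPolynomial.coeff_monomial, MvPolynomial.coeff_monomial]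
  split_ifs with h
  · rfl
  · exact map_zero f

theorem ex1L_C {σ : Type v} (f : S →ₗ[ℂ] S) (a : S) :
    ex1L σ f (MvPolynomial.C a) = MvPolynomial.C (f a) := ex1L_monomial f 0 a

theorem ex1L_leibniz {σ : Type v} (D : Derivation ℂ S S) (p q : MvPolynomial σ S) :
    ex1L σ (D : S →ₗ[ℂ] S) (p * q) =
      p * ex1L σ (D : S →ₗ[ℂ] S) q + q * ex1L σ (D : S →ₗ[ℂ] S) p := by
  induction p using MvPolynomial.induction_on' with
  | add p₁ p₂ h₁ h₂ =>
    rw [add_mul, map_add, h₁, h₂, map_add]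
    ring
  | monomial α a =>
    induction q using MvPolynomial.induction_on' with
    | add q₁ q₂ h₁ h₂ =>
      rw [mul_add, map_add, h₁, h₂, map_add]
      ring
    | monomial β b =>
      rw [MvPolynomial.monomial_mul, ex1L_monomial, ex1L_monomial, ex1L_monomial,
        MvPolynomial.monomial_mul, MvPolynomial.monomial_mul, add_comm β α, ← map_add]
      congr 1
      exact D.leibniz a b

theorem ex1L_X {σ : Type v} (D : Derivation ℂ S S) (j : σ) :
    ex1L σ (D : S →ₗ[ℂ] S) (MvPolynomial.X j) = 0 := by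
  rw [MvPolynomial.X, ex1L_monomial]
  have h : (D : S →ₗ[ℂ] S) 1 = 0 := D.map_one_eq_zero
  rw [h, map_zero]

theorem ex1L_X_mul {σ : Type v} (D : Derivation ℂ S S) (j : σ) (p : MvPolynomial σ S) :
    ex1L σ (D : S →ₗ[ℂ] S) (MvPolynomial.X j * p) =
      MvPolynomial.X j * ex1L σ (D : S →ₗ[ℂ] S) p := by
  rw [ex1L_leibniz, ex1L_X, mul_zero, add_zero]

theorem ex1L_pderiv {σ : Type v} (D : Derivation ℂ S S) (i : σ) (p : MvPolynomial σ S) :
    MvPolynomial.pderiv i (ex1L σ (D : S →ₗ[ℂ] S) p) =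
      ex1L σ (D : S →ₗ[ℂ] S) (MvPolynomial.pderiv i p) := by
  induction p using MvPolynomial.induction_on' with
  | add p₁ p₂ h₁ h₂ => rw [map_add, map_add, h₁, h₂, map_add, map_add]
  | monomial α a =>
    rw [ex1L_monomial, MvPolynomial.pderiv_monomial, MvPolynomial.pderiv_monomial, ex1L_monomial]
    congr 1
    have h : (D : S →ₗ[ℂ] S) (a * (α i : S)) = D (a * (α i : S)) := rfl
    rw [h, D.leibniz, D.map_natCast, smul_zero, zero_add, smul_eq_mul, mul_comm]
    rfl

/-- sums of commuting locally nilpotent maps are locally nilpotent. -/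
theorem ex1_sum_nil {B : Type*} [AddCommGroup B] [Module ℂ B] {ι : Type*} [DecidableEq ι]
    (f : ι → Module.End ℂ B) (hf : ∀ i j, Commute (f i) (f j)) (s : Finset ι) (p : B)
    (h : ∀ i ∈ s, ∃ N, (f i ^ N) p = 0) : ∃ N, ((∑ i ∈ s, f i) ^ N) p = 0 := by
  induction s using Finset.induction_on with
  | empty => exact ⟨1, by simp⟩
  | insert a s ha ih =>
    obtain ⟨M, hM⟩ := ih (fun i hi => h i (Finset.mem_insert_of_mem hi))
    obtain ⟨N, hN⟩ := h a (Finset.mem_insert_self a s)
    rw [Finset.sum_insert ha]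
    have hc : Commute (f a) (∑ i ∈ s, f i) := Commute.sum_right s f (f a) (fun i _ => hf a i)
    refine ⟨N + M, ?_⟩
    rw [hc.add_pow', LinearMap.sum_apply]
    refine Finset.sum_eq_zero fun m hm => ?_
    rw [Finset.HasAntidiagonal.mem_antidiagonal] at hm
    rw [LinearMap.smul_apply]
    by_cases h1 : M ≤ m.2
    · obtain ⟨t, ht⟩ := Nat.exists_eq_add_of_le h1
      rw [Module.End.mul_apply, ht, add_comm M t, pow_add, Module.End.mul_apply, hM, map_zero,
        map_zero, smul_zero]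
    · have h2 : N ≤ m.1 := by omega
      obtain ⟨t, ht⟩ := Nat.exists_eq_add_of_le h2
      rw [((hc.pow_pow m.1 m.2).eq), Module.End.mul_apply, ht, add_comm N t, pow_add,
        Module.End.mul_apply, hN, map_zero, map_zero, smul_zero]

/-- the Leibniz rule for powers. -/
theorem ex1_leibniz {B : Type*} [CommRing B] [Algebra ℂ B] (E : Module.End ℂ B)
    (hE : ∀ a b, E (a * b) = a * E b + b * E a) (n : ℕ) (a b : B) :
    (E ^ n) (a * b) = ∑ ij ∈ Finset.HasAntidiagonal.antidiagonal n,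
      n.choose ij.1 • ((E ^ ij.1) a * (E ^ ij.2) b) := by
  induction n with
  | zero => simp
  | succ n ih =>
    rw [Finset.sum_antidiagonal_choose_succ_nsmul (M := B) (fun i j => (E ^ i) a * (E ^ j) b) n]
    rw [pow_succ', Module.End.mul_apply, ih, map_sum]
    simp only [map_nsmul, hE, smul_add, Finset.sum_add_distrib]
    congr 1
    · refine Finset.sum_congr rfl fun ij _ => ?_
      rw [pow_succ' E ij.2, Module.End.mul_apply]
    · refine Finset.sum_congr rfl fun ij hij => ?_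
      rw [n.choose_symm_of_eq_add (Finset.HasAntidiagonal.mem_antidiagonal.1 hij).symm, mul_comm,
        pow_succ' E ij.1, Module.End.mul_apply]

end ex1

/-- The exponential of commuting locally nilpotent derivations. -/
theorem exists_exp_of_commute {S : Type u} [CommRing S] [Algebra ℂ S] {n : ℕ}
    (D : Fin n → Derivation ℂ S S) (hcomm : ∀ i j r, D i (D j r) = D j (D i r))
    (hnil : ∀ i r, ∃ N : ℕ, (⇑(D i))^[N] r = 0) :
    ∃ e : S →ₐ[ℂ] MvPolynomial (Fin n) S, (∀ i r, MvPolynomial.pderiv i (e r) = e (D i r)) ∧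
      ∀ r, MvPolynomial.constantCoeff (e r) = r := by
  classical
  -- the extended derivations
  let f : Fin n → Module.End ℂ (MvPolynomial (Fin n) S) := fun i =>
    (LinearMap.mulLeft ℂ (MvPolynomial.X i : MvPolynomial (Fin n) S)) ∘ₗ
      ex1L (Fin n) (D i : S →ₗ[ℂ] S)
  have hfa : ∀ i p, f i p = MvPolynomial.X i * ex1L (Fin n) (D i : S →ₗ[ℂ] S) p := fun i p => rfl
  have hLL : ∀ i j p, ex1L (Fin n) (D i : S →ₗ[ℂ] S) (ex1L (Fin n) (D j : S →ₗ[ℂ] S) p) =
      ex1L (Fin n) (D j : S →ₗ[ℂ] S) (ex1L (Fin n) (D i : S →ₗ[ℂ] S) p) := by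
    intro i j p
    ext α
    rw [ex1L_coeff, ex1L_coeff, ex1L_coeff, ex1L_coeff]
    exact hcomm i j _
  have hf : ∀ i j, Commute (f i) (f j) := by
    intro i j
    refine LinearMap.ext fun p => ?_
    rw [Module.End.mul_apply, Module.End.mul_apply, hfa, hfa, hfa, hfa, ex1L_X_mul, ex1L_X_mul,
      hLL i j, mul_left_comm]
  have hfC : ∀ i (N : ℕ) r, (f i ^ N) (MvPolynomial.C r) =
      MvPolynomial.X i ^ N * MvPolynomial.C ((⇑(D i))^[N] r) := by
    intro i N r
    induction N with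
    | zero => simp
    | succ N ih =>
      rw [pow_succ', Module.End.mul_apply, ih, hfa, Function.iterate_succ_apply']
      have h1 : ∀ (N : ℕ) (q : MvPolynomial (Fin n) S),
          ex1L (Fin n) (D i : S →ₗ[ℂ] S) (MvPolynomial.X i ^ N * q) =
            MvPolynomial.X i ^ N * ex1L (Fin n) (D i : S →ₗ[ℂ] S) q := by
        intro N q
        induction N with
        | zero => simp
        | succ N ihN => rw [pow_succ', mul_assoc, ex1L_X_mul, ihN, mul_assoc]
      rw [h1, ex1L_C, pow_succ']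
      exact (mul_assoc _ _ _).symm
  let E : Module.End ℂ (MvPolynomial (Fin n) S) := ∑ i, f i
  have hEa : ∀ p, E p = ∑ i, MvPolynomial.X i * ex1L (Fin n) (D i : S →ₗ[ℂ] S) p := by
    intro p
    change (∑ i, f i) p = _
    rw [LinearMap.sum_apply]
    rfl
  have hEl : ∀ a b, E (a * b) = a * E b + b * E a := by
    intro a b
    rw [hEa, hEa, hEa, Finset.mul_sum, Finset.mul_sum, ← Finset.sum_add_distrib]
    refine Finset.sum_congr rfl fun i _ => ?_
    rw [ex1L_leibniz]
    ring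
  have hnilE : ∀ r, ∃ N, ∀ j, N ≤ j → (E ^ j) (MvPolynomial.C r) = 0 := by
    intro r
    obtain ⟨N, hN⟩ := ex1_sum_nil f hf Finset.univ (MvPolynomial.C r) (fun i _ => by
      obtain ⟨N, hN⟩ := hnil i r
      exact ⟨N, by rw [hfC, hN, map_zero, mul_zero]⟩)
    refine ⟨N, fun j hj => ?_⟩
    obtain ⟨t, ht⟩ := Nat.exists_eq_add_of_le hj
    rw [ht, add_comm N t, pow_add, Module.End.mul_apply]
    rw [hN, map_zero]
  choose M hM using hnilE
  -- the coefficients
  let c : S → ℕ → MvPolynomial (Fin n) S := fun r j =>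
    ((j.factorial : ℂ)⁻¹) • (E ^ j) (MvPolynomial.C r)
  have hc0 : ∀ r j, M r ≤ j → c r j = 0 := fun r j hj => by
    change ((j.factorial : ℂ)⁻¹) • (E ^ j) (MvPolynomial.C r) = 0
    rw [hM r j hj, smul_zero]
  let τ : S → Polynomial (MvPolynomial (Fin n) S) := fun r =>
    ∑ j ∈ Finset.range (M r), Polynomial.monomial j (c r j)
  have hco : ∀ r j, (τ r).coeff j = c r j := by
    intro r j
    change (∑ j ∈ Finset.range (M r), Polynomial.monomial j (c r j)).coeff j = c r j
    rw [Polynomial.finsetSum_coeff]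
    simp only [Polynomial.coeff_monomial]
    rw [Finset.sum_ite_eq' (Finset.range (M r)) j]
    split_ifs with h
    · rfl
    · rw [Finset.mem_range, not_lt] at h
      exact (hc0 r j h).symm
  have hfact : ∀ j : ℕ, (j.factorial : ℂ) ≠ 0 := fun j => by exact_mod_cast j.factorial_ne_zero
  have hEalg : ∀ (j : ℕ) (z : ℂ), (E ^ (j + 1)) (algebraMap ℂ (MvPolynomial (Fin n) S) z) = 0 := by
    intro j z
    rw [pow_succ, Module.End.mul_apply]
    have h1 : E (algebraMap ℂ (MvPolynomial (Fin n) S) z) = 0 := by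
      rw [hEa]
      refine Finset.sum_eq_zero fun i _ => ?_
      have h2 : algebraMap ℂ (MvPolynomial (Fin n) S) z = MvPolynomial.C (algebraMap ℂ S z) := rfl
      rw [h2, ex1L_C]
      have h3 : (D i : S →ₗ[ℂ] S) (algebraMap ℂ S z) = 0 := (D i).map_algebraMap z
      rw [h3, map_zero, mul_zero]
    rw [h1, map_zero]
  have halg : ∀ z : ℂ, τ (algebraMap ℂ S z) =
      algebraMap ℂ (Polynomial (MvPolynomial (Fin n) S)) z := by
    intro z
    ext1 j
    rw [hco]
    have h1 : algebraMap ℂ (Polynomial (MvPolynomial (Fin n) S)) z =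
      Polynomial.C (algebraMap ℂ (MvPolynomial (Fin n) S) z) := rfl
    rw [h1, Polynomial.coeff_C]
    change ((j.factorial : ℂ)⁻¹) • (E ^ j) (algebraMap ℂ (MvPolynomial (Fin n) S) z) = _
    rcases j with _ | j
    · simp
    · rw [hEalg, smul_zero, if_neg (Nat.succ_ne_zero j)]
  have hadd : ∀ a b, τ (a + b) = τ a + τ b := by
    intro a b
    ext1 j
    rw [Polynomial.coeff_add, hco, hco, hco]
    change ((j.factorial : ℂ)⁻¹) • (E ^ j) (MvPolynomial.C (a + b)) = _
    rw [map_add, map_add, smul_add]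
  have hmul : ∀ a b, τ (a * b) = τ a * τ b := by
    intro a b
    ext1 j
    rw [hco, Polynomial.coeff_mul]
    change ((j.factorial : ℂ)⁻¹) • (E ^ j) (MvPolynomial.C (a * b)) = _
    rw [map_mul, ex1_leibniz E hEl, Finset.smul_sum]
    refine Finset.sum_congr rfl fun ij hij => ?_
    rw [Finset.HasAntidiagonal.mem_antidiagonal] at hij
    rw [hco, hco]
    change _ = ((ij.1.factorial : ℂ)⁻¹) • (E ^ ij.1) (MvPolynomial.C a) *
      ((ij.2.factorial : ℂ)⁻¹) • (E ^ ij.2) (MvPolynomial.C b)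
    rw [smul_mul_smul_comm, ← Nat.cast_smul_eq_nsmul ℂ, smul_smul]
    congr 1
    have h1 : (j.choose ij.1 : ℂ) * (ij.1.factorial : ℂ) * (ij.2.factorial : ℂ) =
        j.factorial := by
      rw [← hij, Nat.choose_symm_add]
      exact_mod_cast Nat.add_choose_mul_factorial_mul_factorial ij.1 ij.2
    have h2 := hfact ij.1
    have h3 := hfact ij.2
    have h4 := hfact j
    field_simp
    rw [← h1]
  let T : S →ₐ[ℂ] Polynomial (MvPolynomial (Fin n) S) :=
    { toFun := τ
      map_one' := by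
        have := halg 1
        rwa [map_one, map_one] at this
      map_mul' := hmul
      map_zero' := by
        have := halg 0
        rwa [map_zero, map_zero] at this
      map_add' := hadd
      commutes' := halg }
  let e : S →ₐ[ℂ] MvPolynomial (Fin n) S :=
    ((Polynomial.aeval (1 : MvPolynomial (Fin n) S)).restrictScalars ℂ).comp T
  have he : ∀ r N, M r ≤ N → e r = ∑ j ∈ Finset.range N, c r j := by
    intro r N hN
    change Polynomial.aeval (1 : MvPolynomial (Fin n) S) (τ r) = _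
    rw [Polynomial.aeval_eq_sum_range' (n := N + 1)]
    · rw [Finset.sum_range_succ, hco, hc0 r N hN, zero_smul, add_zero]
      refine Finset.sum_congr rfl fun j _ => ?_
      rw [hco, one_pow, smul_eq_mul, mul_one]
    · rw [Nat.lt_succ_iff]
      rw [Polynomial.natDegree_le_iff_coeff_eq_zero]
      intro j hj
      rw [hco]
      exact hc0 r j (hN.trans hj.le)
  refine ⟨e, ?_, ?_⟩
  · -- derivatives
    intro i r
    have hDE : ∀ p, MvPolynomial.pderiv i (E p) =
        ex1L (Fin n) (D i : S →ₗ[ℂ] S) p + E (MvPolynomial.pderiv i p) := by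
      intro p
      rw [hEa, hEa, map_sum]
      have h1 : ∀ j, MvPolynomial.pderiv i
          (MvPolynomial.X j * ex1L (Fin n) (D j : S →ₗ[ℂ] S) p) =
          (if j = i then ex1L (Fin n) (D j : S →ₗ[ℂ] S) p else 0) +
          MvPolynomial.X j * ex1L (Fin n) (D j : S →ₗ[ℂ] S) (MvPolynomial.pderiv i p) := by
        intro j
        rw [MvPolynomial.pderiv_mul, MvPolynomial.pderiv_X, ex1L_pderiv]
        by_cases h : j = i
        · subst h
          rw [Pi.single_eq_same, if_pos rfl, one_mul]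
        · rw [Pi.single_eq_of_ne h, if_neg h, zero_mul]
      rw [Finset.sum_congr rfl fun j _ => h1 j, Finset.sum_add_distrib,
        Finset.sum_ite_eq' Finset.univ i, if_pos (Finset.mem_univ i)]
    have hEL : ∀ p, ex1L (Fin n) (D i : S →ₗ[ℂ] S) (E p) =
        E (ex1L (Fin n) (D i : S →ₗ[ℂ] S) p) := by
      intro p
      rw [hEa, hEa, map_sum]
      refine Finset.sum_congr rfl fun j _ => ?_
      rw [ex1L_X_mul, hLL]
    have hELp : ∀ (j : ℕ) p, ex1L (Fin n) (D i : S →ₗ[ℂ] S) ((E ^ j) p) =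
        (E ^ j) (ex1L (Fin n) (D i : S →ₗ[ℂ] S) p) := by
      intro j p
      induction j with
      | zero => simp
      | succ j ih => rw [pow_succ', Module.End.mul_apply, hEL, ih, Module.End.mul_apply]
    have hDEp : ∀ (j : ℕ), MvPolynomial.pderiv i ((E ^ (j + 1)) (MvPolynomial.C r)) =
        (j + 1) • (E ^ j) (MvPolynomial.C (D i r)) := by
      intro j
      induction j with
      | zero =>
        rw [zero_add, pow_one, hDE, MvPolynomial.pderiv_C, map_zero, add_zero, ex1L_C]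
        simp
      | succ j ih =>
        rw [pow_succ', Module.End.mul_apply, hDE, ih, hELp, map_nsmul, ex1L_C]
        rw [← Module.End.mul_apply, ← pow_succ', succ_nsmul _ (j + 1), add_comm]
        rfl
    set N := max (M r) (M (D i r)) with hN
    rw [he r (N + 1) ((le_max_left _ _).trans (Nat.le_succ _)), he (D i r) N (le_max_right _ _),
      Finset.sum_range_succ', map_add, map_sum]
    have h0 : MvPolynomial.pderiv i (c r 0) = 0 := by
      change MvPolynomial.pderiv i (((Nat.factorial 0 : ℂ)⁻¹) • (E ^ 0) (MvPolynomial.C r)) = 0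
      rw [Nat.factorial_zero, Nat.cast_one, inv_one, one_smul, pow_zero, Module.End.one_apply,
        MvPolynomial.pderiv_C]
    rw [h0, add_zero]
    refine Finset.sum_congr rfl fun j _ => ?_
    change MvPolynomial.pderiv i ((((j + 1).factorial : ℂ)⁻¹) •
      (E ^ (j + 1)) (MvPolynomial.C r)) = ((j.factorial : ℂ)⁻¹) • (E ^ j) (MvPolynomial.C (D i r))
    have h1 : ∀ (z : ℂ) (p : MvPolynomial (Fin n) S),
        MvPolynomial.pderiv i (z • p) = z • MvPolynomial.pderiv i p := by
      intro z p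
      rw [← algebraMap_smul S z p, ← algebraMap_smul S z (MvPolynomial.pderiv i p),
        MvPolynomial.smul_eq_C_mul, MvPolynomial.smul_eq_C_mul, MvPolynomial.pderiv_C_mul]
    rw [h1, hDEp, ← Nat.cast_smul_eq_nsmul ℂ, smul_smul]
    congr 1
    rw [Nat.factorial_succ]
    have h2 := hfact j
    have h3 : ((j + 1 : ℕ) : ℂ) ≠ 0 := by exact_mod_cast Nat.succ_ne_zero j
    push_cast at h3 ⊢
    field_simp
  · -- constant terms
    intro r
    rw [he r (M r + 1) (Nat.le_succ _), Finset.sum_range_succ', map_add, map_sum]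
    have h1 : ∀ (z : ℂ) (p : MvPolynomial (Fin n) S),
        MvPolynomial.constantCoeff (z • p) = z • MvPolynomial.constantCoeff p := by
      intro z p
      rw [← algebraMap_smul S z p, MvPolynomial.smul_eq_C_mul, map_mul,
        MvPolynomial.constantCoeff_C, ← algebraMap_smul S z (MvPolynomial.constantCoeff p)]
      rfl
    have h2 : ∀ j ∈ Finset.range (M r), MvPolynomial.constantCoeff (c r (j + 1)) = 0 := by
      intro j _
      change MvPolynomial.constantCoeff ((((j + 1).factorial : ℂ)⁻¹) •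
        (E ^ (j + 1)) (MvPolynomial.C r)) = 0
      rw [h1, pow_succ', Module.End.mul_apply, hEa, map_sum]
      rw [Finset.sum_eq_zero fun i _ => ?_, smul_zero]
      rw [map_mul, MvPolynomial.constantCoeff_X, zero_mul]
    rw [Finset.sum_eq_zero h2, zero_add]
    change MvPolynomial.constantCoeff (((Nat.factorial 0 : ℂ)⁻¹) • (E ^ 0) (MvPolynomial.C r)) = r
    rw [Nat.factorial_zero, Nat.cast_one, inv_one, one_smul, pow_zero, Module.End.one_apply,
      MvPolynomial.constantCoeff_C]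

end Vale.Agent.P292
end

section

/-! Linear algebra of `sl₂`-triples of operators. -/

namespace Vale.Agent.P292

open Module

section ring

variable {R : Type*} [Ring R]

/-- the factors of the product formula for `e ^ k * f ^ k`. -/
def sltA (C h : R) (k : ℕ) : R := C - (h - ((2 * k + 1 : ℕ) : R)) ^ 2

/-- the product of the first `k` factors. -/
def sltP (C h : R) : ℕ → R
  | 0 => 1
  | k + 1 => sltP C h k * sltA C h k

theorem slt_hf {h f : R} (hhf : h * f - f * h = -(f + f)) (k : ℕ) :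
    h * f ^ k = f ^ k * (h - ((2 * k : ℕ) : R)) := by
  have h0 : h * f = f * h - (f + f) := by
    rw [sub_eq_iff_eq_add] at hhf
    rw [hhf]
    abel
  induction k with
  | zero => simp
  | succ k ih =>
    rw [pow_succ, ← mul_assoc, ih, mul_assoc, sub_mul, h0, mul_assoc]
    congr 1
    rw [(Nat.cast_commute (2 * k) f).eq, mul_sub]
    push_cast
    noncomm_ring

theorem slt_Cf {e h f : R} (hef : e * f - f * e = h) (hhf : h * f - f * h = -(f + f)) :
    ((h + 1) ^ 2 + 4 * (f * e)) * f = f * ((h + 1) ^ 2 + 4 * (f * e)) := by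
  have h0 : h * f = f * h - (f + f) := by
    rw [sub_eq_iff_eq_add] at hhf
    rw [hhf]
    abel
  have h1 : e * f = f * e + h := by
    rw [← hef]
    abel
  have h2 : f * e * f = f * (f * e) + f * h := by
    rw [mul_assoc, h1, mul_add]
  have h3 : (h + 1) * f = f * (h - 1) := by
    rw [add_mul, h0]
    noncomm_ring
  have h4 : (h + 1) ^ 2 * f = f * (h - 1) ^ 2 := by
    rw [pow_two, mul_assoc, h3, ← mul_assoc, h3, mul_assoc, pow_two]
  rw [add_mul, h4, mul_assoc 4, h2]
  noncomm_ring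

theorem slt_prod {e h f : R} (hef : e * f - f * e = h) (hhf : h * f - f * h = -(f + f)) (k : ℕ) :
    (4 : R) ^ k * (e ^ k * f ^ k) = sltP ((h + 1) ^ 2 + 4 * (f * e)) h k := by
  have h1 : e * f = f * e + h := by
    rw [← hef]
    abel
  induction k with
  | zero => simp [sltP]
  | succ k ih =>
    set C := (h + 1) ^ 2 + 4 * (f * e) with hC
    have hCf : ∀ n : ℕ, C * f ^ n = f ^ n * C := by
      intro n
      have h2 : Commute C f := slt_Cf hef hhf
      exact (h2.pow_right n).eq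
    have hhfk := slt_hf hhf k
    have h4 : 4 * (e * f) = C - (h - 1) ^ 2 := by
      rw [hC, h1]
      noncomm_ring
    have h5 : (h - 1) * f ^ k = f ^ k * (h - ((2 * k + 1 : ℕ) : R)) := by
      rw [sub_mul, hhfk]
      push_cast
      noncomm_ring
    have h6 : (h - 1) ^ 2 * f ^ k = f ^ k * (h - ((2 * k + 1 : ℕ) : R)) ^ 2 := by
      rw [pow_two, mul_assoc, h5, ← mul_assoc, h5, mul_assoc, pow_two]
    have h7 : 4 * (e * f) * f ^ k = f ^ k * sltA C h k := by
      rw [h4, sub_mul, hCf, h6, sltA, mul_sub]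
    have h8 : (4 : R) ^ (k + 1) * (e ^ (k + 1) * f ^ (k + 1)) =
        (4 : R) ^ k * (e ^ k * (4 * (e * f) * f ^ k)) := by
      have h9 : Commute (4 : R) (e ^ k) := by
        have := Nat.cast_commute 4 (e ^ k)
        simpa using this
      rw [pow_succ (4 : R), pow_succ e, pow_succ' f, mul_assoc ((4 : R) ^ k)]
      congr 1
      simp only [← mul_assoc]
      rw [h9.eq]
    rw [h8, h7, ← mul_assoc (e ^ k), ← mul_assoc, ih]
    rfl

end ring

variable {V : Type*} [AddCommGroup V] [Module ℂ V] [FiniteDimensional ℂ V]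

/-- the lowering operator is nilpotent. -/
theorem slt_nil (h f : Module.End ℂ V) (hhf : h * f - f * h = -((2 : ℂ) • f)) :
    ∃ N : ℕ, f ^ N = 0 := by
  by_contra hcon
  push Not at hcon
  let L : Module.End ℂ (Module.End ℂ V) := LinearMap.mulLeft ℂ h - LinearMap.mulRight ℂ h
  have hL : ∀ n : ℕ, L (f ^ n) = (-(2 * n) : ℂ) • f ^ n := by
    intro n
    change h * f ^ n - f ^ n * h = _
    have hhf' : h * f - f * h = -(f + f) := by rw [hhf, two_smul]
    rw [slt_hf hhf', mul_sub, sub_sub_cancel_left]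
    rw [(Nat.cast_commute (2 * n) (f ^ n)).symm.eq, ← nsmul_eq_mul, neg_smul]
    congr 1
    rw [← Nat.cast_smul_eq_nsmul ℂ]
    push_cast
    rfl
  have hfin := Module.End.finite_hasEigenvalue L
  refine Set.infinite_of_injective_forall_mem (f := fun n : ℕ => (-(2 * n) : ℂ)) ?_ ?_ hfin
  · intro a b hab
    have h1 : (-(2 * a) : ℂ) = -(2 * b) := hab
    have h2 : (a : ℂ) = b := by linear_combination (-1/2) * h1
    exact_mod_cast h2
  · intro n
    exact Module.End.hasEigenvalue_of_hasEigenvector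
      (Module.End.hasEigenvector_iff.2 ⟨Module.End.mem_eigenspace_iff.2 (hL n), hcon n⟩)

omit [FiniteDimensional ℂ V] in
/-- last nonzero iterate. -/
theorem slt_last (x : Module.End ℂ V) {v : V} (hv : v ≠ 0) (hx : ∃ n : ℕ, (x ^ n) v = 0) :
    ∃ n : ℕ, (x ^ n) v ≠ 0 ∧ x ((x ^ n) v) = 0 := by
  classical
  have h1 := Nat.find_spec hx
  have h2 : Nat.find hx ≠ 0 := by
    intro h0
    rw [h0, pow_zero] at h1
    exact hv h1
  obtain ⟨m, hm⟩ := Nat.exists_eq_succ_of_ne_zero h2
  refine ⟨m, Nat.find_min hx (by omega), ?_⟩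
  rw [hm, pow_succ'] at h1
  exact h1

/-- simultaneous generalised eigenvectors. -/
def SltW (C h : Module.End ℂ V) (c μ : ℂ) (v : V) : Prop :=
  (∃ n : ℕ, ((C - c • (1 : Module.End ℂ V)) ^ n) v = 0) ∧
    ∃ n : ℕ, ((h - μ • (1 : Module.End ℂ V)) ^ n) v = 0

omit [FiniteDimensional ℂ V] in
theorem SltW.map {C h : Module.End ℂ V} {c μ : ℂ} {v : V} (hv : SltW C h c μ v)
    {A : Module.End ℂ V} (hC : Commute A C) (hh : Commute A h) : SltW C h c μ (A v) := by
  obtain ⟨⟨n, hn⟩, m, hm⟩ := hv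
  refine ⟨⟨n, ?_⟩, m, ?_⟩
  · have h1 : Commute A ((C - c • (1 : Module.End ℂ V)) ^ n) :=
      (hC.sub_right ((Commute.one_right A).smul_right c)).pow_right n
    have h2 := LinearMap.congr_fun h1.eq v
    change A _ = ((C - c • (1 : Module.End ℂ V)) ^ n) (A v) at h2
    rw [← h2, hn, map_zero]
  · have h1 : Commute A ((h - μ • (1 : Module.End ℂ V)) ^ m) :=
      (hh.sub_right ((Commute.one_right A).smul_right μ)).pow_right m
    have h2 := LinearMap.congr_fun h1.eq v
    change A _ = ((h - μ • (1 : Module.End ℂ V)) ^ m) (A v) at h2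
    rw [← h2, hm, map_zero]

theorem slt_commA {R : Type*} [Ring R] {C h : R} (hCh : Commute C h) (k : ℕ) :
    Commute (sltA C h k) C ∧ Commute (sltA C h k) h := by
  have h1 : Commute (h - ((2 * k + 1 : ℕ) : R)) C :=
    hCh.symm.sub_left (Nat.cast_commute _ C)
  have h2 : Commute (h - ((2 * k + 1 : ℕ) : R)) h :=
    (Commute.refl h).sub_left (Nat.cast_commute _ h)
  exact ⟨(Commute.refl C).sub_left (h1.pow_left 2), hCh.sub_left (h2.pow_left 2)⟩

omit [FiniteDimensional ℂ V] in
theorem slt_apply (C h : Module.End ℂ V) (j : ℕ) (w : V) : sltA C h j w =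
    C w - h (h w) + (2 * (2 * (j : ℂ) + 1)) • h w - ((2 * (j : ℂ) + 1) ^ 2) • w := by
  have h3 : ∀ w : V, (h - ((2 * j + 1 : ℕ) : Module.End ℂ V)) w = h w - (2 * (j : ℂ) + 1) • w := by
    intro w
    rw [LinearMap.sub_apply]
    congr 1
    rw [Module.End.natCast_apply, ← Nat.cast_smul_eq_nsmul ℂ]
    push_cast
    rfl
  rw [sltA, LinearMap.sub_apply, pow_two, Module.End.mul_apply, h3, h3, map_sub, map_smul]
  module

omit [FiniteDimensional ℂ V] in
theorem SltW.inj {C h : Module.End ℂ V} (hCh : Commute C h) {c μ : ℂ} {v : V}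
    (hv : SltW C h c μ v) (hv0 : v ≠ 0) {j : ℕ} (hj : sltA C h j v = 0) :
    c = (μ - (2 * j + 1)) ^ 2 := by
  set x := C - c • (1 : Module.End ℂ V) with hx
  set y := h - μ • (1 : Module.End ℂ V) with hy
  have hxy : Commute x y :=
    (hCh.sub_left ((Commute.one_left h).smul_left c)).sub_right
      ((Commute.one_right x).smul_right μ)
  have hAx : Commute (sltA C h j) x :=
    (slt_commA hCh j).1.sub_right ((Commute.one_right _).smul_right c)
  have hAy : Commute (sltA C h j) y :=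
    (slt_commA hCh j).2.sub_right ((Commute.one_right _).smul_right μ)
  obtain ⟨n, hn0, hn⟩ := slt_last x hv0 hv.1
  obtain ⟨m', hm'⟩ := hv.2
  have h1 : ∃ m : ℕ, (y ^ m) ((x ^ n) v) = 0 := by
    refine ⟨m', ?_⟩
    have h2 := LinearMap.congr_fun ((hxy.pow_pow n m').eq) v
    change (x ^ n) ((y ^ m') v) = (y ^ m') ((x ^ n) v) at h2
    rw [← h2, hm', map_zero]
  obtain ⟨m, hm0, hm⟩ := slt_last y hn0 h1
  set w := (y ^ m) ((x ^ n) v) with hw
  have hxw : x w = 0 := by
    have h2 := LinearMap.congr_fun ((hxy.pow_right m).eq) ((x ^ n) v)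
    change x ((y ^ m) ((x ^ n) v)) = (y ^ m) (x ((x ^ n) v)) at h2
    rw [hw, h2, hn, map_zero]
  have hAw : sltA C h j w = 0 := by
    have h2 := LinearMap.congr_fun ((hAy.pow_right m).eq) ((x ^ n) v)
    change sltA C h j ((y ^ m) ((x ^ n) v)) = (y ^ m) (sltA C h j ((x ^ n) v)) at h2
    have h3 := LinearMap.congr_fun ((hAx.pow_right n).eq) v
    change sltA C h j ((x ^ n) v) = (x ^ n) (sltA C h j v) at h3
    rw [hw, h2, h3, hj, map_zero, map_zero]
  have hCw : C w = c • w := by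
    have h2 : C w - c • w = 0 := hxw
    exact sub_eq_zero.1 h2
  have hhw : h w = μ • w := by
    have h2 : h w - μ • w = 0 := hm
    exact sub_eq_zero.1 h2
  have h3 : (h - ((2 * j + 1 : ℕ) : Module.End ℂ V)) w = (μ - (2 * j + 1)) • w := by
    rw [LinearMap.sub_apply, hhw, sub_smul]
    congr 1
    rw [Module.End.natCast_apply, ← Nat.cast_smul_eq_nsmul ℂ]
    push_cast
    rfl
  have h4 : sltA C h j w = (c - (μ - (2 * j + 1)) ^ 2) • w := by
    rw [sltA, LinearMap.sub_apply, hCw, pow_two, Module.End.mul_apply, h3, map_smul, h3]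
    module
  rw [hAw] at h4
  rcases smul_eq_zero.1 h4.symm with h5 | h5
  · exact sub_eq_zero.1 h5
  · exact absurd h5 hm0

omit [FiniteDimensional ℂ V] in
theorem slt_side {C h : Module.End ℂ V} (hCh : Commute C h) {c μ : ℂ} (k : ℕ) :
    ∀ w : V, SltW C h c μ w → sltP C h k w = 0 → w = 0 ∨ ∃ j < k, c = (μ - (2 * j + 1)) ^ 2 ∧
      (sltA C h j w = 0 ∨ ∃ i, i ≠ j ∧ c = (μ - (2 * i + 1)) ^ 2) := by
  induction k with
  | zero =>
    intro w _ h0
    left
    exact h0
  | succ k ih =>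
    intro w hw h0
    by_cases hw0 : w = 0
    · left
      exact hw0
    right
    have h1 : sltP C h k (sltA C h k w) = 0 := h0
    rcases ih _ (hw.map (slt_commA hCh k).1 (slt_commA hCh k).2) h1 with h2 | ⟨j, hjk, hj, h2⟩
    · exact ⟨k, Nat.lt_succ_self k, hw.inj hCh hw0 h2, Or.inl h2⟩
    · refine ⟨j, by omega, hj, ?_⟩
      rcases h2 with h2 | ⟨i, hij, hi⟩
      · by_cases h3 : sltA C h j w = 0
        · exact Or.inl h3
        · right
          refine ⟨k, by omega, ?_⟩
          have hcomm : Commute (sltA C h j) (sltA C h k) := by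
            have h4 := slt_commA hCh j
            have h5 : Commute (sltA C h j) (h - ((2 * k + 1 : ℕ) : Module.End ℂ V)) :=
              h4.2.sub_right (Nat.commute_cast _ _)
            exact h4.1.sub_right (h5.pow_right 2)
          have h6 := LinearMap.congr_fun hcomm.eq w
          change sltA C h j (sltA C h k w) = sltA C h k (sltA C h j w) at h6
          rw [h2] at h6
          exact (hw.map (slt_commA hCh j).1 (slt_commA hCh j).2).inj hCh h3 h6.symm
      · exact Or.inr ⟨i, hij, hi⟩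

/-- If `f ^ N = 0` and `e ^ M = 0` then `h` is diagonalisable with eigenvalues `j - i`, where
`j < N` and `i < M`. -/
theorem slt_bounded (e h f : Module.End ℂ V) (hef : e * f - f * e = h)
    (hhe : h * e - e * h = (2 : ℂ) • e) (hhf : h * f - f * h = -((2 : ℂ) • f)) {N M : ℕ}
    (hN : f ^ N = 0) (hM : e ^ M = 0) (v : V) :
    v ∈ ⨆ p : Fin N × Fin M, Module.End.eigenspace h ((p.1 : ℕ) - (p.2 : ℕ) : ℂ) := by
  classical
  set C : Module.End ℂ V := (h + 1) ^ 2 + 4 * (f * e) with hC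
  have hhf' : h * f - f * h = -(f + f) := by rw [hhf, two_smul]
  have hhe' : -h * e - e * -h = -(e + e) := by
    rw [← two_smul ℂ e, ← hhe]
    noncomm_ring
  have hfe' : f * e - e * f = -h := by
    rw [← hef]
    abel
  have hC' : (-h + 1) ^ 2 + 4 * (e * f) = C := by
    rw [hC, eq_add_of_sub_eq hef]
    noncomm_ring
  have hCf : Commute C f := slt_Cf hef hhf'
  have hCe : Commute C e := by
    have h1 := slt_Cf (e := f) (h := -h) (f := e) hfe' hhe'
    rw [hC'] at h1
    exact h1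
  have hCh : Commute C h := by
    rw [← hef]
    exact (hCe.mul_right hCf).sub_right (hCf.mul_right hCe)
  have hP : sltP C h N = 0 := by
    rw [← slt_prod hef hhf' N, hN, mul_zero, mul_zero]
  have hP' : sltP C (-h) M = 0 := by
    have h1 := slt_prod (e := f) (h := -h) (f := e) hfe' hhe' M
    rw [hC'] at h1
    rw [← h1, hM, mul_zero, mul_zero]
  have key : ∀ (c μ : ℂ) (v : V), SltW C h c μ v →
      v ∈ ⨆ p : Fin N × Fin M, Module.End.eigenspace h ((p.1 : ℕ) - (p.2 : ℕ) : ℂ) := by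
    intro c μ v hv
    by_cases hv0 : v = 0
    · rw [hv0]
      exact Submodule.zero_mem _
    have hv' : SltW C (-h) c (-μ) v := by
      refine ⟨hv.1, ?_⟩
      obtain ⟨n, hn⟩ := hv.2
      refine ⟨n, ?_⟩
      have h1 : -h - (-μ) • (1 : Module.End ℂ V) = -(h - μ • (1 : Module.End ℂ V)) := by
        rw [neg_smul]
        abel
      rw [h1, neg_pow]
      change ((-1 : Module.End ℂ V) ^ n) (((h - μ • (1 : Module.End ℂ V)) ^ n) v) = 0
      rw [hn, map_zero]
    have hmu : ∀ i j : ℕ, c = (μ - (2 * i + 1)) ^ 2 → c = (-μ - (2 * j + 1)) ^ 2 →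
        μ = i - j := by
      intro i j h1 h2
      have h3 : ((i : ℂ) + j + 1) * (μ - (i - j)) = 0 := by
        linear_combination (1 / 4) * (h1 - h2)
      rcases mul_eq_zero.1 h3 with h4 | h4
      · exfalso
        have h5 : ((i + j + 1 : ℕ) : ℂ) = 0 := by
          push_cast
          exact h4
        rw [Nat.cast_eq_zero] at h5
        omega
      · exact sub_eq_zero.1 h4
    rcases slt_side hCh N v hv (by rw [hP]; rfl) with h1 | ⟨j, hjN, hj, h1⟩
    · exact absurd h1 hv0
    rcases slt_side hCh.neg_right M v hv' (by rw [hP']; rfl) with h2 | ⟨i, hiM, hi, h2⟩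
    · exact absurd h2 hv0
    have hμ := hmu j i hj hi
    have h1' : sltA C h j v = 0 := by
      rcases h1 with h1 | ⟨k, hkj, hk⟩
      · exact h1
      · exfalso
        have h3 := hmu k i hk hi
        rw [hμ] at h3
        apply hkj
        have h4 : (k : ℂ) = j := by linear_combination -h3
        exact_mod_cast h4
    have h2' : sltA C (-h) i v = 0 := by
      rcases h2 with h2 | ⟨k, hki, hk⟩
      · exact h2
      · exfalso
        have h3 := hmu j k hj hk
        rw [hμ] at h3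
        apply hki
        have h4 : (k : ℂ) = i := by linear_combination h3
        exact_mod_cast h4
    have h3 : (4 * ((i : ℂ) + j + 1)) • (h v - ((j : ℂ) - i) • v) = 0 := by
      have h4 : (4 * ((i : ℂ) + j + 1)) • (h v - ((j : ℂ) - i) • v) =
          sltA C h j v - sltA C (-h) i v := by
        simp only [slt_apply, LinearMap.neg_apply, map_neg]
        module
      rw [h4, h1', h2', sub_zero]
    refine Submodule.mem_iSup_of_mem (⟨j, hjN⟩, ⟨i, hiM⟩) ?_
    rw [Module.End.mem_eigenspace_iff]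
    rcases smul_eq_zero.1 h3 with h5 | h5
    · exfalso
      have h6 : ((i + j + 1 : ℕ) : ℂ) = 0 := by
        push_cast
        linear_combination (1 / 4) * h5
      rw [Nat.cast_eq_zero] at h6
      omega
    · exact sub_eq_zero.1 h5
  let F : Fin 2 → Module.End ℂ V := ![C, h]
  have htop := Module.End.iSup_iInf_maxGenEigenspace_eq_top_of_iSup_maxGenEigenspace_eq_top_of_commute
    F (by
      intro i j hij
      fin_cases i <;> fin_cases j
      · exact absurd rfl hij
      · exact hCh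
      · exact hCh.symm
      · exact absurd rfl hij)
    (fun i => Module.End.iSup_maxGenEigenspace_eq_top (F i))
  have hv : v ∈ (⊤ : Submodule ℂ V) := Submodule.mem_top
  rw [← htop] at hv
  have hle : (⨆ χ : Fin 2 → ℂ, ⨅ i, (F i).maxGenEigenspace (χ i)) ≤
      ⨆ p : Fin N × Fin M, Module.End.eigenspace h ((p.1 : ℕ) - (p.2 : ℕ) : ℂ) := by
    refine iSup_le fun χ => ?_
    intro w hw
    rw [Submodule.mem_iInf] at hw
    refine key (χ 0) (χ 1) w ⟨?_, ?_⟩
    · exact (Module.End.mem_maxGenEigenspace _ _ _).1 (hw 0)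
    · exact (Module.End.mem_maxGenEigenspace _ _ _).1 (hw 1)
  exact hle hv

/-- In a finite-dimensional representation of `sl₂` the element `h` acts diagonalisably with
integral eigenvalues. -/
theorem iSup_eigenspace_of_sl2 (e h f : Module.End ℂ V) (hef : e * f - f * e = h)
    (hhe : h * e - e * h = (2 : ℂ) • e) (hhf : h * f - f * h = -((2 : ℂ) • f)) (v : V) :
    v ∈ ⨆ n : ℤ, Module.End.eigenspace h (n : ℂ) := by
  obtain ⟨N, hN⟩ := slt_nil h f hhf
  obtain ⟨M, hM⟩ := slt_nil (-h) e (by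
    rw [← hhe]
    noncomm_ring)
  have h1 := slt_bounded e h f hef hhe hhf hN hM v
  have hle : (⨆ p : Fin N × Fin M, Module.End.eigenspace h ((p.1 : ℕ) - (p.2 : ℕ) : ℂ)) ≤
      ⨆ n : ℤ, Module.End.eigenspace h (n : ℂ) := by
    refine iSup_le fun p => ?_
    have h2 := le_iSup (fun n : ℤ => Module.End.eigenspace h (n : ℂ))
      (((p.1 : ℕ) : ℤ) - ((p.2 : ℕ) : ℤ))
    simpa using h2
  exact hle h1

end Vale.Agent.P292
end

section

/-! Linear algebra of `sl₂`-triples of operators. -/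

namespace Vale.Agent.P292

open Module

variable {V : Type*} [AddCommGroup V] [Module ℂ V] [FiniteDimensional ℂ V]

/-- If `e ^ 3 = 0` and `f ^ 3 = 0`, the eigenvalues of `h` are among
`-2, -1, 0, 1, 2`. -/
theorem iSup_eigenspace_of_cube (e h f : Module.End ℂ V) (hef : e * f - f * e = h)
    (hhe : h * e - e * h = (2 : ℂ) • e) (hhf : h * f - f * h = -((2 : ℂ) • f))
    (he : e ^ 3 = 0) (hf : f ^ 3 = 0) (v : V) :
    v ∈ ⨆ i : Fin 5, Module.End.eigenspace h ((i : ℂ) - 2) := by
  have h1 := slt_bounded e h f hef hhe hhf hf he v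
  have hle : (⨆ p : Fin 3 × Fin 3, Module.End.eigenspace h ((p.1 : ℕ) - (p.2 : ℕ) : ℂ)) ≤
      ⨆ i : Fin 5, Module.End.eigenspace h ((i : ℂ) - 2) := by
    refine iSup_le fun p => ?_
    obtain ⟨j, i⟩ := p
    have hj := j.2
    have hi := i.2
    have h2 := le_iSup (fun i : Fin 5 => Module.End.eigenspace h ((i : ℂ) - 2))
      ⟨(j : ℕ) + 2 - (i : ℕ), by omega⟩
    have h3 : ((((⟨(j : ℕ) + 2 - (i : ℕ), by omega⟩ : Fin 5) : ℕ) : ℂ) - 2) =
        ((j : ℕ) : ℂ) - ((i : ℕ) : ℂ) := by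
      have h4 : (((j : ℕ) + 2 - (i : ℕ) : ℕ) : ℂ) = (j : ℕ) + 2 - (i : ℕ) := by
        rw [Nat.cast_sub (by omega)]
        push_cast
        ring
      change (((j : ℕ) + 2 - (i : ℕ) : ℕ) : ℂ) - 2 = _
      rw [h4]
      ring
    have h5 : Module.End.eigenspace h
        ((((⟨(j : ℕ) + 2 - (i : ℕ), by omega⟩ : Fin 5) : ℕ) : ℂ) - 2) ≤
        ⨆ i : Fin 5, Module.End.eigenspace h ((i : ℂ) - 2) := by
      simpa using h2
    rw [h3] at h5
    exact h5
  exact hle h1

end Vale.Agent.P292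
end

section

/-! Part E: extensions of solvable Lie algebras. -/

namespace Vale.Agent.P292

open Module LieAlgebra

universe u

/-- the quotient map as a morphism of Lie algebras -/
private def qm {L : Type u} [LieRing L] [LieAlgebra ℂ L] (I : LieIdeal ℂ L) : L →ₗ⁅ℂ⁆ L ⧸ I :=
  { (LieSubmodule.Quotient.mk' I : L →ₗ[ℂ] L ⧸ I) with
    map_lie' := fun {x y} => LieSubmodule.Quotient.mk_bracket I x y }

private theorem qm_apply {L : Type u} [LieRing L] [LieAlgebra ℂ L] (I : LieIdeal ℂ L) (x : L) :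
    qm I x = LieSubmodule.Quotient.mk x := rfl

private theorem qm_eq_zero {L : Type u} [LieRing L] [LieAlgebra ℂ L] (I : LieIdeal ℂ L) {x : L} :
    qm I x = 0 ↔ x ∈ I := by
  rw [qm_apply]
  exact LieSubmodule.Quotient.mk_eq_zero' (N := I)

private theorem map_series_le {L L' : Type u} [LieRing L] [LieAlgebra ℂ L] [LieRing L']
    [LieAlgebra ℂ L'] (f : L' →ₗ⁅ℂ⁆ L) {K : LieIdeal ℂ L'} {J : LieIdeal ℂ L}
    (h : K.map f ≤ J) (k : ℕ) :
    (derivedSeriesOfIdeal ℂ L' k K).map f ≤ derivedSeriesOfIdeal ℂ L k J := by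
  induction k with
  | zero => simpa only [derivedSeriesOfIdeal_zero] using h
  | succ k ih =>
    simp only [derivedSeriesOfIdeal_succ]
    exact (LieIdeal.map_bracket_le f).trans (LieSubmodule.mono_lie ih ih)

private theorem solvable_aux {L : Type u} [LieRing L] [LieAlgebra ℂ L] (I K : LieIdeal ℂ L)
    (J : LieIdeal ℂ (L ⧸ I)) (hI : IsSolvable I) (hJ : IsSolvable J) (h : K.map (qm I) ≤ J) :
    IsSolvable K := by
  obtain ⟨k, hk⟩ := IsSolvable.solvable ℂ J
  obtain ⟨l, hl⟩ := IsSolvable.solvable ℂ I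
  rw [LieIdeal.derivedSeries_eq_bot_iff] at hk hl
  refine IsSolvable.mk (R := ℂ) (k := l + k) ((LieIdeal.derivedSeries_eq_bot_iff K (l + k)).mpr ?_)
  rw [derivedSeriesOfIdeal_add, ← le_bot_iff, ← hl]
  refine derivedSeriesOfIdeal_mono ?_ l
  intro x hx
  have h1 : qm I x ∈ (derivedSeriesOfIdeal ℂ L k K).map (qm I) := LieIdeal.mem_map hx
  have h2 := map_series_le (qm I) h k h1
  rw [hk] at h2
  exact (qm_eq_zero I).1 ((LieSubmodule.mem_bot _).1 h2)

/-- Extensions of solvable Lie algebras are solvable. -/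
theorem isSolvable_of_quotient {L : Type u} [LieRing L] [LieAlgebra ℂ L] (I : LieIdeal ℂ L)
    (hI : IsSolvable I) (hQ : IsSolvable (L ⧸ I)) : IsSolvable L := by
  have h1 : IsSolvable (⊤ : LieIdeal ℂ (L ⧸ I)) := inferInstance
  have h2 : IsSolvable (⊤ : LieIdeal ℂ L) := solvable_aux I ⊤ ⊤ hI h1 le_top
  exact (solvable_iff_equiv_solvable (R := ℂ) LieSubalgebra.topEquiv).1 h2

/-- The quotient by the radical has trivial radical. -/
theorem hasTrivialRadical_quotient {L : Type u} [LieRing L] [LieAlgebra ℂ L]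
    [FiniteDimensional ℂ L] : HasTrivialRadical ℂ (L ⧸ radical ℂ L) := by
  refine hasTrivialRadical_of_no_solvable_ideals fun J hJ => ?_
  have h1 : IsSolvable (J.comap (qm (radical ℂ L))) :=
    solvable_aux (radical ℂ L) (J.comap (qm (radical ℂ L))) J inferInstance hJ
      LieIdeal.map_comap_le
  have h2 := (LieIdeal.solvable_iff_le_radical ℂ L _).1 h1
  rw [eq_bot_iff]
  intro x hx
  obtain ⟨y, rfl⟩ := LieSubmodule.Quotient.surjective_mk' (radical ℂ L) x
  have h3 : y ∈ J.comap (qm (radical ℂ L)) := LieIdeal.mem_comap.2 hx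
  exact (LieSubmodule.mem_bot _).2 ((qm_eq_zero _).2 (h2 h3))

end Vale.Agent.P292
end

section

/-! Part E: automorphisms of finite order, eigenvectors. -/

namespace Vale.Agent.P292

open Module LieAlgebra

universe u

/-- A linear map of finite order is diagonalisable. -/
theorem iSup_eigenspace_of_iterate {V : Type u} [AddCommGroup V] [Module ℂ V] (τ : V →ₗ[ℂ] V)
    {p : ℕ} (hp : 0 < p) (hτ : ∀ v, (⇑τ)^[p] v = v) (v : V) :
    v ∈ ⨆ ζ : {ζ : ℂ // ζ ^ p = 1}, Module.End.eigenspace τ (ζ : ℂ) := by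
  classical
  set ω : ℂ := Complex.exp (2 * Real.pi * Complex.I / p) with hω
  have hprim : IsPrimitiveRoot ω p := Complex.isPrimitiveRoot_exp p hp.ne'
  have hωp : ω ^ p = 1 := hprim.pow_eq_one
  have hω0 : ω ≠ 0 := Complex.exp_ne_zero _
  have hp' : (p : ℂ) ≠ 0 := by exact_mod_cast hp.ne'
  -- the projections
  let P : ℕ → V := fun j => ∑ i ∈ Finset.range p, ((ω⁻¹ ^ j) ^ i) • (⇑τ)^[i] v
  have hP : ∀ j, τ (P j) = (ω ^ j) • P j := by
    intro j
    have h1 : (ω⁻¹ ^ j) • τ (P j) = P j := by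
      have h2 : (ω⁻¹ ^ j) • τ (P j) =
          ∑ i ∈ Finset.range p, ((ω⁻¹ ^ j) ^ (i + 1)) • (⇑τ)^[i + 1] v := by
        simp only [P]
        rw [map_sum, Finset.smul_sum]
        refine Finset.sum_congr rfl fun i _ => ?_
        rw [map_smul, smul_smul, Function.iterate_succ_apply', pow_succ' (ω⁻¹ ^ j) i]
      rw [h2]
      have h3 := Finset.sum_range_succ (fun i => ((ω⁻¹ ^ j) ^ i) • (⇑τ)^[i] v) p
      have h4 := Finset.sum_range_succ' (fun i => ((ω⁻¹ ^ j) ^ i) • (⇑τ)^[i] v) p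
      rw [h3] at h4
      have h5 : ((ω⁻¹ ^ j) ^ p) • (⇑τ)^[p] v = ((ω⁻¹ ^ j) ^ 0) • (⇑τ)^[0] v := by
        rw [hτ, ← pow_mul, mul_comm j p, pow_mul, inv_pow, hωp]
        simp
      rw [h5] at h4
      exact (add_right_cancel h4).symm
    have h6 : (ω ^ j) • ((ω⁻¹ ^ j) • τ (P j)) = (ω ^ j) • P j := by rw [h1]
    rw [smul_smul, ← mul_pow, mul_inv_cancel₀ hω0, one_pow, one_smul] at h6
    exact h6
  have hsum : ∑ j ∈ Finset.range p, P j = (p : ℂ) • v := by
    simp only [P]
    rw [Finset.sum_comm]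
    rw [Finset.sum_eq_single 0]
    · simp [Nat.cast_smul_eq_nsmul]
    · intro i hi hi0
      rw [← Finset.sum_smul]
      have hlt : i < p := Finset.mem_range.1 hi
      have hne : ω⁻¹ ^ i ≠ 1 := by
        intro h
        have h7 : ω ^ i = 1 := by
          rw [inv_pow, inv_eq_one] at h
          exact h
        exact hprim.pow_ne_one_of_pos_of_lt hi0 hlt h7
      have hg : ∑ j ∈ Finset.range p, (ω⁻¹ ^ i) ^ j = 0 := by
        have h8 := mul_geom_sum (ω⁻¹ ^ i) p
        have h9 : (ω⁻¹ ^ i) ^ p = 1 := by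
          rw [← pow_mul, mul_comm i p, pow_mul, inv_pow, hωp]
          simp
        rw [h9, sub_self] at h8
        rcases mul_eq_zero.1 h8 with h | h
        · exact absurd (sub_eq_zero.1 h) hne
        · exact h
      have h10 : ∑ j ∈ Finset.range p, (ω⁻¹ ^ j) ^ i = 0 := by
        rw [← hg]
        refine Finset.sum_congr rfl fun j _ => ?_
        rw [← pow_mul, ← pow_mul, mul_comm]
      rw [h10, zero_smul]
    · intro h
      exact absurd (Finset.mem_range.2 hp) h
  have hv : v = (p : ℂ)⁻¹ • ∑ j ∈ Finset.range p, P j := by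
    rw [hsum, smul_smul, inv_mul_cancel₀ hp', one_smul]
  rw [hv]
  refine Submodule.smul_mem _ _ (Submodule.sum_mem _ fun j _ => ?_)
  have hroot : (ω ^ j) ^ p = 1 := by
    rw [← pow_mul, mul_comm, pow_mul, hωp, one_pow]
  exact Submodule.mem_iSup_of_mem (⟨ω ^ j, hroot⟩ : {ζ : ℂ // ζ ^ p = 1})
    (Module.End.mem_eigenspace_iff.2 (hP j))

/-- The Killing form is zero on eigenvectors whose eigenvalues do not multiply to one. -/
theorem x2_killingForm_eq_zero_of_eigen {L : Type u} [LieRing L] [LieAlgebra ℂ L]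
    [FiniteDimensional ℂ L] (τ : L ≃ₗ⁅ℂ⁆ L) {x y : L} {ζ ξ : ℂ} (hx : τ x = ζ • x)
    (hy : τ y = ξ • y) (h : ζ * ξ ≠ 1) : killingForm ℂ L x y = 0 := by
  have h1 : killingForm ℂ L (τ x) (τ y) = killingForm ℂ L x y := by
    exact LieAlgebra.killingForm_of_equiv_apply τ x y
  rw [hx, hy] at h1
  simp only [map_smul, LinearMap.smul_apply, smul_eq_mul] at h1
  have h2 : (ζ * ξ - 1) * killingForm ℂ L x y = 0 := by
    linear_combination h1
  rcases mul_eq_zero.1 h2 with h3 | h3
  · exact absurd (sub_eq_zero.1 h3) h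
  · exact h3

/-- Averaging. -/
theorem exists_fixed_lift {A B : Type u} [AddCommGroup A] [Module ℂ A] [AddCommGroup B]
    [Module ℂ B] (f : A →ₗ[ℂ] B) (σ : A →ₗ[ℂ] A) (τ : B →ₗ[ℂ] B) (hf : ∀ x, f (σ x) = τ (f x))
    {p : ℕ} (hp : 0 < p) (hσ : ∀ x, (⇑σ)^[p] x = x) {b : B} (hb : τ b = b)
    (hb' : b ∈ LinearMap.range f) : ∃ x, σ x = x ∧ f x = b := by
  obtain ⟨x₀, hx₀⟩ := hb'
  have hp' : (p : ℂ) ≠ 0 := by exact_mod_cast hp.ne'
  refine ⟨(p : ℂ)⁻¹ • ∑ i ∈ Finset.range p, (⇑σ)^[i] x₀, ?_, ?_⟩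
  · rw [map_smul, map_sum]
    congr 1
    have h2 : ∑ i ∈ Finset.range p, σ ((⇑σ)^[i] x₀) =
        ∑ i ∈ Finset.range p, (⇑σ)^[i + 1] x₀ :=
      Finset.sum_congr rfl fun i _ => (Function.iterate_succ_apply' _ _ _).symm
    rw [h2]
    have h3 := Finset.sum_range_succ (fun i => (⇑σ)^[i] x₀) p
    have h4 := Finset.sum_range_succ' (fun i => (⇑σ)^[i] x₀) p
    rw [h3, hσ] at h4
    exact (add_right_cancel h4).symm
  · have hfi : ∀ i : ℕ, f ((⇑σ)^[i] x₀) = b := by
      intro i
      induction i with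
      | zero => simpa using hx₀
      | succ i ih => rw [Function.iterate_succ_apply', hf, ih, hb]
    rw [map_smul, map_sum, Finset.sum_congr rfl fun i _ => hfi i, Finset.sum_const,
      Finset.card_range, ← Nat.cast_smul_eq_nsmul ℂ, smul_smul, inv_mul_cancel₀ hp', one_smul]

end Vale.Agent.P292
end

section

/-! Theorem E, general algebra: (UNR). See `PROOF.md`. -/

namespace Vale.Agent.P292

open Module Polynomial

universe u v w

/-- The integral closure of a normal domain `𝒪` in `K(α)`, `α` a root of a separable monic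
polynomial over `𝒪`, is `𝒪[α]`. -/
theorem mem_adjoin_of_isIntegral_unr {𝒪 : Type u} {K : Type v} {K' : Type w} [CommRing 𝒪]
    [IsDomain 𝒪] [IsIntegrallyClosed 𝒪] [Field K] [CharZero K] [Algebra 𝒪 K] [IsFractionRing 𝒪 K]
    [Field K'] [Algebra K K'] [Algebra 𝒪 K'] [IsScalarTower 𝒪 K K'] {q : 𝒪[X]} (hqm : q.Monic)
    (hqs : q.Separable) {α : K'} (hα : aeval α q = 0)
    (htop : IntermediateField.adjoin K {α} = ⊤) {z : K'} (hz : IsIntegral 𝒪 z) :
    z ∈ Algebra.adjoin 𝒪 ({α} : Set K') := by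
  have hint : IsIntegral 𝒪 α := ⟨q, hqm, by rw [← aeval_def]; exact hα⟩
  have hinj𝒪 : Function.Injective (algebraMap 𝒪 K') := by
    rw [IsScalarTower.algebraMap_eq 𝒪 K K', RingHom.coe_comp]
    exact (algebraMap K K').injective.comp (IsFractionRing.injective 𝒪 K)
  have : IsTorsionFree 𝒪 K' := Module.isTorsionFree_iff_algebraMap_injective.2 hinj𝒪
  have hαK : IsIntegral K α := hint.tower_top
  have hadj : Algebra.adjoin K ({α} : Set K') = ⊤ := by
    rw [← IntermediateField.adjoin_simple_toSubalgebra_of_isAlgebraic hαK.isAlgebraic, htop,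
      IntermediateField.top_toSubalgebra]
  let pb : PowerBasis K K' := PowerBasis.ofAdjoinEqTop hαK hadj
  have hgen : pb.gen = α := PowerBasis.ofAdjoinEqTop_gen hαK hadj
  have : Module.Finite K K' := pb.finite
  have : Algebra.IsSeparable K K' := inferInstance
  have hm : minpoly K α = (minpoly 𝒪 α).map (algebraMap 𝒪 K) :=
    minpoly.isIntegrallyClosed_eq_field_fractions' K hint
  have hdvd : minpoly 𝒪 α ∣ q := minpoly.isIntegrallyClosed_dvd hint hα
  have hms : (minpoly 𝒪 α).Separable := by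
    obtain ⟨r, hr⟩ := hdvd
    rw [hr] at hqs
    exact hqs.of_mul_left
  obtain ⟨a, b, hab⟩ := hms
  have h1 : aeval α b * aeval α (derivative (minpoly 𝒪 α)) = 1 := by
    have h := congrArg (aeval α) hab
    rw [map_add, map_mul, map_mul, minpoly.aeval, mul_zero, zero_add, map_one] at h
    exact h
  have hbint : IsIntegral 𝒪 (Algebra.norm K (aeval α b)) := by
    apply Algebra.isIntegral_norm
    exact IsIntegral.of_mem_of_fg (Algebra.adjoin 𝒪 {α}) hint.fg_adjoin_singleton _
      (Algebra.adjoin_singleton_eq_range_aeval 𝒪 α ▸ ⟨b, rfl⟩)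
  obtain ⟨c, hc⟩ := IsIntegrallyClosed.isIntegral_iff.1 hbint
  have hdisc := Algebra.discr_powerBasis_eq_norm K pb
  have hmem := Algebra.discr_mul_isIntegral_mem_adjoin (B := pb) K (R := 𝒪)
    (by rw [hgen]; exact hint) hz
  rw [hgen] at hmem hdisc
  have hder : aeval α (derivative (minpoly K α)) = aeval α (derivative (minpoly 𝒪 α)) := by
    rw [hm, derivative_map, aeval_map_algebraMap]
  rw [hder] at hdisc
  have hnorm : Algebra.norm K (aeval α b) *
      Algebra.norm K (aeval α (derivative (minpoly 𝒪 α))) = 1 := by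
    rw [← map_mul, h1, map_one]
  obtain ⟨e, he⟩ : ∃ e : ℕ, Algebra.discr K pb.basis =
      (-1) ^ e * Algebra.norm K (aeval α (derivative (minpoly 𝒪 α))) := ⟨_, hdisc⟩
  have hz' : z = ((-1) ^ e * c : 𝒪) • (Algebra.discr K pb.basis • z) := by
    rw [← algebraMap_smul K ((-1) ^ e * c : 𝒪) (Algebra.discr K pb.basis • z), smul_smul, map_mul,
      map_pow, map_neg, map_one, he, hc]
    have h2 : ((-1 : K) ^ e * Algebra.norm K (aeval α b)) *
        ((-1) ^ e * Algebra.norm K (aeval α (derivative (minpoly 𝒪 α)))) = 1 := by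
      rw [mul_mul_mul_comm, hnorm, mul_one, ← mul_pow, neg_one_mul, neg_neg, one_pow]
    rw [h2, one_smul]
  rw [hz']
  exact Subalgebra.smul_mem _ hmem _

end Vale.Agent.P292
end

section

/-! Theorem E without (SC), group U: one step of the tower (UNR), for a radical `(ϖ)`.
See `E/PROOF_SC.md`, (B0). -/

namespace Vale.Agent.P292

open Module Polynomial

universe u v w

theorem redStep_pow {𝒪 : Type u} [CommRing 𝒪] {ϖ : 𝒪} (hred : ∀ x : 𝒪, ϖ ∣ x ^ 2 → ϖ ∣ x) :
    ∀ (k : ℕ) (x : 𝒪), ϖ ∣ x ^ (2 ^ k) → ϖ ∣ x := by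
  intro k
  induction k with
  | zero =>
    intro x h
    rwa [pow_zero, pow_one] at h
  | succ k ih =>
    intro x h
    rw [pow_succ, pow_mul] at h
    exact ih x (hred _ h)

/-- (UNR), relative version: `(ϖ)` radical in a normal domain `𝒪` is still radical in the integral
closure in `K(α)`, `α` a root of a monic separable polynomial over `𝒪`. -/
theorem red_step {𝒪 : Type u} {K : Type v} {K' : Type w} [CommRing 𝒪] [IsDomain 𝒪]
    [IsIntegrallyClosed 𝒪] [Field K] [CharZero K] [Algebra 𝒪 K] [IsFractionRing 𝒪 K] [Field K']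
    [Algebra K K'] [Algebra 𝒪 K'] [IsScalarTower 𝒪 K K'] {ϖ : 𝒪} (hϖ : ϖ ≠ 0)
    (hred : ∀ x : 𝒪, ϖ ∣ x ^ 2 → ϖ ∣ x) {q : 𝒪[X]} (hqm : q.Monic) (hqs : q.Separable)
    {α : K'} (hα : aeval α q = 0) (htop : IntermediateField.adjoin K {α} = ⊤) {s : K'}
    (hs : IsIntegral 𝒪 (s ^ 2 / algebraMap 𝒪 K' ϖ)) :
    IsIntegral 𝒪 (s / algebraMap 𝒪 K' ϖ) := by
  have hint : IsIntegral 𝒪 α := ⟨q, hqm, by rw [← aeval_def]; exact hα⟩
  have hinj𝒪 : Function.Injective (algebraMap 𝒪 K') := by
    rw [IsScalarTower.algebraMap_eq 𝒪 K K', RingHom.coe_comp]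
    exact (algebraMap K K').injective.comp (IsFractionRing.injective 𝒪 K)
  have : IsTorsionFree 𝒪 K' := Module.isTorsionFree_iff_algebraMap_injective.2 hinj𝒪
  have hϖ0 : algebraMap 𝒪 K' ϖ ≠ 0 := by
    rw [Ne, map_eq_zero_iff _ hinj𝒪]
    exact hϖ
  have hs2 : s ^ 2 = algebraMap 𝒪 K' ϖ * (s ^ 2 / algebraMap 𝒪 K' ϖ) := by
    rw [mul_div_cancel₀ _ hϖ0]
  have hsint : IsIntegral 𝒪 s := by
    refine IsIntegral.of_pow two_pos ?_
    rw [hs2]
    exact isIntegral_algebraMap.mul hs
  have hsm := mem_adjoin_of_isIntegral_unr hqm hqs hα htop hsint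
  have htm := mem_adjoin_of_isIntegral_unr hqm hqs hα htop hs
  rw [Algebra.adjoin_singleton_eq_range_aeval, AlgHom.mem_range] at hsm htm
  obtain ⟨g₀, hg₀⟩ := hsm
  obtain ⟨h, hh⟩ := htm
  obtain ⟨m, hmdef⟩ : ∃ m, m = minpoly 𝒪 α := ⟨_, rfl⟩
  have hmm : m.Monic := by rw [hmdef]; exact minpoly.monic hint
  have hma : aeval α m = 0 := by rw [hmdef]; exact minpoly.aeval _ _
  have hms : m.Separable := by
    obtain ⟨r, hr⟩ : m ∣ q := by rw [hmdef]; exact minpoly.isIntegrallyClosed_dvd hint hα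
    rw [hr] at hqs
    exact hqs.of_mul_left
  obtain ⟨g, hgdef⟩ : ∃ g, g = g₀ %ₘ m := ⟨_, rfl⟩
  have hg : aeval α g = s := by
    have h1 := congrArg (aeval α) (modByMonic_add_div g₀ m)
    rw [map_add, map_mul, hma, zero_mul, add_zero, ← hgdef, hg₀] at h1
    exact h1
  have hgdeg : g.degree < m.degree := by rw [hgdef]; exact degree_modByMonic_lt _ hmm
  have hdvd : m ∣ g ^ 2 - C ϖ * h := by
    rw [hmdef]
    refine minpoly.isIntegrallyClosed_dvd hint ?_
    rw [map_sub, map_pow, map_mul, aeval_C, hg, hh, ← hs2, sub_self]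
  -- reduction modulo the primes containing `ϖ`
  have hpr : ∀ p : Ideal 𝒪, p.IsPrime → ϖ ∈ p → ∀ i, g.coeff i ∈ p := by
    intro p hp hϖp
    obtain ⟨φ, hφ⟩ : ∃ φ : 𝒪 →+* FractionRing (𝒪 ⧸ p),
        φ = (algebraMap (𝒪 ⧸ p) (FractionRing (𝒪 ⧸ p))).comp (Ideal.Quotient.mk p) := ⟨_, rfl⟩
    have hφ0 : ∀ x, φ x = 0 ↔ x ∈ p := by
      intro x
      rw [hφ, RingHom.comp_apply, map_eq_zero_iff _ (IsFractionRing.injective _ _),
        Ideal.Quotient.eq_zero_iff_mem]
    have hφϖ : φ ϖ = 0 := (hφ0 ϖ).2 hϖp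
    have hdvd' : m.map φ ∣ (g.map φ) ^ 2 := by
      have h1 := Polynomial.map_dvd φ hdvd
      rw [Polynomial.map_sub, Polynomial.map_pow, Polynomial.map_mul, map_C, hφϖ, C_0, zero_mul,
        sub_zero] at h1
      exact h1
    have hsq : Squarefree (m.map φ) := (hms.map (f := φ)).squarefree
    have hdvd'' : m.map φ ∣ g.map φ := (hsq.dvd_pow_iff_dvd two_ne_zero).1 hdvd'
    have hg0 : g.map φ = 0 := by
      refine eq_zero_of_dvd_of_degree_lt hdvd'' ?_
      rw [hmm.degree_map]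
      exact lt_of_le_of_lt degree_map_le hgdeg
    intro i
    have h1 := congrArg (fun p => coeff p i) hg0
    simp only [coeff_map, coeff_zero] at h1
    exact (hφ0 _).1 h1
  have hg1 : C ϖ ∣ g := by
    rw [C_dvd_iff_dvd_coeff]
    intro i
    have h1 : g.coeff i ∈ (Ideal.span {ϖ}).radical := by
      rw [Ideal.radical_eq_sInf, Submodule.mem_sInf]
      intro p hp
      exact hpr p hp.2 (hp.1 (Ideal.mem_span_singleton_self ϖ)) i
    obtain ⟨N, hN⟩ := h1
    rw [Ideal.mem_span_singleton] at hN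
    exact redStep_pow hred N _ (hN.trans (pow_dvd_pow _ Nat.lt_two_pow_self.le))
  obtain ⟨g', hg'⟩ := hg1
  have h1 : s / algebraMap 𝒪 K' ϖ = aeval α g' := by
    rw [← hg, hg', map_mul, aeval_C, mul_div_cancel_left₀ _ hϖ0]
  rw [h1]
  exact IsIntegral.of_mem_of_fg (Algebra.adjoin 𝒪 {α}) hint.fg_adjoin_singleton _
    (Algebra.adjoin_singleton_eq_range_aeval 𝒪 α ▸ ⟨g', rfl⟩)

end Vale.Agent.P292
end

section

/-! The algebraic form of simple connectedness of the punctured cone. -/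

namespace Vale.Agent.P292

universe u

end Vale.Agent.P292
end

section

/-! A linear endomorphism of a graded ring which is nilpotent on all homogeneous elements is
locally nilpotent. -/

namespace Vale.Agent.P292

universe u

variable {R : Type u} [CommRing R] [Algebra ℂ R] {𝒜 : ℕ → Submodule ℂ R} [GradedAlgebra 𝒜]

/-- If `D` is not locally nilpotent, it is not nilpotent on some homogeneous element. -/
theorem exists_homogeneous_of_not_nilpotent (D : R →ₗ[ℂ] R) {r : R}
    (hn : ∀ n : ℕ, (⇑D)^[n] r ≠ 0) : ∃ k, ∃ s ∈ 𝒜 k, ∀ n : ℕ, (⇑D)^[n] s ≠ 0 := by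
  classical
  by_contra hcon
  push Not at hcon
  have h0 : ∀ k, ∀ s ∈ 𝒜 k, ∃ n : ℕ, (D ^ n) s = 0 := by
    intro k s hs
    obtain ⟨n, hn⟩ := hcon k s hs
    exact ⟨n, by rw [Module.End.pow_apply]; exact hn⟩
  have h1 : ∀ s : R, ∃ n : ℕ, (D ^ n) s = 0 := by
    intro s
    induction s using DirectSum.Decomposition.inductionOn 𝒜 with
    | zero => exact ⟨0, by simp⟩
    | homogeneous m => exact h0 _ _ m.2
    | add a b ha hb =>
      obtain ⟨n, hn⟩ := ha
      obtain ⟨m, hm⟩ := hb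
      refine ⟨n + m, ?_⟩
      rw [map_add]
      have e1 : (D ^ (n + m)) a = 0 := by
        rw [add_comm, pow_add, Module.End.mul_apply, hn, map_zero]
      have e2 : (D ^ (n + m)) b = 0 := by
        rw [pow_add, Module.End.mul_apply, hm, map_zero]
      rw [e1, e2, add_zero]
  obtain ⟨n, h⟩ := h1 r
  exact hn n (by rw [← Module.End.pow_apply]; exact h)

end Vale.Agent.P292
end

section

/-! Group T: Poisson derivations of degree zero are Hamiltonian, the computation. -/

namespace Vale.Agent.P292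

universe u

variable {K : Type u} [CommRing K] [Algebra ℂ K] {P : K →ₗ[ℂ] K →ₗ[ℂ] K}

theorem t4_neg (halt : ∀ a, P a a = 0) (x y : K) : P x y = -P y x := by
  have h1 := halt (x + y)
  rw [map_add (P (x + y)), map_add P, LinearMap.add_apply, LinearMap.add_apply, halt, halt,
    zero_add, add_zero] at h1
  rw [eq_neg_iff_add_eq_zero, add_comm]
  exact h1

theorem t4_mul (halt : ∀ a, P a a = 0)
    (hleib : ∀ a b c, P a (b * c) = P a b * c + b * P a c) (x y z : K) :
    P (x * y) z = P x z * y + x * P y z := by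
  rw [t4_neg halt, hleib, t4_neg halt z x, t4_neg halt z y]
  ring

theorem t4_sum {N : ℕ} (f : Fin N → K) (z : K) : P (∑ i, f i) z = ∑ i, P (f i) z := by
  rw [map_sum, LinearMap.sum_apply]

/-- The two expressions for the Hamiltonian. -/
theorem ham_symm (halt : ∀ a, P a a = 0) (E Δ : K →ₗ[ℂ] K) {N M : ℕ} (a b : Fin N → K)
    (c s : Fin M → K) (hE : ∀ r, E r = ∑ i, a i * P (b i) r)
    (hΔ : ∀ r, Δ r = ∑ j, c j * P (s j) r) :
    -∑ i, a i * Δ (b i) = ∑ j, c j * E (s j) := by
  have h1 : ∀ i, a i * Δ (b i) = ∑ j, a i * (c j * P (s j) (b i)) := fun i => by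
    rw [hΔ, Finset.mul_sum]
  have h2 : ∀ j, c j * E (s j) = -∑ i, a i * (c j * P (s j) (b i)) := fun j => by
    rw [hE, Finset.mul_sum, ← Finset.sum_neg_distrib]
    refine Finset.sum_congr rfl fun i _ => ?_
    rw [t4_neg halt (b i) (s j)]
    ring
  rw [Finset.sum_congr rfl fun i _ => h1 i, Finset.sum_congr rfl fun j _ => h2 j,
    Finset.sum_neg_distrib, Finset.sum_comm]

theorem t4_star (E Δ : K →ₗ[ℂ] K) (hΔmul : ∀ a b, Δ (a * b) = Δ a * b + a * Δ b)
    (hΔP : ∀ a b, Δ (P a b) = P (Δ a) b + P a (Δ b)) (hEΔ : ∀ a, E (Δ a) = Δ (E a)) {N : ℕ}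
    (a b : Fin N → K) (hE : ∀ r, E r = ∑ i, a i * P (b i) r) (r : K) :
    ∑ i, a i * P (Δ (b i)) r = -∑ i, Δ (a i) * P (b i) r := by
  have h1 := hEΔ r
  rw [hE (Δ r), hE r, map_sum] at h1
  have h2 : ∀ i, Δ (a i * P (b i) r) =
      Δ (a i) * P (b i) r + a i * P (Δ (b i)) r + a i * P (b i) (Δ r) := fun i => by
    rw [hΔmul, hΔP]
    ring
  rw [Finset.sum_congr rfl fun i _ => h2 i, Finset.sum_add_distrib, Finset.sum_add_distrib] at h1
  linear_combination -h1

theorem t4_double (halt : ∀ a, P a a = 0)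
    (hleib : ∀ a b c, P a (b * c) = P a b * c + b * P a c)
    (hjac : ∀ a b c, P a (P b c) = P (P a b) c + P b (P a c)) (E : K →ₗ[ℂ] K)
    (hEP : ∀ a b, E (P a b) = P (E a) b + P a (E b) - P a b) {N : ℕ}
    (a b : Fin N → K) (hE : ∀ r, E r = ∑ i, a i * P (b i) r) (r s : K) :
    P r s = ∑ i, (P (a i) s * P (b i) r - P (a i) r * P (b i) s) := by
  have h1 := hEP r s
  have h2 : P (E r) s = ∑ i, (P (a i) s * P (b i) r + a i * P (P (b i) r) s) := by
    rw [hE r, t4_sum]
    exact Finset.sum_congr rfl fun i _ => t4_mul halt hleib _ _ _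
  have h3 : P r (E s) = ∑ i, (P r (a i) * P (b i) s + a i * P r (P (b i) s)) := by
    rw [hE s, map_sum]
    exact Finset.sum_congr rfl fun i _ => hleib _ _ _
  have h4 : E (P r s) = ∑ i, (a i * P (P (b i) r) s + a i * P r (P (b i) s)) := by
    rw [hE (P r s)]
    refine Finset.sum_congr rfl fun i _ => ?_
    rw [hjac]
    ring
  have h5 : P r s = P (E r) s + P r (E s) - E (P r s) := by
    rw [h1]
    ring
  rw [h5, h2, h3, h4, ← Finset.sum_add_distrib, ← Finset.sum_sub_distrib]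
  refine Finset.sum_congr rfl fun i _ => ?_
  rw [t4_neg halt r (a i)]
  ring

/-- Poisson derivations of degree zero are Hamiltonian. -/
theorem ham_apply_eq (halt : ∀ a, P a a = 0)
    (hleib : ∀ a b c, P a (b * c) = P a b * c + b * P a c)
    (hjac : ∀ a b c, P a (P b c) = P (P a b) c + P b (P a c)) (E Δ : K →ₗ[ℂ] K)
    (hEmul : ∀ a b, E (a * b) = E a * b + a * E b) (hΔmul : ∀ a b, Δ (a * b) = Δ a * b + a * Δ b)
    (hEP : ∀ a b, E (P a b) = P (E a) b + P a (E b) - P a b)
    (hΔP : ∀ a b, Δ (P a b) = P (Δ a) b + P a (Δ b)) (hEΔ : ∀ a, E (Δ a) = Δ (E a)) {N M : ℕ}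
    (a b : Fin N → K) (c s : Fin M → K) (hE : ∀ r, E r = ∑ i, a i * P (b i) r)
    (hΔ : ∀ r, Δ r = ∑ j, c j * P (s j) r) (r : K) :
    P (-∑ i, a i * Δ (b i)) r = Δ r := by
  have h1 : P (-∑ i, a i * Δ (b i)) r =
      -∑ i, (P (a i) r * Δ (b i) + a i * P (Δ (b i)) r) := by
    rw [map_neg, LinearMap.neg_apply, t4_sum]
    exact congrArg Neg.neg (Finset.sum_congr rfl fun i _ => t4_mul halt hleib _ _ _)
  have h2 : ∀ x, ∑ j, c j * P x (s j) = -Δ x := fun x => by
    rw [hΔ, ← Finset.sum_neg_distrib]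
    refine Finset.sum_congr rfl fun j _ => ?_
    rw [t4_neg halt x (s j)]
    ring
  have h3 : Δ r = ∑ i, (Δ (a i) * P (b i) r - P (a i) r * Δ (b i)) := by
    have h4 : Δ r = ∑ j, ∑ i, (P (a i) r * (c j * P (b i) (s j)) -
        P (b i) r * (c j * P (a i) (s j))) := by
      rw [hΔ r]
      refine Finset.sum_congr rfl fun j _ => ?_
      rw [t4_double halt hleib hjac E hEP a b hE (s j) r, Finset.mul_sum]
      refine Finset.sum_congr rfl fun i _ => ?_
      ring
    rw [h4, Finset.sum_comm]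
    refine Finset.sum_congr rfl fun i _ => ?_
    rw [Finset.sum_sub_distrib, ← Finset.mul_sum, ← Finset.mul_sum, h2, h2]
    ring
  rw [h1, Finset.sum_add_distrib, t4_star E Δ hΔmul hΔP hEΔ a b hE r, h3,
    Finset.sum_sub_distrib]
  ring

end Vale.Agent.P292
end
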