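import Vale.Agent.P292.MathlibUsed
import Vale.Agent.P292.Bdl.B2
import Vale.Agent.P292.Bdl.B1

set_option linter.all false

section

/-! Theorem E, section 4: the exponential of a frame. See `PROOF.md`. -/

namespace Vale.Agent.P292

open Module

universe u v

variable {R : Type u} [CommRing R] [Algebra ℂ R] {𝒜 : ℕ → Submodule ℂ R} [GradedAlgebra 𝒜]
  {P : R →ₗ[ℂ] R →ₗ[ℂ] R} {H : R} {a : ℤ} {n : ℕ}

variable {R : Type u} [CommRing R] [Algebra ℂ R] {𝒜 : ℕ → Submodule ℂ R} [GradedAlgebra 𝒜]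
  {P : R →ₗ[ℂ] R →ₗ[ℂ] R} {H : R} {a : ℤ} {n : ℕ}

theorem Ctx.exists_exp (C : Ctx 𝒜 P H a) (f : Frame 𝒜 P H a n) :
    ∃ e : R →ₐ[ℂ] MvPolynomial (Fin n) R, IsExp P f.b e := by
  obtain ⟨e, h1, h2⟩ := exists_exp_of_commute (fun i => C.hX.ham (f.b i))
    (fun i j r => by
      have h := C.hX.jacobi (f.b i) (f.b j) r
      rw [C.P_Ap (mem_Ap (f.hb i)) (mem_Ap (f.hb j)), map_zero, LinearMap.zero_apply,
        zero_add] at h
      exact h)
    fun i r => exists_iterate_eq_zero C.hX C.hH C.hmax C.pos (f.kb_pos i) (f.hb i) r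
  exact ⟨e, h1, h2⟩

/-- The exponential of a frame. -/
noncomputable def Ctx.exp (C : Ctx 𝒜 P H a) (f : Frame 𝒜 P H a n) :
    R →ₐ[ℂ] MvPolynomial (Fin n) R := (C.exists_exp f).choose

theorem Ctx.isExp (C : Ctx 𝒜 P H a) (f : Frame 𝒜 P H a n) : IsExp P f.b (C.exp f) :=
  (C.exists_exp f).choose_spec

/-- The recursion for the coefficients of `e r`. -/
theorem ex2_coeff {b : Fin n → R} {e : R →ₐ[ℂ] MvPolynomial (Fin n) R} (he : IsExp P b e)
    (r : R) {α : Fin n →₀ ℕ} {i : Fin n} (hi : α i ≠ 0) :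
    MvPolynomial.coeff α (e r) = algebraMap ℂ R (α i : ℂ)⁻¹ *
      MvPolynomial.coeff (α - Finsupp.single i 1) (e (P (b i) r)) := by
  rw [← he.pderiv, MvPolynomial.coeff_pderiv]
  have h1 : α - Finsupp.single i 1 + Finsupp.single i 1 = α :=
    tsub_add_cancel_of_le (Finsupp.single_le_iff.2 (Nat.one_le_iff_ne_zero.2 hi))
  have h2 : (((α - Finsupp.single i 1 : Fin n →₀ ℕ) i : R) + 1) = algebraMap ℂ R (α i : ℂ) := by
    rw [map_natCast]
    have h3 := congrArg (fun β : Fin n →₀ ℕ => ((β i : ℕ) : R)) h1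
    simpa using h3
  rw [h1, h2, mul_left_comm, ← map_mul, inv_mul_cancel₀ (Nat.cast_ne_zero.2 hi), map_one, mul_one]

theorem IsExp.eq_C {b : Fin n → R} {e : R →ₐ[ℂ] MvPolynomial (Fin n) R} (he : IsExp P b e)
    {c : R} (hc : ∀ i, P (b i) c = 0) : e c = MvPolynomial.C c := by
  refine MvPolynomial.ext _ _ fun α => ?_
  rw [MvPolynomial.coeff_C]
  split_ifs with h
  · rw [← h, ← MvPolynomial.constantCoeff_eq]
    exact he.const c
  · obtain ⟨i, hi⟩ : ∃ i, α i ≠ 0 := by
      by_contra hne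
      rw [not_exists] at hne
      exact h (Finsupp.ext fun i => (not_not.1 (hne i)).symm)
    have h1 := ex2_coeff he c hi
    rw [hc i, map_zero, MvPolynomial.coeff_zero, mul_zero] at h1
    exact h1

/-- The coefficients of `e r`. -/
theorem Ctx.coeff_exp_mem (C : Ctx 𝒜 P H a) (f : Frame 𝒜 P H a n) {k : ℕ} {m : ℤ} {r : R}
    (hr : r ∈ Wt 𝒜 P H k m) (α : Fin n →₀ ℕ) :
    MvPolynomial.coeff α (C.exp f r) ∈
      Wt 𝒜 P H (k + ∑ i, α i * (f.kb i - 1)) (m + a * ∑ i, (α i : ℤ) * f.kb i) := by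
  obtain ⟨N, hN⟩ : ∃ N, ∑ i, α i = N := ⟨_, rfl⟩
  induction N generalizing α k m r with
  | zero =>
    have h0 : α = 0 := Finsupp.ext fun i => (Finset.sum_eq_zero_iff.1 hN) i (Finset.mem_univ i)
    subst h0
    have h1 : MvPolynomial.coeff 0 (C.exp f r) = r := by
      rw [← MvPolynomial.constantCoeff_eq]
      exact (C.isExp f).const r
    rw [h1]
    simpa using hr
  | succ N ih =>
    obtain ⟨i, hi⟩ : ∃ i, α i ≠ 0 := by
      by_contra hne
      rw [not_exists] at hne
      have : ∑ i, α i = 0 := Finset.sum_eq_zero fun i _ => not_not.1 (hne i)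
      omega
    have hle : Finsupp.single i 1 ≤ α := Finsupp.single_le_iff.2 (Nat.one_le_iff_ne_zero.2 hi)
    obtain ⟨β, hβ⟩ : ∃ β, α = β + Finsupp.single i 1 :=
      ⟨α - Finsupp.single i 1, (tsub_add_cancel_of_le hle).symm⟩
    subst hβ
    rw [ex2_coeff (C.isExp f) r hi, add_tsub_cancel_right, ← Algebra.smul_def]
    refine Submodule.smul_mem _ _ ?_
    have hsum : ∀ g : Fin n → ℕ, ∑ j, (β + Finsupp.single i 1 : Fin n →₀ ℕ) j * g j =
        ∑ j, β j * g j + g i := by
      intro g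
      simp [Finsupp.add_apply, add_mul, Finset.sum_add_distrib, Finsupp.single_apply]
    have hk : ∃ t, f.kb i = t + 1 := ⟨f.kb i - 1, by have := f.kb_pos i; omega⟩
    obtain ⟨t, ht⟩ := hk
    have hP : P (f.b i) r ∈ Wt 𝒜 P H (k + t) (m + a * f.kb i) := by
      rw [add_comm m]
      exact Wt_P C.hX (by rw [ht]; ring) (f.hb i) hr
    have h2 := ih hP (α := β) (by
      have := hsum fun _ => 1
      simp only [mul_one] at this
      omega)
    have e1 : k + ∑ j, (β + Finsupp.single i 1 : Fin n →₀ ℕ) j * (f.kb j - 1) =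
        k + t + ∑ j, β j * (f.kb j - 1) := by
      rw [hsum fun j => f.kb j - 1, ht]
      omega
    have e2 : m + a * ∑ j, ((β + Finsupp.single i 1 : Fin n →₀ ℕ) j : ℤ) * f.kb j =
        m + a * f.kb i + a * ∑ j, (β j : ℤ) * f.kb j := by
      have := congrArg (Nat.cast (R := ℤ)) (hsum f.kb)
      simp only [Nat.cast_sum, Nat.cast_add, Nat.cast_mul] at this
      rw [this]
      ring
    rw [e1, e2]
    exact h2

end Vale.Agent.P292
end

section

/-! Theorem E, section 4: cells. See `PROOF.md`. -/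

namespace Vale.Agent.P292

open Module

universe u v

variable {R : Type u} [CommRing R] [Algebra ℂ R] {𝒜 : ℕ → Submodule ℂ R} [GradedAlgebra 𝒜]
  {P : R →ₗ[ℂ] R →ₗ[ℂ] R} {H : R} {a : ℤ} {n : ℕ}

variable {B : Type v} [CommRing B] [Algebra ℂ B]

/-- The cell over the pure point `ν`: `r ↦ ν (exp (∑ T_i {b i, ·}) r)`. -/
noncomputable def Ctx.cell (C : Ctx 𝒜 P H a) (f : Frame 𝒜 P H a n) (ν : R →ₐ[ℂ] B) :
    R →ₐ[ℂ] MvPolynomial (Fin n) B := (MvPolynomial.mapAlgHom ν).comp (C.exp f)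

lemma Ctx.ex3_coeff_cell (C : Ctx 𝒜 P H a) (f : Frame 𝒜 P H a n) (ν : R →ₐ[ℂ] B) (r : R)
    (α : Fin n →₀ ℕ) :
    MvPolynomial.coeff α (C.cell f ν r) = ν (MvPolynomial.coeff α (C.exp f r)) := by
  change MvPolynomial.coeff α (MvPolynomial.map (ν : R →+* B) (C.exp f r)) = _
  rw [MvPolynomial.coeff_map]
  rfl

theorem Ctx.pderiv_cell (C : Ctx 𝒜 P H a) (f : Frame 𝒜 P H a n) (ν : R →ₐ[ℂ] B) (i : Fin n)
    (r : R) : MvPolynomial.pderiv i (C.cell f ν r) = C.cell f ν (P (f.b i) r) := by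
  change MvPolynomial.pderiv i (MvPolynomial.map (ν : R →+* B) (C.exp f r)) =
    MvPolynomial.map (ν : R →+* B) (C.exp f (P (f.b i) r))
  rw [MvPolynomial.pderiv_map, (C.isExp f).pderiv]

theorem Ctx.cell_Ap (C : Ctx 𝒜 P H a) (f : Frame 𝒜 P H a n) (ν : R →ₐ[ℂ] B) {c : R}
    (hc : c ∈ Ap 𝒜 P H a) : C.cell f ν c = MvPolynomial.C (ν c) := by
  change MvPolynomial.map (ν : R →+* B) (C.exp f c) = _
  rw [(C.isExp f).eq_C fun i => C.P_Ap (mem_Ap (f.hb i)) hc, MvPolynomial.map_C]
  rfl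

theorem Ctx.constantCoeff_cell (C : Ctx 𝒜 P H a) (f : Frame 𝒜 P H a n) (ν : R →ₐ[ℂ] B)
    (r : R) : MvPolynomial.constantCoeff (C.cell f ν r) = ν r := by
  change MvPolynomial.constantCoeff (MvPolynomial.map (ν : R →+* B) (C.exp f r)) = _
  rw [MvPolynomial.constantCoeff_map, (C.isExp f).const]
  rfl

theorem Ctx.typeW_cell (C : Ctx 𝒜 P H a) (f : Frame 𝒜 P H a n) {ν : R →ₐ[ℂ] B}
    (hν : PureA 𝒜 P H a ν) : TypeW 𝒜 P H a (C.cell f ν) := by
  intro k m hm r hr
  ext α
  rw [C.ex3_coeff_cell, MvPolynomial.coeff_zero]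
  refine hν.typeW _ _ (fun h => hm ?_) _ (C.coeff_exp_mem f hr α)
  exact (Int.dvd_iff_dvd_of_dvd_add h).mpr (dvd_mul_right _ _)

theorem Ctx.cell_homog (C : Ctx 𝒜 P H a) (f : Frame 𝒜 P H a n) {ν : R →ₐ[ℂ] B}
    (hν : PureA 𝒜 P H a ν) (k j : ℕ) (r : R) (hr : r ∈ Wt 𝒜 P H k (a * k - a * j)) :
    (C.cell f ν r).IsHomogeneous j := by
  intro α hα
  rw [C.ex3_coeff_cell] at hα
  have h1 := C.coeff_exp_mem f hr α
  have h2 : a * k - a * j + a * ∑ i, (α i : ℤ) * f.kb i =
      a * ((k + ∑ i, α i * (f.kb i - 1) : ℕ) : ℤ) := by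
    by_contra h
    exact hα (hν _ _ h _ h1)
  have h3 : ((k + ∑ i, α i * (f.kb i - 1) : ℕ) : ℤ) =
      k + ∑ i, (α i : ℤ) * f.kb i - ∑ i, (α i : ℤ) := by
    push_cast
    rw [add_sub_assoc, ← Finset.sum_sub_distrib]
    congr 1
    refine Finset.sum_congr rfl fun i _ => ?_
    have h4 := f.kb_pos i
    rw [Nat.cast_sub h4]
    push_cast
    ring
  have h5 : a * (∑ i, (α i : ℤ) - j) = 0 := by
    rw [h3] at h2
    linear_combination h2
  have h6 : ∑ i, (α i : ℤ) - j = 0 := (mul_eq_zero.mp h5).resolve_left C.pos.ne'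
  have h7 : ∑ i, α i = j := by
    have h8 : ((∑ i, α i : ℕ) : ℤ) = j := by push_cast; linarith
    exact_mod_cast h8
  rw [← h7, Finsupp.weight_apply, Finsupp.sum_fintype _ _ (fun i => by simp)]
  simp

theorem Ctx.cell_defect_one (C : Ctx 𝒜 P H a) (f : Frame 𝒜 P H a n) {ν : R →ₐ[ℂ] B}
    (hν : PureA 𝒜 P H a ν) {k : ℕ} {r : R} (hr : r ∈ Wt 𝒜 P H k (a * k - a)) :
    C.cell f ν r = ∑ i, MvPolynomial.C (ν (P (f.b i) r)) * MvPolynomial.X i := by
  have h1 : (C.cell f ν r).IsHomogeneous 1 :=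
    C.cell_homog f hν k 1 r (by rw [Nat.cast_one, mul_one]; exact hr)
  have h2 := h1.sum_X_mul_pderiv
  rw [one_smul] at h2
  rw [← h2]
  refine Finset.sum_congr rfl fun i _ => ?_
  rw [C.pderiv_cell, C.cell_Ap f ν (mem_Ap (C.P_defect_one (f.hb i) hr)), mul_comm]

theorem Ctx.cell_H (C : Ctx 𝒜 P H a) (f : Frame 𝒜 P H a n) {ν : R →ₐ[ℂ] B}
    (hν : PureA 𝒜 P H a ν) :
    C.cell f ν H = ∑ i, MvPolynomial.C (-((a * f.kb i : ℤ) : ℂ) • ν (f.b i)) *
      MvPolynomial.X i := by
  have h1 : H ∈ Wt 𝒜 P H 1 (a * (1 : ℕ) - a) := by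
    rw [mem_Wt]
    refine ⟨C.hH.mem, ?_⟩
    rw [C.hX.alternating]
    simp
  rw [C.cell_defect_one f hν h1]
  refine Finset.sum_congr rfl fun i _ => ?_
  rw [C.hX.skew, (mem_Wt.mp (f.hb i)).2, ← neg_smul, map_smul]

/-- Change of the base ring. -/
theorem Ctx.cell_comp (C : Ctx 𝒜 P H a) (f : Frame 𝒜 P H a n) (ν : R →ₐ[ℂ] B)
    {B' : Type*} [CommRing B'] [Algebra ℂ B'] (g : B →ₐ[ℂ] B') (r : R) :
    C.cell f (g.comp ν) r = MvPolynomial.map (g : B →+* B') (C.cell f ν r) := by
  ext α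
  rw [MvPolynomial.coeff_map, C.ex3_coeff_cell, C.ex3_coeff_cell]
  rfl

end Vale.Agent.P292
end

section

/-! Theorem E, section 4: the dimension, definitions. See `PROOF.md`. -/

namespace Vale.Agent.P292

open Module

universe u v

variable {R : Type u} [CommRing R] [Algebra ℂ R] {𝒜 : ℕ → Submodule ℂ R} [GradedAlgebra 𝒜]
  {P : R →ₗ[ℂ] R →ₗ[ℂ] R} {H : R} {a : ℤ} {n : ℕ}

/-- Everything we need to know about the dimension, on the source side. -/
structure Half (𝒜 : ℕ → Submodule ℂ R) [GradedAlgebra 𝒜] (P : R →ₗ[ℂ] R →ₗ[ℂ] R) (H : R)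
    (a : ℤ) (n : ℕ) : Prop where
  ctx : Ctx 𝒜 P H a
  exists_frame : ∀ y : R →ₐ[ℂ] ℂ, HasSlope 𝒜 P H y a → ∃ f : Frame 𝒜 P H a n, y f.Δ ≠ 0
  complete : ∀ (y : R →ₐ[ℂ] ℂ) (f : Frame 𝒜 P H a n), HasSlope 𝒜 P H y a → y f.Δ ≠ 0 →
    f.Complete y
  indep : ∀ f : Frame 𝒜 P H a n, f.Δ ≠ 0 → AlgebraicIndependent ℂ f.b
  alg : ∀ f : Frame 𝒜 P H a n, f.Δ ≠ 0 → ∀ c ∈ Ap 𝒜 P H a,
    IsAlgebraic (Algebra.adjoin ℂ (Set.range f.b)) c
  trdeg : Algebra.trdeg ℂ (Ap 𝒜 P H a) = n
  inj : ∀ (y : R →ₐ[ℂ] ℂ) (f : Frame 𝒜 P H a n), HasSlope 𝒜 P H y a → y f.Δ ≠ 0 →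
    InjA 𝒜 P (-H) a (ctx.cell f y)

/-- Both sides have the same dimension `n > 0`. -/
structure CtxN (𝒜 : ℕ → Submodule ℂ R) [GradedAlgebra 𝒜] (P : R →ₗ[ℂ] R →ₗ[ℂ] R) (H : R)
    (a : ℤ) (n : ℕ) : Prop where
  half : Half 𝒜 P H a n
  neg_half : Half 𝒜 P (-H) a n
  npos : 0 < n

theorem CtxN.neg (C : CtxN 𝒜 P H a n) : CtxN 𝒜 P (-H) a n :=
  ⟨C.neg_half, by rw [neg_neg]; exact C.half, C.npos⟩

end Vale.Agent.P292
end

section

/-! Theorem E, section 1: closed specialisations, slopes. See `PROOF.md`. -/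

namespace Vale.Agent.P292

open Module

universe u v

variable {R : Type u} [CommRing R] [Algebra ℂ R] {𝒜 : ℕ → Submodule ℂ R} [GradedAlgebra 𝒜]
  {P : R →ₗ[ℂ] R →ₗ[ℂ] R} {H : R} {a : ℤ} {n : ℕ}

variable {B : Type v} [CommRing B] [Algebra ℂ B] [IsDomain B]

/-- (S1a) Closed specialisations. -/
theorem exists_closed_point [Algebra.FiniteType ℂ R] (x : R →ₐ[ℂ] B) (g : R) (hg : x g ≠ 0) :
    ∃ x' : R →ₐ[ℂ] ℂ, (∀ r, x r = 0 → x' r = 0) ∧ x' g ≠ 0 := by
  by_contra hcon
  push Not at hcon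
  have h1 : g ∈ (RingHom.ker x).radical :=
    mem_radical_of_forall (RingHom.ker x) g fun p hp =>
      hcon p fun r hr => hp r ((RingHom.mem_ker).2 hr)
  obtain ⟨n, hn⟩ := h1
  rw [RingHom.mem_ker, map_pow] at hn
  exact pow_ne_zero n hg hn

end Vale.Agent.P292
end

section

/-! Theorem E, section 4: `H` is not zero on a cell. See `PROOF.md`. -/

set_option linter.all false

namespace Vale.Agent.P292

open Module

universe u v

variable {R : Type u} [CommRing R] [Algebra ℂ R] {𝒜 : ℕ → Submodule ℂ R} [GradedAlgebra 𝒜]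
  {P : R →ₗ[ℂ] R →ₗ[ℂ] R} {H : R} {a : ℤ} {n : ℕ}

/-- the Euler derivation kills the constants -/
theorem ce5_euler_algebraMap (z : ℂ) : euler 𝒜 (algebraMap ℂ R z) = 0 := by
  have h4 : (algebraMap ℂ R z) ∈ 𝒜 0 := by
    rw [Algebra.algebraMap_eq_smul_one]
    exact (𝒜 0).smul_mem _ SetLike.GradedOne.one_mem
  rw [euler_apply 0 _ h4]
  simp

/-- For a complete frame the function `H` is not zero on the cell. -/
theorem Ctx.cell_H_ne_zero (C : Ctx 𝒜 P H a) {y : R →ₐ[ℂ] ℂ} (hy : HasSlope 𝒜 P H y a)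
    (f : Frame 𝒜 P H a n) (hf : f.Complete y) : C.cell f y H ≠ 0 := by
  intro h0
  obtain ⟨hpure, k, hk, c, hc, hyc⟩ := C.hasSlope_iff_pure.1 hy
  have ha : (a : ℂ) ≠ 0 := by exact_mod_cast C.pos.ne'
  rw [C.cell_H f hpure] at h0
  have hb : ∀ i, y (f.b i) = 0 := by
    intro i
    have h1 := congrArg (MvPolynomial.coeff (Finsupp.single i 1)) h0
    rw [MvPolynomial.coeff_sum, MvPolynomial.coeff_zero, Finset.sum_eq_single i] at h1
    · rw [MvPolynomial.coeff_C_mul, MvPolynomial.coeff_X, if_pos rfl, mul_one, smul_eq_mul,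
        mul_eq_zero] at h1
      rcases h1 with h1 | h1
      · exfalso
        have hk' : ((f.kb i : ℕ) : ℂ) ≠ 0 := by exact_mod_cast (f.kb_pos i).ne'
        push_cast at h1
        rw [neg_eq_zero, mul_eq_zero] at h1
        exact h1.elim ha hk'
      · exact h1
    · intro j _ hji
      rw [MvPolynomial.coeff_C_mul, MvPolynomial.coeff_X', if_neg, mul_zero]
      intro h
      exact hji (Finsupp.single_left_injective one_ne_zero h)
    · intro h
      exact absurd (Finset.mem_univ i) h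
  obtain ⟨γ, hγ⟩ := hf c (mem_Ap hc)
  have h3 := torus3_euler_sq (𝒜 := 𝒜) y _ hγ
  have h4 : ∀ (l : ℕ) (r : R), r ∈ 𝒜 l → y (euler 𝒜 (r - algebraMap ℂ R (y r))) = (l : ℂ) * y r := by
    intro l r hr
    rw [map_sub, ce5_euler_algebraMap, euler_apply l r hr, sub_zero, map_smul, smul_eq_mul]
  rw [map_sub, map_sub, h4 k c (mem_Wt.1 hc).1, map_sum, map_sum, Finset.sum_eq_zero, sub_zero,
    mul_eq_zero] at h3
  · rcases h3 with h3 | h3
    · exact hk.ne' (by exact_mod_cast h3)
    · exact hyc h3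
  · intro i _
    rw [map_smul, map_smul, h4 (f.kb i) _ (mem_Wt.1 (f.hb i)).1, hb i, mul_zero, smul_zero]

end Vale.Agent.P292
end

section

/-! Theorem E, section 4: (ISCELL). See `PROOF.md`. -/

namespace Vale.Agent.P292

open Module

universe u v

variable {R : Type u} [CommRing R] [Algebra ℂ R] {𝒜 : ℕ → Submodule ℂ R} [GradedAlgebra 𝒜]
  {P : R →ₗ[ℂ] R →ₗ[ℂ] R} {H : R} {a : ℤ} {n : ℕ}

/-- Frames with nonzero determinant exist. -/
theorem Half.exists_frame_ne (C : Half 𝒜 P H a n) : ∃ f : Frame 𝒜 P H a n, f.Δ ≠ 0 := by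
  obtain ⟨y, hy⟩ := C.ctx.hmax.exists_slope
  obtain ⟨f, hf⟩ := C.exists_frame y hy
  exact ⟨f, fun h => hf (by rw [h, map_zero])⟩

/-- The linear forms of a cell. -/
lemma di6_lin (C : Ctx 𝒜 P H a) (f : Frame 𝒜 P H a n)
    {κ : Type v} [Field κ] [Algebra ℂ κ]
    (ν : R →ₐ[ℂ] κ) (hν : PureA 𝒜 P H a ν) (hΔ : ν f.Δ ≠ 0) (i : Fin n) :
    (MvPolynomial.X i : MvPolynomial (Fin n) κ) ∈
    Submodule.span κ {p | ∃ (k : ℕ), ∃ r ∈ Wt 𝒜 P H k (a * k - a), p = C.cell f ν r} := by
  classical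
  set M : Matrix (Fin n) (Fin n) κ := Matrix.of fun i j => ν (P (f.b i) (f.r j)) with hM
  have hdet : M.det = ν f.Δ := by
    rw [Frame.Δ, AlgHom.map_det]
    rfl
  have hu : IsUnit M.det := by
    rw [hdet]
    exact isUnit_iff_ne_zero.mpr hΔ
  have hmul : M * M⁻¹ = 1 := Matrix.mul_nonsing_inv M hu
  have key : (MvPolynomial.X i : MvPolynomial (Fin n) κ) =
      ∑ j, M⁻¹ j i • C.cell f ν (f.r j) := by
    have h1 : ∀ j, C.cell f ν (f.r j) =
        ∑ l, MvPolynomial.C (M l j) * (MvPolynomial.X l : MvPolynomial (Fin n) κ) := fun j =>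
      C.cell_defect_one f hν (f.hr j)
    calc (MvPolynomial.X i : MvPolynomial (Fin n) κ)
        = ∑ l, MvPolynomial.C ((M * M⁻¹) l i) * MvPolynomial.X l := by
          rw [hmul]
          rw [Finset.sum_eq_single i]
          · simp
          · intro l _ hl
            rw [Matrix.one_apply_ne hl]
            simp
          · intro h
            exact absurd (Finset.mem_univ i) h
      _ = ∑ l, ∑ j, M⁻¹ j i • (MvPolynomial.C (M l j) * MvPolynomial.X l) := by
          refine Finset.sum_congr rfl fun l _ => ?_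
          rw [Matrix.mul_apply, map_sum, Finset.sum_mul]
          refine Finset.sum_congr rfl fun j _ => ?_
          rw [MvPolynomial.smul_eq_C_mul, map_mul]
          ring
      _ = ∑ j, M⁻¹ j i • C.cell f ν (f.r j) := by
          rw [Finset.sum_comm]
          refine Finset.sum_congr rfl fun j _ => ?_
          rw [h1, Finset.smul_sum]
  rw [key]
  refine Submodule.sum_mem _ fun j _ => Submodule.smul_mem _ _ (Submodule.subset_span ?_)
  exact ⟨f.kr j, f.r j, f.hr j, rfl⟩

/-- (ISCELL) -/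
theorem Half.isCell (C : Half 𝒜 P H a n) (hn : 0 < n) (f : Frame 𝒜 P H a n)
    {κ : Type v} [Field κ] [Algebra ℂ κ]
    (ν : R →ₐ[ℂ] κ) (hν : PureA 𝒜 P H a ν) (hΔ : ν f.Δ ≠ 0) :
    IsCell 𝒜 P H a (C.ctx.cell f ν) := by
  have := C.ctx.hX.finiteType
  refine ⟨C.ctx.typeW_cell f hν, fun k j r hr => C.ctx.cell_homog f hν k j r hr, ?_,
    di6_lin C.ctx f ν hν hΔ, ?_⟩
  · obtain ⟨k, hk, r, hr, hr0⟩ := Frame.nv C.ctx hn f ν hΔ
    refine ⟨k, hk, r, hr, ?_⟩
    rw [C.ctx.cell_Ap f ν (mem_Ap hr)]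
    exact fun h => hr0 ((MvPolynomial.C_eq_zero).mp h)
  · intro h0
    have hb : ∀ i, ν (f.b i) = 0 := by
      intro i
      rw [C.ctx.cell_H f hν] at h0
      have h1 := congrArg (MvPolynomial.coeff (Finsupp.single i 1)) h0
      rw [MvPolynomial.coeff_sum, MvPolynomial.coeff_zero] at h1
      rw [Finset.sum_eq_single i] at h1
      · rw [MvPolynomial.coeff_C_mul, MvPolynomial.coeff_X, if_pos rfl, mul_one] at h1
        have h2 : (-((a * f.kb i : ℤ) : ℂ)) ≠ 0 := by
          have := C.ctx.pos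
          have h3 := f.kb_pos i
          have : a * (f.kb i : ℤ) ≠ 0 := mul_ne_zero this.ne' (by exact_mod_cast h3.ne')
          exact neg_ne_zero.mpr (by exact_mod_cast this)
        exact (smul_eq_zero.mp h1).resolve_left h2
      · intro l _ hl
        rw [MvPolynomial.coeff_C_mul, MvPolynomial.coeff_X, if_neg, mul_zero]
        intro h
        exact hl (Finsupp.single_left_injective one_ne_zero h)
      · intro h
        exact absurd (Finset.mem_univ i) h
    obtain ⟨y, hy, hyΔ⟩ := exists_closed_point ν f.Δ hΔ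
    have hyp : PureA 𝒜 P H a y := fun k m hm r hr => hy r (hν k m hm r hr)
    have hs : HasSlope 𝒜 P H y a := C.ctx.hasSlope_iff_pure.mpr ⟨hyp, Frame.nv C.ctx hn f y hyΔ⟩
    refine C.ctx.cell_H_ne_zero hs f (C.complete y f hs hyΔ) ?_
    rw [C.ctx.cell_H f hyp]
    refine Finset.sum_eq_zero fun i _ => ?_
    rw [hy _ (hb i), smul_zero, map_zero, zero_mul]

/-- The cell over an injective point is injective on `A₋`. -/
theorem Half.injA_cell (C : Half 𝒜 P H a n) (f : Frame 𝒜 P H a n) (hΔ : f.Δ ≠ 0)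
    {κ : Type v} [Field κ] [Algebra ℂ κ]
    (ν : R →ₐ[ℂ] κ) (hν : PureA 𝒜 P H a ν) (hi : InjA 𝒜 P H a ν) :
    InjA 𝒜 P (-H) a (C.ctx.cell f ν) := by
  have := C.ctx.hX.finiteType
  have := C.ctx.hX.domain
  intro c hc hc0
  by_contra hne
  obtain ⟨pr, hpr, hprA, hprm⟩ := C.ctx.exists_pr
  obtain ⟨y₀, hy₀⟩ := C.ctx.hmax.exists_slope
  obtain ⟨k, hk, g, hg, hg0⟩ := (C.ctx.hasSlope_iff_pure.mp hy₀).2
  have hgne : g ≠ 0 := fun h => hg0 (by rw [h, map_zero])
  have hpg : pr (f.Δ * g) ≠ 0 := by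
    rw [map_mul, hprA _ (Frame.Δ_mem C.ctx f), hprA _ (mem_Ap hg)]
    exact mul_ne_zero hΔ hgne
  obtain ⟨y, hy, hyg⟩ := exists_closed_point pr (f.Δ * g) hpg
  rw [map_mul] at hyg
  have hyΔ : y f.Δ ≠ 0 := left_ne_zero_of_mul hyg
  have hyg' : y g ≠ 0 := right_ne_zero_of_mul hyg
  have hyp : PureA 𝒜 P H a y := fun k m hm r hr => hy r (hpr k m hm r hr)
  have hs : HasSlope 𝒜 P H y a := C.ctx.hasSlope_iff_pure.mpr ⟨hyp, k, hk, g, hg, hyg'⟩
  have h1 : C.ctx.cell f y c ≠ 0 := fun h => hne (C.inj y f hs hyΔ c hc h)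
  obtain ⟨α, hα⟩ := MvPolynomial.ne_zero_iff.mp h1
  have hcy : MvPolynomial.coeff α (C.ctx.cell f y c) =
      y (MvPolynomial.coeff α (C.ctx.exp f c)) := by
    rw [Ctx.cell, AlgHom.comp_apply, MvPolynomial.mapAlgHom_apply, MvPolynomial.coeff_map]
    rfl
  have hcν : MvPolynomial.coeff α (C.ctx.cell f ν c) =
      ν (MvPolynomial.coeff α (C.ctx.exp f c)) := by
    rw [Ctx.cell, AlgHom.comp_apply, MvPolynomial.mapAlgHom_apply, MvPolynomial.coeff_map]
    rfl
  rw [hcy] at hα
  set s := MvPolynomial.coeff α (C.ctx.exp f c) with hs'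
  have hprs : pr s ≠ 0 := fun h => hα (hy s h)
  have hνs : ν (pr s) ≠ 0 := fun h => hprs (hi _ (hprm s) h)
  have hcomp : ν.comp pr = ν := by
    refine PureA.ext C.ctx (hpr.comp ν) hν fun c hc => ?_
    rw [AlgHom.comp_apply, hprA c hc]
  have h2 : ν (pr s) = ν s := by
    conv_rhs => rw [← hcomp]
    rfl
  rw [hc0, MvPolynomial.coeff_zero] at hcν
  exact hνs (h2.trans hcν.symm)

/-- Base change of cells. -/
theorem IsCell.map {κ : Type v} [Field κ] [Algebra ℂ κ]
    {Ψ : R →ₐ[ℂ] MvPolynomial (Fin n) κ} (hΨ : IsCell 𝒜 P H a Ψ)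
    {κ' : Type*} [Field κ'] [Algebra ℂ κ'] (g : κ →ₐ[ℂ] κ') :
    IsCell 𝒜 P H a ((MvPolynomial.mapAlgHom g).comp Ψ) := by
  have hinj : ∀ p : MvPolynomial (Fin n) κ, MvPolynomial.mapAlgHom (σ := Fin n) g p = 0 → p = 0 := by
    intro p hp
    rw [MvPolynomial.mapAlgHom_apply] at hp
    exact (map_eq_zero_iff _
      (MvPolynomial.map_injective (g : κ →+* κ') (g : κ →+* κ').injective)).mp hp
  refine ⟨hΨ.typeW.comp _, ?_, ?_, ?_, ?_⟩
  · intro k j r hr
    rw [AlgHom.comp_apply, MvPolynomial.mapAlgHom_apply]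
    exact (hΨ.homog k j r hr).map _
  · obtain ⟨k, hk, r, hr, h⟩ := hΨ.nonvertex
    exact ⟨k, hk, r, hr, fun h0 => h (hinj _ h0)⟩
  · intro i
    have key : ∀ p ∈ Submodule.span κ {p | ∃ (k : ℕ), ∃ r ∈ Wt 𝒜 P H k (a * k - a), p = Ψ r},
        MvPolynomial.mapAlgHom (σ := Fin n) g p ∈ Submodule.span κ'
          {p | ∃ (k : ℕ), ∃ r ∈ Wt 𝒜 P H k (a * k - a),
            p = ((MvPolynomial.mapAlgHom g).comp Ψ) r} := by
      intro p hp
      induction hp using Submodule.span_induction with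
      | mem p h =>
        obtain ⟨k, r, hr, rfl⟩ := h
        exact Submodule.subset_span ⟨k, r, hr, rfl⟩
      | zero => rw [map_zero]; exact Submodule.zero_mem _
      | add p q _ _ hp hq => rw [map_add]; exact Submodule.add_mem _ hp hq
      | smul c p _ hp =>
        have : MvPolynomial.mapAlgHom (σ := Fin n) g (c • p) =
            g c • MvPolynomial.mapAlgHom (σ := Fin n) g p := by
          rw [MvPolynomial.smul_eq_C_mul, MvPolynomial.smul_eq_C_mul, map_mul]
          congr 1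
          rw [MvPolynomial.mapAlgHom_apply, MvPolynomial.map_C]
          rfl
        rw [this]
        exact Submodule.smul_mem _ _ hp
    have h := key _ (hΨ.lin i)
    rwa [MvPolynomial.mapAlgHom_apply, MvPolynomial.map_X] at h
  · exact fun h0 => hΨ.ne (hinj _ h0)

end Vale.Agent.P292
end

section

/-! Theorem E, section 3: (INT). See `PROOF.md`. -/

namespace Vale.Agent.P292

open Module

universe u v

variable {R : Type u} [CommRing R] [Algebra ℂ R] {𝒜 : ℕ → Submodule ℂ R} [GradedAlgebra 𝒜]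
  {P : R →ₗ[ℂ] R →ₗ[ℂ] R} {H : R} {a : ℤ} {n : ℕ}

/-- Valuative criterion of integrality in a domain `B`, with the valuation subrings of the
algebraic closure of its fraction field. -/
theorem in4_integral {B : Type v} [CommRing B] [IsDomain B] [Algebra ℂ B] (S : Subalgebra ℂ B)
    (b : B)
    (h : ∀ 𝒪 : ValuationSubring (AlgebraicClosure (FractionRing B)),
      (∀ x ∈ S, algebraMap B (AlgebraicClosure (FractionRing B)) x ∈ 𝒪) →
      algebraMap B (AlgebraicClosure (FractionRing B)) b ∈ 𝒪) : IsIntegral S b := by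
  have hinj : Function.Injective (algebraMap B (AlgebraicClosure (FractionRing B))) := by
    rw [IsScalarTower.algebraMap_eq B (FractionRing B) (AlgebraicClosure (FractionRing B))]
    exact (algebraMap (FractionRing B) (AlgebraicClosure (FractionRing B))).injective.comp
      (IsFractionRing.injective B (FractionRing B))
  obtain ⟨g, hg⟩ : ∃ g : S →+* AlgebraicClosure (FractionRing B),
      g = (algebraMap B (AlgebraicClosure (FractionRing B))).comp (algebraMap S B) := ⟨_, rfl⟩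
  have hgx : ∀ x : S, g x = algebraMap B (AlgebraicClosure (FractionRing B)) (x : B) := by
    intro x; rw [hg]; rfl
  have hginj : Function.Injective g := by
    intro x y hxy
    rw [hgx, hgx] at hxy
    exact Subtype.ext (hinj hxy)
  have key := iInf_valuationSubring_superset
    (s := (g.range : Set (AlgebraicClosure (FractionRing B))))
  rw [Subring.closure_eq] at key
  have h1 : algebraMap B (AlgebraicClosure (FractionRing B)) b ∈
      (integralClosure g.range (AlgebraicClosure (FractionRing B))).toSubring := by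
    rw [← key, Subring.mem_iInf]
    rintro ⟨V, hV⟩
    refine h V fun x hx => hV ?_
    exact ⟨⟨x, hx⟩, by rw [hgx]⟩
  have h2 : IsIntegral g.range (algebraMap B (AlgebraicClosure (FractionRing B)) b) := h1
  obtain ⟨e, he⟩ : ∃ e : g.range →+* S, ∀ y, g (e y) = y := by
    refine ⟨(RingEquiv.ofBijective g.rangeRestrict
      ⟨fun x y hxy => hginj (congrArg Subtype.val hxy),
        g.rangeRestrict_surjective⟩).symm.toRingHom, fun y => ?_⟩
    have := (RingEquiv.ofBijective g.rangeRestrict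
      ⟨fun x y hxy => hginj (congrArg Subtype.val hxy),
        g.rangeRestrict_surjective⟩).apply_symm_apply y
    exact congrArg Subtype.val this
  have h3 : g.IsIntegralElem (algebraMap B (AlgebraicClosure (FractionRing B)) b) := by
    refine RingHom.IsIntegralElem.of_comp (f := e) (g := g) ?_
    have h4 : g.comp e = algebraMap g.range (AlgebraicClosure (FractionRing B)) := by
      ext y
      exact he y
    rw [h4]
    exact h2
  obtain ⟨p, hp, hp2⟩ := h3
  refine ⟨p, hp, ?_⟩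
  apply hinj
  rw [map_zero, Polynomial.hom_eval₂, ← hg]
  exact hp2

theorem in4_wt_zero (hX : IsContactFano 𝒜 P) {m : ℤ} (hm : m ≠ 0) {r : R}
    (hr : r ∈ Wt 𝒜 P H 0 m) : r = 0 := by
  obtain ⟨h1, h2⟩ := mem_Wt.mp hr
  obtain ⟨c, rfl⟩ := hX.connected r h1
  rw [hX.P_algebraMap_right] at h2
  rcases smul_eq_zero.mp h2.symm with h | h
  · exact absurd (by exact_mod_cast h) hm
  · exact h

/-- (INT) -/
theorem Ctx.isIntegral (C : Ctx 𝒜 P H a) {B : Type v} [CommRing B] [IsDomain B] [Algebra ℂ B]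
    (φ : R →ₐ[ℂ] B) (hW : TypeW 𝒜 P H a φ) {k : ℕ} {s : ℤ} {r : R}
    (hr : r ∈ Wt 𝒜 P H k (a * s)) :
    IsIntegral (Algebra.adjoin ℂ
      (φ '' ((Ap 𝒜 P H a : Set R) ∪ (Ap 𝒜 P (-H) a : Set R)))) (φ (r * H ^ (k - s.natAbs))) := by
  refine in4_integral _ _ fun 𝒪 h𝒪 => ?_
  obtain ⟨ψ, hψ⟩ : ∃ ψ : R →ₐ[ℂ] AlgebraicClosure (FractionRing B),
      ψ = (IsScalarTower.toAlgHom ℂ B (AlgebraicClosure (FractionRing B))).comp φ := ⟨_, rfl⟩
  have hψx : ∀ x, ψ x = algebraMap B (AlgebraicClosure (FractionRing B)) (φ x) := by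
    intro x; rw [hψ]; rfl
  have hWψ : TypeW 𝒜 P H a ψ := by
    intro k m hm r hr
    rw [hψx, hW k m hm r hr, map_zero]
  have := C.valuation_bound 𝒪 ψ hWψ ?_ ?_ hr
  · rwa [hψx] at this
  · intro k c hc
    rw [hψx]
    refine h𝒪 _ (Algebra.subset_adjoin ⟨c, Or.inl ?_, rfl⟩)
    exact Algebra.subset_adjoin ⟨k, hc⟩
  · intro k c hc
    rw [hψx]
    refine h𝒪 _ (Algebra.subset_adjoin ⟨c, Or.inr ?_, rfl⟩)
    exact Algebra.subset_adjoin ⟨k, by rw [Wt_neg]; exact hc⟩

/-- (INT) for `H` itself. -/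
theorem Ctx.isIntegral_H (C : Ctx 𝒜 P H a) {B : Type v} [CommRing B] [IsDomain B] [Algebra ℂ B]
    (φ : R →ₐ[ℂ] B) (hW : TypeW 𝒜 P H a φ) :
    IsIntegral (Algebra.adjoin ℂ
      (φ '' ((Ap 𝒜 P H a : Set R) ∪ (Ap 𝒜 P (-H) a : Set R)))) (φ H) := by
  have hH : H ∈ Wt 𝒜 P H 1 (a * 0) := by
    rw [mem_Wt]
    refine ⟨C.hH.mem, ?_⟩
    have h0 : P H H = 0 := by
      have h1 : P H H = -P H H := C.hX.skew H H
      have h2 : (2 : ℂ) • P H H = 0 := by
        rw [two_smul]
        nth_rewrite 1 [h1]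
        exact neg_add_cancel _
      exact (smul_eq_zero.mp h2).resolve_left two_ne_zero
    rw [h0]
    simp
  have := C.isIntegral φ hW hH
  rw [map_mul, map_pow] at this
  refine IsIntegral.of_pow (n := 2) (by norm_num) ?_
  simpa [pow_two] using this

/-- (INT) for products of `H` and an element of defect one (source side). -/
theorem Ctx.isIntegral_defect_one (C : Ctx 𝒜 P H a) {B : Type v} [CommRing B] [IsDomain B]
    [Algebra ℂ B] (φ : R →ₐ[ℂ] B) (hW : TypeW 𝒜 P H a φ) {k : ℕ} {r : R}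
    (hr : r ∈ Wt 𝒜 P H k (a * k - a)) :
    IsIntegral (Algebra.adjoin ℂ
      (φ '' ((Ap 𝒜 P H a : Set R) ∪ (Ap 𝒜 P (-H) a : Set R)))) (φ (H * r)) := by
  rcases Nat.eq_zero_or_pos k with rfl | hk
  · have ha : 0 < a := (C.hmax.neg C.hX C.hH).2
    have h0 : r = 0 := in4_wt_zero C.hX (by push_cast; omega) hr
    rw [h0, mul_zero, map_zero]
    exact isIntegral_zero
  · have hr' : r ∈ Wt 𝒜 P H k (a * ((k : ℤ) - 1)) := by
      rwa [mul_sub, mul_one]
    have := C.isIntegral φ hW hr'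
    have hk' : k - ((k : ℤ) - 1).natAbs = 1 := by omega
    rwa [hk', pow_one, mul_comm] at this

end Vale.Agent.P292
end

section

/-! Theorem E, section 3: (INT'). See `PROOF.md`. -/

namespace Vale.Agent.P292

open Module

universe u v

variable {R : Type u} [CommRing R] [Algebra ℂ R] {𝒜 : ℕ → Submodule ℂ R} [GradedAlgebra 𝒜]
  {P : R →ₗ[ℂ] R →ₗ[ℂ] R} {H : R} {a : ℤ} {n : ℕ}

/-- A linear monomial which is integral over constants vanishes. -/
theorem in5_eq_zero_of_isIntegral {B : Type v} [CommRing B] [IsDomain B] [Algebra ℂ B]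
    (S : Subalgebra ℂ (Polynomial B)) (hS : ∀ s ∈ S, ∃ b : B, Polynomial.C b = s) (h : B)
    (hi : IsIntegral S (Polynomial.X * Polynomial.C h)) : h = 0 := by
  obtain ⟨p, hp, hp0⟩ := hi
  rw [← Polynomial.aeval_def, Polynomial.aeval_eq_sum_range] at hp0
  have h1 := congrArg (fun q : Polynomial B => q.coeff p.natDegree) hp0
  simp only [Polynomial.finsetSum_coeff, Polynomial.coeff_zero] at h1
  rw [Finset.sum_eq_single p.natDegree] at h1
  · rw [hp.coeff_natDegree, one_smul, mul_pow, ← map_pow, Polynomial.coeff_mul_C,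
      Polynomial.coeff_X_pow_self, one_mul] at h1
    exact eq_zero_of_pow_eq_zero h1
  · intro i _ hi
    obtain ⟨b, hb⟩ := hS _ (p.coeff i).2
    rw [Subalgebra.smul_def, ← hb, smul_eq_mul, mul_pow, ← map_pow, Polynomial.coeff_C_mul,
      Polynomial.coeff_mul_C, Polynomial.coeff_X_pow, if_neg (Ne.symm hi), zero_mul, mul_zero]
  · intro h2
    exact absurd (Finset.mem_range.mpr (Nat.lt_succ_self _)) h2

/-- (INT') -/
theorem Ctx.apply_H_eq_zero (C : Ctx 𝒜 P H a) {B : Type v} [CommRing B] [IsDomain B]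
    [Algebra ℂ B] (φ : R →ₐ[ℂ] B) (hW : TypeW 𝒜 P H a φ) (h : ¬ NV 𝒜 P H a φ) : φ H = 0 := by
  have ha : 0 < a := C.pos
  -- nonnegativity of the exponents
  have hexp : ∀ (k : ℕ) (m : ℤ), (∃ r ∈ Wt 𝒜 P H k m, φ r ≠ 0) →
      ∃ e : ℕ, (e : ℤ) * a = a * k + m ∧ ((k : ℤ) + m / a).toNat = e := by
    rintro k m ⟨r, hr, hφr⟩
    have h1 : a ∣ m := by
      by_contra h1
      exact hφr (hW k m h1 r hr)
    obtain ⟨j, rfl⟩ := h1
    have h2 : r ≠ 0 := by rintro rfl; exact hφr (map_zero φ)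
    have h3 := C.abs_le hr h2
    rw [abs_mul, abs_of_pos ha] at h3
    have h4 : |j| ≤ k := le_of_mul_le_mul_left h3 ha
    have h5 := (_root_.abs_le.mp h4).1
    have h6 : (((k : ℤ) + j).toNat : ℤ) = k + j := Int.toNat_of_nonneg (by linarith)
    exact ⟨((k : ℤ) + j).toNat, by rw [h6]; ring, by rw [Int.mul_ediv_cancel_left _ ha.ne']⟩
  obtain ⟨x, hx⟩ := exists_twist C.hX C.hH ((Polynomial.CAlgHom : B →ₐ[ℂ] Polynomial B).comp φ)
    (fun k m => (Polynomial.X : Polynomial B) ^ ((k : ℤ) + m / a).toNat) (by simp) (by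
      rintro k l m n ⟨r, hr, hxr⟩ ⟨s, hs, hxs⟩
      have hr' : φ r ≠ 0 := fun h0 => hxr (by
        rw [AlgHom.comp_apply, h0, map_zero])
      have hs' : φ s ≠ 0 := fun h0 => hxs (by
        rw [AlgHom.comp_apply, h0, map_zero])
      obtain ⟨e, he, he'⟩ := hexp k m ⟨r, hr, hr'⟩
      obtain ⟨f, hf, hf'⟩ := hexp l n ⟨s, hs, hs'⟩
      obtain ⟨g, hg, hg'⟩ := hexp (k + l) (m + n) ⟨r * s, Wt_mul C.hX hr hs, by
        rw [map_mul]; exact mul_ne_zero hr' hs'⟩
      rw [he', hf', hg', ← pow_add]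
      congr 1
      have h1 : (g : ℤ) * a = ((e : ℤ) + f) * a := by
        rw [hg, add_mul, he, hf]; push_cast; ring
      have h2 := mul_right_cancel₀ ha.ne' h1
      exact_mod_cast h2)
  have hx' : ∀ (k : ℕ) (m : ℤ), ∀ r ∈ Wt 𝒜 P H k m,
      x r = (Polynomial.X : Polynomial B) ^ ((k : ℤ) + m / a).toNat * Polynomial.C (φ r) := by
    intro k m r hr
    rw [hx k m r hr]
    rfl
  have hWx : TypeW 𝒜 P H a x := by
    intro k m hm r hr
    rw [hx' k m r hr, hW k m hm r hr, map_zero, mul_zero]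
  have hint := C.isIntegral_H x hWx
  have hH1 : H ∈ Wt 𝒜 P H 1 0 := by
    rw [mem_Wt]
    exact ⟨C.hH.mem, by rw [C.hX.alternating, Int.cast_zero, zero_smul]⟩
  have hxH : x H = Polynomial.X * Polynomial.C (φ H) := by
    rw [hx' 1 0 H hH1]
    simp
  rw [hxH] at hint
  have hle : Algebra.adjoin ℂ (x '' ((Ap 𝒜 P H a : Set R) ∪ (Ap 𝒜 P (-H) a : Set R))) ≤
      (Polynomial.CAlgHom : B →ₐ[ℂ] Polynomial B).range := by
    rw [Algebra.adjoin_le_iff]
    rintro _ ⟨c, hc, rfl⟩
    have key : ∀ c : R, c ∈ Ap 𝒜 P H a ∨ c ∈ Ap 𝒜 P (-H) a →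
        c ∈ ((Polynomial.CAlgHom : B →ₐ[ℂ] Polynomial B).range).comap x := by
      rintro c (hc | hc)
      · refine (Algebra.adjoin_le ?_ : Ap 𝒜 P H a ≤ _) hc
        rintro r ⟨k, hr⟩
        rw [SetLike.mem_coe, Subalgebra.mem_comap, hx' k _ r hr]
        rcases Nat.eq_zero_or_pos k with rfl | hk
        · refine ⟨φ r, ?_⟩
          simp
        · have h0 : φ r = 0 := by
            by_contra h0
            exact h ⟨k, hk, r, hr, h0⟩
          rw [h0, map_zero, mul_zero]
          exact zero_mem _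
      · refine (Algebra.adjoin_le ?_ : Ap 𝒜 P (-H) a ≤ _) hc
        rintro r ⟨k, hr⟩
        rw [Wt_neg] at hr
        rw [SetLike.mem_coe, Subalgebra.mem_comap, hx' k _ r hr]
        refine ⟨φ r, ?_⟩
        have h1 : ((k : ℤ) + -(a * k) / a).toNat = 0 := by
          rw [show -(a * (k : ℤ)) = a * (-k) by ring, Int.mul_ediv_cancel_left _ ha.ne']
          simp
        rw [h1, pow_zero, one_mul]
        rfl
    exact key c hc
  exact in5_eq_zero_of_isIntegral _ (fun s hs => hle hs) _ hint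

end Vale.Agent.P292
end

section

/-! Theorem E, section 4: (ALG). See `PROOF.md`. -/

namespace Vale.Agent.P292

open Module

universe u v

variable {R : Type u} [CommRing R] [Algebra ℂ R] {𝒜 : ℕ → Submodule ℂ R} [GradedAlgebra 𝒜]
  {P : R →ₗ[ℂ] R →ₗ[ℂ] R} {H : R} {a : ℤ} {n : ℕ}

/-- Integral over a complex subalgebra contained in a bigger one. -/
theorem di3_isIntegral {κ : Type*} [Field κ] [Algebra ℂ κ] {B : Type*} [CommRing B]
    [Algebra ℂ B] [Algebra κ B] [IsScalarTower ℂ κ B] {s : Set B} (T : Subalgebra κ B)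
    (h : ∀ x ∈ s, x ∈ T) {b : B} (hb : IsIntegral (Algebra.adjoin ℂ s) b) : IsIntegral T b := by
  have h1 : Algebra.adjoin ℂ s ≤ T.restrictScalars ℂ := Algebra.adjoin_le h
  obtain ⟨p, hp, hp0⟩ := hb
  have h2 : ∀ x : Algebra.adjoin ℂ s, (algebraMap (Algebra.adjoin ℂ s) B) x ∈ T := fun x => h1 x.2
  refine ⟨p.map ((algebraMap (Algebra.adjoin ℂ s) B).codRestrict T h2), hp.map _, ?_⟩
  rw [Polynomial.eval₂_map]
  exact hp0

/-- (ALG) The coordinates of a cell are algebraic over `A₋`. -/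
theorem IsCell.isAlgebraic (C : Ctx 𝒜 P H a) {κ : Type v} [Field κ] [Algebra ℂ κ]
    {Ψ : R →ₐ[ℂ] MvPolynomial (Fin n) κ} (hΨ : IsCell 𝒜 P H a Ψ) (i : Fin n) :
    IsAlgebraic (Algebra.adjoin κ (Ψ '' (Ap 𝒜 P (-H) a : Set R)))
      (MvPolynomial.X i : MvPolynomial (Fin n) κ) := by
  set T := Algebra.adjoin κ (Ψ '' (Ap 𝒜 P (-H) a : Set R)) with hT
  have h1 : ∀ c ∈ Ap 𝒜 P H a, Ψ c ∈ T := by
    refine C.Ap_induction (p := fun c => Ψ c ∈ T) ?_ ?_ ?_
    · intro k r hr
      have h2 := hΨ.homog k 0 r (by simpa using hr)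
      rw [← MvPolynomial.totalDegree_zero_iff_isHomogeneous,
        MvPolynomial.totalDegree_eq_zero_iff_eq_C] at h2
      rw [h2]
      exact T.algebraMap_mem _
    · rw [map_zero]
      exact T.zero_mem
    · intro r s hr hs
      rw [map_add]
      exact T.add_mem hr hs
  have h2 : ∀ x ∈ Ψ '' ((Ap 𝒜 P H a : Set R) ∪ (Ap 𝒜 P (-H) a : Set R)), x ∈ T := by
    rintro _ ⟨c, hc | hc, rfl⟩
    · exact h1 c hc
    · exact Algebra.subset_adjoin ⟨c, hc, rfl⟩
  have hH : IsAlgebraic T (Ψ H) :=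
    (di3_isIntegral T h2 (C.isIntegral_H Ψ hΨ.typeW)).isAlgebraic
  have h3 : ∀ (k : ℕ), ∀ r ∈ Wt 𝒜 P H k (a * k - a), IsAlgebraic T (Ψ r) := by
    intro k r hr
    have h4 := (di3_isIntegral T h2 (C.isIntegral_defect_one Ψ hΨ.typeW hr)).isAlgebraic
    rw [map_mul] at h4
    exact hH.of_mul (mem_nonZeroDivisors_of_ne_zero hΨ.ne) h4
  have h5 := hΨ.lin i
  refine Submodule.span_induction (p := fun x _ => IsAlgebraic T x) ?_ ?_ ?_ ?_ h5
  · rintro _ ⟨k, r, hr, rfl⟩
    exact h3 k r hr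
  · exact isAlgebraic_zero
  · intro x y _ _ hx hy
    exact hx.add hy
  · intro c x _ hx
    rw [Algebra.smul_def]
    exact (isAlgebraic_algebraMap (algebraMap κ T c)).mul hx

/-- The cell of a complete frame at a closed point. -/
theorem Ctx.isCell_of_complete (C : Ctx 𝒜 P H a) {y : R →ₐ[ℂ] ℂ} (hy : HasSlope 𝒜 P H y a)
    (f : Frame 𝒜 P H a n) (hΔ : y f.Δ ≠ 0) (hf : f.Complete y) :
    IsCell 𝒜 P H a (C.cell f y) := by
  obtain ⟨hν, hNV⟩ := C.hasSlope_iff_pure.1 hy
  refine ⟨C.typeW_cell f hν, C.cell_homog f hν, ?_, ?_, C.cell_H_ne_zero hy f hf⟩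
  · obtain ⟨k, hk, r, hr, hr0⟩ := hNV
    refine ⟨k, hk, r, hr, ?_⟩
    rw [C.cell_Ap f y (mem_Ap hr)]
    simpa using hr0
  · intro l
    set M : Matrix (Fin n) (Fin n) ℂ := f.mat.map y with hM
    have hdet : IsUnit M.det := by
      have h1 : M.det = y f.Δ := by
        rw [hM, Frame.Δ]
        exact (AlgHom.map_det y f.mat).symm
      rw [h1]
      exact hΔ.isUnit
    have h2 : (MvPolynomial.X l : MvPolynomial (Fin n) ℂ) =
        ∑ j, (M⁻¹ j l) • C.cell f y (f.r j) := by
      have h3 : ∀ j, C.cell f y (f.r j) = ∑ i, M i j • (MvPolynomial.X i) := by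
        intro j
        rw [C.cell_defect_one f hν (f.hr j)]
        refine Finset.sum_congr rfl fun i _ => ?_
        rw [MvPolynomial.smul_eq_C_mul]
        rfl
      simp only [h3, Finset.smul_sum, smul_smul]
      rw [Finset.sum_comm]
      simp only [← Finset.sum_smul]
      have h4 : ∀ i, ∑ j, M⁻¹ j l * M i j = if i = l then 1 else 0 := by
        intro i
        have h5 : M * M⁻¹ = 1 := Matrix.mul_nonsing_inv M hdet
        have h6 := congrFun (congrFun h5 i) l
        rw [Matrix.mul_apply, Matrix.one_apply] at h6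
        rw [← h6]
        exact Finset.sum_congr rfl fun j _ => mul_comm _ _
      simp only [h4, ite_smul, one_smul, zero_smul, Finset.sum_ite_eq', Finset.mem_univ, if_true]
    rw [h2]
    exact Submodule.sum_mem _ fun j _ => Submodule.smul_mem _ _
      (Submodule.subset_span ⟨f.kr j, f.r j, f.hr j, rfl⟩)

end Vale.Agent.P292
end

section

/-! Theorem E, section 5: (Q). See `PROOF.md`. -/

namespace Vale.Agent.P292

open Module Polynomial

universe u v

variable {R : Type u} [CommRing R] [Algebra ℂ R] {𝒜 : ℕ → Submodule ℂ R} [GradedAlgebra 𝒜]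
  {P : R →ₗ[ℂ] R →ₗ[ℂ] R} {H : R} {a : ℤ} {n : ℕ}

/-- `Q` is the minimal polynomial of `Ψ(H)²` over `A₋`. -/
structure IsMinPoly (𝒜 : ℕ → Submodule ℂ R) (P : R →ₗ[ℂ] R →ₗ[ℂ] R) (H : R) (a : ℤ)
    (Ψ : R →ₐ[ℂ] MvPolynomial (Fin n) ℂ) (Q : (Ap 𝒜 P (-H) a)[X]) : Prop where
  monic : Q.Monic
  irreducible : Irreducible Q
  root : Q.eval₂ ((Ψ.comp (Ap 𝒜 P (-H) a).val : Ap 𝒜 P (-H) a →ₐ[ℂ] _) : _ →+* _)
    (Ψ H ^ 2) = 0

/-- The image of `Q` under a homomorphism of `R`. -/
noncomputable def mapQ {B : Type v} [CommRing B] [Algebra ℂ B] (Q : (Ap 𝒜 P (-H) a)[X])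
    (x : R →ₐ[ℂ] B) : B[X] :=
  Q.map ((x.comp (Ap 𝒜 P (-H) a).val : Ap 𝒜 P (-H) a →ₐ[ℂ] B) : Ap 𝒜 P (-H) a →+* B)

/-- An element integral over a domain mapping to another domain has a monic
irreducible annihilating polynomial over that domain. -/
theorem li7_minpoly {A : Type u} {B : Type v} [CommRing A] [CommRing B] [IsDomain A] [IsDomain B]
    (ψ : A →+* B) {x : B} (hx : ψ.IsIntegralElem x) :
    ∃ Q : A[X], Q.Monic ∧ Irreducible Q ∧ Q.eval₂ ψ x = 0 := by
  let : Algebra A B := ψ.toAlgebra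
  have hx' : IsIntegral A x := hx
  exact ⟨minpoly A x, minpoly.monic hx', minpoly.irreducible hx', minpoly.aeval A x⟩

/-- Integrality over a subalgebra contained in the image of `ψ` gives integrality over the source
of `ψ`. -/
theorem li7_integral {A : Type u} {B : Type v} [CommRing A] [CommRing B] [Algebra ℂ A]
    [Algebra ℂ B] (ψ : A →ₐ[ℂ] B) (S : Subalgebra ℂ B) (hS : S ≤ ψ.range) {x : B}
    (hx : IsIntegral S x) : (ψ : A →+* B).IsIntegralElem x := by
  have h1 : IsIntegral ψ.range x :=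
    hx.map_of_comp_eq (Subalgebra.inclusion hS : S →+* ψ.range) (RingHom.id B) rfl
  let : Algebra A B := (ψ : A →+* B).toAlgebra
  let : Algebra A ψ.range := (ψ.rangeRestrict : A →+* ψ.range).toAlgebra
  have : IsScalarTower A ψ.range B := IsScalarTower.of_algebraMap_eq (fun _ => rfl)
  have : Algebra.IsIntegral A ψ.range :=
    Algebra.isIntegral_of_surjective ψ.rangeRestrict_surjective
  exact isIntegral_trans x h1

theorem CtxN.exists_minPoly (C : CtxN 𝒜 P H a n) {y : R →ₐ[ℂ] ℂ} (hy : HasSlope 𝒜 P H y a)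
    (f : Frame 𝒜 P H a n) (hΔ : y f.Δ ≠ 0) :
    ∃ Q : (Ap 𝒜 P (-H) a)[X], IsMinPoly 𝒜 P H a (C.half.ctx.cell f y) Q := by
  set Ψ : R →ₐ[ℂ] MvPolynomial (Fin n) ℂ := C.half.ctx.cell f y with hΨ
  have hW : TypeW 𝒜 P H a Ψ :=
    (C.half.ctx.isCell_of_complete hy f hΔ (C.half.complete y f hy hΔ)).typeW
  have hInt := C.half.ctx.isIntegral_H Ψ hW
  have hle : Algebra.adjoin ℂ (Ψ '' ((Ap 𝒜 P H a : Set R) ∪ (Ap 𝒜 P (-H) a : Set R))) ≤
      (Ψ.comp (Ap 𝒜 P (-H) a).val).range := by
    refine Algebra.adjoin_le ?_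
    rintro _ ⟨c, hc | hc, rfl⟩
    · rw [SetLike.mem_coe, hΨ, C.half.ctx.cell_Ap f y hc]
      exact Subalgebra.algebraMap_mem _ (y c)
    · exact ⟨⟨c, hc⟩, rfl⟩
  have hI2 := li7_integral _ _ hle (hInt.pow 2)
  have := C.half.ctx.neg.isDomain_Ap
  obtain ⟨Q, h1, h2, h3⟩ := li7_minpoly _ hI2
  exact ⟨Q, h1, h2, h3⟩

end Vale.Agent.P292
end

section

/-! # Elimination of (SC) and of factoriality: definitions. -/

namespace Vale.Agent.P292

open Module Polynomial

universe u v

/-- The extension `M` of `Frac R` is unramified over all the discrete valuation rings `R_𝔭`: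
for the integral closure `T` of `R_𝔭` in `M` the ring `T / ϖ T` is reduced. -/
def IsUnram (R : Type u) (M : Type v) [CommRing R] [Field M] [Algebra R M] : Prop :=
  ∀ (𝔭 : Ideal R) [𝔭.IsPrime] (V : Type u) [CommRing V] [IsDomain V] [IsDiscreteValuationRing V]
    [Algebra R V] [IsLocalization.AtPrime V 𝔭] [Algebra V M] [IsScalarTower R V M]
    [FaithfulSMul V M] (ϖ : V), Irreducible ϖ → ∀ s : M,
    IsIntegral V (s ^ 2 / algebraMap V M ϖ) → IsIntegral V (s / algebraMap V M ϖ)

variable {R : Type u} [CommRing R] [Algebra ℂ R] {𝒜 : ℕ → Submodule ℂ R} [GradedAlgebra 𝒜]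
  {P : R →ₗ[ℂ] R →ₗ[ℂ] R} {H : R} {a : ℤ} {n : ℕ}

/-- `q ∈ R[X]` is one of the polynomials `Q ∈ A₋[X]`, the minimal polynomial of the square of `H`
on the cell of a closed source point. -/
def IsMinQ (C : CtxN 𝒜 P H a n) (q : R[X]) : Prop :=
  ∃ (y : R →ₐ[ℂ] ℂ) (_ : HasSlope 𝒜 P H y a) (f : Frame 𝒜 P H a n) (_ : y f.Δ ≠ 0)
    (Q : (Ap 𝒜 P (-H) a)[X]), IsMinPoly 𝒜 P H a (C.half.ctx.cell f y) Q ∧
      q = Q.map (Ap 𝒜 P (-H) a).val.toRingHom

end Vale.Agent.P292
end

section

/-! # Elimination of (SC): extension of derivations over a discrete valuation ring. -/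

namespace Vale.Agent.P292

open Module Polynomial

universe u v

theorem zb1_zero {A : Type*} [CommRing A] (d : A → A) (hadd : ∀ a b, d (a + b) = d a + d b) :
    d 0 = 0 := by
  have h := hadd 0 0
  rw [add_zero] at h
  simpa using h

theorem zb1_sum {A : Type*} [CommRing A] (d : A → A) (hadd : ∀ a b, d (a + b) = d a + d b)
    {ι : Type*} (s : Finset ι) (f : ι → A) : d (∑ i ∈ s, f i) = ∑ i ∈ s, d (f i) := by
  classical
  induction s using Finset.induction_on with
  | empty => simpa using zb1_zero d hadd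
  | insert a s ha ih => rw [Finset.sum_insert ha, Finset.sum_insert ha, hadd, ih]

theorem zb1_one {A : Type*} [CommRing A] (d : A → A)
    (hmul : ∀ a b, d (a * b) = d a * b + a * d b) : d 1 = 0 := by
  have h := hmul 1 1
  simp only [mul_one, one_mul] at h
  simpa using h

theorem zb1_pow {A : Type*} [CommRing A] (d : A → A)
    (hmul : ∀ a b, d (a * b) = d a * b + a * d b) (x : A) (n : ℕ) :
    d (x ^ n) = n * x ^ (n - 1) * d x := by
  induction n with
  | zero => simpa using zb1_one d hmul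
  | succ n ih =>
    rw [pow_succ, hmul, ih]
    rcases n with _ | n
    · simp
    · simp only [Nat.add_sub_cancel]
      push_cast
      ring

theorem zb1_eval {A : Type*} [CommRing A] (d : A → A) (hadd : ∀ a b, d (a + b) = d a + d b)
    (hmul : ∀ a b, d (a * b) = d a * b + a * d b) (p : A[X]) (hc : ∀ i, d (p.coeff i) = 0)
    (x : A) : d (p.eval x) = p.derivative.eval x * d x := by
  rw [Polynomial.eval_eq_sum_range, zb1_sum d hadd, Polynomial.derivative_eval,
    Polynomial.sum_over_range _ (by intro n; simp), Finset.sum_mul]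
  refine Finset.sum_congr rfl fun i _ => ?_
  rw [hmul, hc, zb1_pow d hmul]
  ring

theorem zb1_nsmul {A : Type*} [CommRing A] (d : A → A) (hadd : ∀ a b, d (a + b) = d a + d b)
    (n : ℕ) (x : A) : d (n • x) = n • d x := by
  induction n with
  | zero => simpa using zb1_zero d hadd
  | succ n ih => rw [succ_nsmul, hadd, ih, succ_nsmul]

theorem zb1_coeff_iter {A : Type*} [CommRing A] (d : A → A)
    (hadd : ∀ a b, d (a + b) = d a + d b) (q : A[X]) (hc : ∀ i, d (q.coeff i) = 0) (j i : ℕ) :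
    d ((derivative^[j] q).coeff i) = 0 := by
  rw [Polynomial.coeff_iterate_derivative, zb1_nsmul d hadd, hc, smul_zero]

/-- A derivation of a reduced ring of characteristic zero kills the elements which are integral
over the constants. -/
theorem derivation_eq_zero_of_isReduced {A : Type*} [CommRing A] [Algebra ℚ A] [IsReduced A]
    (d : A → A) (hadd : ∀ a b, d (a + b) = d a + d b) (hmul : ∀ a b, d (a * b) = d a * b + a * d b)
    (q : A[X]) (hq : q.Monic) (hc : ∀ i, d (q.coeff i) = 0) (x : A) (hx : q.eval x = 0) :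
    d x = 0 := by
  have key : ∀ j : ℕ, (derivative^[j] q).eval x * (d x) ^ (2 ^ j - 1) = 0 := by
    intro j
    induction j with
    | zero => simpa using hx
    | succ j ih =>
      have h1 := congrArg d ih
      rw [zb1_zero d hadd, hmul, zb1_eval d hadd hmul _ (zb1_coeff_iter d hadd q hc j)] at h1
      have h2 : (derivative^[j + 1] q).eval x * (d x * ((d x) ^ (2 ^ j - 1)) ^ 2) +
          ((derivative^[j] q).eval x * (d x) ^ (2 ^ j - 1)) * d ((d x) ^ (2 ^ j - 1)) = 0 := by
        rw [Function.iterate_succ_apply']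
        have h3 := congrArg (fun t => t * (d x) ^ (2 ^ j - 1)) h1
        simp only [zero_mul] at h3
        rw [← h3]
        ring
      rw [ih, zero_mul, add_zero] at h2
      have he : 2 ^ (j + 1) - 1 = (2 ^ j - 1) * 2 + 1 := by
        have : 1 ≤ 2 ^ j := Nat.one_le_two_pow
        rw [pow_succ]; omega
      rw [he, pow_succ, pow_mul, mul_comm ((d x ^ (2 ^ j - 1)) ^ 2)]
      exact h2
  have hN := key q.natDegree
  have hder : derivative^[q.natDegree] q = C ((q.natDegree.factorial : A)) := by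
    have hdeg : (derivative^[q.natDegree] q).natDegree = 0 := by
      have := Polynomial.natDegree_iterate_derivative q q.natDegree
      omega
    rw [Polynomial.eq_C_of_natDegree_eq_zero hdeg, Polynomial.coeff_iterate_derivative]
    congr 1
    rw [zero_add, hq.coeff_natDegree, Nat.descFactorial_self, nsmul_eq_mul, mul_one]
  rw [hder, eval_C] at hN
  have hu : IsUnit ((q.natDegree.factorial : ℕ) : A) := by
    have h1 : IsUnit ((q.natDegree.factorial : ℕ) : ℚ) :=
      isUnit_iff_ne_zero.mpr (by exact_mod_cast Nat.factorial_ne_zero _)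
    have h2 := h1.map (algebraMap ℚ A)
    simpa using h2
  rw [hu.mul_right_eq_zero] at hN
  exact IsNilpotent.eq_zero ⟨_, hN⟩

/-- The quotient argument: a derivation-like map of a ring `T`, integral over the image of `V`,
which maps `V` and `(p)` into the radical ideal `(p)`, has image in `(p)`. -/
theorem zb1_quot {V : Type u} {T : Type v} [CommRing V] [CommRing T] [Algebra V T]
    (hV : ∀ n : ℕ, n ≠ 0 → IsUnit (n : V)) (I : Ideal T)
    (hI : ∀ s : T, s ^ 2 ∈ I → s ∈ I)
    (d : T → T) (hadd : ∀ a b, d (a + b) = d a + d b)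
    (hmul : ∀ a b, d (a * b) = d a * b + a * d b) (hdI : ∀ a ∈ I, d a ∈ I)
    (hdV : ∀ v : V, d (algebraMap V T v) ∈ I) (t : T) (ht : IsIntegral V t) : d t ∈ I := by
  classical
  have hsurj := Ideal.Quotient.mk_surjective (I := I)
  have hneg : ∀ a b, d (a - b) = d a - d b := by
    intro a b
    have h := hadd (a - b) b
    rw [sub_add_cancel] at h
    rw [h, add_sub_cancel_right]
  let e : T ⧸ I → T ⧸ I := fun y => Ideal.Quotient.mk I (d (Function.surjInv hsurj y))
  have he : ∀ a : T, e (Ideal.Quotient.mk I a) = Ideal.Quotient.mk I (d a) := by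
    intro a
    change Ideal.Quotient.mk I (d (Function.surjInv hsurj (Ideal.Quotient.mk I a))) = _
    rw [Ideal.Quotient.eq, ← hneg]
    apply hdI
    rw [← Ideal.Quotient.eq]
    exact Function.surjInv_eq hsurj _
  have headd : ∀ a b, e (a + b) = e a + e b := by
    intro a b
    obtain ⟨a, rfl⟩ := hsurj a
    obtain ⟨b, rfl⟩ := hsurj b
    rw [← map_add, he, he, he, hadd, map_add]
  have hemul : ∀ a b, e (a * b) = e a * b + a * e b := by
    intro a b
    obtain ⟨a, rfl⟩ := hsurj a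
    obtain ⟨b, rfl⟩ := hsurj b
    rw [← map_mul, he, he, he, hmul, map_add, map_mul, map_mul]
  have hred : IsReduced (T ⧸ I) := by
    rw [isReduced_iff_pow_one_lt 2 (by norm_num)]
    intro x hx
    obtain ⟨a, rfl⟩ := hsurj x
    rw [← map_pow, Ideal.Quotient.eq_zero_iff_mem] at hx
    exact Ideal.Quotient.eq_zero_iff_mem.mpr (hI a hx)
  have hunit : ∀ y : nonZeroDivisors ℤ, IsUnit (Int.castRingHom (T ⧸ I) y) := by
    intro y
    have hy : (y : ℤ) ≠ 0 := nonZeroDivisors.coe_ne_zero y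
    have hy' : (y : ℤ).natAbs ≠ 0 := Int.natAbs_ne_zero.mpr hy
    have h1 := ((hV _ hy').map (algebraMap V T)).map (Ideal.Quotient.mk I)
    rw [map_natCast, map_natCast] at h1
    have h2 : IsUnit (((y : ℤ).natAbs : ℤ) : T ⧸ I) := by simpa using h1
    rcases Int.natAbs_eq (y : ℤ) with h | h
    · rw [h]; simpa using h1
    · rw [h]; simpa using h1.neg
  let _ : Algebra ℚ (T ⧸ I) :=
    (IsLocalization.lift (M := nonZeroDivisors ℤ) (S := ℚ) hunit).toAlgebra
  obtain ⟨q, hq, hqt⟩ := ht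
  have h := derivation_eq_zero_of_isReduced e headd hemul
    (q.map ((Ideal.Quotient.mk I).comp (algebraMap V T))) (hq.map _)
    (fun i => by
      rw [Polynomial.coeff_map, RingHom.comp_apply, he]
      exact Ideal.Quotient.eq_zero_iff_mem.mpr (hdV _))
    (Ideal.Quotient.mk I t)
    (by
      rw [Polynomial.eval_map, ← Polynomial.hom_eval₂, hqt, map_zero])
  rw [he] at h
  exact Ideal.Quotient.eq_zero_iff_mem.mp h

theorem zb1_exists_pow {V : Type u} {M : Type v} [CommRing V] [IsDomain V]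
    [IsDiscreteValuationRing V] [Field M] [Algebra V M]
    [Module.Finite V (integralClosure V M)]
    {ϖ : V} (hϖ : Irreducible ϖ)
    (hM : ∀ s : M, ∃ v : V, v ≠ 0 ∧ IsIntegral V (algebraMap V M v * s))
    (D : M → M) (hadd : ∀ a b, D (a + b) = D a + D b)
    (hmul : ∀ a b, D (a * b) = D a * b + a * D b)
    (hD : ∀ v : V, IsIntegral V (D (algebraMap V M v))) :
    ∃ N : ℕ, ∀ s : M, IsIntegral V s → IsIntegral V (algebraMap V M ϖ ^ N * D s) := by
  classical
  have hpow : ∀ s : M, ∃ k : ℕ, IsIntegral V (algebraMap V M ϖ ^ k * s) := by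
    intro s
    obtain ⟨v, hv, hvs⟩ := hM s
    obtain ⟨k, w, hk⟩ := IsDiscreteValuationRing.eq_unit_mul_pow_irreducible hv hϖ
    refine ⟨k, ?_⟩
    have h1 : IsIntegral V (algebraMap V M ((w⁻¹ : Vˣ) : V) * (algebraMap V M v * s)) :=
      isIntegral_algebraMap.mul hvs
    have h2 : algebraMap V M ((w⁻¹ : Vˣ) : V) * (algebraMap V M v * s)
        = algebraMap V M ϖ ^ k * s := by
      rw [← mul_assoc, ← map_mul, hk, ← mul_assoc, Units.inv_mul, one_mul, map_pow]
    rwa [h2] at h1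
  have hup : ∀ (k n : ℕ) (s : M), k ≤ n → IsIntegral V (algebraMap V M ϖ ^ k * s) →
      IsIntegral V (algebraMap V M ϖ ^ n * s) := by
    intro k n s hkn h
    have h1 : algebraMap V M ϖ ^ n * s
        = algebraMap V M ϖ ^ (n - k) * (algebraMap V M ϖ ^ k * s) := by
      rw [← mul_assoc, ← pow_add, Nat.sub_add_cancel hkn]
    rw [h1]
    exact (isIntegral_algebraMap.pow _).mul h
  obtain ⟨S, hS⟩ := (Module.Finite.fg_top : (⊤ : Submodule V (integralClosure V M)).FG)
  choose k hk using hpow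
  refine ⟨∑ t ∈ S, k (D (t : M)), ?_⟩
  have hmem : ∀ t : integralClosure V M,
      IsIntegral V (algebraMap V M ϖ ^ (∑ t ∈ S, k (D (t : M))) * D (t : M)) := by
    intro t
    have ht : t ∈ Submodule.span V (S : Set (integralClosure V M)) := by
      rw [hS]; exact Submodule.mem_top
    induction ht using Submodule.span_induction with
    | mem x hx =>
      refine hup _ _ _ ?_ (hk (D (x : M)))
      exact Finset.single_le_sum (f := fun t : integralClosure V M => k (D (t : M)))
        (fun _ _ => Nat.zero_le _) hx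
    | zero =>
      have h0 : D ((0 : integralClosure V M) : M) = 0 := by
        simpa using zb1_zero D hadd
      rw [h0, mul_zero]
      exact isIntegral_zero
    | add x y _ _ hx hy =>
      have h1 : ((x + y : integralClosure V M) : M) = (x : M) + (y : M) := rfl
      rw [h1, hadd, mul_add]
      exact hx.add hy
    | smul a x _ hx =>
      have h1 : ((a • x : integralClosure V M) : M) = algebraMap V M a * (x : M) := by
        rw [← Algebra.smul_def]; rfl
      rw [h1, hmul, mul_add]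
      refine IsIntegral.add ?_ ?_
      · exact (isIntegral_algebraMap.pow _).mul ((hD a).mul x.2)
      · have h2 : algebraMap V M ϖ ^ (∑ t ∈ S, k (D (t : M))) * (algebraMap V M a * D (x : M))
            = algebraMap V M a * (algebraMap V M ϖ ^ (∑ t ∈ S, k (D (t : M))) * D (x : M)) := by
          ring
        rw [h2]
        exact isIntegral_algebraMap.mul hx
  intro s hs
  exact hmem ⟨s, hs⟩

/-- Over an unramified discrete valuation ring `V`, derivations mapping `V` to integral elements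
preserve integrality. -/
theorem derivation_isIntegral_of_dvr {V : Type u} {M : Type v} [CommRing V] [IsDomain V]
    [IsDiscreteValuationRing V] [Field M] [CharZero M] [Algebra V M] [FaithfulSMul V M]
    [Module.Finite V (integralClosure V M)] (hV : ∀ n : ℕ, n ≠ 0 → IsUnit (n : V))
    {ϖ : V} (hϖ : Irreducible ϖ)
    (hred : ∀ s : M, IsIntegral V (s ^ 2 / algebraMap V M ϖ) →
      IsIntegral V (s / algebraMap V M ϖ))
    (hM : ∀ s : M, ∃ v : V, v ≠ 0 ∧ IsIntegral V (algebraMap V M v * s))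
    (D : M → M) (hadd : ∀ a b, D (a + b) = D a + D b)
    (hmul : ∀ a b, D (a * b) = D a * b + a * D b)
    (hD : ∀ v : V, IsIntegral V (D (algebraMap V M v))) (s : M) (hs : IsIntegral V s) :
    IsIntegral V (D s) := by
  classical
  have hex := zb1_exists_pow hϖ hM D hadd hmul hD
  have hp0 : algebraMap V M ϖ ≠ 0 := by
    rw [Ne, FaithfulSMul.algebraMap_eq_zero_iff]
    exact hϖ.ne_zero
  have hmin := Nat.find_spec hex
  rcases hN : Nat.find hex with _ | k
  · rw [hN] at hmin
    simpa using hmin s hs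
  exfalso
  rw [hN] at hmin
  have hlt : k < Nat.find hex := by omega
  refine Nat.find_min hex hlt ?_
  intro t ht
  let d : integralClosure V M → integralClosure V M :=
    fun x => ⟨algebraMap V M ϖ ^ (k + 1) * D (x : M), hmin _ x.2⟩
  have hd : ∀ x, ((d x : integralClosure V M) : M) = algebraMap V M ϖ ^ (k + 1) * D (x : M) :=
    fun _ => rfl
  let P : integralClosure V M := algebraMap V _ ϖ
  have hP : (P : M) = algebraMap V M ϖ := rfl
  have hmemI : ∀ x : integralClosure V M, x ∈ Ideal.span {P} ↔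
      IsIntegral V ((x : M) / algebraMap V M ϖ) := by
    intro x
    rw [Ideal.mem_span_singleton]
    constructor
    · rintro ⟨c, rfl⟩
      have h1 : ((P * c : integralClosure V M) : M) / algebraMap V M ϖ = (c : M) := by
        change (P : M) * (c : M) / _ = _
        rw [hP, mul_div_cancel_left₀ _ hp0]
      rw [h1]
      exact c.2
    · intro h
      refine ⟨⟨_, h⟩, ?_⟩
      apply Subtype.ext
      change (x : M) = (P : M) * ((x : M) / algebraMap V M ϖ)
      rw [hP, mul_div_cancel₀ _ hp0]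
  have hkey := zb1_quot hV (Ideal.span {P})
    (by
      intro x hx
      rw [hmemI] at hx ⊢
      exact hred _ hx)
    d
    (by
      intro a b
      apply Subtype.ext
      change _ * D ((a : M) + (b : M)) = _ * D (a : M) + _ * D (b : M)
      rw [hadd, mul_add])
    (by
      intro a b
      apply Subtype.ext
      change _ * D ((a : M) * (b : M)) = (_ * D (a : M)) * (b : M) + (a : M) * (_ * D (b : M))
      rw [hmul]
      ring)
    (by
      intro a ha
      rw [hmemI]
      rw [Ideal.mem_span_singleton] at ha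
      obtain ⟨c, rfl⟩ := ha
      rw [hd]
      change IsIntegral V (algebraMap V M ϖ ^ (k + 1) * D ((P : M) * (c : M)) / algebraMap V M ϖ)
      rw [hmul, hP]
      have h1 : algebraMap V M ϖ ^ (k + 1) * (D (algebraMap V M ϖ) * (c : M) +
          algebraMap V M ϖ * D (c : M)) / algebraMap V M ϖ =
          algebraMap V M ϖ ^ k * (D (algebraMap V M ϖ) * (c : M)) +
          algebraMap V M ϖ ^ (k + 1) * D (c : M) := by
        field_simp
        try ring
      rw [h1]
      exact ((isIntegral_algebraMap.pow _).mul ((hD ϖ).mul c.2)).add (hmin _ c.2))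
    (by
      intro v
      rw [hmemI, hd]
      have h1 : algebraMap V M ϖ ^ (k + 1) * D ((algebraMap V (integralClosure V M) v :
          integralClosure V M) : M) / algebraMap V M ϖ =
          algebraMap V M ϖ ^ k * D (algebraMap V M v) := by
        have h2 : ((algebraMap V (integralClosure V M) v : integralClosure V M) : M)
          = algebraMap V M v := rfl
        rw [h2, pow_succ]
        field_simp
      rw [h1]
      exact (isIntegral_algebraMap.pow _).mul (hD v))
    ⟨t, ht⟩ (by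
      have h1 := Algebra.IsIntegral.isIntegral (R := V) (⟨t, ht⟩ : integralClosure V M)
      exact h1)
  rw [hmemI, hd] at hkey
  have h1 : algebraMap V M ϖ ^ (k + 1) * D t / algebraMap V M ϖ = algebraMap V M ϖ ^ k * D t := by
    rw [pow_succ]
    field_simp
  change IsIntegral V (algebraMap V M ϖ ^ (k + 1) * D t / algebraMap V M ϖ) at hkey
  rwa [h1] at hkey

end Vale.Agent.P292
end

section

/-! # Elimination of (SC): extension of derivations. -/

namespace Vale.Agent.P292

open Module Polynomial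

universe u v

/-- The fraction field of `R` as an extension of a localization `V` of `R`. -/
theorem zb2_fraction {R : Type u} {M : Type v} [CommRing R] [IsDomain R] [Field M] [Algebra R M]
    [Algebra (FractionRing R) M] [IsScalarTower R (FractionRing R) M]
    (𝔭 : Ideal R) [𝔭.IsPrime] (V : Type u) [CommRing V] [IsDomain V]
    [Algebra R V] [IsLocalization.AtPrime V 𝔭] [Algebra V M] [IsScalarTower R V M] :
    ∃ (i : Algebra V (FractionRing R)), IsFractionRing V (FractionRing R) ∧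
      IsScalarTower V (FractionRing R) M := by
  have hu : ∀ y : 𝔭.primeCompl, IsUnit (algebraMap R (FractionRing R) y) := by
    intro y
    rw [isUnit_iff_ne_zero]
    intro h
    have h1 : (y : R) = 0 := (IsFractionRing.injective R (FractionRing R)) (by rw [h, map_zero])
    exact y.2 (by rw [h1]; exact 𝔭.zero_mem)
  let φ : V →+* FractionRing R := IsLocalization.lift hu
  letI i : Algebra V (FractionRing R) := φ.toAlgebra
  have hφ : ∀ r : R, algebraMap V (FractionRing R) (algebraMap R V r) =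
      algebraMap R (FractionRing R) r := fun r => IsLocalization.lift_eq hu r
  haveI : IsScalarTower R V (FractionRing R) := IsScalarTower.of_algebraMap_eq fun r => (hφ r).symm
  refine ⟨i, IsFractionRing.isFractionRing_of_isDomain_of_isLocalization 𝔭.primeCompl V
    (FractionRing R), ?_⟩
  refine IsScalarTower.of_algebraMap_eq' ?_
  refine IsLocalization.ringHom_ext 𝔭.primeCompl ?_
  ext r
  rw [RingHom.comp_apply, RingHom.comp_apply, RingHom.comp_apply, hφ,
    ← IsScalarTower.algebraMap_apply R V M, ← IsScalarTower.algebraMap_apply R (FractionRing R) M]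

/-- Derivations of `M` mapping `R` to integral elements preserve integrality. -/
theorem IsUnram.derivation_isIntegral {R : Type u} {M : Type v} [CommRing R] [IsDomain R]
    [IsNoetherianRing R] [IsIntegrallyClosed R] [Algebra ℂ R] [Field M] [Algebra R M]
    [Algebra (FractionRing R) M] [IsScalarTower R (FractionRing R) M]
    [FiniteDimensional (FractionRing R) M] (hU : IsUnram R M)
    (D : M → M) (hadd : ∀ a b, D (a + b) = D a + D b)
    (hmul : ∀ a b, D (a * b) = D a * b + a * D b)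
    (hD : ∀ r : R, IsIntegral R (D (algebraMap R M r))) (s : M) (hs : IsIntegral R s) :
    IsIntegral R (D s) := by
  haveI : CharZero R := charZero_of_injective_algebraMap (algebraMap ℂ R).injective
  haveI : CharZero (FractionRing R) :=
    charZero_of_injective_algebraMap (IsFractionRing.injective R (FractionRing R))
  haveI : CharZero M := charZero_of_injective_algebraMap (algebraMap (FractionRing R) M).injective
  have hinj : Function.Injective (algebraMap R M) := by
    rw [IsScalarTower.algebraMap_eq R (FractionRing R) M]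
    exact (algebraMap (FractionRing R) M).injective.comp (IsFractionRing.injective R _)
  haveI : FaithfulSMul R M := (faithfulSMul_iff_algebraMap_injective R M).2 hinj
  have halg : ∀ x : M, IsAlgebraic (FractionRing R) x := fun x => Algebra.IsAlgebraic.isAlgebraic x
  refine isIntegral_of_forall_dvr (D s)
    ((IsFractionRing.isAlgebraic_iff R (FractionRing R) M).2 (halg _)) ?_
  intro 𝔭 _ V _ _ _ _ _ _ _ _
  obtain ⟨ϖ, hϖ⟩ := IsDiscreteValuationRing.exists_irreducible V
  obtain ⟨i, hfr, htw⟩ := zb2_fraction (M := M) 𝔭 V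
  haveI : Module.Finite V (integralClosure V M) :=
    IsIntegralClosure.finite V (FractionRing R) M (integralClosure V M)
  have hn : ∀ n : ℕ, n ≠ 0 → IsUnit (n : V) := by
    intro n hn
    have h1 : IsUnit ((n : ℕ) : ℂ) := isUnit_iff_ne_zero.2 (Nat.cast_ne_zero.2 hn)
    have h2 := (h1.map (algebraMap ℂ R)).map (algebraMap R V)
    simpa using h2
  refine derivation_isIntegral_of_dvr hn hϖ (hU 𝔭 V ϖ hϖ) ?_ D hadd hmul ?_ s hs.tower_top
  · intro x
    obtain ⟨y, hy, hxy⟩ :=
      ((IsFractionRing.isAlgebraic_iff V (FractionRing R) M).2 (halg x)).exists_integral_multiple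
    exact ⟨y, hy, by rwa [← Algebra.smul_def]⟩
  · intro v
    obtain ⟨⟨r, t⟩, hrt⟩ := IsLocalization.surj 𝔭.primeCompl v
    simp only at hrt
    obtain ⟨w, hw⟩ := IsLocalization.map_units V t
    have h1 : algebraMap V M v * algebraMap R M (t : R) = algebraMap R M r := by
      rw [IsScalarTower.algebraMap_apply R V M, IsScalarTower.algebraMap_apply R V M, ← map_mul,
        hrt]
    have h2 := hmul (algebraMap V M v) (algebraMap R M (t : R))
    rw [h1] at h2
    have h3 : algebraMap V M (↑w⁻¹ : V) * algebraMap R M (t : R) = 1 := by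
      rw [IsScalarTower.algebraMap_apply R V M, ← map_mul, ← hw, Units.inv_mul, map_one]
    have h4 : D (algebraMap V M v) = algebraMap V M (↑w⁻¹ : V) *
        (D (algebraMap R M r) - algebraMap V M v * D (algebraMap R M (t : R))) := by
      rw [h2]
      linear_combination (-(D (algebraMap V M v))) * h3
    rw [h4]
    refine IsIntegral.mul isIntegral_algebraMap (IsIntegral.sub (hD r).tower_top ?_)
    exact IsIntegral.mul isIntegral_algebraMap (hD _).tower_top

end Vale.Agent.P292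
end

section

/-! Theorem E, general algebra: (DER). See `PROOF.md`. -/

namespace Vale.Agent.P292

open Module Polynomial

universe u v w

/-- (DER) Extension of derivations to algebraic extensions in characteristic zero. -/
theorem exists_derivation_extension {k : Type*} {K : Type u} {Ω : Type v} [CommRing k] [Field K]
    [Field Ω] [CharZero K] [Algebra k K] [Algebra K Ω] [Algebra k Ω] [IsScalarTower k K Ω]
    [Algebra.IsAlgebraic K Ω] (d : Derivation k K Ω) :
    ∃ D : Derivation k Ω Ω, ∀ x, D (algebraMap K Ω x) = d x := by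
  have : Algebra.FormallyEtale K Ω := Algebra.FormallyEtale.of_isSeparable K Ω
  refine ⟨((LinearMap.liftBaseChange Ω d.liftKaehlerDifferential).comp
    (KaehlerDifferential.tensorKaehlerEquivOfFormallyEtale k K Ω).symm.toLinearMap).compDer
    (KaehlerDifferential.D k Ω), fun x => ?_⟩
  rw [Derivation.coe_comp]
  change LinearMap.liftBaseChange Ω d.liftKaehlerDifferential
    ((KaehlerDifferential.tensorKaehlerEquivOfFormallyEtale k K Ω).symm
      (KaehlerDifferential.D k Ω (algebraMap K Ω x))) = d x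
  rw [KaehlerDifferential.tensorKaehlerEquivOfFormallyEtale_symm_D_algebraMap,
    LinearMap.liftBaseChange_tmul, one_smul, Derivation.liftKaehlerDifferential_comp_D]

/-- Derivations vanish on algebraic elements over a ring of constants (general form, for a
derivation `V` over a homomorphism `ψ`). -/
theorem derivation_eq_zero_of_isAlgebraic {A : Type*} {S : Type u} {Ω : Type v} [CommRing A]
    [CommRing S] [Algebra A S] [Field Ω] [CharZero Ω]
    (ψ : S →+* Ω) (hψ : Function.Injective ψ) (V : S →+ Ω)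
    (hV : ∀ p q, V (p * q) = ψ p * V q + ψ q * V p) (hA : ∀ x : A, V (algebraMap A S x) = 0)
    (hinj : Function.Injective (algebraMap A S)) {f : S} (hf : IsAlgebraic A f) : V f = 0 := by
  have h0 : Function.Injective (ψ.comp (algebraMap A S)) := hψ.comp hinj
  have hdom : IsDomain A := h0.isDomain (ψ.comp (algebraMap A S))
  have hch : CharZero A := (ψ.comp (algebraMap A S)).charZero
  have hpow : ∀ n : ℕ, V (f ^ (n + 1)) = (n + 1) * ψ f ^ n * V f := by
    intro n
    induction n with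
    | zero => simp
    | succ n ih =>
      rw [pow_succ f (n + 1), hV, ih, map_pow]
      push_cast
      ring
  have hchain : ∀ p : A[X], V (aeval f p) = ψ (aeval f (derivative p)) * V f := by
    intro p
    induction p using Polynomial.induction_on' with
    | add p q hp hq => rw [map_add, map_add, hp, hq, derivative_add, map_add, map_add, add_mul]
    | monomial n a =>
      rw [aeval_monomial, hV, hA, mul_zero, add_zero, derivative_monomial, aeval_monomial]
      cases n with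
      | zero =>
        have h1 : V (1 : S) = 0 := by
          have h2 := hA 1
          rwa [map_one] at h2
        simp [h1]
      | succ n =>
        rw [hpow, map_mul, map_mul, map_mul, map_pow]
        simp only [Nat.add_sub_cancel]
        push_cast
        simp only [map_add, map_natCast, map_one]
        ring
  have main : ∀ n : ℕ, ∀ p : A[X], p ≠ 0 → aeval f p = 0 → p.natDegree = n → V f = 0 := by
    intro n
    induction n using Nat.strong_induction_on with
    | _ n ih =>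
      intro p hp hpf hpn
      by_cases hd : derivative p = 0
      · exfalso
        apply hp
        have h1 := eq_C_of_derivative_eq_zero hd
        rw [h1, aeval_C] at hpf
        have h2 : p.coeff 0 = 0 := hinj (by rw [hpf, map_zero])
        rw [h1, h2, C_0]
      · by_cases hz : aeval f (derivative p) = 0
        · have hne : p.natDegree ≠ 0 := fun h => hd (derivative_of_natDegree_zero h)
          exact ih _ (hpn ▸ natDegree_derivative_lt hne) _ hd hz rfl
        · have h1 := hchain p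
          rw [hpf, map_zero] at h1
          have h2 : ψ (aeval f (derivative p)) ≠ 0 := (map_ne_zero_iff ψ hψ).2 hz
          exact (mul_eq_zero.1 h1.symm).resolve_left h2
  obtain ⟨p, hp, hpf⟩ := hf
  exact main _ p hp hpf rfl

end Vale.Agent.P292
end

section

/-! # Elimination of (SC): extension of the bracket to an algebraic field extension. -/

namespace Vale.Agent.P292

open Module Polynomial

universe u v w

theorem zb3_formallyEtale {R : Type u} {M : Type v} [CommRing R] [IsDomain R]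
    [Algebra ℂ R] [Field M] [Algebra R M] [FaithfulSMul R M] [Algebra.IsAlgebraic R M] :
    Algebra.FormallyEtale R M := by
  let _ : Algebra (FractionRing R) M := FractionRing.liftAlgebra R M
  have h0 : IsScalarTower R (FractionRing R) M := FractionRing.isScalarTower_liftAlgebra R M
  have h1 : Algebra.FormallyEtale R (FractionRing R) :=
    Algebra.FormallyEtale.of_isLocalization (nonZeroDivisors R)
  have h2 : CharZero (FractionRing R) :=
    charZero_of_injective_algebraMap (algebraMap ℂ (FractionRing R)).injective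
  have h3 : Algebra.IsAlgebraic (FractionRing R) M :=
    (IsFractionRing.comap_isAlgebraic_iff (A := R) (K := FractionRing R) (C := M)).1 inferInstance
  have h4 : Algebra.FormallyEtale (FractionRing R) M :=
    Algebra.FormallyEtale.of_isSeparable (FractionRing R) M
  exact Algebra.FormallyEtale.comp R (FractionRing R) M

/-- Derivations of the domain `R` extend to the algebraic field extension `M` of `Frac R`. -/
theorem exists_derivation_ext {R : Type u} {M : Type v} {N : Type w} [CommRing R] [IsDomain R]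
    [Algebra ℂ R] [Field M] [Algebra ℂ M] [Algebra R M] [IsScalarTower ℂ R M] [FaithfulSMul R M]
    [Algebra.IsAlgebraic R M] [AddCommGroup N] [Module ℂ N] [Module R N] [Module M N]
    [IsScalarTower ℂ R N] [IsScalarTower R M N] [IsScalarTower ℂ M N]
    (d : Derivation ℂ R N) : ∃ D : Derivation ℂ M N, ∀ r, D (algebraMap R M r) = d r := by
  have h1 : Algebra.FormallyEtale R M := zb3_formallyEtale
  refine ⟨((LinearMap.liftBaseChange M d.liftKaehlerDifferential).comp
    (KaehlerDifferential.tensorKaehlerEquivOfFormallyEtale ℂ R M).symm.toLinearMap).compDer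
    (KaehlerDifferential.D ℂ M), fun x => ?_⟩
  rw [Derivation.coe_comp]
  change LinearMap.liftBaseChange M d.liftKaehlerDifferential
    ((KaehlerDifferential.tensorKaehlerEquivOfFormallyEtale ℂ R M).symm
      (KaehlerDifferential.D ℂ M (algebraMap R M x))) = d x
  rw [KaehlerDifferential.tensorKaehlerEquivOfFormallyEtale_symm_D_algebraMap,
    LinearMap.liftBaseChange_tmul, one_smul, Derivation.liftKaehlerDifferential_comp_D]

/-- Derivations of `M` are determined by their restriction to `R`. -/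
theorem eq_zero_of_restrict {R : Type u} {M : Type v} [CommRing R]
    [Algebra ℂ R] [Field M] [Algebra ℂ M] [Algebra R M] [IsScalarTower ℂ R M] [FaithfulSMul R M]
    [Algebra.IsAlgebraic R M] (D : M → M) (hadd : ∀ a b, D (a + b) = D a + D b)
    (hmul : ∀ a b, D (a * b) = D a * b + a * D b)
    (hD : ∀ r : R, D (algebraMap R M r) = 0) (x : M) : D x = 0 := by
  have hch : CharZero M := charZero_of_injective_algebraMap (algebraMap ℂ M).injective
  exact derivation_eq_zero_of_isAlgebraic (A := R) (RingHom.id M) Function.injective_id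
    (AddMonoidHom.mk' D hadd) (fun p q => by
      change D (p * q) = p * D q + q * D p
      rw [hmul]
      ring) hD (FaithfulSMul.algebraMap_injective R M) (Algebra.IsAlgebraic.isAlgebraic x)

/-- The bracket extends to algebraic field extensions. -/
theorem exists_bracket_ext {R : Type u} {M : Type v} [CommRing R] [IsDomain R]
    [Algebra ℂ R] [Field M] [Algebra ℂ M] [Algebra R M] [IsScalarTower ℂ R M] [FaithfulSMul R M]
    [Algebra.IsAlgebraic R M] (P : R →ₗ[ℂ] R →ₗ[ℂ] R) (halt : ∀ a, P a a = 0)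
    (hleib : ∀ a b c, P a (b * c) = P a b * c + b * P a c)
    (hjac : ∀ a b c, P a (P b c) = P (P a b) c + P b (P a c)) :
    ∃ P' : M →ₗ[ℂ] M →ₗ[ℂ] M,
      (∀ r s, P' (algebraMap R M r) (algebraMap R M s) = algebraMap R M (P r s)) ∧
      (∀ a, P' a a = 0) ∧ (∀ a b c, P' a (b * c) = P' a b * c + b * P' a c) ∧
      (∀ a b c, P' a (P' b c) = P' (P' a b) c + P' b (P' a c)) := by
  have hch : CharZero M := charZero_of_injective_algebraMap (algebraMap ℂ M).injective
  have hskewR : ∀ a b, P a b = -P b a := by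
    intro a b
    have h := halt (a + b)
    simp only [map_add, LinearMap.add_apply, halt, zero_add, add_zero] at h
    exact eq_neg_of_add_eq_zero_left (by rw [← h]; abel)
  have hleib1 : ∀ a b c, P (a * b) c = a * P b c + b * P a c := by
    intro a b c
    rw [hskewR, hleib, hskewR a c, hskewR b c]
    ring
  -- uniqueness
  have huniq : ∀ D D' : Derivation ℂ M M,
      (∀ r : R, D (algebraMap R M r) = D' (algebraMap R M r)) → D = D' := by
    intro D D' h
    refine Derivation.ext fun x => ?_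
    have h1 := eq_zero_of_restrict (R := R) (fun y => D y - D' y)
      (fun a b => by simp only [map_add]; ring)
      (fun a b => by simp only [Derivation.leibniz, smul_eq_mul]; ring)
      (fun r => by simp only [h, sub_self]) x
    exact sub_eq_zero.1 h1
  -- the derivations `D_r`
  let dR : R → Derivation ℂ R M := fun r =>
    Derivation.mk' ((Algebra.linearMap R M).restrictScalars ℂ ∘ₗ P r) (fun a b => by
      simp only [LinearMap.comp_apply, LinearMap.coe_restrictScalars, Algebra.linearMap_apply,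
        hleib, map_add, map_mul, Algebra.smul_def]
      ring)
  have hdR : ∀ r s, dR r s = algebraMap R M (P r s) := fun r s => rfl
  have hE : ∀ r : R, ∃ D : Derivation ℂ M M, ∀ s, D (algebraMap R M s) = algebraMap R M (P r s) :=
    fun r => exists_derivation_ext (dR r)
  choose E hE using hE
  have hEadd : ∀ r r', E (r + r') = E r + E r' := by
    intro r r'
    refine huniq _ _ fun s => ?_
    rw [Derivation.add_apply, hE, hE, hE, map_add, LinearMap.add_apply, map_add]
  have hEsmul : ∀ (c : ℂ) r, E (c • r) = c • E r := by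
    intro c r
    refine huniq _ _ fun s => ?_
    rw [Derivation.smul_apply, hE, hE, map_smul, LinearMap.smul_apply, Algebra.smul_def,
      Algebra.smul_def, map_mul, ← IsScalarTower.algebraMap_apply]
  let E' : R →ₗ[ℂ] Derivation ℂ M M :=
    { toFun := E
      map_add' := hEadd
      map_smul' := fun c r => by rw [hEsmul, RingHom.id_apply] }
  let E'' : Derivation ℂ R (Derivation ℂ M M) :=
    Derivation.mk' E' (fun a b => by
      change E (a * b) = a • E b + b • E a
      refine huniq _ _ fun s => ?_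
      rw [Derivation.add_apply, Derivation.smul_apply, Derivation.smul_apply, hE, hE, hE,
        hleib1, map_add, map_mul, map_mul, Algebra.smul_def, Algebra.smul_def])
  obtain ⟨F, hF⟩ : ∃ F : Derivation ℂ M (Derivation ℂ M M), ∀ r, F (algebraMap R M r) = E'' r :=
    exists_derivation_ext E''
  have hFE : ∀ r, F (algebraMap R M r) = E r := hF
  have hRR : ∀ r s, F (algebraMap R M r) (algebraMap R M s) = algebraMap R M (P r s) := by
    intro r s
    rw [hFE, hE]
  have hF2 : ∀ a b c, F a (b * c) = F a b * c + b * F a c := by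
    intro a b c
    rw [Derivation.leibniz, smul_eq_mul, smul_eq_mul]
    ring
  have hF1 : ∀ a b c, F (a * b) c = F a c * b + a * F b c := by
    intro a b c
    rw [Derivation.leibniz, Derivation.add_apply, Derivation.smul_apply, Derivation.smul_apply,
      smul_eq_mul, smul_eq_mul]
    ring
  have hA1 : ∀ a b c, F (a + b) c = F a c + F b c := by
    intro a b c
    rw [map_add, Derivation.add_apply]
  have hA2 : ∀ a b c, F a (b + c) = F a b + F a c := by
    intro a b c
    rw [map_add]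
  have hS1 : ∀ (r : R) y, F (algebraMap R M r) y + F y (algebraMap R M r) = 0 := by
    intro r y
    refine eq_zero_of_restrict (R := R)
      (fun y => F (algebraMap R M r) y + F y (algebraMap R M r)) ?_ ?_ ?_ y
    · intro a b
      simp only [hA1, hA2]
      ring
    · intro a b
      simp only [hF1, hF2]
      ring
    · intro s
      rw [hRR, hRR, hskewR r s, map_neg, neg_add_cancel]
  have hS : ∀ x y, F x y + F y x = 0 := by
    intro x y
    refine eq_zero_of_restrict (R := R) (fun x => F x y + F y x) ?_ ?_ ?_ x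
    · intro a b
      simp only [hA1, hA2]
      ring
    · intro a b
      simp only [hF1, hF2]
      ring
    · intro r
      exact hS1 r y
  have hsk : ∀ x y, F x y = -F y x := fun x y => eq_neg_of_add_eq_zero_left (hS x y)
  have hneg : ∀ x y, F x (-y) = -F x y := fun x y => map_neg _ _
  -- the Jacobi expression
  obtain ⟨J, hJ⟩ : ∃ J : M → M → M → M, ∀ x y z,
      J x y z = F x (F y z) - F (F x y) z - F y (F x z) := ⟨_, fun _ _ _ => rfl⟩
  have hJadd : ∀ x y a b, J x y (a + b) = J x y a + J x y b := by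
    intro x y a b
    rw [hJ, hJ, hJ]
    simp only [hA2]
    ring
  have hJmul : ∀ x y a b, J x y (a * b) = J x y a * b + a * J x y b := by
    intro x y a b
    rw [hJ, hJ, hJ]
    simp only [hF2, hA2]
    ring
  have hJ23 : ∀ x y z, J x z y = -J x y z := by
    intro x y z
    rw [hJ, hJ, hsk z y, hneg, hsk (F x z) y, hsk z (F x y)]
    ring
  have hneg1 : ∀ x y, F (-x) y = -F x y := by
    intro x y
    rw [map_neg, Derivation.neg_apply]
  have hJ12 : ∀ x y z, J y x z = -J x y z := by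
    intro x y z
    rw [hJ, hJ, hsk y x, hneg1]
    ring
  have hJa : ∀ (r s : R) z, J (algebraMap R M r) (algebraMap R M s) z = 0 := by
    intro r s z
    refine eq_zero_of_restrict (R := R) (J (algebraMap R M r) (algebraMap R M s))
      (hJadd _ _) (hJmul _ _) ?_ z
    intro q
    rw [hJ, hRR, hRR, hRR, hRR, hRR, hRR, ← map_sub, ← map_sub, hjac, ← map_zero (algebraMap R M)]
    congr 1
    ring
  have hJb : ∀ (r : R) y z, J (algebraMap R M r) y z = 0 := by
    intro r y z
    have h := eq_zero_of_restrict (R := R) (J (algebraMap R M r) z)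
      (hJadd _ _) (hJmul _ _) (fun s => by rw [hJ23, hJa, neg_zero]) y
    rw [hJ23, neg_eq_zero] at h
    exact h
  have hJc : ∀ x y z, J x y z = 0 := by
    intro x y z
    have h := eq_zero_of_restrict (R := R) (J y z)
      (hJadd _ _) (hJmul _ _) (fun r => by rw [hJ23, hJ12, hJb, neg_zero, neg_zero]) x
    rw [hJ23, hJ12, neg_neg] at h
    exact h
  refine ⟨LinearMap.mk₂ ℂ (fun x y => F x y) hA1 (fun c x y => by
    rw [Derivation.map_smul, Derivation.smul_apply]) hA2 (fun c x y => (F x).map_smul c y), ?_, ?_,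
    ?_, ?_⟩
  · intro r s
    exact hRR r s
  · intro a
    change F a a = 0
    have h := hS a a
    rw [← two_mul] at h
    exact (mul_eq_zero.1 h).resolve_left two_ne_zero
  · intro a b c
    exact hF2 a b c
  · intro a b c
    change F a (F b c) = F (F a b) c + F b (F a c)
    have h := hJc a b c
    rw [hJ] at h
    linear_combination h

end Vale.Agent.P292
end

section

/-! Theorem E, section 4: nondegeneracy at a point of the source. See `PROOF.md`. -/

namespace Vale.Agent.P292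

open Module

universe u v

variable {R : Type u} [CommRing R] [Algebra ℂ R] {𝒜 : ℕ → Submodule ℂ R} [GradedAlgebra 𝒜]
  {P : R →ₗ[ℂ] R →ₗ[ℂ] R} {H : R} {a : ℤ} {n : ℕ}

theorem ce1_skew (C : Ctx 𝒜 P H a) (r s : R) : P r s = -P s r := by
  have h := C.hX.alternating (r + s)
  rw [map_add, map_add, LinearMap.add_apply, LinearMap.add_apply, C.hX.alternating,
    C.hX.alternating, zero_add, add_zero] at h
  exact eq_neg_of_add_eq_zero_right h

/-- Brackets of the wrong weight are killed by the points of the source. -/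
theorem ce1_kill (C : Ctx 𝒜 P H a) {y : R →ₐ[ℂ] ℂ} (hy : HasSlope 𝒜 P H y a) {k l : ℕ}
    {m m' : ℤ} {r s : R} (hr : r ∈ Wt 𝒜 P H k m) (hs : s ∈ Wt 𝒜 P H l m')
    (hm : m + m' ≠ a * k + a * l - a) : y (P r s) = 0 := by
  rcases Nat.eq_zero_or_pos (k + l) with h0 | h0
  · have hk : k = 0 := by omega
    subst hk
    obtain ⟨c, rfl⟩ := C.hX.connected r (mem_Wt.mp hr).1
    rw [ce1_skew C, Algebra.algebraMap_eq_smul_one, map_smul, C.hX.P_one_right, smul_zero,
      neg_zero, map_zero]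
  · obtain ⟨j, hj⟩ : ∃ j, k + l = j + 1 := ⟨k + l - 1, by omega⟩
    have h1 := Wt_P C.hX hj hr hs
    refine ((hasSlope_iff C.hH y a).1 hy).2 j _ _ h1 ?_
    intro h2
    apply hm
    have h3 : ((k : ℤ) + l) = j + 1 := by exact_mod_cast hj
    rw [h2]
    linear_combination (-a) * h3

/-- Pairing with all defect one elements detects `(ker y)²`. -/
theorem Ctx.mem_ker_sq_of_Ap (C : Ctx 𝒜 P H a) {y : R →ₐ[ℂ] ℂ} (hy : HasSlope 𝒜 P H y a)
    {b : R} (hb : b ∈ Ap 𝒜 P H a)
    (h : ∀ (k : ℕ), ∀ r ∈ Wt 𝒜 P H k (a * k - a), y (P b r) = 0) :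
    b - algebraMap ℂ R (y b) ∈ RingHom.ker y ^ 2 := by
  apply C.hX.nondegenerate y hy.1
  have h1 : y.toLinearMap ∘ₗ P b = 0 := by
    apply C.ext_Wt
    intro l m r hr
    change y (P b r) = 0
    by_cases hm : m = a * l - a
    · subst hm
      exact h l r hr
    · refine C.Ap_induction (p := fun b => y (P b r) = 0) ?_ ?_ ?_ b hb
      · intro k b hb
        exact ce1_kill C hy hb hr (fun h2 => hm (by linarith))
      · simp
      · intro b c hb hc
        rw [map_add, LinearMap.add_apply, map_add, hb, hc, add_zero]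
  intro r
  exact LinearMap.congr_fun h1 r

/-- Elements of defect one pairing trivially with `A₊` lie in `(ker y)²`. -/
theorem Ctx.mem_ker_sq_of_defect_one (C : Ctx 𝒜 P H a) {y : R →ₐ[ℂ] ℂ}
    (hy : HasSlope 𝒜 P H y a) {r : R}
    (hr : r ∈ ⨆ k : ℕ, Wt 𝒜 P H k (a * k - a))
    (h : ∀ b ∈ Ap 𝒜 P H a, y (P b r) = 0) : r ∈ RingHom.ker y ^ 2 := by
  have ha := C.pos
  have hyr : y r = 0 := by
    have h1 : (⨆ k : ℕ, Wt 𝒜 P H k (a * k - a)) ≤ LinearMap.ker y.toLinearMap :=
      iSup_le fun k s hs => ((hasSlope_iff C.hH y a).1 hy).2 k _ s hs (by omega)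
    exact h1 hr
  have h2 := C.hX.nondegenerate y hy.1 r (fun v => by
    have h3 : y.toLinearMap ∘ₗ P r = 0 := by
      apply C.ext_Wt
      intro l m v hv
      change y (P r v) = 0
      by_cases hm : m = a * l
      · subst hm
        rw [ce1_skew C, map_neg, h v (mem_Ap hv), neg_zero]
      · have h4 : (⨆ k : ℕ, Wt 𝒜 P H k (a * k - a)) ≤
            LinearMap.ker (y.toLinearMap ∘ₗ P.flip v) :=
          iSup_le fun k s hs => ce1_kill C hy hs hv (fun h5 => hm (by linarith))
        exact h4 hr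
    exact LinearMap.congr_fun h3 v)
  rwa [hyr, map_zero, sub_zero] at h2

/-- Elements of defect greater than `a` lie in `(ker y)²`. -/
theorem Ctx.mem_ker_sq_of_defect (C : Ctx 𝒜 P H a) {y : R →ₐ[ℂ] ℂ}
    (hy : HasSlope 𝒜 P H y a) {k : ℕ} {m : ℤ} (hm : m < a * k - a) {r : R}
    (hr : r ∈ Wt 𝒜 P H k m) : r ∈ RingHom.ker y ^ 2 := by
  have ha := C.pos
  have hyr : y r = 0 := ((hasSlope_iff C.hH y a).1 hy).2 k _ r hr (by omega)
  have h2 := C.hX.nondegenerate y hy.1 r (fun v => by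
    have h3 : y.toLinearMap ∘ₗ P r = 0 := by
      apply C.ext_Wt
      intro l m' v hv
      change y (P r v) = 0
      by_cases hv0 : v = 0
      · rw [hv0, map_zero, map_zero]
      · have h4 := le_of_abs_le (C.abs_le hv hv0)
        exact ce1_kill C hy hr hv (by intro h5; linarith)
    exact LinearMap.congr_fun h3 v)
  rwa [hyr, map_zero, sub_zero] at h2

end Vale.Agent.P292
end

section

/-! Theorem E, section 4: `(ker y)²` is graded by the defect. See `PROOF.md`. -/

namespace Vale.Agent.P292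

open Module

universe u v

variable {R : Type u} [CommRing R] [Algebra ℂ R] {𝒜 : ℕ → Submodule ℂ R} [GradedAlgebra 𝒜]
  {P : R →ₗ[ℂ] R →ₗ[ℂ] R} {H : R} {a : ℤ} {n : ℕ}

/-- The homomorphism `r ↦ r X ^ defect`. -/
lemma ce2_exists_hom (C : Ctx 𝒜 P H a) :
    ∃ c : R →ₐ[ℂ] Polynomial R, ∀ (k : ℕ) (m : ℤ), ∀ r ∈ Wt 𝒜 P H k m,
      c r = Polynomial.monomial (a * k - m).toNat r := by
  obtain ⟨c, hc⟩ := C.exists_hom
    (fun (k : ℕ) (m : ℤ) =>
      ((Polynomial.monomial (a * k - m).toNat : R →ₗ[R] Polynomial R).restrictScalars ℂ))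
    (by simp) (by
      intro k l m n r hr s hs
      simp only [LinearMap.restrictScalars_apply, Polynomial.monomial_mul_monomial]
      by_cases hr0 : r = 0
      · simp [hr0]
      by_cases hs0 : s = 0
      · simp [hs0]
      have h1 := C.abs_le hr hr0
      have h2 := C.abs_le hs hs0
      have h3 : m ≤ a * k := (le_abs_self m).trans h1
      have h4 : n ≤ a * l := (le_abs_self n).trans h2
      have h5 : (a * ((k + l : ℕ) : ℤ) - (m + n)).toNat =
          (a * k - m).toNat + (a * l - n).toNat := by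
        rw [← Int.toNat_add (by omega) (by omega)]
        congr 1
        push_cast
        ring
      rw [h5])
  exact ⟨c, fun k m r hr => by rw [hc k m r hr]; rfl⟩

lemma ce2_coeff_mem (C : Ctx 𝒜 P H a) {c : R →ₐ[ℂ] Polynomial R}
    (hc : ∀ (k : ℕ) (m : ℤ), ∀ r ∈ Wt 𝒜 P H k m,
      c r = Polynomial.monomial (a * k - m).toNat r) (u : R) (j : ℕ) :
    (c u).coeff j ∈ ⨆ k : ℕ, Wt 𝒜 P H k (a * k - (j : ℤ)) := by
  refine C.induction_Wt (p := fun u => (c u).coeff j ∈ ⨆ k : ℕ, Wt 𝒜 P H k (a * k - (j : ℤ)))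
    ?_ ?_ ?_ u
  · intro k m r hr
    rw [hc k m r hr, Polynomial.coeff_monomial]
    split_ifs with hj
    · by_cases hr0 : r = 0
      · rw [hr0]; exact zero_mem _
      have h1 : m ≤ a * k := (le_abs_self m).trans (C.abs_le hr hr0)
      have h2 : m = a * k - (j : ℤ) := by omega
      subst h2
      exact Submodule.mem_iSup_of_mem k hr
    · exact zero_mem _
  · simp
  · intro r s hr hs
    simp only [map_add, Polynomial.coeff_add]
    exact add_mem hr hs

lemma ce2_y_eq (C : Ctx 𝒜 P H a) {c : R →ₐ[ℂ] Polynomial R}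
    (hc : ∀ (k : ℕ) (m : ℤ), ∀ r ∈ Wt 𝒜 P H k m,
      c r = Polynomial.monomial (a * k - m).toNat r) {y : R →ₐ[ℂ] ℂ}
    (hy : HasSlope 𝒜 P H y a) (u : R) (j : ℕ) :
    y ((c u).coeff j) = if j = 0 then y u else 0 := by
  refine C.induction_Wt (p := fun u => y ((c u).coeff j) = if j = 0 then y u else 0)
    ?_ ?_ ?_ u
  · intro k m r hr
    rw [hc k m r hr, Polynomial.coeff_monomial]
    by_cases hr0 : r = 0
    · subst hr0
      simp
    have h1 : m ≤ a * k := (le_abs_self m).trans (C.abs_le hr hr0)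
    have h3 := hy.2 k r (mem_Wt.mp hr).1
    rw [(mem_Wt.mp hr).2, map_smul, smul_eq_mul] at h3
    have h4 : m = a * k ∨ y r = 0 := by
      have h5 : ((m : ℂ) - ((a * k : ℤ) : ℂ)) * y r = 0 := by
        rw [sub_mul, h3, sub_self]
      rcases mul_eq_zero.mp h5 with h6 | h6
      · left
        have h7 : (m : ℂ) = ((a * k : ℤ) : ℂ) := sub_eq_zero.mp h6
        exact_mod_cast h7
      · right; exact h6
    rcases h4 with h4 | h4
    · subst h4
      by_cases hj : j = 0
      · subst hj; simp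
      · have : ¬ ((a * k - a * k : ℤ).toNat = j) := by simp; omega
        rw [if_neg this, if_neg hj, map_zero]
    · rw [h4]
      split_ifs <;> simp [h4]
  · simp
  · intro r s hr hs
    simp only [map_add, Polynomial.coeff_add, hr, hs]
    split_ifs <;> simp

omit [GradedAlgebra 𝒜] in
lemma ce2_c_defect {c : R →ₐ[ℂ] Polynomial R}
    (hc : ∀ (k : ℕ) (m : ℤ), ∀ r ∈ Wt 𝒜 P H k m,
      c r = Polynomial.monomial (a * k - m).toNat r) {δ : ℤ} {r : R}
    (hr : r ∈ ⨆ k : ℕ, Wt 𝒜 P H k (a * k - δ)) : (c r).coeff δ.toNat = r := by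
  refine Submodule.iSup_induction (fun k : ℕ => Wt 𝒜 P H k (a * k - δ))
    (motive := fun r => (c r).coeff δ.toNat = r) hr ?_ ?_ ?_
  · intro k r hr
    rw [hc k _ r hr]
    have : (a * (k : ℤ) - (a * k - δ)).toNat = δ.toNat := by
      congr 1; ring
    rw [this, Polynomial.coeff_monomial, if_pos rfl]
  · simp
  · intro r s hr hs
    rw [map_add, Polynomial.coeff_add, hr, hs]

/-- `(ker y)²` is graded by the defect: a bihomogeneous element (or a sum of elements of the
same defect `δ > 0`) of `(ker y)²` is a sum of products of elements of `ker y` with defects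
adding up to `δ`, each factor being either in `A₊ ∩ ker y` or a sum of elements of a fixed
positive defect. -/
theorem Ctx.ker_sq_graded (C : Ctx 𝒜 P H a) {y : R →ₐ[ℂ] ℂ} (hy : HasSlope 𝒜 P H y a)
    {δ : ℤ} {r : R} (hr : r ∈ ⨆ k : ℕ, Wt 𝒜 P H k (a * k - δ)) (h : r ∈ RingHom.ker y ^ 2) :
    r ∈ Submodule.span ℂ {s | ∃ δ₁ δ₂ : ℤ, 0 ≤ δ₁ ∧ 0 ≤ δ₂ ∧ δ₁ + δ₂ = δ ∧
      ∃ u ∈ (⨆ k : ℕ, Wt 𝒜 P H k (a * k - δ₁)), ∃ v ∈ (⨆ k : ℕ, Wt 𝒜 P H k (a * k - δ₂)),
        y u = 0 ∧ y v = 0 ∧ s = u * v} := by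
  by_cases hδ : 0 ≤ δ
  swap
  · -- negative defect: `r = 0`
    have h0 : r = 0 := by
      refine Submodule.iSup_induction (fun k : ℕ => Wt 𝒜 P H k (a * k - δ))
        (motive := fun r => r = 0) hr ?_ rfl ?_
      · intro k s hs
        by_contra hs0
        have h1 : a * k - δ ≤ a * k := (le_abs_self _).trans (C.abs_le hs hs0)
        omega
      · intro s t hs ht
        rw [hs, ht, add_zero]
    rw [h0]
    exact zero_mem _
  obtain ⟨c, hc⟩ := ce2_exists_hom C
  have hcoe : ((δ.toNat : ℕ) : ℤ) = δ := Int.toNat_of_nonneg hδ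
  rw [← ce2_c_defect hc hr]
  clear hr
  rw [sq] at h
  refine Submodule.mul_induction_on h ?_ ?_
  · intro u hu v hv
    have hu' : y u = 0 := hu
    have hv' : y v = 0 := hv
    rw [map_mul, Polynomial.coeff_mul]
    refine Submodule.sum_mem _ fun p hp => ?_
    refine Submodule.subset_span ⟨(p.1 : ℤ), (p.2 : ℤ), by positivity, by positivity, ?_,
      _, ce2_coeff_mem C hc u p.1, _, ce2_coeff_mem C hc v p.2, ?_, ?_, rfl⟩
    · rw [Finset.HasAntidiagonal.mem_antidiagonal] at hp
      rw [← hcoe, ← hp]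
      push_cast
      ring
    · rw [ce2_y_eq C hc hy, hu', ite_self]
    · rw [ce2_y_eq C hc hy, hv', ite_self]
  · intro s t hs ht
    rw [map_add, Polynomial.coeff_add]
    exact add_mem hs ht

end Vale.Agent.P292
end

section

/-! Theorem E, section 4: (CELL). See `PROOF.md`. -/

namespace Vale.Agent.P292

open Module

universe u v

variable {R : Type u} [CommRing R] [Algebra ℂ R] {𝒜 : ℕ → Submodule ℂ R} [GradedAlgebra 𝒜]
  {P : R →ₗ[ℂ] R →ₗ[ℂ] R} {H : R} {a : ℤ} {n : ℕ}

/-- antisymmetry of the bracket -/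
theorem ce4_neg (hX : IsContactFano 𝒜 P) (r s : R) : P r s = -P s r := by
  have h := hX.alternating (r + s)
  simp only [map_add, LinearMap.add_apply, hX.alternating, zero_add, add_zero] at h
  exact eq_neg_of_add_eq_zero_right h

/-- `b ↦ y {b, r}` kills `(ker y)²`. -/
theorem ce4_ker_sq (hX : IsContactFano 𝒜 P) (y : R →ₐ[ℂ] ℂ) (r : R) {s : R}
    (hs : s ∈ RingHom.ker y ^ 2) : y (P s r) = 0 := by
  rw [ce4_neg hX, map_neg, neg_eq_zero]
  rw [pow_two] at hs
  refine Submodule.mul_induction_on hs (fun u hu v hv => ?_) (fun u v hu hv => ?_)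
  · rw [RingHom.mem_ker] at hu hv
    rw [hX.leibniz, map_add, map_mul, map_mul, hu, hv, mul_zero, zero_mul, add_zero]
  · rw [map_add, map_add, hu, hv, add_zero]

/-- `{1, r} = 0`. -/
theorem ce4_one (hX : IsContactFano 𝒜 P) (c : ℂ) (r : R) : P (algebraMap ℂ R c) r = 0 := by
  rw [ce4_neg hX, neg_eq_zero]
  have h := hX.leibniz r 1 1
  rw [mul_one, one_mul, mul_one] at h
  have h1 : P r 1 = 0 := by
    have h2 : P r 1 + 0 = P r 1 + P r 1 := by rw [add_zero]; exact h
    exact (add_left_cancel h2).symm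
  rw [Algebra.algebraMap_eq_smul_one, map_smul, h1, smul_zero]

/-- If `y {b_i, r} = 0` for all `i` then `y {b, r} = 0` for `b ∈ A₊`. -/
theorem ce4_complete (C : Ctx 𝒜 P H a) {y : R →ₐ[ℂ] ℂ} (f : Frame 𝒜 P H a n)
    (hf : f.Complete y) {r : R} (hr : ∀ i, y (P (f.b i) r) = 0) :
    ∀ b ∈ Ap 𝒜 P H a, y (P b r) = 0 := by
  intro b hb
  obtain ⟨γ, hγ⟩ := hf b hb
  have h1 := ce4_ker_sq C.hX y r hγ
  simp only [map_sub, map_sum, map_smul, LinearMap.sub_apply, LinearMap.sum_apply,
    LinearMap.smul_apply, ce4_one C.hX, sub_zero, hr, smul_zero, Finset.sum_const_zero] at h1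
  exact h1

section
variable {B : Type v} [CommRing B] [Algebra ℂ B]

/-- products of elements of smaller defects -/
theorem ce4_prod (C : Ctx 𝒜 P H a) {y : R →ₐ[ℂ] ℂ} (hy : HasSlope 𝒜 P H y a)
    (x x' : R →ₐ[ℂ] B) (hx : ∀ c ∈ Ap 𝒜 P H a, x c = algebraMap ℂ B (y c))
    (hx' : ∀ c ∈ Ap 𝒜 P H a, x' c = algebraMap ℂ B (y c)) (δ : ℕ)
    (ih : ∀ δ' : ℕ, δ' < δ → ∀ r ∈ ⨆ k : ℕ, Wt 𝒜 P H k (a * k - δ'), x r = x' r) {r : R}
    (hr : r ∈ ⨆ k : ℕ, Wt 𝒜 P H k (a * k - δ)) (h : r ∈ RingHom.ker y ^ 2) : x r = x' r := by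
  have h1 := C.ker_sq_graded hy hr h
  have hle : Submodule.span ℂ {s | ∃ δ₁ δ₂ : ℤ, 0 ≤ δ₁ ∧ 0 ≤ δ₂ ∧ δ₁ + δ₂ = δ ∧
      ∃ u ∈ (⨆ k : ℕ, Wt 𝒜 P H k (a * k - δ₁)), ∃ v ∈ (⨆ k : ℕ, Wt 𝒜 P H k (a * k - δ₂)),
        y u = 0 ∧ y v = 0 ∧ s = u * v} ≤ LinearMap.eqLocus x.toLinearMap x'.toLinearMap := by
    rw [Submodule.span_le]
    rintro s ⟨δ₁, δ₂, h1, h2, h12, u, hu, v, hv, hyu, hyv, rfl⟩
    change x (u * v) = x' (u * v)
    have hAp : ∀ w : R, w ∈ (⨆ k : ℕ, Wt 𝒜 P H k (a * k - (0 : ℤ))) → w ∈ Ap 𝒜 P H a := by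
      intro w hw
      have h3 : (⨆ k : ℕ, Wt 𝒜 P H k (a * k - (0 : ℤ))) ≤
          Subalgebra.toSubmodule (Ap 𝒜 P H a) := iSup_le fun k w hw => by
        rw [sub_zero] at hw
        exact mem_Ap hw
      exact h3 hw
    rw [map_mul, map_mul]
    rcases h1.eq_or_lt with rfl | h1'
    · rw [hx u (hAp u hu), hx' u (hAp u hu), hyu, map_zero, zero_mul, zero_mul]
    · rcases h2.eq_or_lt with rfl | h2'
      · rw [hx v (hAp v hv), hx' v (hAp v hv), hyv, map_zero, mul_zero, mul_zero]
      · lift δ₁ to ℕ using h1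
        lift δ₂ to ℕ using h2
        rw [ih δ₁ (by omega) u hu, ih δ₂ (by omega) v hv]
  exact hle h1

/-- Two homomorphisms of type W which agree with `y` on `A₊` and on the `r_j` are equal. -/
theorem ce4_eq (C : Ctx 𝒜 P H a) {y : R →ₐ[ℂ] ℂ} (hy : HasSlope 𝒜 P H y a)
    (f : Frame 𝒜 P H a n) (hΔ : y f.Δ ≠ 0) (hf : f.Complete y) (x x' : R →ₐ[ℂ] B)
    (hW : TypeW 𝒜 P H a x) (hW' : TypeW 𝒜 P H a x')
    (hx : ∀ c ∈ Ap 𝒜 P H a, x c = algebraMap ℂ B (y c))
    (hx' : ∀ c ∈ Ap 𝒜 P H a, x' c = algebraMap ℂ B (y c)) (hr : ∀ j, x (f.r j) = x' (f.r j)) :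
    ∀ (δ : ℕ), ∀ r ∈ ⨆ k : ℕ, Wt 𝒜 P H k (a * k - δ), x r = x' r := by
  have hpos := C.pos
  have hdet : IsUnit (f.mat.map y).det := by
    rw [isUnit_iff_ne_zero]
    have e : (f.mat.map y).det = y f.Δ := by
      rw [Frame.Δ, ← AlgHom.coe_toRingHom, RingHom.map_det]
      rfl
    rw [e]
    exact hΔ
  intro δ
  induction δ using Nat.strong_induction_on with
  | _ δ ih =>
    intro r hrδ
    rcases Nat.eq_zero_or_pos δ with rfl | hδ
    · have h3 : (⨆ k : ℕ, Wt 𝒜 P H k (a * k - ((0 : ℕ) : ℤ))) ≤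
          Subalgebra.toSubmodule (Ap 𝒜 P H a) := iSup_le fun k w hw => by
        rw [Nat.cast_zero, sub_zero] at hw
        exact mem_Ap hw
      rw [hx r (h3 hrδ), hx' r (h3 hrδ)]
    · by_cases hdvd : a ∣ (δ : ℤ)
      · rcases (Int.le_of_dvd (by exact_mod_cast hδ) hdvd).eq_or_lt with heq | hlt
        · -- defect one
          have hrW : r ∈ ⨆ k : ℕ, Wt 𝒜 P H k (a * k - a) := by rw [heq]; rw [heq] at hrδ; exact hrδ
          set c : Fin n → ℂ := (f.mat.map y)⁻¹.mulVec (fun i => y (P (f.b i) r)) with hc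
          have hc2 : (f.mat.map y).mulVec c = fun i => y (P (f.b i) r) := by
            rw [hc, Matrix.mulVec_mulVec, Matrix.mul_nonsing_inv _ hdet, Matrix.one_mulVec]
          set r' : R := r - ∑ j, c j • f.r j with hr'
          have hmem : ∑ j, c j • f.r j ∈ ⨆ k : ℕ, Wt 𝒜 P H k (a * k - a) :=
            Submodule.sum_mem _ fun j _ => Submodule.smul_mem _ _
              ((le_iSup (fun k : ℕ => Wt 𝒜 P H k (a * k - a)) (f.kr j)) (f.hr j))
          have hr'W : r' ∈ ⨆ k : ℕ, Wt 𝒜 P H k (a * k - a) := Submodule.sub_mem _ hrW hmem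
          have h0 : ∀ i, y (P (f.b i) r') = 0 := by
            intro i
            have h1 := congrFun hc2 i
            rw [hr', map_sub, map_sub, map_sum, map_sum, ← h1, sub_eq_zero]
            simp only [Matrix.mulVec, dotProduct, Matrix.map_apply, Frame.mat, Matrix.of_apply,
              map_smul, smul_eq_mul]
            exact Finset.sum_congr rfl fun j _ => mul_comm _ _
          have hsq := C.mem_ker_sq_of_defect_one hy hr'W (ce4_complete C f hf h0)
          have h2 : x r' = x' r' :=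
            ce4_prod C hy x x' hx hx' δ ih (by rw [← heq]; exact hr'W) hsq
          have h3 : r = r' + ∑ j, c j • f.r j := by rw [hr']; ring
          rw [h3, map_add, map_add, h2, map_sum, map_sum]
          congr 1
          exact Finset.sum_congr rfl fun j _ => by rw [map_smul, map_smul, hr j]
        · -- defect greater than one
          refine ce4_prod C hy x x' hx hx' δ ih hrδ ?_
          have h3 : (⨆ k : ℕ, Wt 𝒜 P H k (a * k - δ)) ≤
              (RingHom.ker y ^ 2).restrictScalars ℂ := iSup_le fun k w hw =>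
            C.mem_ker_sq_of_defect hy (by omega) hw
          exact h3 hrδ
      · have h3 : (⨆ k : ℕ, Wt 𝒜 P H k (a * k - δ)) ≤
            LinearMap.eqLocus x.toLinearMap x'.toLinearMap := iSup_le fun k w hw => by
          have h4 : ¬ a ∣ a * k - δ := fun h => hdvd (by
            have := dvd_sub (Dvd.intro _ rfl : a ∣ a * (k : ℤ)) h
            rwa [sub_sub_cancel] at this)
          change x w = x' w
          rw [hW k _ h4 w hw, hW' k _ h4 w hw]
        exact h3 hrδ

end

/-- (CELL) -/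
theorem Ctx.cell_lemma (C : Ctx 𝒜 P H a) {y : R →ₐ[ℂ] ℂ} (hy : HasSlope 𝒜 P H y a)
    (f : Frame 𝒜 P H a n) (hΔ : y f.Δ ≠ 0) (hf : f.Complete y)
    {B : Type v} [CommRing B] [Algebra ℂ B] (x : R →ₐ[ℂ] B) (hW : TypeW 𝒜 P H a x)
    (hx : ∀ c ∈ Ap 𝒜 P H a, x c = algebraMap ℂ B (y c)) :
    ∃ ξ : Fin n → B, ∀ r, x r = MvPolynomial.aeval ξ (C.cell f y r) := by
  have hpure : PureA 𝒜 P H a y := (C.hasSlope_iff_pure.1 hy).1
  have hpos := C.pos
  have hdet : IsUnit (f.mat.map y).det := by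
    rw [isUnit_iff_ne_zero]
    have e : (f.mat.map y).det = y f.Δ := by
      rw [Frame.Δ, ← AlgHom.coe_toRingHom, RingHom.map_det]
      rfl
    rw [e]
    exact hΔ
  set N : Matrix (Fin n) (Fin n) ℂ := f.mat.map y with hN
  set ξ : Fin n → B := fun i => ∑ j, algebraMap ℂ B (N⁻¹ j i) * x (f.r j) with hξ
  refine ⟨ξ, ?_⟩
  set x' : R →ₐ[ℂ] B := (MvPolynomial.aeval ξ).comp (C.cell f y) with hx'def
  have hx'r : ∀ r, x' r = MvPolynomial.aeval ξ (C.cell f y r) := fun r => rfl
  have hx'A : ∀ c ∈ Ap 𝒜 P H a, x' c = algebraMap ℂ B (y c) := by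
    intro c hc
    rw [hx'r, C.cell_Ap f y hc, MvPolynomial.aeval_C]
  have hW' : TypeW 𝒜 P H a x' := (C.typeW_cell f hpure).comp _
  have hr : ∀ j, x (f.r j) = x' (f.r j) := by
    intro j
    rw [hx'r, C.cell_defect_one f hpure (f.hr j), map_sum]
    have e1 : ∀ i, MvPolynomial.aeval ξ (MvPolynomial.C (y (P (f.b i) (f.r j))) *
        MvPolynomial.X i) = ∑ j', algebraMap ℂ B (N⁻¹ j' i * N i j) * x (f.r j') := by
      intro i
      rw [map_mul, MvPolynomial.aeval_C, MvPolynomial.aeval_X, hξ]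
      simp only [Finset.mul_sum]
      refine Finset.sum_congr rfl fun j' _ => ?_
      have e2 : N i j = y (P (f.b i) (f.r j)) := rfl
      rw [e2, map_mul]
      ring
    simp only [e1]
    rw [Finset.sum_comm]
    have e3 : ∀ j', ∑ i, algebraMap ℂ B (N⁻¹ j' i * N i j) * x (f.r j') =
        algebraMap ℂ B ((1 : Matrix (Fin n) (Fin n) ℂ) j' j) * x (f.r j') := by
      intro j'
      rw [← Finset.sum_mul, ← map_sum, ← Matrix.nonsing_inv_mul N hdet]
      rfl
    simp only [e3, Matrix.one_apply]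
    simp
  have key := ce4_eq C hy f hΔ hf x x' hW hW' hx hx'A hr
  have hall : x.toLinearMap = x'.toLinearMap := by
    refine C.ext_Wt _ _ fun k m r hr => ?_
    change x r = x' r
    by_cases h0 : r = 0
    · rw [h0, map_zero, map_zero]
    · have h1 := C.abs_le hr h0
      have h2 : 0 ≤ a * k - m := by
        have := (le_abs_self m).trans h1
        linarith
      obtain ⟨δ, hδ⟩ := Int.eq_ofNat_of_zero_le h2
      refine key δ r ((le_iSup (fun k : ℕ => Wt 𝒜 P H k (a * k - δ)) k) ?_)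
      have h3 : a * (k : ℤ) - δ = m := by
        rw [← hδ]
        ring
      change r ∈ Wt 𝒜 P H k (a * k - δ)
      rw [h3]
      exact hr
  intro r
  rw [← hx'r]
  exact congrArg (fun g : R →ₗ[ℂ] B => g r) hall

end Vale.Agent.P292
end

section

/-! Part E: the fixed elements of an automorphism of finite order. -/

namespace Vale.Agent.P292

open Module LieAlgebra

universe u

variable {L : Type u} [LieRing L] [LieAlgebra ℂ L]

/-- The subalgebra of the fixed elements. -/
def fixSub (τ : L ≃ₗ⁅ℂ⁆ L) : LieSubalgebra ℂ L where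
  carrier := {x | τ x = x}
  add_mem' := by
    intro a b ha hb
    change τ (a + b) = a + b
    rw [map_add, show τ a = a from ha, show τ b = b from hb]
  zero_mem' := map_zero τ
  smul_mem' := by
    intro c a ha
    change τ (c • a) = c • a
    rw [map_smul, show τ a = a from ha]
  lie_mem' := by
    intro a b ha hb
    change τ ⁅a, b⁆ = ⁅a, b⁆
    rw [LieEquiv.map_lie, show τ a = a from ha, show τ b = b from hb]

variable [FiniteDimensional ℂ L]

/-- The Killing form is zero on the fixed elements if they are ad-nilpotent. -/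
theorem killingForm_fixSub (τ : L ≃ₗ⁅ℂ⁆ L) (hnil : ∀ x, τ x = x → IsNilpotent (ad ℂ L x))
    {x y : L} (hx : τ x = x) (hy : τ y = y) : killingForm ℂ L x y = 0 := by
  have : LieModule.IsNilpotent (fixSub τ) L :=
    (LieModule.isNilpotent_iff_forall' (R := ℂ)).2 (fun z => hnil z z.2)
  have h1 := LieModule.traceForm_eq_zero_of_isNilpotent ℂ (fixSub τ) L
  have h2 := LinearMap.congr_fun (LinearMap.congr_fun h1 ⟨x, hx⟩) ⟨y, hy⟩
  exact h2

/-- If all fixed elements are ad-nilpotent then they are zero. -/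
theorem fixed_eq_zero' [IsKilling ℂ L] (τ : L ≃ₗ⁅ℂ⁆ L) {p : ℕ} (hp : 0 < p)
    (hτ : ∀ x, (⇑τ)^[p] x = x)
    (hnil : ∀ x, τ x = x → IsNilpotent (ad ℂ L x)) {x : L} (hx : τ x = x) : x = 0 := by
  refine (IsKilling.killingForm_nondegenerate ℂ L).1 x fun y => ?_
  have hy := iSup_eigenspace_of_iterate (τ.toLinearEquiv : L →ₗ[ℂ] L) hp hτ y
  refine Submodule.iSup_induction _ (motive := fun y => killingForm ℂ L x y = 0) hy ?_ ?_ ?_
  · intro ζ z hz
    have hz' : τ z = (ζ : ℂ) • z := Module.End.mem_eigenspace_iff.1 hz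
    by_cases h1 : (ζ : ℂ) = 1
    · rw [h1, one_smul] at hz'
      exact killingForm_fixSub τ hnil hx hz'
    · exact x2_killingForm_eq_zero_of_eigen τ (ζ := 1) (by rw [one_smul, hx]) hz'
        (by rwa [one_mul])
  · exact map_zero _
  · intro a b ha hb
    rw [map_add, ha, hb, add_zero]

end Vale.Agent.P292
end

section

/-! Part E: automorphisms of prime order of semisimple Lie algebras. -/

namespace Vale.Agent.P292

open Module LieAlgebra

universe u

variable {L : Type u} [LieRing L] [LieAlgebra ℂ L] [FiniteDimensional ℂ L] [IsKilling ℂ L]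

/-- If all fixed elements are ad-nilpotent then they are zero. -/
theorem fixed_eq_zero (τ : L ≃ₗ⁅ℂ⁆ L) {p : ℕ} (hp : 0 < p) (hτ : ∀ x, (⇑τ)^[p] x = x)
    (hnil : ∀ x, τ x = x → IsNilpotent (ad ℂ L x)) {x : L} (hx : τ x = x) : x = 0 :=
  fixed_eq_zero' τ hp hτ hnil hx

/-- The other eigenspaces are isotropic. -/
theorem killingForm_eq_zero_of_inv (τ : L ≃ₗ⁅ℂ⁆ L) {p : ℕ} (hp : p.Prime)
    (hτ : ∀ x, (⇑τ)^[p] x = x) (h0 : ∀ x, τ x = x → x = 0) {x y : L} {ζ : ℂ}
    (hζ : ζ ^ p = 1) (hζ1 : ζ ≠ 1) (hx : τ x = ζ • x) (hy : τ y = ζ⁻¹ • y) :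
    killingForm ℂ L x y = 0 := by
  have hζ0 : ζ ≠ 0 := by
    rintro rfl
    rw [zero_pow hp.ne_zero] at hζ
    exact zero_ne_one hζ
  have : Fact p.Prime := ⟨hp⟩
  have hprim : IsPrimitiveRoot ζ p := by
    rw [← orderOf_eq_prime hζ hζ1]
    exact IsPrimitiveRoot.orderOf ζ
  have hxy : ⁅x, y⁆ = 0 := by
    apply h0
    rw [LieEquiv.map_lie, hx, hy, smul_lie, lie_smul, smul_smul, mul_inv_cancel₀ hζ0, one_smul]
  have hcomm : Commute (ad ℂ L x) (ad ℂ L y) := by
    refine LinearMap.ext fun z => ?_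
    rw [Module.End.mul_apply, Module.End.mul_apply, LieAlgebra.ad_apply, LieAlgebra.ad_apply,
      LieAlgebra.ad_apply, LieAlgebra.ad_apply, leibniz_lie, hxy, zero_lie, zero_add]
  have hstep : ∀ (m : ℕ) (z : L) (ξ : ℂ), τ z = ξ • z →
      τ (((ad ℂ L x) ^ m) z) = (ζ ^ m * ξ) • ((ad ℂ L x) ^ m) z := by
    intro m
    induction m with
    | zero => intro z ξ hz; simpa using hz
    | succ m ih =>
      intro z ξ hz
      rw [pow_succ', Module.End.mul_apply, LieAlgebra.ad_apply, LieEquiv.map_lie, ih z ξ hz, hx,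
        smul_lie, lie_smul, smul_smul, pow_succ']
      congr 1
      ring
  have hnil : (ad ℂ L x) ^ p = 0 := by
    have hle : (⨆ ξ : {ξ : ℂ // ξ ^ p = 1}, Module.End.eigenspace (τ : L →ₗ[ℂ] L) (ξ : ℂ)) ≤
        LinearMap.ker ((ad ℂ L x) ^ p) := by
      refine iSup_le fun ξ z hz => ?_
      have hz' : τ z = (ξ : ℂ) • z := Module.End.mem_eigenspace_iff.1 hz
      obtain ⟨i, hi, hiξ⟩ := hprim.eq_pow_of_pow_eq_one ξ.2
      have h1 : τ (((ad ℂ L x) ^ (p - i)) z) = ((ad ℂ L x) ^ (p - i)) z := by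
        rw [hstep _ _ _ hz', ← hiξ, ← pow_add, Nat.sub_add_cancel hi.le, hζ, one_smul]
      have h2 := h0 _ h1
      rw [LinearMap.mem_ker]
      have h3 : (ad ℂ L x) ^ p = (ad ℂ L x) ^ i * (ad ℂ L x) ^ (p - i) := by
        rw [← pow_add, Nat.add_sub_cancel' hi.le]
      rw [h3, Module.End.mul_apply, h2, map_zero]
    ext z
    have h4 := hle (iSup_eigenspace_of_iterate (τ : L →ₗ[ℂ] L) hp.pos hτ z)
    exact LinearMap.mem_ker.1 h4
  rw [killingForm_apply_apply]
  have h5 : IsNilpotent (ad ℂ L x * ad ℂ L y) := hcomm.isNilpotent_mul_right ⟨p, hnil⟩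
  exact (LinearMap.isNilpotent_trace_of_isNilpotent h5).eq_zero

/-- An automorphism of prime order of a nonzero semisimple Lie algebra has a fixed element which
is not ad-nilpotent. -/
theorem subsingleton_of_fixed_nilpotent (τ : L ≃ₗ⁅ℂ⁆ L) {p : ℕ} (hp : p.Prime)
    (hτ : ∀ x, (⇑τ)^[p] x = x) (hnil : ∀ x, τ x = x → IsNilpotent (ad ℂ L x)) :
    Subsingleton L := by
  have h0 : ∀ x, τ x = x → x = 0 := fun x hx => fixed_eq_zero τ hp.pos hτ hnil hx
  have hE : ∀ (ζ ξ : {ζ : ℂ // ζ ^ p = 1}) (x y : L), τ x = (ζ : ℂ) • x → τ y = (ξ : ℂ) • y →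
      killingForm ℂ L x y = 0 := by
    intro ζ ξ x y hx hy
    by_cases h : (ζ : ℂ) * ξ = 1
    · by_cases h1 : (ζ : ℂ) = 1
      · rw [h1, one_smul] at hx
        rw [h0 x hx, map_zero, LinearMap.zero_apply]
      · have hξ : (ξ : ℂ) = (ζ : ℂ)⁻¹ := by
          rw [eq_comm]
          exact inv_eq_of_mul_eq_one_right h
        rw [hξ] at hy
        exact killingForm_eq_zero_of_inv τ hp hτ h0 ζ.2 h1 hx hy
    · exact x2_killingForm_eq_zero_of_eigen τ hx hy h
  have hall : ∀ x y : L, killingForm ℂ L x y = 0 := by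
    intro x y
    refine Submodule.iSup_induction _ (motive := fun x => killingForm ℂ L x y = 0)
      (iSup_eigenspace_of_iterate (τ : L →ₗ[ℂ] L) hp.pos hτ x) (fun ζ x hx => ?_) ?_ ?_
    · refine Submodule.iSup_induction _ (motive := fun y => killingForm ℂ L x y = 0)
        (iSup_eigenspace_of_iterate (τ : L →ₗ[ℂ] L) hp.pos hτ y) (fun ξ y hy => ?_) ?_ ?_
      · exact hE ζ ξ x y (Module.End.mem_eigenspace_iff.1 hx) (Module.End.mem_eigenspace_iff.1 hy)
      · simp
      · intro a b ha hb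
        rw [map_add, ha, hb, add_zero]
    · simp
    · intro a b ha hb
      rw [map_add, LinearMap.add_apply, ha, hb, add_zero]
  refine ⟨fun a b => ?_⟩
  have hz : ∀ x : L, x = 0 := by
    intro x
    have h6 : x ∈ LinearMap.ker (killingForm ℂ L) := by
      rw [LinearMap.mem_ker]
      ext y
      exact hall x y
    rw [LieAlgebra.IsKilling.ker_killingForm_eq_bot] at h6
    simpa using h6
  rw [hz a, hz b]

end Vale.Agent.P292
end

section

set_option linter.all false

/-! Part E: automorphisms of prime order, solvability. -/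

namespace Vale.Agent.P292

open Module LieAlgebra

universe u

/-- An automorphism maps the radical into itself. -/
theorem x4_radical {L : Type u} [LieRing L] [LieAlgebra ℂ L] [FiniteDimensional ℂ L]
    (τ : L ≃ₗ⁅ℂ⁆ L) {x : L} (hx : τ x ∈ radical ℂ L) : x ∈ radical ℂ L := by
  let J : LieIdeal ℂ L := LieIdeal.comap (τ : L →ₗ⁅ℂ⁆ L) (radical ℂ L)
  have hJ : IsSolvable J := by
    let f : J →ₗ⁅ℂ⁆ (radical ℂ L) :=
      { toFun := fun y => ⟨τ y, y.2⟩
        map_add' := fun y z => Subtype.ext (by simp)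
        map_smul' := fun c y => Subtype.ext (by simp)
        map_lie' := by
          intro y z
          apply Subtype.ext
          show τ ⁅(y : L), (z : L)⁆ = ⁅τ y, τ z⁆
          rw [LieEquiv.map_lie] }
    have hf : Function.Injective f := by
      intro y z h
      have h1 : τ y = τ z := congrArg Subtype.val h
      exact Subtype.ext (τ.injective h1)
    exact hf.lieAlgebra_isSolvable
  have hle : J ≤ radical ℂ L := (LieIdeal.solvable_iff_le_radical ℂ L J).1 hJ
  exact hle hx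

theorem x4_radical' {L : Type u} [LieRing L] [LieAlgebra ℂ L] [FiniteDimensional ℂ L]
    (τ : L ≃ₗ⁅ℂ⁆ L) {x : L} (hx : x ∈ radical ℂ L) : τ x ∈ radical ℂ L := by
  apply x4_radical τ.symm
  simpa using hx

/-- A Lie algebra with an automorphism of prime order all of whose fixed elements are
ad-nilpotent is solvable. -/
theorem isSolvable_of_fixed_nilpotent {L : Type u} [LieRing L] [LieAlgebra ℂ L]
    [FiniteDimensional ℂ L] (τ : L ≃ₗ⁅ℂ⁆ L) {p : ℕ} (hp : p.Prime)
    (hτ : ∀ x, (⇑τ)^[p] x = x) (hnil : ∀ x, τ x = x → IsNilpotent (ad ℂ L x)) :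
    IsSolvable L := by
  haveI := hasTrivialRadical_quotient (L := L)
  let R : LieIdeal ℂ L := radical ℂ L
  let q : L →ₗ[ℂ] L ⧸ R := R.toSubmodule.mkQ
  have hq : Function.Surjective q := R.toSubmodule.mkQ_surjective
  have hq_lie : ∀ x y, q ⁅x, y⁆ = ⁅q x, q y⁆ := fun x y => rfl
  let tf : L ⧸ R →ₗ[ℂ] L ⧸ R := R.toSubmodule.mapQ R.toSubmodule (τ : L →ₗ[ℂ] L)
    (fun x hx => x4_radical' τ hx)
  let tg : L ⧸ R →ₗ[ℂ] L ⧸ R := R.toSubmodule.mapQ R.toSubmodule (τ.symm : L →ₗ[ℂ] L)
    (fun x hx => x4_radical' τ.symm hx)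
  have htf : ∀ x, tf (q x) = q (τ x) := fun x => rfl
  have htg : ∀ x, tg (q x) = q (τ.symm x) := fun x => rfl
  let t : (L ⧸ R) ≃ₗ⁅ℂ⁆ (L ⧸ R) :=
    { toFun := tf
      map_add' := tf.map_add
      map_smul' := tf.map_smul
      map_lie' := by
        intro x y
        obtain ⟨x, rfl⟩ := hq x
        obtain ⟨y, rfl⟩ := hq y
        show tf ⁅q x, q y⁆ = ⁅tf (q x), tf (q y)⁆
        rw [← hq_lie, htf, htf, htf, ← hq_lie, LieEquiv.map_lie]
      invFun := tg
      left_inv := by
        intro x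
        obtain ⟨x, rfl⟩ := hq x
        show tg (tf (q x)) = q x
        rw [htf, htg, LieEquiv.symm_apply_apply]
      right_inv := by
        intro x
        obtain ⟨x, rfl⟩ := hq x
        show tf (tg (q x)) = q x
        rw [htg, htf, LieEquiv.apply_symm_apply] }
  have ht : ∀ x, t (q x) = q (τ x) := fun x => rfl
  have htp : ∀ (n : ℕ) (x : L), (⇑t)^[n] (q x) = q ((⇑τ)^[n] x) := by
    intro n
    induction n with
    | zero => intro x; rfl
    | succ n ih =>
      intro x
      rw [Function.iterate_succ_apply, Function.iterate_succ_apply, ht, ih]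
  have hsub : Subsingleton (L ⧸ R) := by
    refine subsingleton_of_fixed_nilpotent t hp ?_ ?_
    · intro x
      obtain ⟨x, rfl⟩ := hq x
      rw [htp, hτ]
    · intro s hs
      obtain ⟨x, hx, rfl⟩ := exists_fixed_lift q (τ : L →ₗ[ℂ] L) tf (fun x => rfl) hp.pos hτ
        (b := s) hs (LinearMap.mem_range.2 (hq s))
      obtain ⟨n, hn⟩ := hnil x hx
      refine ⟨n, ?_⟩
      have key : ∀ (m : ℕ) (y : L), ((ad ℂ (L ⧸ R) (q x)) ^ m) (q y) = q (((ad ℂ L x) ^ m) y) := by
        intro m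
        induction m with
        | zero => intro y; rfl
        | succ m ih =>
          intro y
          rw [pow_succ, pow_succ, Module.End.mul_apply, Module.End.mul_apply, ad_apply, ad_apply,
            ← hq_lie, ih]
      ext y
      obtain ⟨y, rfl⟩ := hq y
      rw [key, hn]
      simp
  have hQ : IsSolvable (L ⧸ R) := inferInstance
  exact isSolvable_of_quotient R inferInstance hQ

end Vale.Agent.P292
end

section

/-! Part E: common eigenvectors. -/

namespace Vale.Agent.P292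

open Module LieAlgebra

universe u

attribute [local instance 100] LieRing.ofAssociativeRing

/-- Lie's theorem for Lie algebras with an automorphism of prime order: if every fixed element
has only one eigenvalue, there is a common eigenvector. -/
theorem exists_common_eigenvector {Z V : Type u} [LieRing Z] [LieAlgebra ℂ Z]
    [FiniteDimensional ℂ Z] [AddCommGroup V] [Module ℂ V] [FiniteDimensional ℂ V] [Nontrivial V]
    [LieRingModule Z V] [LieModule ℂ Z V] (σZ : Z ≃ₗ⁅ℂ⁆ Z) (σV : V ≃ₗ[ℂ] V)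
    (hσ : ∀ z v, σV ⁅z, v⁆ = ⁅σZ z, σV v⁆) {p : ℕ} (hp : p.Prime)
    (hZ : ∀ z, (⇑σZ)^[p] z = z) (hV : ∀ v, (⇑σV)^[p] v = v)
    (h1 : ∀ z : Z, σZ z = z → ∀ (l m : ℂ) (v w : V), v ≠ 0 → w ≠ 0 → ⁅z, v⁆ = l • v →
      ⁅z, w⁆ = m • w → l = m) :
    ∃ v : V, v ≠ 0 ∧ ∀ z : Z, ∃ c : ℂ, ⁅z, v⁆ = c • v := by
  classical
  have hconj : ∀ z, σV.conj (LieModule.toEnd ℂ Z V z) = LieModule.toEnd ℂ Z V (σZ z) := by
    intro z
    ext v
    have := hσ z (σV.symm v)
    simpa [LinearEquiv.conj_apply] using this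
  have hmap : (LieModule.toEnd ℂ Z V).range.map (σV.lieConj : End ℂ V →ₗ⁅ℂ⁆ End ℂ V) =
      (LieModule.toEnd ℂ Z V).range := by
    ext A
    constructor
    · rintro ⟨_, ⟨z, rfl⟩, rfl⟩
      exact ⟨σZ z, (hconj z).symm⟩
    · rintro ⟨z, rfl⟩
      refine ⟨LieModule.toEnd ℂ Z V (σZ.symm z), ⟨_, rfl⟩, ?_⟩
      have := hconj (σZ.symm z)
      simpa using this
  let τ : (LieModule.toEnd ℂ Z V).range ≃ₗ⁅ℂ⁆ (LieModule.toEnd ℂ Z V).range :=
    σV.lieConj.ofSubalgebras (LieModule.toEnd ℂ Z V).range (LieModule.toEnd ℂ Z V).range hmap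
  have hτ_apply : ∀ A, ((τ A : (LieModule.toEnd ℂ Z V).range) : End ℂ V) = σV.conj (A : End ℂ V) :=
    fun A => rfl
  have hτz : ∀ z, τ ⟨LieModule.toEnd ℂ Z V z, ⟨z, rfl⟩⟩ =
      ⟨LieModule.toEnd ℂ Z V (σZ z), ⟨σZ z, rfl⟩⟩ := by
    intro z
    apply Subtype.ext
    rw [hτ_apply]
    exact hconj z
  have hiter : ∀ (n : ℕ) (z : Z), (⇑τ)^[n] ⟨LieModule.toEnd ℂ Z V z, ⟨z, rfl⟩⟩ =
      ⟨LieModule.toEnd ℂ Z V ((⇑σZ)^[n] z), ⟨_, rfl⟩⟩ := by
    intro n
    induction n with
    | zero => intro z; rfl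
    | succ n ih =>
      intro z
      rw [Function.iterate_succ_apply, hτz, ih]
      rfl
  have hτp : ∀ A, (⇑τ)^[p] A = A := by
    rintro ⟨_, z, rfl⟩
    have := hiter p z
    simp only [hZ] at this
    exact this
  have hnil : ∀ A, τ A = A → IsNilpotent (ad ℂ (LieModule.toEnd ℂ Z V).range A) := by
    intro A hA
    obtain ⟨z, hz, hzA⟩ := exists_fixed_lift (A := Z) (B := End ℂ V)
      ((LieModule.toEnd ℂ Z V : Z →ₗ⁅ℂ⁆ End ℂ V) : Z →ₗ[ℂ] End ℂ V)
      ((σZ : Z →ₗ⁅ℂ⁆ Z) : Z →ₗ[ℂ] Z) (σV.conj : End ℂ V →ₗ[ℂ] End ℂ V)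
      (fun x => (hconj x).symm) hp.pos hZ (b := (A : End ℂ V)) (congrArg Subtype.val hA) (by
        obtain ⟨_, z, rfl⟩ := A
        exact ⟨z, rfl⟩)
    replace hz : σZ z = z := hz
    replace hzA : LieModule.toEnd ℂ Z V z = A := hzA
    -- there is an eigenvalue
    obtain ⟨l, hl⟩ := Module.End.exists_eigenvalue (LieModule.toEnd ℂ Z V z)
    obtain ⟨v, hv⟩ := hl.exists_hasEigenvector
    have hv1 : ⁅z, v⁆ = l • v := hv.apply_eq_smul
    -- `A - l` is nilpotent
    have hN : IsNilpotent (LieModule.toEnd ℂ Z V z - algebraMap ℂ (End ℂ V) l) := by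
      have h3 : ∀ μ : ℂ, μ ≠ l → Module.End.maxGenEigenspace (LieModule.toEnd ℂ Z V z) μ = ⊥ := by
        intro μ hμ
        by_contra hne
        have h4 : (LieModule.toEnd ℂ Z V z).HasUnifEigenvalue μ ⊤ := hne
        have h5 : (LieModule.toEnd ℂ Z V z).HasUnifEigenvalue μ 1 :=
          (Module.End.hasUnifEigenvalue_iff_hasUnifEigenvalue_one (by simp)).mp h4
        obtain ⟨w, hw⟩ := h5.exists_hasUnifEigenvector
        have hw1 : ⁅z, w⁆ = μ • w := hw.apply_eq_smul
        exact hμ (h1 z hz μ l w v hw.2 hv.2 hw1 hv1)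
      have h4 := Module.End.iSup_maxGenEigenspace_eq_top (LieModule.toEnd ℂ Z V z)
      have h5 : Module.End.maxGenEigenspace (LieModule.toEnd ℂ Z V z) l = ⊤ := by
        rw [eq_top_iff, ← h4]
        refine iSup_le fun μ => ?_
        by_cases hμ : μ = l
        · rw [hμ]
        · rw [h3 μ hμ]
          exact bot_le
      rw [Module.End.maxGenEigenspace_eq_genEigenspace_finrank, Module.End.genEigenspace_nat,
        LinearMap.ker_eq_top] at h5
      refine ⟨finrank ℂ V, ?_⟩
      rw [Algebra.algebraMap_eq_smul_one]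
      exact h5
    have h2 : ad ℂ (End ℂ V) (LieModule.toEnd ℂ Z V z) =
        ad ℂ (End ℂ V) (LieModule.toEnd ℂ Z V z - algebraMap ℂ (End ℂ V) l) := by
      ext B v
      simp [Ring.lie_def, Module.algebraMap_end_apply]
    apply LieSubalgebra.isNilpotent_ad_of_isNilpotent_ad
    rw [← hzA, h2]
    exact LieAlgebra.ad_nilpotent_of_nilpotent hN
  have hsolv := isSolvable_of_fixed_nilpotent τ hp hτp hnil
  obtain ⟨χ, hχ⟩ := LieModule.exists_nontrivial_weightSpace_of_isSolvable ℂ
    (LieModule.toEnd ℂ Z V).range V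
  obtain ⟨⟨v, hv⟩, hv0⟩ := exists_ne (0 : LieModule.weightSpace V χ)
  refine ⟨v, fun h => hv0 (Subtype.ext h), fun z => ⟨χ ⟨LieModule.toEnd ℂ Z V z, ⟨z, rfl⟩⟩, ?_⟩⟩
  rw [LieModule.mem_weightSpace] at hv
  exact hv ⟨LieModule.toEnd ℂ Z V z, ⟨z, rfl⟩⟩

end Vale.Agent.P292
end

section

/-! Part E: inner derivations. -/

namespace Vale.Agent.P292

open Module LieAlgebra

universe u

variable {g : Type u} [LieRing g] [LieAlgebra ℂ g] [FiniteDimensional ℂ g] [IsKilling ℂ g]

/-- An additive function of the eigenvalues of `ad x` is given by an inner derivation. -/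
theorem exists_lie_eq_smul (x : g) (φ : ℂ →+ ℂ) :
    ∃ u : g, ∀ (ν : ℂ) (v : g), v ∈ Module.End.maxGenEigenspace (ad ℂ g x) ν →
      ⁅u, v⁆ = φ ν • v := by
  classical
  have hind := Module.End.independent_maxGenEigenspace (ad ℂ g x)
  have htop := Module.End.iSup_maxGenEigenspace_eq_top (ad ℂ g x)
  have hint := DirectSum.isInternal_submodule_of_iSupIndep_of_iSup_eq_top hind htop
  let e := LinearEquiv.ofBijective
    (DirectSum.coeLinearMap (Module.End.maxGenEigenspace (ad ℂ g x))) hint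
  let D : g →ₗ[ℂ] g := (DirectSum.toModule ℂ ℂ g fun ν =>
    φ ν • (Module.End.maxGenEigenspace (ad ℂ g x) ν).subtype).comp (e.symm : g →ₗ[ℂ] _)
  have hD : ∀ (ν : ℂ) (v : g), v ∈ Module.End.maxGenEigenspace (ad ℂ g x) ν → D v = φ ν • v := by
    intro ν v hv
    have h1 : e (DirectSum.lof ℂ ℂ (fun ν => Module.End.maxGenEigenspace (ad ℂ g x) ν) ν ⟨v, hv⟩) =
        v := by
      simp only [e]
      exact DirectSum.coeLinearMap_lof _ _ _
    have h2 : e.symm v =
        DirectSum.lof ℂ ℂ (fun ν => Module.End.maxGenEigenspace (ad ℂ g x) ν) ν ⟨v, hv⟩ := by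
      rw [LinearEquiv.symm_apply_eq, h1]
    change DirectSum.toModule ℂ ℂ g _ (e.symm v) = _
    rw [h2, DirectSum.toModule_lof]
    rfl
  have hder : ∀ a b : g, D ⁅a, b⁆ = ⁅a, D b⁆ - ⁅b, D a⁆ := by
    intro a b
    have ha : a ∈ ⨆ ν, Module.End.maxGenEigenspace (ad ℂ g x) ν := by rw [htop]; trivial
    have hb : b ∈ ⨆ ν, Module.End.maxGenEigenspace (ad ℂ g x) ν := by rw [htop]; trivial
    induction ha using Submodule.iSup_induction' with
    | zero => simp
    | add a a' _ _ h h' =>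
      rw [add_lie, map_add, h, h', add_lie, map_add, lie_add]
      abel
    | mem ν a ha =>
      induction hb using Submodule.iSup_induction' with
      | zero => simp
      | add b b' _ _ h h' =>
        rw [lie_add, map_add, h, h', map_add, lie_add, add_lie]
        abel
      | mem μ b hb =>
        have hab : ⁅a, b⁆ ∈ Module.End.maxGenEigenspace (ad ℂ g x) (ν + μ) :=
          LieModule.lie_mem_maxGenEigenspace_toEnd (M := g) ha hb
        rw [hD _ _ hab, hD _ _ ha, hD _ _ hb, map_add, add_smul, lie_smul, lie_smul,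
          ← lie_skew b a, smul_neg, sub_neg_eq_add, add_comm]
  obtain ⟨u, hu⟩ := LieDerivation.IsKilling.exists_eq_ad
    (⟨D, hder⟩ : LieDerivation ℂ g g)
  refine ⟨u, fun ν v hv => ?_⟩
  rw [← hD ν v hv]
  have h1 : (LieDerivation.ad ℂ g u : g →ₗ[ℂ] g) v = D v :=
    congrArg (fun E : LieDerivation ℂ g g => E v) hu
  rw [LieDerivation.coe_ad_apply_eq_ad_apply] at h1
  exact h1

/-- Two eigenvalues are separated by an additive function with values in `ℤ` on the
eigenvalues. -/
theorem exists_additive (x : g) {l m : ℂ} (hlm : l ≠ m) :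
    ∃ φ : ℂ →+ ℂ, φ l ≠ φ m ∧ ∀ (ν : ℂ) (v : g),
      v ∈ Module.End.maxGenEigenspace (ad ℂ g x) ν → v ≠ 0 → ∃ j : ℤ, φ ν = j := by
  classical
  obtain ⟨ψ, hψ⟩ : ∃ ψ : Module.Dual ℚ ℂ, ψ (l - m) ≠ 0 := by
    by_contra h
    push Not at h
    exact hlm (sub_eq_zero.1 ((Module.forall_dual_apply_eq_zero_iff ℚ (l - m)).1 h))
  have hfin : {ν | Module.End.maxGenEigenspace (ad ℂ g x) ν ≠ ⊥}.Finite :=
    WellFoundedGT.finite_ne_bot_of_iSupIndep
      (Module.End.independent_maxGenEigenspace (ad ℂ g x))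
  set S := hfin.toFinset with hS
  set M : ℚ := ∏ ν ∈ S, ((ψ ν).den : ℚ) with hM
  have hM0 : M ≠ 0 := by
    rw [hM, Finset.prod_ne_zero_iff]
    intro ν _
    exact_mod_cast (ψ ν).den_ne_zero
  refine ⟨(algebraMap ℚ ℂ : ℚ →+ ℂ).comp ((AddMonoidHom.mulLeft M).comp ψ.toAddMonoidHom),
    ?_, ?_⟩
  · intro h
    have h1 : M * ψ l = M * ψ m := (algebraMap ℚ ℂ).injective h
    have h2 : ψ l = ψ m := mul_left_cancel₀ hM0 h1
    apply hψ
    rw [map_sub, h2, sub_self]
  · intro ν v hv hv0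
    have hν : ν ∈ S := by
      rw [hS, Set.Finite.mem_toFinset, Set.mem_ofPred_eq]
      intro h
      rw [h, Submodule.mem_bot] at hv
      exact hv0 hv
    refine ⟨(∏ μ ∈ S.erase ν, ((ψ μ).den : ℤ)) * (ψ ν).num, ?_⟩
    have h1 : M * ψ ν = (((∏ μ ∈ S.erase ν, ((ψ μ).den : ℤ)) * (ψ ν).num : ℤ) : ℚ) := by
      rw [hM, ← Finset.mul_prod_erase S _ hν]
      push_cast
      rw [mul_comm ((ψ ν).den : ℚ), mul_assoc, Rat.den_mul_eq_num]
    change algebraMap ℚ ℂ (M * ψ ν) = _
    rw [h1]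
    simp

/-- Integral elements which separate two eigenvalues. -/
theorem exists_isInt (σ : g ≃ₗ⁅ℂ⁆ g) {x h : g} (hσx : σ x = x) (hxh : ⁅h, x⁆ = 0) {l m : ℂ}
    (hlm : l ≠ m) {v w : g} (hv : v ≠ 0) (hw : w ≠ 0) (hxv : ⁅x, v⁆ = l • v)
    (hxw : ⁅x, w⁆ = m • w) :
    ∃ u : g, IsInt u ∧ σ u = u ∧ ⁅h, u⁆ = 0 ∧ ∃ i j : ℤ, i ≠ j ∧ ⁅u, v⁆ = (i : ℂ) • v ∧
      ⁅u, w⁆ = (j : ℂ) • w := by
  obtain ⟨φ, hφ, hφ'⟩ := exists_additive x hlm
  obtain ⟨u, hu⟩ := exists_lie_eq_smul x φ
  have htop := Module.End.iSup_maxGenEigenspace_eq_top (ad ℂ g x)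
  have hmem : ∀ (c : ℂ) (y : g), ⁅x, y⁆ = c • y →
      y ∈ Module.End.maxGenEigenspace (ad ℂ g x) c := by
    intro c y hy
    rw [Module.End.mem_maxGenEigenspace]
    exact ⟨1, by simp [hy]⟩
  have hvl := hmem l v hxv
  have hwm := hmem m w hxw
  obtain ⟨i, hi⟩ := hφ' l v hvl hv
  obtain ⟨j, hj⟩ := hφ' m w hwm hw
  refine ⟨u, ?_, ?_, ?_, i, j, ?_, ?_, ?_⟩
  · intro y
    have hy : y ∈ ⨆ ν, Module.End.maxGenEigenspace (ad ℂ g x) ν := by rw [htop]; trivial
    refine (iSup_le fun ν => ?_ : (⨆ ν, Module.End.maxGenEigenspace (ad ℂ g x) ν) ≤ _) hy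
    intro z hz
    by_cases hz0 : z = 0
    · rw [hz0]; exact Submodule.zero_mem _
    · obtain ⟨k, hk⟩ := hφ' ν z hz hz0
      apply Submodule.mem_iSup_of_mem k
      rw [Module.End.mem_eigenspace_iff, ad_apply, hu ν z hz, hk]
  · have hσ : ∀ (ν : ℂ) (z : g), z ∈ Module.End.maxGenEigenspace (ad ℂ g x) ν →
        ⁅σ u - u, z⁆ = 0 := by
      intro ν z hz
      have hz' : σ.symm z ∈ Module.End.maxGenEigenspace (ad ℂ g x) ν := by
        rw [Module.End.mem_maxGenEigenspace] at hz ⊢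
        obtain ⟨k, hk⟩ := hz
        refine ⟨k, ?_⟩
        have hpow : ∀ (k : ℕ) (z : g), ((ad ℂ g x - ν • 1) ^ k) (σ.symm z) =
            σ.symm (((ad ℂ g x - ν • 1) ^ k) z) := by
          intro k
          induction k with
          | zero => intro z; simp
          | succ k ih =>
            intro z
            rw [pow_succ, Module.End.mul_apply, Module.End.mul_apply, ← ih]
            congr 1
            have hx : σ.symm x = x := by
              rw [LieEquiv.symm_apply_eq, hσx]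
            simp only [LinearMap.sub_apply, LinearMap.smul_apply, ad_apply,
              Module.End.one_apply, map_sub, map_smul, LieEquiv.map_lie, hx]
        rw [hpow, hk, map_zero]
      have h1 : ⁅σ u, z⁆ = σ ⁅u, σ.symm z⁆ := by
        rw [LieEquiv.map_lie, LieEquiv.apply_symm_apply]
      rw [sub_lie, h1, hu ν _ hz', hu ν z hz, map_smul, LieEquiv.apply_symm_apply, sub_self]
    have hall : ∀ z : g, ⁅σ u - u, z⁆ = 0 := by
      intro z
      have hz : z ∈ ⨆ ν, Module.End.maxGenEigenspace (ad ℂ g x) ν := by rw [htop]; trivial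
      induction hz using Submodule.iSup_induction' with
      | zero => simp
      | add a b _ _ ha hb => rw [lie_add, ha, hb, add_zero]
      | mem ν a ha => exact hσ ν a ha
    have hc : σ u - u ∈ LieAlgebra.center ℂ g := by
      rw [LieModule.mem_maxTrivSubmodule]
      intro z
      rw [← lie_skew, hall, neg_zero]
    rw [center_eq_bot] at hc
    exact sub_eq_zero.1 ((LieSubmodule.mem_bot _).1 hc)
  · have h0 : h ∈ Module.End.maxGenEigenspace (ad ℂ g x) 0 :=
      hmem 0 h (by rw [← lie_skew, hxh, neg_zero, zero_smul])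
    rw [← lie_skew, hu 0 h h0, map_zero, zero_smul, neg_zero]
  · intro hij
    apply hφ
    rw [hi, hj, hij]
  · rw [hu l v hvl, hi]
  · rw [hu m w hwm, hj]

end Vale.Agent.P292
end

section

/-! Theorem E, section 5: (NZ). See `PROOF.md`. -/

namespace Vale.Agent.P292

open Module

universe u v

variable {R : Type u} [CommRing R] [Algebra ℂ R] {𝒜 : ℕ → Submodule ℂ R} [GradedAlgebra 𝒜]
  {P : R →ₗ[ℂ] R →ₗ[ℂ] R} {H : R} {a : ℤ} {n : ℕ}

/-- (NZ) -/
theorem Half.exists_frame_of_nv (C : Half 𝒜 P H a n) {B : Type v} [CommRing B] [IsDomain B]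
    [Algebra ℂ B] (z : R →ₐ[ℂ] B) (hz : NV 𝒜 P H a z) :
    ∃ f : Frame 𝒜 P H a n, z f.Δ ≠ 0 := by
  obtain ⟨k, hk, r, hr, hzr⟩ := hz
  have hft : Algebra.FiniteType ℂ R := C.ctx.hX.finiteType
  obtain ⟨x', hx', hx'r⟩ := exists_closed_point z r hzr
  obtain ⟨y', hp, hy'⟩ := C.ctx.exists_pure x'
  have hs : HasSlope 𝒜 P H y' a := C.ctx.hasSlope_iff_pure.2
    ⟨hp, k, hk, r, hr, by rw [hy' r (mem_Ap hr)]; exact hx'r⟩
  obtain ⟨f, hf⟩ := C.exists_frame y' hs
  refine ⟨f, fun h => hf ?_⟩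
  rw [hy' _ (Frame.Δ_mem C.ctx f)]
  exact hx' _ h

/-- (NZ) for polynomials. -/
theorem Half.pow_mem_span (C : Half 𝒜 P H a n) {σ : Type} [Finite σ] {κ : Type v} [Field κ]
    [IsAlgClosed κ] [Algebra ℂ κ] (μ : R →ₐ[ℂ] MvPolynomial σ κ)
    (hμ : ∀ u : σ → κ, u ≠ 0 → ∃ k : ℕ, 0 < k ∧ ∃ c ∈ Wt 𝒜 P H k (a * k),
      MvPolynomial.eval u (μ c) ≠ 0) :
    ∃ N : ℕ, ∀ i, (MvPolynomial.X i : MvPolynomial σ κ) ^ N ∈
      Ideal.span {g | ∃ f : Frame 𝒜 P H a n, g = μ f.Δ} := by
  have hrad : ∀ i, (MvPolynomial.X i : MvPolynomial σ κ) ∈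
      (Ideal.span {g | ∃ f : Frame 𝒜 P H a n, g = μ f.Δ}).radical := by
    intro i
    rw [← MvPolynomial.vanishingIdeal_zeroLocus_eq_radical (K := κ)]
    rw [MvPolynomial.mem_vanishingIdeal_iff]
    intro u hu
    rw [MvPolynomial.mem_zeroLocus_iff] at hu
    rw [MvPolynomial.aeval_X]
    by_contra hui
    have hu0 : u ≠ 0 := fun h => hui (by rw [h]; rfl)
    let ev : MvPolynomial σ κ →ₐ[ℂ] κ := (MvPolynomial.aeval u).restrictScalars ℂ
    have hev : ∀ p, ev p = MvPolynomial.eval u p := fun p => by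
      change MvPolynomial.aeval u p = _
      rw [MvPolynomial.aeval_eq_eval]
    obtain ⟨k, hk, c, hc, hcu⟩ := hμ u hu0
    obtain ⟨f, hf⟩ := C.exists_frame_of_nv (ev.comp μ)
      ⟨k, hk, c, hc, by rw [AlgHom.comp_apply, hev]; exact hcu⟩
    exact hf (hu _ (Ideal.subset_span ⟨f, rfl⟩))
  choose N hN using hrad
  cases nonempty_fintype σ
  refine ⟨∑ i, N i, fun i => ?_⟩
  have h1 : N i ≤ ∑ i, N i := Finset.single_le_sum (fun _ _ => Nat.zero_le _) (Finset.mem_univ i)
  exact Ideal.pow_mem_of_pow_mem _ (hN i) h1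

end Vale.Agent.P292
end

section

/-! Theorem E, section 5: extension of points. See `PROOF.md`. -/

namespace Vale.Agent.P292

open Module Polynomial

universe u v

/-- Extension of a homomorphism to an algebraic extension, with a prescribed value. -/
theorem li8_aux_ext {A : Type*} {S : Type*} {Ω : Type*} [CommRing A] [IsDomain A]
    [IsIntegrallyClosed A] [CommRing S] [IsDomain S] [Algebra A S]
    (hinj : Function.Injective (algebraMap A S)) [Algebra.IsAlgebraic A S] [Field Ω]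
    [IsAlgClosed Ω] (x : A →+* Ω) (hx : Function.Injective x) (Q : A[X]) (hQm : Q.Monic)
    (hQi : Irreducible Q) (ω : S) (hω : aeval ω Q = 0) (ρ : Ω) (hρ : (Q.map x).eval ρ = 0) :
    ∃ ψ : S →+* Ω, Function.Injective ψ ∧ (∀ c, ψ (algebraMap A S c) = x c) ∧ ψ ω = ρ := by
  let _ : Algebra A Ω := x.toAlgebra
  have : FaithfulSMul A S := (faithfulSMul_iff_algebraMap_injective A S).2 hinj
  have : FaithfulSMul A Ω := (faithfulSMul_iff_algebraMap_injective A Ω).2 hx
  let E := FractionRing A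
  let K := FractionRing S
  have : FaithfulSMul A K := (faithfulSMul_iff_algebraMap_injective A K).2 (by
    rw [IsScalarTower.algebraMap_eq A S K]
    exact (IsFractionRing.injective S K).comp hinj)
  let _ : Algebra E K := FractionRing.liftAlgebra A K
  let _ : Algebra E Ω := FractionRing.liftAlgebra A Ω
  have : IsScalarTower A E K := FractionRing.isScalarTower_liftAlgebra A K
  have : IsScalarTower A E Ω := FractionRing.isScalarTower_liftAlgebra A Ω
  have : Algebra.IsAlgebraic S K := IsLocalization.isAlgebraic (R := S) (S := K) (nonZeroDivisors S)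
  have : Algebra.IsAlgebraic A K := Algebra.IsAlgebraic.trans A S K
  have : Algebra.IsAlgebraic E K := (IsFractionRing.comap_isAlgebraic_iff (A := A)).1 this
  have h1 : Irreducible (Q.map (algebraMap A E)) :=
    (hQm.irreducible_iff_irreducible_map_fraction_map).1 hQi
  have h2 : Q.map (algebraMap A E) = minpoly E (algebraMap S K ω) := by
    apply minpoly.eq_of_irreducible_of_monic h1 _ (hQm.map _)
    rw [aeval_map_algebraMap, aeval_algebraMap_apply, hω, map_zero]
  obtain ⟨φ, hφ⟩ := IntermediateField.exists_algHom_of_splits_of_aeval (F := E) (E := K) (K := Ω)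
    (x := algebraMap S K ω) (y := ρ)
    (fun s => ⟨Algebra.IsIntegral.isIntegral s, IsAlgClosed.splits _⟩) (by
      rw [← h2, aeval_map_algebraMap, aeval_def, ← eval_map]
      exact hρ)
  refine ⟨(φ : K →+* Ω).comp (algebraMap S K), ?_, ?_, ?_⟩
  · exact (φ : K →+* Ω).injective.comp (IsFractionRing.injective S K)
  · intro c
    show φ (algebraMap S K (algebraMap A S c)) = x c
    rw [← IsScalarTower.algebraMap_apply A S K, IsScalarTower.algebraMap_apply A E K, φ.commutes,
      ← IsScalarTower.algebraMap_apply A E Ω]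
    rfl
  · exact hφ

/-- If the variables are algebraic over the image of `A` then all polynomials are. -/
theorem li8_aux_alg {A : Type*} [CommRing A] [IsDomain A] [Algebra ℂ A] {n : ℕ}
    [Algebra A (MvPolynomial (Fin n) ℂ)] [IsScalarTower ℂ A (MvPolynomial (Fin n) ℂ)]
    (s : Set (MvPolynomial (Fin n) ℂ)) (hs : s ⊆ Set.range (algebraMap A (MvPolynomial (Fin n) ℂ)))
    (h : ∀ i : Fin n, IsAlgebraic (Algebra.adjoin ℂ s) (MvPolynomial.X i : MvPolynomial (Fin n) ℂ)) :
    Algebra.IsAlgebraic A (MvPolynomial (Fin n) ℂ) := by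
  have hle : Algebra.adjoin ℂ s ≤ (IsScalarTower.toAlgHom ℂ A (MvPolynomial (Fin n) ℂ)).range :=
    Algebra.adjoin_le hs
  have key : ∀ i : Fin n, IsAlgebraic A (MvPolynomial.X i : MvPolynomial (Fin n) ℂ) := by
    intro i
    obtain ⟨p, hp0, hp⟩ := h i
    -- lift the coefficients
    have hc : ∀ b : Algebra.adjoin ℂ s, ∃ c : A,
        algebraMap A (MvPolynomial (Fin n) ℂ) c = (b : MvPolynomial (Fin n) ℂ) :=
      fun b => hle b.2
    choose g hg using hc
    have hex : ∃ q : A[X], q.map (algebraMap A (MvPolynomial (Fin n) ℂ)) =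
        p.map (algebraMap (Algebra.adjoin ℂ s) (MvPolynomial (Fin n) ℂ)) := by
      refine ⟨∑ k ∈ Finset.range (p.natDegree + 1), Polynomial.monomial k (g (p.coeff k)), ?_⟩
      conv_rhs => rw [p.as_sum_range]
      rw [Polynomial.map_sum, Polynomial.map_sum]
      apply Finset.sum_congr rfl
      intro k _
      rw [Polynomial.map_monomial, Polynomial.map_monomial, hg]
      rfl
    obtain ⟨q, hq⟩ := hex
    refine ⟨q, ?_, ?_⟩
    · rintro rfl
      rw [Polynomial.map_zero] at hq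
      apply hp0
      have hsub : Function.Injective
          (algebraMap (Algebra.adjoin ℂ s) (MvPolynomial (Fin n) ℂ)) := Subtype.val_injective
      exact Polynomial.map_injective _ hsub (by rw [Polynomial.map_zero]; exact hq.symm)
    · rw [aeval_def, ← eval_map, hq, eval_map, ← aeval_def]
      exact hp
  refine ⟨fun p => ?_⟩
  induction p using MvPolynomial.induction_on with
  | C z =>
    have : (MvPolynomial.C z : MvPolynomial (Fin n) ℂ) =
        algebraMap A (MvPolynomial (Fin n) ℂ) (algebraMap ℂ A z) := by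
      rw [← IsScalarTower.algebraMap_apply]
      rfl
    rw [this]
    exact isAlgebraic_algebraMap _
  | add p q hp hq => exact hp.add hq
  | mul_X p i hp => exact hp.mul (key i)

variable {R : Type u} [CommRing R] [Algebra ℂ R] {𝒜 : ℕ → Submodule ℂ R} [GradedAlgebra 𝒜]
  {P : R →ₗ[ℂ] R →ₗ[ℂ] R} {H : R} {a : ℤ} {n : ℕ}

/-- The polynomial ring of the cell is algebraic over `A₋`. -/
theorem CtxN.li8_aux_isAlgebraic (C : CtxN 𝒜 P H a n) {y : R →ₐ[ℂ] ℂ} (hy : HasSlope 𝒜 P H y a)
    (f : Frame 𝒜 P H a n) (hΔ : y f.Δ ≠ 0)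
    (alg : Algebra (Ap 𝒜 P (-H) a) (MvPolynomial (Fin n) ℂ))
    (halg : ∀ c : Ap 𝒜 P (-H) a, algebraMap (Ap 𝒜 P (-H) a) (MvPolynomial (Fin n) ℂ) c =
      C.half.ctx.cell f y c) :
    Algebra.IsAlgebraic (Ap 𝒜 P (-H) a) (MvPolynomial (Fin n) ℂ) := by
  have hdom := C.neg_half.ctx.isDomain_Ap
  have htow : IsScalarTower ℂ (Ap 𝒜 P (-H) a) (MvPolynomial (Fin n) ℂ) := by
    apply IsScalarTower.of_algebraMap_eq
    intro z
    rw [halg]
    show _ = C.half.ctx.cell f y (algebraMap ℂ R z)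
    rw [AlgHom.commutes]
  have hcell := C.half.ctx.isCell_of_complete hy f hΔ (C.half.complete y f hy hΔ)
  refine li8_aux_alg _ ?_ (fun i => hcell.isAlgebraic C.half.ctx i)
  rintro _ ⟨c, hc, rfl⟩
  exact ⟨⟨c, hc⟩, halg ⟨c, hc⟩⟩

/-- Extending points of `A₋` to the cell: for an injective point `x` of `A₋` in an algebraically
closed field and a root `ρ` of `Q` there is `ψ : ℂ[T] → Ω` with `ψ ∘ Ψ = x` on `A₋` and
`ψ(Ψ(H)²) = ρ`. -/
theorem CtxN.exists_psi (C : CtxN 𝒜 P H a n) {y : R →ₐ[ℂ] ℂ} (hy : HasSlope 𝒜 P H y a)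
    (f : Frame 𝒜 P H a n) (hΔ : y f.Δ ≠ 0) {Q : (Ap 𝒜 P (-H) a)[X]}
    (hQ : IsMinPoly 𝒜 P H a (C.half.ctx.cell f y) Q) {Ω : Type v} [Field Ω] [IsAlgClosed Ω]
    [Algebra ℂ Ω] (x : R →ₐ[ℂ] Ω) (hx : InjA 𝒜 P (-H) a x) {ρ : Ω} (hρ : (mapQ Q x).eval ρ = 0) :
    ∃ ψ : MvPolynomial (Fin n) ℂ →ₐ[ℂ] Ω, Function.Injective ψ ∧
      (∀ c ∈ Ap 𝒜 P (-H) a, ψ (C.half.ctx.cell f y c) = x c) ∧
      ψ (C.half.ctx.cell f y H) ^ 2 = ρ := by
  have hdom := C.neg_half.ctx.isDomain_Ap
  have hic := C.neg_half.ctx.isIntegrallyClosed_Ap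
  let j : Ap 𝒜 P (-H) a →ₐ[ℂ] MvPolynomial (Fin n) ℂ :=
    (C.half.ctx.cell f y).comp (Ap 𝒜 P (-H) a).val
  let alg : Algebra (Ap 𝒜 P (-H) a) (MvPolynomial (Fin n) ℂ) := j.toRingHom.toAlgebra
  have hinj : Function.Injective (algebraMap (Ap 𝒜 P (-H) a) (MvPolynomial (Fin n) ℂ)) := by
    rw [injective_iff_map_eq_zero]
    intro c hc
    exact Subtype.ext (C.half.inj y f hy hΔ c c.2 hc)
  have halg := C.li8_aux_isAlgebraic hy f hΔ alg (fun c => rfl)
  obtain ⟨ψ, h1, h2, h3⟩ := li8_aux_ext hinj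
    ((x.comp (Ap 𝒜 P (-H) a).val : Ap 𝒜 P (-H) a →ₐ[ℂ] Ω) : Ap 𝒜 P (-H) a →+* Ω) (by
      rw [injective_iff_map_eq_zero]
      intro c hc
      exact Subtype.ext (hx c c.2 hc)) Q hQ.monic hQ.irreducible
      (C.half.ctx.cell f y H ^ 2) hQ.root ρ hρ
  refine ⟨⟨ψ, fun z => ?_⟩, h1, fun c hc => h2 ⟨c, hc⟩, ?_⟩
  · have e := h2 (algebraMap ℂ (Ap 𝒜 P (-H) a) z)
    have e1 : algebraMap (Ap 𝒜 P (-H) a) (MvPolynomial (Fin n) ℂ)
        (algebraMap ℂ (Ap 𝒜 P (-H) a) z) = algebraMap ℂ (MvPolynomial (Fin n) ℂ) z := by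
      show C.half.ctx.cell f y (algebraMap ℂ R z) = _
      rw [AlgHom.commutes]
    rw [e1] at e
    show ψ (algebraMap ℂ (MvPolynomial (Fin n) ℂ) z) = _
    rw [e]
    show x (algebraMap ℂ R z) = _
    rw [AlgHom.commutes]
  · rw [map_pow] at h3
    exact h3

/-- Half of the Euler derivation of `ℂ[T]` is the degree on `A₋`; compatibility with any
derivation of `Ω` which is the degree on `A₋`. -/
theorem CtxN.euler_psi (C : CtxN 𝒜 P H a n) {y : R →ₐ[ℂ] ℂ} (hy : HasSlope 𝒜 P H y a)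
    (f : Frame 𝒜 P H a n) (hΔ : y f.Δ ≠ 0) {Ω : Type v} [Field Ω]
    [Algebra ℂ Ω] (ψ : MvPolynomial (Fin n) ℂ →ₐ[ℂ] Ω) (hψ : Function.Injective ψ)
    (E : Derivation ℂ Ω Ω) (q : ℚ)
    (hE : ∀ k : ℕ, ∀ c ∈ Wt 𝒜 P H k (-(a * k)), E (ψ (C.half.ctx.cell f y c)) =
      ((2 * k * q : ℚ) : Ω) * ψ (C.half.ctx.cell f y c))
    (j : ℕ) (p : MvPolynomial (Fin n) ℂ) (hp : p.IsHomogeneous j) :
    E (ψ p) = ((j * q : ℚ) : Ω) * ψ p := by
  have hdom := C.neg_half.ctx.isDomain_Ap
  have hchar : CharZero Ω := charZero_of_injective_algebraMap (algebraMap ℂ Ω).injective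
  let jj : Ap 𝒜 P (-H) a →ₐ[ℂ] MvPolynomial (Fin n) ℂ :=
    (C.half.ctx.cell f y).comp (Ap 𝒜 P (-H) a).val
  let alg : Algebra (Ap 𝒜 P (-H) a) (MvPolynomial (Fin n) ℂ) := jj.toRingHom.toAlgebra
  have hinj : Function.Injective (algebraMap (Ap 𝒜 P (-H) a) (MvPolynomial (Fin n) ℂ)) := by
    rw [injective_iff_map_eq_zero]
    intro c hc
    exact Subtype.ext (C.half.inj y f hy hΔ c c.2 hc)
  have halg := C.li8_aux_isAlgebraic hy f hΔ alg (fun c => rfl)
  -- the operator `Σ T_i ∂_i`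
  let θ : MvPolynomial (Fin n) ℂ →+ MvPolynomial (Fin n) ℂ :=
    ∑ i : Fin n, (AddMonoidHom.mulLeft (MvPolynomial.X i)).comp
      ((MvPolynomial.pderiv i : Derivation ℂ (MvPolynomial (Fin n) ℂ) (MvPolynomial (Fin n) ℂ)) :
        MvPolynomial (Fin n) ℂ →ₗ[ℂ] MvPolynomial (Fin n) ℂ).toAddMonoidHom
  have hθ : ∀ p, θ p = ∑ i, MvPolynomial.X i * MvPolynomial.pderiv i p := by
    intro p
    simp [θ, AddMonoidHom.finsetSum_apply]
  have hθmul : ∀ p q, θ (p * q) = p * θ q + q * θ p := by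
    intro p q
    simp only [hθ, Derivation.leibniz, smul_eq_mul, Finset.mul_sum, ← Finset.sum_add_distrib]
    apply Finset.sum_congr rfl
    intro i _
    ring
  have hθhom : ∀ (d : ℕ) (p : MvPolynomial (Fin n) ℂ), p.IsHomogeneous d → θ p = (d : ℂ) • p := by
    intro d p hp
    rw [hθ, hp.sum_X_mul_pderiv, Nat.cast_smul_eq_nsmul]
  let V : MvPolynomial (Fin n) ℂ →+ Ω :=
    (E : Ω →ₗ[ℂ] Ω).toAddMonoidHom.comp (ψ : MvPolynomial (Fin n) ℂ →+* Ω).toAddMonoidHom -
      (AddMonoidHom.mulLeft (q : Ω)).comp ((ψ : MvPolynomial (Fin n) ℂ →+* Ω).toAddMonoidHom.comp θ)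
  have hVdef : ∀ p, V p = E (ψ p) - (q : Ω) * ψ (θ p) := fun p => rfl
  have hV : ∀ p q, V (p * q) = ψ p * V q + ψ q * V p := by
    intro p r
    simp only [hVdef, hθmul, map_mul, map_add, Derivation.leibniz, smul_eq_mul]
    ring
  have hnat : ∀ (d : ℕ) (p : MvPolynomial (Fin n) ℂ), ψ ((d : ℂ) • p) = (d : Ω) * ψ p := by
    intro d p
    rw [map_smul, Algebra.smul_def, map_natCast]
  have hA : ∀ c : Ap 𝒜 P (-H) a, V (algebraMap _ (MvPolynomial (Fin n) ℂ) c) = 0 := by
    rintro ⟨c, hc⟩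
    show V (C.half.ctx.cell f y c) = 0
    refine C.neg_half.ctx.Ap_induction (p := fun c => V (C.half.ctx.cell f y c) = 0) ?_ ?_ ?_ c hc
    · intro k r hr
      rw [Wt_neg] at hr
      have hpure := (C.half.ctx.hasSlope_iff_pure.1 hy).1
      have hh := C.half.ctx.cell_homog f hpure k (2 * k) r (by
        have e : (a * k - a * ((2 * k : ℕ) : ℤ)) = -(a * k) := by push_cast; ring
        rw [e]; exact hr)
      rw [hVdef, hE k r hr, hθhom _ _ hh, hnat]
      push_cast
      ring
    · rw [map_zero, map_zero]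
    · intro r s hr hs
      rw [map_add, map_add, hr, hs, add_zero]
  have h0 : V p = 0 :=
    derivation_eq_zero_of_isAlgebraic (A := Ap 𝒜 P (-H) a) (ψ : MvPolynomial (Fin n) ℂ →+* Ω) hψ V
      hV hA hinj (halg.isAlgebraic p)
  rw [hVdef, hθhom j p hp, hnat, sub_eq_zero] at h0
  rw [h0]
  push_cast
  ring

end Vale.Agent.P292
end

section

/-! Theorem E, section 5: (CRAMER). See `PROOF.md`. -/

namespace Vale.Agent.P292

open Module

universe u v

variable {R : Type u} [CommRing R] [Algebra ℂ R] {𝒜 : ℕ → Submodule ℂ R} [GradedAlgebra 𝒜]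
  {P : R →ₗ[ℂ] R →ₗ[ℂ] R} {H : R} {a : ℤ} {n : ℕ}

omit [GradedAlgebra 𝒜] in
theorem di7_mem (f : Frame 𝒜 P H a n) (i : Fin n) : f.b i ∈ Ap 𝒜 P H a :=
  Algebra.subset_adjoin ⟨f.kb i, f.hb i⟩

omit [GradedAlgebra 𝒜] in
theorem di7_le (f : Frame 𝒜 P H a n) :
    Algebra.adjoin ℂ (Set.range f.b) ≤ Ap 𝒜 P H a := by
  refine Algebra.adjoin_le ?_
  rintro x ⟨i, rfl⟩
  exact di7_mem f i

omit [Algebra ℂ R] in
/-- A derivation over an injective homomorphism of a subring `S` which vanishes on a subring `A`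
vanishes on the elements which are algebraic over `A`. -/
theorem di7_alg (S A : Subring R) (hle : A ≤ S) {Ω : Type v} [Field Ω] [CharZero Ω]
    (ν : R →+* Ω) (hi : ∀ r ∈ S, ν r = 0 → r = 0) (δ : R →+ Ω)
    (hδ : ∀ u ∈ S, ∀ v ∈ S, δ (u * v) = ν u * δ v + ν v * δ u) (hA : ∀ x ∈ A, δ x = 0)
    {c : R} (hc : c ∈ S) (halg : IsAlgebraic A c) : δ c = 0 := by
  let i : Algebra A S := (Subring.inclusion hle).toAlgebra
  have ht : IsScalarTower A S R := IsScalarTower.of_algebraMap_eq fun x => rfl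
  have h1 : IsAlgebraic A (⟨c, hc⟩ : S) :=
    (isAlgebraic_algebraMap_iff (R := A) (S := S) (A := R) (a := ⟨c, hc⟩)
      Subtype.val_injective).1 halg
  exact derivation_eq_zero_of_isAlgebraic (A := A) (S := S) (ν.comp S.subtype)
    ((injective_iff_map_eq_zero _).2 fun x hx => Subtype.ext (hi x.1 x.2 hx))
    (δ.comp S.subtype.toAddMonoidHom)
    (fun p q => hδ p.1 p.2 q.1 q.2)
    (fun x => hA x.1 x.2)
    (Subring.inclusion_injective hle) h1

omit [GradedAlgebra 𝒜] in
theorem di7_one {Ω : Type v} [Field Ω] [Algebra ℂ Ω] (ν : R →ₐ[ℂ] Ω) (δ : R →ₗ[ℂ] Ω)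
    (hδ : ∀ u ∈ Ap 𝒜 P H a, ∀ v ∈ Ap 𝒜 P H a, δ (u * v) = ν u * δ v + ν v * δ u) :
    δ 1 = 0 := by
  have h := hδ 1 (one_mem _) 1 (one_mem _)
  have h1 : ν 1 = 1 := map_one ν
  rw [mul_one, h1, one_mul] at h
  exact add_eq_left.1 h.symm

/-- Derivations of `A₊` over an injective point are determined on the `b i`. -/
theorem Half.derivation_eq_zero (C : Half 𝒜 P H a n) (f : Frame 𝒜 P H a n) (hΔ : f.Δ ≠ 0)
    {Ω : Type v} [Field Ω] [Algebra ℂ Ω] (ν : R →ₐ[ℂ] Ω) (hi : InjA 𝒜 P H a ν)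
    (δ : R →ₗ[ℂ] Ω)
    (hδ : ∀ u ∈ Ap 𝒜 P H a, ∀ v ∈ Ap 𝒜 P H a, δ (u * v) = ν u * δ v + ν v * δ u)
    (h0 : ∀ i, δ (f.b i) = 0) : ∀ c ∈ Ap 𝒜 P H a, δ c = 0 := by
  intro c hc
  have hch : CharZero Ω := charZero_of_injective_algebraMap (algebraMap ℂ Ω).injective
  have h1 := di7_one ν δ hδ
  have hle := di7_le f
  -- `δ` vanishes on the subalgebra generated by the `b i`
  have hB : ∀ x ∈ Algebra.adjoin ℂ (Set.range f.b), δ x = 0 := by
    intro x hx
    induction hx using Algebra.adjoin_induction with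
    | mem x hx =>
      obtain ⟨i, rfl⟩ := hx
      exact h0 i
    | algebraMap r => rw [Algebra.algebraMap_eq_smul_one, map_smul, h1, smul_zero]
    | add x y _ _ hx hy => rw [map_add, hx, hy, add_zero]
    | mul x y hxm hym hx hy => rw [hδ x (hle hxm) y (hle hym), hx, hy, mul_zero, mul_zero, add_zero]
  exact di7_alg (Ap 𝒜 P H a).toSubring (Algebra.adjoin ℂ (Set.range f.b)).toSubring
    (fun x hx => hle hx) ν.toRingHom hi δ.toAddMonoidHom hδ hB hc (C.alg f hΔ c hc)

omit [GradedAlgebra 𝒜] in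
theorem di7_skew (hP : ∀ x, P x x = 0) (x y : R) : P x y = - P y x := by
  have h := hP (x + y)
  rw [map_add, map_add, LinearMap.add_apply, LinearMap.add_apply, hP x, hP y, zero_add,
    add_zero] at h
  exact eq_neg_of_add_eq_zero_right h

/-- (CRAMER) -/
theorem Half.cramer (C : Half 𝒜 P H a n) (f : Frame 𝒜 P H a n) (hΔ : f.Δ ≠ 0)
    {Ω : Type v} [Field Ω] [Algebra ℂ Ω] (ν : R →ₐ[ℂ] Ω) (hi : InjA 𝒜 P H a ν)
    (δ : R →ₗ[ℂ] Ω)
    (hδ : ∀ u ∈ Ap 𝒜 P H a, ∀ v ∈ Ap 𝒜 P H a, δ (u * v) = ν u * δ v + ν v * δ u) :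
    ∀ c ∈ Ap 𝒜 P H a, ν f.Δ * δ c =
      ∑ l, (-∑ i, ν (f.mat.adjugate l i) * δ (f.b i)) * ν (P (f.r l) c) := by
  intro c hc
  set co : Fin n → Ω := fun l => -∑ i, ν (f.mat.adjugate l i) * δ (f.b i) with hco
  let δ' : R →ₗ[ℂ] Ω := (LinearMap.mulLeft ℂ (ν f.Δ)).comp δ -
    ∑ l, (LinearMap.mulLeft ℂ (co l)).comp (ν.toLinearMap.comp (P (f.r l)))
  have hδ' : ∀ x, δ' x = ν f.Δ * δ x - ∑ l, co l * ν (P (f.r l) x) := by
    intro x
    simp only [δ', LinearMap.sub_apply, LinearMap.comp_apply, LinearMap.mulLeft_apply,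
      LinearMap.sum_apply, AlgHom.toLinearMap_apply]
  have hX := C.ctx.hX
  have hD := C.derivation_eq_zero f hΔ ν hi δ' (fun u hu v hv => by
      rw [hδ', hδ', hδ', hδ u hu v hv]
      have e1 : ∑ l, co l * ν (P (f.r l) (u * v)) =
          ν v * ∑ l, co l * ν (P (f.r l) u) + ν u * ∑ l, co l * ν (P (f.r l) v) := by
        rw [Finset.mul_sum, Finset.mul_sum, ← Finset.sum_add_distrib]
        refine Finset.sum_congr rfl fun l _ => ?_
        rw [hX.leibniz, map_add, map_mul, map_mul]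
        ring
      rw [e1]
      ring)
    (fun i => by
      rw [hδ']
      have e1 : ∀ l, ν (P (f.r l) (f.b i)) = - ν (f.mat i l) := by
        intro l
        rw [di7_skew hX.alternating, map_neg]
        rfl
      have e2 : ∑ l, co l * ν (P (f.r l) (f.b i)) =
          ∑ j, ν ((f.mat * f.mat.adjugate) i j) * δ (f.b j) := by
        calc ∑ l, co l * ν (P (f.r l) (f.b i))
            = ∑ l, ∑ j, ν (f.mat i l * f.mat.adjugate l j) * δ (f.b j) := by
              refine Finset.sum_congr rfl fun l _ => ?_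
              rw [e1 l, hco, neg_mul_neg, Finset.sum_mul]
              refine Finset.sum_congr rfl fun j _ => ?_
              rw [map_mul]
              ring
          _ = ∑ j, ∑ l, ν (f.mat i l * f.mat.adjugate l j) * δ (f.b j) := Finset.sum_comm
          _ = _ := by
              refine Finset.sum_congr rfl fun j _ => ?_
              rw [Matrix.mul_apply, map_sum, Finset.sum_mul]
      rw [e2, Matrix.mul_adjugate]
      have e3 : ∑ j, ν ((f.mat.det • (1 : Matrix (Fin n) (Fin n) R)) i j) * δ (f.b j) =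
          ν f.Δ * δ (f.b i) := by
        rw [Finset.sum_eq_single i]
        · rw [Matrix.smul_apply, Matrix.one_apply_eq, smul_eq_mul, mul_one]
          rfl
        · intro j _ hj
          rw [Matrix.smul_apply, Matrix.one_apply_ne hj.symm, smul_zero, map_zero, zero_mul]
        · intro h
          exact absurd (Finset.mem_univ i) h
      rw [e3, sub_self])
    c hc
  rw [hδ'] at hD
  exact sub_eq_zero.1 hD

end Vale.Agent.P292
end

section

/-! Theorem E, section 5: (F6), degree bound. See `PROOF.md`. -/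

namespace Vale.Agent.P292

open Module Polynomial

universe u v

variable {R : Type u} [CommRing R] [Algebra ℂ R] {𝒜 : ℕ → Submodule ℂ R} [GradedAlgebra 𝒜]
  {P : R →ₗ[ℂ] R →ₗ[ℂ] R} {H : R} {a : ℤ} {n : ℕ}

section aux

variable {κ : Type v} [Field κ]

private lemma li1_prod (s : Finset (Fin n)) (f : Fin n → κ[X]) (hf : ∀ i, (f i).natDegree ≤ 1)
    (e : Fin n → ℕ) : (∏ i ∈ s, f i ^ e i).natDegree ≤ ∑ i ∈ s, e i ∧
      (∏ i ∈ s, f i ^ e i).coeff (∑ i ∈ s, e i) = ∏ i ∈ s, (f i).coeff 1 ^ e i := by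
  classical
  induction s using Finset.induction_on with
  | empty => simp
  | insert i s hi ih =>
    rw [Finset.prod_insert hi, Finset.prod_insert hi, Finset.sum_insert hi]
    have h1 : (f i ^ e i).natDegree ≤ e i := by
      have := natDegree_pow_le_of_le (e i) (hf i)
      rwa [mul_one] at this
    have h2 : (f i ^ e i).coeff (e i) = (f i).coeff 1 ^ e i := by
      have := coeff_pow_of_natDegree_le (m := e i) (hf i)
      rwa [mul_one] at this
    refine ⟨natDegree_mul_le_of_le h1 ih.1, ?_⟩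
    rw [coeff_mul_add_eq_of_natDegree_le h1 ih.1, h2, ih.2]

/-- Degree and leading coefficient of a homogeneous polynomial on a line. -/
private lemma li1_aeval {p : MvPolynomial (Fin n) κ} {j : ℕ} (hp : p.IsHomogeneous j)
    (f : Fin n → κ[X]) (hf : ∀ i, (f i).natDegree ≤ 1) :
    (MvPolynomial.aeval f p).natDegree ≤ j ∧
      (MvPolynomial.aeval f p).coeff j = MvPolynomial.eval (fun i => (f i).coeff 1) p := by
  have h0 : ∀ v ∈ p.support, ∑ i, v i = j := by
    intro v hv
    have h1 : v.degree = j := by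
      rw [Finsupp.degree_eq_weight_one]
      exact hp (MvPolynomial.mem_support_iff.1 hv)
    rwa [Finsupp.degree_eq_sum] at h1
  have h1 : MvPolynomial.aeval f p =
      ∑ v ∈ p.support, Polynomial.C (p.coeff v) * ∏ i, f i ^ v i := by
    rw [MvPolynomial.aeval_def, MvPolynomial.eval₂_eq']
    rfl
  rw [h1]
  constructor
  · refine natDegree_sum_le_of_forall_le _ _ fun v hv => ?_
    refine (natDegree_C_mul_le _ _).trans ?_
    have := (li1_prod Finset.univ f hf v).1
    rwa [h0 v hv] at this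
  · rw [finsetSum_coeff, MvPolynomial.eval_eq']
    refine Finset.sum_congr rfl fun v hv => ?_
    have := (li1_prod Finset.univ f hf v).2
    rw [h0 v hv] at this
    rw [coeff_C_mul, this]

/-- A polynomial which is integral over constants is constant. -/
private lemma li1_const {p : κ[X]} (h : IsIntegral κ p) : p.natDegree = 0 := by
  obtain ⟨q, hq, hq0⟩ := h
  have h1 : q.comp p = 0 := hq0
  have h2 := natDegree_comp (p := q) (q := p)
  rw [h1, natDegree_zero] at h2
  rcases mul_eq_zero.1 h2.symm with h3 | h3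
  · have hq' : q.Monic := hq
    rw [hq'.natDegree_eq_zero.1 h3] at h1
    simp at h1
  · exact h3

private lemma li1_const_of_subalgebra [Algebra ℂ κ] {S : Subalgebra ℂ κ[X]}
    (hS : ∀ x ∈ S, x.natDegree = 0) {p : κ[X]} (h : IsIntegral S p) : p.natDegree = 0 := by
  apply li1_const
  obtain ⟨q, hq, hq0⟩ := h
  let θ : S →+* κ := (Polynomial.constantCoeff).comp (algebraMap S κ[X])
  refine ⟨q.map θ, hq.map θ, ?_⟩
  rw [eval₂_map]
  have e : (algebraMap κ κ[X]).comp θ = algebraMap S κ[X] := by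
    ext1 x
    have h1 : ((x : κ[X])).natDegree = 0 := hS x x.2
    show Polynomial.C ((x : κ[X]).coeff 0) = (x : κ[X])
    exact (eq_C_of_natDegree_eq_zero h1).symm
  rw [e]
  exact hq0

end aux

/-- (F6), the degree bound.  `r ↦ Ψ r (ξ + t β)` -/
theorem IsCell.natDegree_le (C : Ctx 𝒜 P H a) {κ : Type v} [Field κ] [Algebra ℂ κ]
    {Ψ : R →ₐ[ℂ] MvPolynomial (Fin n) κ} (hΨ : IsCell 𝒜 P H a Ψ) {β ξ : Fin n → κ}
    (hβ0 : β ≠ 0) (hβ : ∀ k : ℕ, 0 < k → ∀ c ∈ Wt 𝒜 P H k (-(a * k)),
      MvPolynomial.eval β (Ψ c) = 0) (hξ : MvPolynomial.eval ξ (Ψ H) ≠ 0)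
    (τ : R →ₐ[ℂ] κ[X])
    (hτ : ∀ r, τ r = MvPolynomial.aeval (fun i => Polynomial.C (ξ i) + Polynomial.C (β i) *
      Polynomial.X) (Ψ r)) :
    (∀ k : ℕ, ∀ c ∈ Wt 𝒜 P H k (-(a * k)), (τ c).natDegree ≤ k) ∧
      ∃ k : ℕ, 0 < k ∧ ∃ c ∈ Wt 𝒜 P H k (-(a * k)), (τ c).coeff k ≠ 0 := by
  classical
  have hdom : IsDomain R := C.hX.domain
  have ha : 0 < a := C.pos
  -- degrees
  have hf : ∀ i, (Polynomial.C (ξ i) + Polynomial.C (β i) * Polynomial.X).natDegree ≤ 1 := by
    intro i
    refine natDegree_add_le_of_degree_le (by simp) ?_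
    exact (natDegree_C_mul_le _ _).trans natDegree_X_le
  have hf1 : (fun i => (Polynomial.C (ξ i) + Polynomial.C (β i) * Polynomial.X).coeff 1) = β := by
    funext i
    simp [coeff_C]
  have hdeg : ∀ (k j : ℕ), ∀ r ∈ Wt 𝒜 P H k (a * k - a * j), (τ r).natDegree ≤ j ∧
      (τ r).coeff j = MvPolynomial.eval β (Ψ r) := by
    intro k j r hr
    have := li1_aeval (hΨ.homog k j r hr) _ hf
    rw [hf1, ← hτ] at this
    exact this
  have heval : ∀ r, (τ r).eval 0 = MvPolynomial.eval ξ (Ψ r) := by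
    intro r
    rw [hτ]
    have h1 : Polynomial.eval 0 (MvPolynomial.aeval
        (fun i => Polynomial.C (ξ i) + Polynomial.C (β i) * Polynomial.X) (Ψ r)) =
        ((Polynomial.evalRingHom 0).comp (MvPolynomial.aeval (fun i => Polynomial.C (ξ i) +
          Polynomial.C (β i) * Polynomial.X)).toRingHom) (Ψ r) := rfl
    rw [h1]
    congr 1
    ext i
    · simp
    · simp
  have hev : ∀ (γ : Fin n → κ) (r : R), (((MvPolynomial.aeval γ :
      MvPolynomial (Fin n) κ →ₐ[κ] κ).restrictScalars ℂ).comp Ψ) r =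
      MvPolynomial.eval γ (Ψ r) := fun γ r => by
    rfl
  -- a nonzero value at `ξ` in `A₋`
  obtain ⟨k₁, hk₁, c₁, hc₁, hc₁0⟩ : ∃ k : ℕ, 0 < k ∧ ∃ c ∈ Wt 𝒜 P H k (-(a * k)),
      τ c ≠ 0 := by
    by_contra hcon
    push Not at hcon
    have h1 := C.neg.apply_H_eq_zero (((MvPolynomial.aeval ξ :
      MvPolynomial (Fin n) κ →ₐ[κ] κ).restrictScalars ℂ).comp Ψ)
      (typeW_neg.2 (hΨ.typeW.comp _)) (by
        rintro ⟨k, hk, r, hr, hr0⟩
        rw [Wt_neg] at hr
        rw [hev] at hr0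
        apply hr0
        rw [← heval, hcon k hk r hr, eval_zero])
    rw [map_neg, neg_eq_zero, hev] at h1
    exact hξ h1
  have hdeg' : ∀ (k : ℕ), 0 < k → ∀ c ∈ Wt 𝒜 P H k (-(a * k)), (τ c).natDegree < 2 * k := by
    intro k hk c hc
    have hc' : c ∈ Wt 𝒜 P H k (a * k - a * ((2 * k : ℕ) : ℤ)) := by
      convert hc using 2
      push_cast
      ring
    obtain ⟨h1, h2⟩ := hdeg k (2 * k) c hc'
    rw [hβ k hk c hc] at h2
    refine lt_of_le_of_ne h1 fun h3 => ?_
    have h4 : τ c = 0 := by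
      rw [← leadingCoeff_eq_zero, leadingCoeff, h3]
      exact h2
    rw [h4, natDegree_zero] at h3
    omega
  -- generators
  obtain ⟨N, g, kk, mm, hg, htop⟩ := C.exists_generators
  have hmon : ∀ (k : ℕ) (e : Fin N → ℕ), ∑ i, e i * kk i = k →
      ∑ i, (e i : ℤ) * mm i = -(a * k) → ∏ i, g i ^ e i ≠ 0 →
      ∀ i, e i ≠ 0 → mm i = -(a * kk i) := by
    intro k e h1 h2 h3 i hi
    have h4 : ∀ j, 0 ≤ (e j : ℤ) * (mm j + a * kk j) := by
      intro j
      by_cases hj : e j = 0
      · rw [hj]; simp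
      · have hgj : g j ≠ 0 := by
          intro h0
          apply h3
          rw [Finset.prod_eq_zero (Finset.mem_univ j)]
          rw [h0, zero_pow hj]
        have := (abs_le.1 (C.abs_le (hg j).2 hgj)).1
        exact mul_nonneg (by positivity) (by linarith)
    have h5 : ∑ j, (e j : ℤ) * (mm j + a * kk j) = 0 := by
      have : ∑ j, (e j : ℤ) * (mm j + a * kk j) =
          ∑ j, (e j : ℤ) * mm j + a * ((∑ j, e j * kk j : ℕ) : ℤ) := by
        push_cast
        rw [Finset.mul_sum, ← Finset.sum_add_distrib]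
        exact Finset.sum_congr rfl fun j _ => by ring
      rw [this, h1, h2]
      ring
    have h6 := (Finset.sum_eq_zero_iff_of_nonneg fun j _ => h4 j).1 h5 i (Finset.mem_univ i)
    rcases mul_eq_zero.1 h6 with h7 | h7
    · exact absurd (by exact_mod_cast h7) hi
    · linarith
  set I : Finset (Fin N) := Finset.univ.filter fun i => mm i = -(a * kk i) ∧ τ (g i) ≠ 0 with hI
  have hIne : I.Nonempty := by
    rw [Finset.nonempty_iff_ne_empty]
    intro hemp
    apply hc₁0
    have h1 := C.mem_span_monomials hg htop hc₁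
    refine Submodule.span_induction ?_ (map_zero τ) ?_ ?_ h1
    · rintro x ⟨e, he1, he2, rfl⟩
      by_cases hx : ∏ i, g i ^ e i = 0
      · rw [hx, map_zero]
      obtain ⟨i, hi⟩ : ∃ i, e i ≠ 0 := by
        by_contra hcon
        push Not at hcon
        rw [Finset.sum_eq_zero fun i _ => by rw [hcon i, zero_mul]] at he1
        omega
      have hm := hmon _ e he1 he2 hx i hi
      have hgi : τ (g i) = 0 := by
        by_contra hne
        have : i ∈ I := Finset.mem_filter.2 ⟨Finset.mem_univ i, hm, hne⟩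
        rw [hemp] at this
        simp at this
      rw [map_prod, Finset.prod_eq_zero (Finset.mem_univ i)]
      rw [map_pow, hgi, zero_pow hi]
    · intro x y _ _ hx hy
      rw [map_add, hx, hy, add_zero]
    · intro c x _ hx
      rw [map_smul, hx, smul_zero]
  obtain ⟨i₀, hi₀, hmax⟩ := Finset.exists_max_image I
    (fun i => ((τ (g i)).natDegree : ℚ) / kk i) hIne
  obtain ⟨-, hm₀, hg₀⟩ := Finset.mem_filter.1 hi₀
  have hk₀ : 0 < kk i₀ := (hg i₀).1
  set k₀ : ℕ := kk i₀ with hk₀def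
  set d₀ : ℕ := (τ (g i₀)).natDegree with hd₀def
  have hmax' : ∀ i, mm i = -(a * kk i) → (τ (g i)).natDegree * k₀ ≤ d₀ * kk i := by
    intro i hi
    by_cases h0 : τ (g i) = 0
    · rw [h0, natDegree_zero, zero_mul]
      exact Nat.zero_le _
    · have h1 := hmax i (Finset.mem_filter.2 ⟨Finset.mem_univ i, hi, h0⟩)
      have h2 : (0 : ℚ) < kk i := by exact_mod_cast (hg i).1
      have h3 : (0 : ℚ) < k₀ := by exact_mod_cast hk₀
      rw [div_le_div_iff₀ h2 h3] at h1
      exact_mod_cast h1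
  have hg₀W : g i₀ ∈ Wt 𝒜 P H k₀ (-(a * k₀)) := by
    have := (hg i₀).2
    rwa [hm₀] at this
  have hd₀ : d₀ < 2 * k₀ := hdeg' k₀ hk₀ _ hg₀W
  -- the bound by the slope
  have hbound : ∀ k : ℕ, ∀ c ∈ Wt 𝒜 P H k (-(a * k)), (τ c).natDegree ≤ d₀ * k / k₀ := by
    intro k c hc
    have h1 := C.mem_span_monomials hg htop hc
    refine Submodule.span_induction (p := fun c _ => (τ c).natDegree ≤ d₀ * k / k₀) ?_ ?_ ?_ ?_ h1
    · rintro x ⟨e, he1, he2, rfl⟩
      by_cases hx : ∏ i, g i ^ e i = 0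
      · rw [hx, map_zero, natDegree_zero]
        exact Nat.zero_le _
      rw [Nat.le_div_iff_mul_le hk₀, map_prod]
      have h2 : (∏ i, τ (g i ^ e i)).natDegree ≤ ∑ i, e i * (τ (g i)).natDegree := by
        refine (natDegree_prod_le _ _).trans (Finset.sum_le_sum fun i _ => ?_)
        simp only [map_pow]
        exact natDegree_pow_le
      calc (∏ i, τ (g i ^ e i)).natDegree * k₀ ≤ (∑ i, e i * (τ (g i)).natDegree) * k₀ :=
            Nat.mul_le_mul_right _ h2
        _ = ∑ i, e i * ((τ (g i)).natDegree * k₀) := by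
            rw [Finset.sum_mul]
            exact Finset.sum_congr rfl fun i _ => by ring
        _ ≤ ∑ i, e i * (d₀ * kk i) := by
            refine Finset.sum_le_sum fun i _ => ?_
            by_cases hi : e i = 0
            · rw [hi, zero_mul, zero_mul]
            · exact Nat.mul_le_mul_left _ (hmax' i (hmon _ e he1 he2 hx i hi))
        _ = d₀ * k := by
            rw [← he1, Finset.mul_sum]
            exact Finset.sum_congr rfl fun i _ => by ring
    · rw [map_zero, natDegree_zero]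
      exact Nat.zero_le _
    · intro x y _ _ hx hy
      rw [map_add]
      exact natDegree_add_le_of_degree_le hx hy
    · intro c x _ hx
      rw [map_smul]
      exact (natDegree_smul_le c _).trans hx
  have hzero : ∀ k : ℕ, ¬ k₀ ∣ d₀ * k → d₀ * k / k₀ * k₀ < d₀ * k := by
    intro k hk
    refine lt_of_le_of_ne (Nat.div_mul_le_self _ _) fun h => hk ?_
    rw [← h]
    exact dvd_mul_left _ _
  -- the limit point
  obtain ⟨z, hz⟩ := C.exists_hom (B := κ) (fun k m => if m = -(a * k) ∧ k₀ ∣ d₀ * k then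
    ((lcoeff κ (d₀ * k / k₀)).restrictScalars ℂ) ∘ₗ τ.toLinearMap else 0) (by
      rw [if_pos ⟨by simp, by simp⟩]
      simp) (by
      intro k l m m' r hr s hs
      by_cases hr0 : r = 0
      · rw [hr0, zero_mul, map_zero, map_zero, zero_mul]
      by_cases hs0 : s = 0
      · rw [hs0, mul_zero, map_zero, map_zero, mul_zero]
      have h1 := (abs_le.1 (C.abs_le hr hr0)).1
      have h2 := (abs_le.1 (C.abs_le hs hs0)).1
      by_cases hm : m = -(a * k)
      · by_cases hm' : m' = -(a * l)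
        · subst hm
          subst hm'
          have hsum : -(a * (k : ℤ)) + -(a * (l : ℤ)) = -(a * ((k + l : ℕ) : ℤ)) := by
            push_cast
            ring
          have b1 := hbound k r hr
          have b2 := hbound l s hs
          simp only [hsum, true_and]
          by_cases d1 : k₀ ∣ d₀ * k
          · by_cases d2 : k₀ ∣ d₀ * l
            · have d3 : k₀ ∣ d₀ * (k + l) := by
                rw [mul_add]
                exact dvd_add d1 d2
              rw [if_pos d1, if_pos d2, if_pos d3]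
              show (τ (r * s)).coeff (d₀ * (k + l) / k₀) =
                (τ r).coeff (d₀ * k / k₀) * (τ s).coeff (d₀ * l / k₀)
              rw [map_mul, mul_add, Nat.add_div_of_dvd_right d1]
              exact coeff_mul_add_eq_of_natDegree_le b1 b2
            · have d3 : ¬ k₀ ∣ d₀ * (k + l) := by
                rw [mul_add]
                exact fun h => d2 ((Nat.dvd_add_right d1).1 h)
              rw [if_neg d2, if_neg d3]
              simp
          · rw [if_neg d1]
            by_cases d3 : k₀ ∣ d₀ * (k + l)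
            · rw [if_pos d3]
              show (τ (r * s)).coeff (d₀ * (k + l) / k₀) = 0 * _
              rw [zero_mul]
              refine coeff_eq_zero_of_natDegree_lt ?_
              rw [map_mul]
              refine (natDegree_mul_le_of_le b1 b2).trans_lt ?_
              have e1 := hzero k d1
              have e2 := Nat.div_mul_le_self (d₀ * l) k₀
              have e3 := Nat.div_mul_cancel d3
              by_contra hlt
              rw [not_lt] at hlt
              have e4 := Nat.mul_le_mul_right k₀ hlt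
              rw [e3, add_mul] at e4
              nlinarith
            · rw [if_neg d3]
              simp
        · have h3 : ¬ (m + m' = -(a * ((k + l : ℕ) : ℤ)) ∧ k₀ ∣ d₀ * (k + l)) := by
            rintro ⟨h4, -⟩
            apply hm'
            rw [hm] at h4
            push_cast at h4
            linarith
          rw [if_neg h3, if_neg (fun h : m' = -(a * (l : ℤ)) ∧ k₀ ∣ d₀ * l => hm' h.1)]
          simp
      · have h3 : ¬ (m + m' = -(a * ((k + l : ℕ) : ℤ)) ∧ k₀ ∣ d₀ * (k + l)) := by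
          rintro ⟨h4, -⟩
          apply hm
          push_cast at h4
          linarith
        rw [if_neg h3, if_neg (fun h : m = -(a * (k : ℤ)) ∧ k₀ ∣ d₀ * k => hm h.1)]
        simp)
  have hzg : z (g i₀) ≠ 0 := by
    rw [hz k₀ _ _ hg₀W, if_pos ⟨rfl, dvd_mul_left _ _⟩]
    show (τ (g i₀)).coeff (d₀ * k₀ / k₀) ≠ 0
    rw [Nat.mul_div_cancel _ hk₀]
    exact leadingCoeff_ne_zero.2 hg₀
  have hft : Algebra.FiniteType ℂ R := C.hX.finiteType
  obtain ⟨x, hx, hxg⟩ := exists_closed_point z (g i₀) hzg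
  have hv : ¬ IsVertex 𝒜 x := fun h => hxg (h k₀ hk₀ _ (mem_Wt.mp hg₀W).1)
  have hgcd : k₀ / Nat.gcd k₀ d₀ = 1 := by
    apply C.hX.lineBundle x hv
    intro k r hr hr0
    obtain ⟨m, s, hs, hs0⟩ : ∃ m, ∃ s ∈ Wt 𝒜 P H k m, x s ≠ 0 := by
      by_contra hcon
      push Not at hcon
      exact hr0 (C.hH.forall_of_Wt x.toLinearMap k hcon r hr)
    have hzs : z s ≠ 0 := fun h => hs0 (hx s h)
    rw [hz k m s hs] at hzs
    have h1 : m = -(a * k) ∧ k₀ ∣ d₀ * k := by
      by_contra hcon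
      rw [if_neg hcon] at hzs
      exact hzs rfl
    have hG0 : 0 < Nat.gcd k₀ d₀ := Nat.gcd_pos_of_pos_left _ hk₀
    have h2 : k₀ / Nat.gcd k₀ d₀ ∣ (d₀ / Nat.gcd k₀ d₀) * k := by
      obtain ⟨c, hc⟩ := h1.2
      refine ⟨c, Nat.eq_of_mul_eq_mul_left hG0 ?_⟩
      calc Nat.gcd k₀ d₀ * (d₀ / Nat.gcd k₀ d₀ * k)
          = (Nat.gcd k₀ d₀ * (d₀ / Nat.gcd k₀ d₀)) * k := by ring
        _ = d₀ * k := by rw [Nat.mul_div_cancel' (Nat.gcd_dvd_right _ _)]
        _ = k₀ * c := hc
        _ = (Nat.gcd k₀ d₀ * (k₀ / Nat.gcd k₀ d₀)) * c := by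
            rw [Nat.mul_div_cancel' (Nat.gcd_dvd_left _ _)]
        _ = _ := by ring
    exact Nat.Coprime.dvd_of_dvd_mul_left (Nat.coprime_div_gcd_div_gcd hG0) h2
  have hdvd : k₀ ∣ d₀ := by
    have h1 := Nat.div_mul_cancel (Nat.gcd_dvd_left k₀ d₀)
    rw [hgcd, one_mul] at h1
    rw [← h1]
    exact Nat.gcd_dvd_right _ _
  obtain ⟨q, hq⟩ := hdvd
  have hq2 : q < 2 := by
    rw [hq, mul_comm] at hd₀
    exact lt_of_mul_lt_mul_right hd₀ (Nat.zero_le _)
  have hq0 : q ≠ 0 := by
    rintro rfl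
    rw [mul_zero] at hq
    have hcm : ∀ k : ℕ, ∀ c ∈ Wt 𝒜 P H k (-(a * k)), (τ c).natDegree = 0 := by
      intro k c hc
      have := hbound k c hc
      rw [hq, zero_mul, Nat.zero_div] at this
      exact Nat.le_zero.1 this
    have hcp : ∀ k : ℕ, ∀ c ∈ Wt 𝒜 P H k (a * k), (τ c).natDegree = 0 := by
      intro k c hc
      exact Nat.le_zero.1 (hdeg k 0 c (by simpa using hc)).1
    let T : Subalgebra ℂ κ[X] := ((Algebra.ofId κ κ[X]).restrictScalars ℂ).range
    have hT : ∀ p : κ[X], p.natDegree = 0 → p ∈ T := fun p hp =>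
      ⟨p.coeff 0, (eq_C_of_natDegree_eq_zero hp).symm⟩
    have hT' : ∀ p ∈ T, p.natDegree = 0 := by
      rintro _ ⟨y, rfl⟩
      exact natDegree_C y
    have hA : Ap 𝒜 P H a ≤ T.comap τ := by
      refine Algebra.adjoin_le ?_
      rintro r ⟨k, hr⟩
      exact hT _ (hcp k r hr)
    have hA' : Ap 𝒜 P (-H) a ≤ T.comap τ := by
      refine Algebra.adjoin_le ?_
      rintro r ⟨k, hr⟩
      rw [Wt_neg] at hr
      exact hT _ (hcm k r hr)
    have hS : Algebra.adjoin ℂ (τ '' ((Ap 𝒜 P H a : Set R) ∪ (Ap 𝒜 P (-H) a : Set R))) ≤ T := by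
      refine Algebra.adjoin_le ?_
      rintro _ ⟨r, hr | hr, rfl⟩
      · exact hA hr
      · exact hA' hr
    have hW : TypeW 𝒜 P H a τ := by
      intro k m hm r hr
      rw [hτ, hΨ.typeW k m hm r hr, map_zero]
    have hH0 : τ H ≠ 0 := by
      intro h
      apply hξ
      rw [← heval, h, eval_zero]
    have hone : ∀ l : ℕ, ∀ r ∈ Wt 𝒜 P H l (a * l - a), MvPolynomial.eval β (Ψ r) = 0 := by
      intro l r hr
      have h1 := (hdeg l 1 r (by simpa using hr)).2
      rw [← h1]
      by_cases hr0 : τ r = 0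
      · rw [hr0, coeff_zero]
      have h2 := li1_const_of_subalgebra (fun p hp => hT' p (hS hp))
        (C.isIntegral_defect_one τ hW hr)
      rw [map_mul, natDegree_mul hH0 hr0] at h2
      exact coeff_eq_zero_of_natDegree_lt (by omega)
    apply hβ0
    funext i
    have h1 := hΨ.lin i
    have h2 : ∀ p ∈ Submodule.span κ {p | ∃ (k : ℕ), ∃ r ∈ Wt 𝒜 P H k (a * k - a), p = Ψ r},
        MvPolynomial.eval β p = 0 := by
      intro p hp
      induction hp using Submodule.span_induction with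
      | mem p hp =>
        obtain ⟨k, r, hr, rfl⟩ := hp
        exact hone k r hr
      | zero => exact map_zero _
      | add p p' _ _ h h' => rw [map_add, h, h', add_zero]
      | smul c p _ h => rw [MvPolynomial.smul_eval, h, mul_zero]
    have h3 := h2 _ h1
    rwa [MvPolynomial.eval_X] at h3
  have hq1 : q = 1 := by omega
  rw [hq1, mul_one] at hq
  refine ⟨fun k c hc => ?_, k₀, hk₀, g i₀, hg₀W, ?_⟩
  · have := hbound k c hc
    rwa [hq, Nat.mul_div_cancel_left _ hk₀] at this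
  · rw [← hq]
    exact leadingCoeff_ne_zero.2 hg₀

end Vale.Agent.P292
end

section

/-! Theorem E, section 5: (F6). See `PROOF.md`. -/

namespace Vale.Agent.P292

open Module Polynomial

universe u v

lemma li2_scale {σ κ K : Type*} [CommRing κ] [CommRing K] (f : κ →+* K) (g : σ → K) (r : K)
    {φ : MvPolynomial σ κ} {m : ℕ} (hφ : φ.IsHomogeneous m) :
    MvPolynomial.eval₂ f (fun i => r * g i) φ = r ^ m * MvPolynomial.eval₂ f g φ := by
  rw [MvPolynomial.eval₂_eq, MvPolynomial.eval₂_eq, Finset.mul_sum]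
  refine Finset.sum_congr rfl fun d hd => ?_
  have h1 : ∑ i ∈ d.support, d i = m := (hφ.degree_eq_sum_deg_support hd).symm
  simp only [mul_pow]
  rw [Finset.prod_mul_distrib, Finset.prod_pow_eq_pow_sum, h1]
  ring

/-- homogenisation -/
noncomputable def li2_L (κ : Type v) [Field κ] (k : ℕ) : κ[X] →ₗ[κ] MvPolynomial (Fin 2) κ :=
  ∑ i ∈ Finset.range (k + 1), (LinearMap.toSpanSingleton κ (MvPolynomial (Fin 2) κ)
    (MvPolynomial.X 0 ^ (k - i) * MvPolynomial.X 1 ^ i)).comp (Polynomial.lcoeff κ i)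

section
variable {κ : Type v} [Field κ]

lemma li2_L_apply (k : ℕ) (p : κ[X]) : li2_L κ k p = ∑ i ∈ Finset.range (k + 1),
    p.coeff i • ((MvPolynomial.X 0 : MvPolynomial (Fin 2) κ) ^ (k - i) *
      MvPolynomial.X 1 ^ i) := by
  simp [li2_L, LinearMap.sum_apply]

lemma li2_L_frac (k : ℕ) {p : κ[X]} (hp : p.natDegree ≤ k) :
    algebraMap _ (FractionRing (MvPolynomial (Fin 2) κ)) (li2_L κ k p) =
      (algebraMap (MvPolynomial (Fin 2) κ) (FractionRing (MvPolynomial (Fin 2) κ))
        (MvPolynomial.X 0)) ^ k *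
        Polynomial.eval₂ ((algebraMap (MvPolynomial (Fin 2) κ)
          (FractionRing (MvPolynomial (Fin 2) κ))).comp MvPolynomial.C)
          ((algebraMap (MvPolynomial (Fin 2) κ) (FractionRing (MvPolynomial (Fin 2) κ))
            (MvPolynomial.X 1)) / (algebraMap (MvPolynomial (Fin 2) κ)
            (FractionRing (MvPolynomial (Fin 2) κ)) (MvPolynomial.X 0))) p := by
  have h0 : algebraMap (MvPolynomial (Fin 2) κ) (FractionRing (MvPolynomial (Fin 2) κ))
      (MvPolynomial.X 0) ≠ 0 := by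
    intro h
    rw [map_eq_zero_iff _ (IsFractionRing.injective _ _)] at h
    exact MvPolynomial.X_ne_zero 0 h
  rw [li2_L_apply, Polynomial.eval₂_eq_sum_range' _ (Nat.lt_succ_of_le hp), map_sum,
    Finset.mul_sum]
  refine Finset.sum_congr rfl fun i hi => ?_
  have hik : i ≤ k := Nat.lt_succ_iff.mp (Finset.mem_range.mp hi)
  rw [MvPolynomial.smul_eq_C_mul, map_mul, map_mul, map_pow, map_pow, RingHom.comp_apply, div_pow]
  have h1 : (algebraMap (MvPolynomial (Fin 2) κ) (FractionRing (MvPolynomial (Fin 2) κ))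
      (MvPolynomial.X 0)) ^ k = (algebraMap (MvPolynomial (Fin 2) κ)
      (FractionRing (MvPolynomial (Fin 2) κ)) (MvPolynomial.X 0)) ^ (k - i) *
      (algebraMap (MvPolynomial (Fin 2) κ)
      (FractionRing (MvPolynomial (Fin 2) κ)) (MvPolynomial.X 0)) ^ i := by
    rw [← pow_add, Nat.sub_add_cancel hik]
  rw [h1]
  field_simp

lemma li2_L_mul {k l : ℕ} {p q : κ[X]} (hp : p.natDegree ≤ k) (hq : q.natDegree ≤ l) :
    li2_L κ (k + l) (p * q) = li2_L κ k p * li2_L κ l q := by
  apply IsFractionRing.injective (MvPolynomial (Fin 2) κ)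
    (FractionRing (MvPolynomial (Fin 2) κ))
  rw [li2_L_frac (k + l) (natDegree_mul_le_of_le hp hq), map_mul, li2_L_frac k hp,
    li2_L_frac l hq, Polynomial.eval₂_mul]
  ring

lemma li2_L_homog (k : ℕ) (p : κ[X]) : (li2_L κ k p).IsHomogeneous k := by
  rw [li2_L_apply]
  refine MvPolynomial.IsHomogeneous.sum _ _ _ fun i hi => ?_
  have hik : i ≤ k := Nat.lt_succ_iff.mp (Finset.mem_range.mp hi)
  rw [MvPolynomial.smul_eq_C_mul]
  refine MvPolynomial.IsHomogeneous.C_mul ?_ _
  have := (MvPolynomial.isHomogeneous_X_pow (R := κ) (0 : Fin 2) (k - i)).mul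
    (MvPolynomial.isHomogeneous_X_pow (R := κ) (1 : Fin 2) i)
  rwa [Nat.sub_add_cancel hik] at this

lemma li2_L_eval (k : ℕ) {p : κ[X]} (hp : p.natDegree ≤ k) {w : Fin 2 → κ} (hw : w 0 ≠ 0) :
    MvPolynomial.eval w (li2_L κ k p) = w 0 ^ k * p.eval (w 1 / w 0) := by
  rw [li2_L_apply, Polynomial.eval_eq_sum_range' (Nat.lt_succ_of_le hp), map_sum,
    Finset.mul_sum]
  refine Finset.sum_congr rfl fun i hi => ?_
  have hik : i ≤ k := Nat.lt_succ_iff.mp (Finset.mem_range.mp hi)
  have h1 : w 0 ^ k = w 0 ^ (k - i) * w 0 ^ i := by rw [← pow_add, Nat.sub_add_cancel hik]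
  rw [MvPolynomial.smul_eval, map_mul, map_pow, map_pow, MvPolynomial.eval_X,
    MvPolynomial.eval_X, div_pow, h1]
  field_simp

lemma li2_L_eval_zero (k : ℕ) (p : κ[X]) {w : Fin 2 → κ} (hw : w 0 = 0) :
    MvPolynomial.eval w (li2_L κ k p) = p.coeff k * w 1 ^ k := by
  rw [li2_L_apply, map_sum, Finset.sum_eq_single k]
  · rw [MvPolynomial.smul_eval, map_mul, map_pow, map_pow, MvPolynomial.eval_X,
      MvPolynomial.eval_X, Nat.sub_self, pow_zero, one_mul]
  · intro i hi hik
    have hik' : i ≤ k := Nat.lt_succ_iff.mp (Finset.mem_range.mp hi)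
    rw [MvPolynomial.smul_eval, map_mul, map_pow, map_pow, MvPolynomial.eval_X,
      MvPolynomial.eval_X, hw, zero_pow (by omega), zero_mul, mul_zero]
  · intro h
    exact absurd (Finset.mem_range.mpr (Nat.lt_succ_self k)) h

lemma li2_key {n : ℕ} (k : ℕ) (ξ β : Fin n → κ) {φ : MvPolynomial (Fin n) κ}
    (hφ : φ.IsHomogeneous (2 * k))
    (hd : (MvPolynomial.aeval (fun i => Polynomial.C (ξ i) + Polynomial.C (β i) *
      Polynomial.X) φ : κ[X]).natDegree ≤ k) :
    MvPolynomial.X 0 ^ k * li2_L κ k (MvPolynomial.aeval (fun i => Polynomial.C (ξ i) +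
      Polynomial.C (β i) * Polynomial.X) φ) =
      MvPolynomial.aeval (fun i => MvPolynomial.C (ξ i) * MvPolynomial.X 0 +
          MvPolynomial.C (β i) * MvPolynomial.X 1) φ := by
  set A := algebraMap (MvPolynomial (Fin 2) κ) (FractionRing (MvPolynomial (Fin 2) κ)) with hA
  have h0 : A (MvPolynomial.X 0) ≠ 0 := by
    intro h
    rw [hA, map_eq_zero_iff _ (IsFractionRing.injective _ _)] at h
    exact MvPolynomial.X_ne_zero 0 h
  apply IsFractionRing.injective (MvPolynomial (Fin 2) κ)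
    (FractionRing (MvPolynomial (Fin 2) κ))
  rw [← hA, map_mul, map_pow, hA, li2_L_frac k hd, ← hA]
  have e1 : Polynomial.eval₂ (A.comp MvPolynomial.C) (A (MvPolynomial.X 1) / A (MvPolynomial.X 0))
      (MvPolynomial.aeval (fun i => Polynomial.C (ξ i) + Polynomial.C (β i) *
      Polynomial.X) φ : κ[X]) = MvPolynomial.eval₂ (A.comp MvPolynomial.C)
        (fun i => A (MvPolynomial.C (ξ i)) + A (MvPolynomial.C (β i)) *
          (A (MvPolynomial.X 1) / A (MvPolynomial.X 0))) φ := by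
    rw [MvPolynomial.aeval_def, ← Polynomial.coe_eval₂RingHom, MvPolynomial.hom_eval₂]
    congr 1
    · ext x
      simp
    · funext i
      simp
  have e2 : A (MvPolynomial.aeval (fun i => MvPolynomial.C (ξ i) * MvPolynomial.X 0 +
          MvPolynomial.C (β i) * MvPolynomial.X 1) φ) = MvPolynomial.eval₂ (A.comp MvPolynomial.C)
        (fun i => A (MvPolynomial.X 0) * (A (MvPolynomial.C (ξ i)) + A (MvPolynomial.C (β i)) *
          (A (MvPolynomial.X 1) / A (MvPolynomial.X 0)))) φ := by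
    rw [MvPolynomial.aeval_def, MvPolynomial.hom_eval₂]
    congr 1
    funext i
    simp only [map_add, map_mul]
    field_simp
  rw [e1, e2, li2_scale _ _ _ hφ, ← mul_assoc, ← pow_add, two_mul]

end

lemma li2_linear {κ : Type v} [Field κ] {n : ℕ} (ξ β : Fin n → κ) (t : κ)
    {φ : MvPolynomial (Fin n) κ} (hφ : φ.IsHomogeneous 1) :
    MvPolynomial.eval (fun i => ξ i + β i * t) φ =
      MvPolynomial.eval ξ φ + t * MvPolynomial.eval β φ := by
  have h1 : φ ∈ Submodule.span κ (Set.range (MvPolynomial.X (R := κ) (σ := Fin n))) := by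
    rw [← MvPolynomial.homogeneousSubmodule_one_eq_span_X]
    exact hφ
  clear hφ
  induction h1 using Submodule.span_induction with
  | zero => simp
  | add x y _ _ hx hy =>
    rw [map_add, map_add, map_add, hx, hy]
    ring
  | smul c x _ hx =>
    rw [MvPolynomial.smul_eval, MvPolynomial.smul_eval, MvPolynomial.smul_eval, hx]
    ring
  | mem x hx =>
    obtain ⟨i, rfl⟩ := hx
    simp only [MvPolynomial.eval_X]
    ring

variable {R : Type u} [CommRing R] [Algebra ℂ R] {𝒜 : ℕ → Submodule ℂ R} [GradedAlgebra 𝒜]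
  {P : R →ₗ[ℂ] R →ₗ[ℂ] R} {H : R} {a : ℤ} {n : ℕ}

/-- (F6) -/
theorem IsCell.exists_line (C : Ctx 𝒜 P H a) {κ : Type v} [Field κ] [Algebra ℂ κ]
    {Ψ : R →ₐ[ℂ] MvPolynomial (Fin n) κ} (hΨ : IsCell 𝒜 P H a Ψ) {β ξ : Fin n → κ}
    (hβ0 : β ≠ 0) (hβ : ∀ k : ℕ, 0 < k → ∀ c ∈ Wt 𝒜 P H k (-(a * k)),
      MvPolynomial.eval β (Ψ c) = 0) (hξ : MvPolynomial.eval ξ (Ψ H) ≠ 0)
    (hinj : ∀ c ∈ Ap 𝒜 P (-H) a, MvPolynomial.eval ξ (Ψ c) = 0 → c = 0) :
    ∃ μ : R →ₐ[ℂ] MvPolynomial (Fin 2) κ, IsLine 𝒜 P (-H) a μ ∧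
      ∀ k : ℕ, ∀ c ∈ Wt 𝒜 P H k (-(a * k)), MvPolynomial.X 0 ^ k * μ c =
        MvPolynomial.aeval (fun i => MvPolynomial.C (ξ i) * MvPolynomial.X 0 +
          MvPolynomial.C (β i) * MvPolynomial.X 1) (Ψ c) := by
  classical
  let τ : R →ₐ[ℂ] κ[X] := ((MvPolynomial.aeval (fun i => Polynomial.C (ξ i) +
    Polynomial.C (β i) * Polynomial.X) : MvPolynomial (Fin n) κ →ₐ[κ] κ[X]).restrictScalars ℂ).comp Ψ
  have hτ : ∀ r, τ r = MvPolynomial.aeval (fun i => Polynomial.C (ξ i) + Polynomial.C (β i) *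
      Polynomial.X) (Ψ r) := fun r => rfl
  obtain ⟨hdeg, htop⟩ := hΨ.natDegree_le C hβ0 hβ hξ τ hτ
  -- points on the line
  have hpt : ∀ (t : κ) (r : R), (τ r).eval t =
      MvPolynomial.eval (fun i => ξ i + β i * t) (Ψ r) := by
    intro t r
    rw [hτ, MvPolynomial.aeval_def, ← Polynomial.coe_evalRingHom, MvPolynomial.hom_eval₂,
      ← MvPolynomial.eval₂_id]
    congr 1
    · ext x
      simp
    · funext i
      simp
  let F : ℕ → ℤ → R →ₗ[ℂ] MvPolynomial (Fin 2) κ := fun k m =>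
    if m = -(a * k) then ((li2_L κ k).restrictScalars ℂ).comp τ.toLinearMap else 0
  have hF1 : ∀ (k : ℕ) (m : ℤ) (r : R), m = -(a * k) → F k m r = li2_L κ k (τ r) := by
    intro k m r h
    simp only [F, if_pos h]
    rfl
  have hF0 : ∀ (k : ℕ) (m : ℤ) (r : R), m ≠ -(a * k) → F k m r = 0 := by
    intro k m r h
    simp only [F, if_neg h]
    rfl
  obtain ⟨μ, hμ⟩ := exists_algHom_of_Wt C.hX C.hH F (by
    rw [hF1 0 0 1 (by simp), map_one, li2_L_apply]
    simp) (by
    intro k l m m' r hr s hs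
    by_cases h1 : m = -(a * k)
    · by_cases h2 : m' = -(a * l)
      · subst h1 h2
        rw [hF1 k _ r rfl, hF1 l _ s rfl, hF1 (k + l) _ (r * s) (by push_cast; ring), map_mul,
          li2_L_mul (hdeg k r hr) (hdeg l s hs)]
      · rw [hF0 l m' s h2, mul_zero, hF0]
        intro h3
        apply h2
        push_cast at h3
        rw [h1] at h3
        linarith
    · rw [hF0 k m r h1, zero_mul]
      by_cases h3 : m + m' = -(a * ((k + l : ℕ) : ℤ))
      · by_cases hr0 : r = 0
        · rw [hr0, zero_mul, map_zero]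
        by_cases hs0 : s = 0
        · rw [hs0, mul_zero, map_zero]
        exfalso
        have h4 := (abs_le.mp (C.hmax.le' C.hX C.hH hr hr0)).1
        have h5 := (abs_le.mp (C.hmax.le' C.hX C.hH hs hs0)).1
        push_cast at h3
        apply h1
        linarith
      · rw [hF0 _ _ _ h3])
  have hμ1 : ∀ (k : ℕ), ∀ c ∈ Wt 𝒜 P H k (-(a * k)), μ c = li2_L κ k (τ c) := by
    intro k c hc
    rw [hμ k _ c hc, hF1 k _ c rfl]
  have hneg : ∀ (k : ℕ) (c : R), c ∈ Wt 𝒜 P (-H) k (a * k) → c ∈ Wt 𝒜 P H k (-(a * k)) := by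
    intro k c hc
    rwa [Wt_neg] at hc
  have hneg' : ∀ (k : ℕ) (c : R), c ∈ Wt 𝒜 P H k (-(a * k)) → c ∈ Wt 𝒜 P (-H) k (a * k) := by
    intro k c hc
    rwa [Wt_neg]
  -- the value of `H` on the line
  have C' : Ctx 𝒜 P (-H) a := ⟨C.hX, C.hH.neg, (C.hmax.neg C.hX C.hH).1⟩
  have hH1 : ∀ t : κ, MvPolynomial.eval (fun i => ξ i + β i * t) (Ψ H) ≠ 0 := by
    intro t
    have hHW : H ∈ Wt 𝒜 P H 1 (a * ((1 : ℕ) : ℤ) - a * ((1 : ℕ) : ℤ)) := by
      rw [mem_Wt]
      exact ⟨C.hH.mem, by rw [C.hX.alternating, sub_self]; simp⟩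
    rw [li2_linear ξ β t (hΨ.homog 1 1 H hHW)]
    have h1 : MvPolynomial.eval β (Ψ H) = 0 := by
      let φ : R →ₐ[ℂ] κ := ((MvPolynomial.aeval β :
        MvPolynomial (Fin n) κ →ₐ[κ] κ).restrictScalars ℂ).comp Ψ
      have hφ : ∀ r, φ r = MvPolynomial.eval β (Ψ r) := by
        intro r
        rw [← MvPolynomial.coe_aeval_eq_eval]
        rfl
      have h2 := C'.apply_H_eq_zero φ (by
        apply TypeW.neg
        intro k m hm r hr
        rw [hφ, hΨ.typeW k m hm r hr, map_zero]) (by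
        rintro ⟨k, hk, c, hc, hc0⟩
        apply hc0
        rw [hφ]
        exact hβ k hk c (hneg k c hc))
      rwa [map_neg, neg_eq_zero, hφ] at h2
    rw [h1, mul_zero, add_zero]
    exact hξ
  refine ⟨μ, ⟨?_, ?_, ?_, ?_⟩, ?_⟩
  · intro k m hm r hr
    rw [Wt_neg] at hr
    rw [hμ k _ r hr, hF0]
    intro h
    exact hm (neg_injective h)
  · intro k c hc
    rw [hμ1 k c (hneg k c hc)]
    exact li2_L_homog k _
  · intro w hw
    by_cases hw0 : w 0 = 0
    · obtain ⟨k, hk, c, hc, hck⟩ := htop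
      refine ⟨k, hk, c, hneg' k c hc, ?_⟩
      rw [hμ1 k c hc, li2_L_eval_zero k _ hw0]
      have hw1 : w 1 ≠ 0 := by
        intro h
        apply hw
        funext i
        fin_cases i
        · exact hw0
        · exact h
      exact mul_ne_zero hck (pow_ne_zero _ hw1)
    · -- a point where `H ≠ 0`
      by_contra hcon
      push Not at hcon
      let φ : R →ₐ[ℂ] κ := ((MvPolynomial.aeval (fun i => ξ i + β i * (w 1 / w 0)) :
        MvPolynomial (Fin n) κ →ₐ[κ] κ).restrictScalars ℂ).comp Ψ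
      have hφ : ∀ r, φ r = MvPolynomial.eval (fun i => ξ i + β i * (w 1 / w 0)) (Ψ r) := by
        intro r
        rw [← MvPolynomial.coe_aeval_eq_eval]
        rfl
      have hφW : TypeW 𝒜 P (-H) a φ := by
        apply TypeW.neg
        intro k m hm r hr
        rw [hφ, hΨ.typeW k m hm r hr, map_zero]
      have hNV : ¬ NV 𝒜 P (-H) a φ := by
        rintro ⟨k, hk, c, hc, hc0⟩
        apply hc0
        have h1 := hcon k hk c hc
        rw [hμ1 k c (hneg k c hc), li2_L_eval k (hdeg k c (hneg k c hc)) hw0, hpt] at h1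
        rw [hφ]
        exact (mul_eq_zero.mp h1).resolve_left (pow_ne_zero _ hw0)
      have h2 := C'.apply_H_eq_zero φ hφW hNV
      rw [map_neg, neg_eq_zero, hφ] at h2
      exact hH1 _ h2
  · intro r hr h0
    apply hinj r hr
    have h1 : ∀ r ∈ Ap 𝒜 P (-H) a, MvPolynomial.eval ξ (Ψ r) =
        MvPolynomial.eval (![1, 0] : Fin 2 → κ) (μ r) := by
      intro r hr
      induction hr using Algebra.adjoin_induction with
      | mem x hx =>
        obtain ⟨k, hk⟩ := hx
        have hk' := hneg k x hk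
        rw [hμ1 k x hk', li2_L_eval k (hdeg k x hk') (by simp), hpt]
        simp
      | algebraMap z =>
        rw [AlgHom.commutes, AlgHom.commutes, IsScalarTower.algebraMap_apply ℂ κ,
          IsScalarTower.algebraMap_apply ℂ κ (MvPolynomial (Fin 2) κ),
          MvPolynomial.algebraMap_eq, MvPolynomial.algebraMap_eq, MvPolynomial.eval_C,
          MvPolynomial.eval_C]
      | add x y _ _ hx hy => rw [map_add, map_add, map_add, map_add, hx, hy]
      | mul x y _ _ hx hy => rw [map_mul, map_mul, map_mul, map_mul, hx, hy]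
    rw [h1 r hr, h0, map_zero]
  · intro k c hc
    rw [hμ1 k c hc, hτ]
    apply li2_key k ξ β
    · have : c ∈ Wt 𝒜 P H k (a * k - a * ((2 * k : ℕ) : ℤ)) := by
        have e : a * (k : ℤ) - a * ((2 * k : ℕ) : ℤ) = -(a * k) := by push_cast; ring
        rw [e]; exact hc
      exact hΨ.homog k (2 * k) c this
    · rw [← hτ]
      exact hdeg k c hc

end Vale.Agent.P292
end

section

/-! Theorem E, section 7: the graded module of derivations over a line. See `PROOF.md`. -/

namespace Vale.Agent.P292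

open Module Polynomial

universe u v

variable {R : Type u} [CommRing R] [Algebra ℂ R] {𝒜 : ℕ → Submodule ℂ R} [GradedAlgebra 𝒜]
  {P : R →ₗ[ℂ] R →ₗ[ℂ] R} {H : R} {a : ℤ} {n : ℕ}

variable {κ : Type v} [Field κ] [Algebra ℂ κ] {μ : R →ₐ[ℂ] MvPolynomial (Fin 2) κ}

theorem sp2_homComp_mul {σ : Type*} {l q : MvPolynomial σ κ} (hl : l.IsHomogeneous 1) (i : ℕ) :
    MvPolynomial.homogeneousComponent (i + 1) (l * q) =
      l * MvPolynomial.homogeneousComponent i q := by
  conv_lhs => rw [← MvPolynomial.sum_homogeneousComponent q]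
  rw [Finset.mul_sum, map_sum]
  have key : ∀ j, MvPolynomial.homogeneousComponent (i + 1)
      (l * MvPolynomial.homogeneousComponent j q) =
        if j = i then l * MvPolynomial.homogeneousComponent i q else 0 := by
    intro j
    have h1 : (l * MvPolynomial.homogeneousComponent j q).IsHomogeneous (1 + j) :=
      hl.mul (MvPolynomial.homogeneousComponent_isHomogeneous _ _)
    rw [MvPolynomial.homogeneousComponent_of_mem
      ((MvPolynomial.mem_homogeneousSubmodule _ _).2 h1)]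
    by_cases hj : j = i
    · subst hj
      rw [if_pos rfl, if_pos (by omega)]
    · rw [if_neg hj, if_neg (by omega)]
  rw [Finset.sum_congr rfl fun j _ => key j, Finset.sum_ite_eq']
  split_ifs with h
  · rfl
  · rw [Finset.mem_range, not_lt] at h
    rw [MvPolynomial.homogeneousComponent_eq_zero _ _ (by omega), mul_zero]

theorem sp2_of_mul {σ : Type*} {l q : MvPolynomial σ κ} (hl : l.IsHomogeneous 1) (hl0 : l ≠ 0)
    {D : ℕ} (h : (l * q).IsHomogeneous D) : q = 0 ∨ ∃ d, D = d + 1 ∧ q.IsHomogeneous d := by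
  have key : ∀ i, i + 1 ≠ D → MvPolynomial.homogeneousComponent i q = 0 := by
    intro i hi
    have h1 := sp2_homComp_mul (q := q) hl i
    rw [MvPolynomial.homogeneousComponent_of_mem
      ((MvPolynomial.mem_homogeneousSubmodule _ _).2 h), if_neg hi] at h1
    exact (mul_eq_zero.1 h1.symm).resolve_left hl0
  rcases Nat.eq_zero_or_pos D with hD | hD
  · left
    rw [← MvPolynomial.sum_homogeneousComponent q]
    exact Finset.sum_eq_zero fun i _ => key i (by omega)
  · right
    refine ⟨D - 1, by omega, ?_⟩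
    rw [← MvPolynomial.sum_homogeneousComponent q]
    refine MvPolynomial.IsHomogeneous.sum _ _ _ fun i _ => ?_
    by_cases hi : i + 1 = D
    · have : D - 1 = i := by omega
      rw [this]
      exact MvPolynomial.homogeneousComponent_isHomogeneous _ _
    · rw [key i hi]
      exact MvPolynomial.isHomogeneous_zero _ _ _

theorem sp2_prime {σ : Type*} {l : MvPolynomial σ κ} (hl : l.IsHomogeneous 1) (hl0 : l ≠ 0) :
    Prime l := by
  refine Irreducible.prime (MvPolynomial.irreducible_of_totalDegree_eq_one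
    (hl.totalDegree hl0) fun x hx => ?_)
  rw [isUnit_iff_ne_zero]
  rintro rfl
  apply hl0
  ext i
  simpa using hx i

theorem sp2_not_dvd {l w : MvPolynomial (Fin 2) κ}
    (hl : l.IsHomogeneous 1) (hw : w.IsHomogeneous 1) (hlw : LinearIndependent κ ![l, w]) :
    ¬ l ∣ w := by
  rintro ⟨q, hq⟩
  have hl0 : l ≠ 0 := by
    have := hlw.ne_zero 0
    simpa using this
  have hw0 : w ≠ 0 := by
    have := hlw.ne_zero 1
    simpa using this
  rcases sp2_of_mul (q := q) hl hl0 (hq ▸ hw) with h | ⟨d, hd, h⟩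
  · rw [h, mul_zero] at hq
    exact hw0 hq
  · have hd0 : d = 0 := by omega
    subst hd0
    rw [← MvPolynomial.totalDegree_zero_iff_isHomogeneous,
      MvPolynomial.totalDegree_eq_zero_iff_eq_C] at h
    rw [LinearIndependent.pair_iff] at hlw
    have := hlw (MvPolynomial.coeff 0 q) (-1) (by
      rw [hq]
      conv_lhs => rw [h]
      rw [MvPolynomial.smul_eq_C_mul]
      simp [mul_comm])
    exact one_ne_zero (neg_eq_zero.1 this.2)

/-- Derivations `A₊ → κ[u₀,u₁]` over `μ`, of degree `j`. -/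
def DerM (𝒜 : ℕ → Submodule ℂ R) (P : R →ₗ[ℂ] R →ₗ[ℂ] R) (H : R) (a : ℤ)
    (μ : R →ₐ[ℂ] MvPolynomial (Fin 2) κ) (j : ℤ) :
    Submodule κ (R →ₗ[ℂ] MvPolynomial (Fin 2) κ) where
  carrier := {δ | (∀ x ∈ Ap 𝒜 P H a, ∀ y ∈ Ap 𝒜 P H a, δ (x * y) = μ x * δ y + μ y * δ x) ∧
    (∀ (k : ℕ) (m : ℤ), m ≠ a * k → ∀ r ∈ Wt 𝒜 P H k m, δ r = 0) ∧
    (∀ k : ℕ, ∀ c ∈ Wt 𝒜 P H k (a * k), δ c = 0 ∨
      ∃ d : ℕ, (d : ℤ) = k + j ∧ (δ c).IsHomogeneous d)}
  add_mem' := by
    rintro δ ε ⟨h1, h2, h3⟩ ⟨g1, g2, g3⟩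
    refine ⟨fun x hx y hy => ?_, fun k m hm r hr => ?_, fun k c hc => ?_⟩
    · rw [LinearMap.add_apply, LinearMap.add_apply, LinearMap.add_apply, h1 x hx y hy,
        g1 x hx y hy]
      ring
    · rw [LinearMap.add_apply, h2 k m hm r hr, g2 k m hm r hr, add_zero]
    · rw [LinearMap.add_apply]
      rcases h3 k c hc with h | ⟨d, hd, h⟩
      · rw [h, zero_add]
        exact g3 k c hc
      · rcases g3 k c hc with g | ⟨e, he, g⟩
        · rw [g, add_zero]
          exact Or.inr ⟨d, hd, h⟩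
        · have : e = d := by omega
          subst this
          exact Or.inr ⟨e, he, h.add g⟩
  zero_mem' := by
    refine ⟨fun x hx y hy => ?_, fun k m hm r hr => ?_, fun k c hc => ?_⟩
    · simp
    · simp
    · exact Or.inl (by simp)
  smul_mem' := by
    rintro t δ ⟨h1, h2, h3⟩
    refine ⟨fun x hx y hy => ?_, fun k m hm r hr => ?_, fun k c hc => ?_⟩
    · rw [LinearMap.smul_apply, LinearMap.smul_apply, LinearMap.smul_apply, h1 x hx y hy,
        smul_add, mul_smul_comm, mul_smul_comm]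
    · rw [LinearMap.smul_apply, h2 k m hm r hr, smul_zero]
    · rw [LinearMap.smul_apply]
      rcases h3 k c hc with h | ⟨d, hd, h⟩
      · exact Or.inl (by rw [h, smul_zero])
      · refine Or.inr ⟨d, hd, ?_⟩
        rw [MvPolynomial.smul_eq_C_mul]
        exact h.C_mul t

/-- The derivations `{r, ·}`, `r` of defect one. -/
theorem Ctx.P_mem_DerM (C : Ctx 𝒜 P H a) (hμ : IsLine 𝒜 P H a μ) {k : ℕ} {r : R}
    (hr : r ∈ Wt 𝒜 P H k (a * k - a)) :
    ∃ δ ∈ DerM 𝒜 P H a μ ((k : ℤ) - 1), ∀ c ∈ Ap 𝒜 P H a, δ c = μ (P r c) := by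
  obtain ⟨pr, hpr, hpr1, hpr2⟩ := C.exists_pr
  refine ⟨μ.toLinearMap ∘ₗ P r ∘ₗ pr.toLinearMap, ⟨fun x hx y hy => ?_, fun l m hm s hs => ?_,
    fun l c hc => ?_⟩, fun c hc => ?_⟩
  · show μ (P r (pr (x * y))) = μ x * μ (P r (pr y)) + μ y * μ (P r (pr x))
    rw [map_mul, hpr1 x hx, hpr1 y hy, C.hX.leibniz, map_add, map_mul, map_mul]
    ring
  · show μ (P r (pr s)) = 0
    rw [hpr l m hm s hs, map_zero, map_zero]
  · show μ (P r (pr c)) = 0 ∨ ∃ d : ℕ, (d : ℤ) = l + ((k : ℤ) - 1) ∧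
      (μ (P r (pr c))).IsHomogeneous d
    rw [hpr1 c (mem_Ap hc)]
    by_cases hkl : l + k = 0
    · left
      have hk : k = 0 := by omega
      have hr0 : r = 0 := by
        by_contra h0
        have h1 := C.abs_le hr h0
        rw [hk] at h1
        have h2 := C.pos
        simp only [Nat.cast_zero, mul_zero, zero_sub, abs_neg] at h1
        rw [abs_of_pos h2] at h1
        omega
      rw [hr0]
      simp
    · right
      refine ⟨l + k - 1, by omega, ?_⟩
      have h1 : P r c ∈ Wt 𝒜 P H (l + k - 1) (a * ((l + k - 1 : ℕ) : ℤ)) := by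
        rw [C.hX.skew]
        exact neg_mem (C.P_defect_one hc hr)
      exact hμ.homog _ _ h1
  · show μ (P r (pr c)) = μ (P r c)
    rw [hpr1 c hc]

/-- The derivations `∂₀ μ`, `∂₁ μ`. -/
theorem Ctx.pderiv_mem_DerM (C : Ctx 𝒜 P H a) (hμ : IsLine 𝒜 P H a μ) (i : Fin 2) :
    ∃ δ ∈ DerM 𝒜 P H a μ (-1), ∀ r, δ r = MvPolynomial.pderiv i (μ r) := by
  refine ⟨((MvPolynomial.pderiv i).toLinearMap.restrictScalars ℂ) ∘ₗ μ.toLinearMap,
    ⟨fun x hx y hy => ?_, fun l m hm s hs => ?_, fun l c hc => ?_⟩, fun r => rfl⟩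
  · show MvPolynomial.pderiv i (μ (x * y)) = μ x * MvPolynomial.pderiv i (μ y) +
      μ y * MvPolynomial.pderiv i (μ x)
    rw [map_mul, Derivation.leibniz, smul_eq_mul, smul_eq_mul]
  · show MvPolynomial.pderiv i (μ s) = 0
    rw [hμ.pure l m hm s hs, map_zero]
  · show MvPolynomial.pderiv i (μ c) = 0 ∨ ∃ d : ℕ, (d : ℤ) = l + -1 ∧
      (MvPolynomial.pderiv i (μ c)).IsHomogeneous d
    have h := hμ.homog l c hc
    rcases Nat.eq_zero_or_pos l with hl | hl
    · left
      rw [hl, ← MvPolynomial.totalDegree_zero_iff_isHomogeneous,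
        MvPolynomial.totalDegree_eq_zero_iff_eq_C] at h
      rw [h, MvPolynomial.pderiv_C]
    · right
      exact ⟨l - 1, by omega, h.pderiv⟩

/-- The module of derivations over a line is graded, torsion free, saturated. -/
theorem DerM_mul {d : ℕ} {j : ℤ} {p : MvPolynomial (Fin 2) κ}
    {δ : R →ₗ[ℂ] MvPolynomial (Fin 2) κ} (hp : p.IsHomogeneous d) (hδ : δ ∈ DerM 𝒜 P H a μ j) :
    p • δ ∈ DerM 𝒜 P H a μ (j + d) := by
  obtain ⟨h1, h2, h3⟩ := hδ
  refine ⟨fun x hx y hy => ?_, fun k m hm r hr => ?_, fun k c hc => ?_⟩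
  · rw [LinearMap.smul_apply, LinearMap.smul_apply, LinearMap.smul_apply, h1 x hx y hy,
      smul_add, mul_smul_comm, mul_smul_comm]
  · rw [LinearMap.smul_apply, h2 k m hm r hr, smul_zero]
  · rw [LinearMap.smul_apply]
    rcases h3 k c hc with h | ⟨e, he, h⟩
    · exact Or.inl (by rw [h, smul_zero])
    · refine Or.inr ⟨d + e, by push_cast; omega, ?_⟩
      rw [smul_eq_mul]
      exact hp.mul h

theorem Ctx.DerM_indep (C : Ctx 𝒜 P H a) (hμ : IsLine 𝒜 P H a μ) :
    iSupIndep (DerM 𝒜 P H a μ) := by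
  rw [iSupIndep_iff_finsetSum_eq_zero_imp_eq_zero]
  intro s v hv hsum i hi
  refine C.ext_Wt _ _ fun k m r hr => ?_
  rw [LinearMap.zero_apply]
  by_cases hm : m = a * k
  · subst hm
    rcases (hv i hi).2.2 k r hr with h | ⟨d, hd, h⟩
    · exact h
    · have h0 : ∑ j ∈ s, v j r = 0 := by
        have := congrArg (fun δ : R →ₗ[ℂ] MvPolynomial (Fin 2) κ => δ r) hsum
        simpa using this
      have h1 := congrArg (MvPolynomial.homogeneousComponent d) h0
      rw [map_sum, map_zero, Finset.sum_eq_single i] at h1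
      · rwa [MvPolynomial.homogeneousComponent_of_mem
          ((MvPolynomial.mem_homogeneousSubmodule _ _).2 h), if_pos rfl] at h1
      · intro j hj hji
        rcases (hv j hj).2.2 k r hr with g | ⟨e, he, g⟩
        · rw [g, map_zero]
        · rw [MvPolynomial.homogeneousComponent_of_mem
            ((MvPolynomial.mem_homogeneousSubmodule _ _).2 g), if_neg (by omega)]
      · intro h
        exact absurd hi h
  · exact (hv i hi).2.1 k m hm r hr

theorem DerM_sat (j : ℤ) (l w : MvPolynomial (Fin 2) κ) (v m : R →ₗ[ℂ] MvPolynomial (Fin 2) κ)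
    (hl : l.IsHomogeneous 1) (hw : w.IsHomogeneous 1) (hlw : LinearIndependent κ ![l, w])
    (hv : v ∈ DerM 𝒜 P H a μ j) (hm : m ∈ DerM 𝒜 P H a μ j) (h : w • v = l • m) :
    ∃ m' ∈ DerM 𝒜 P H a μ (j - 1), v = l • m' := by
  have hl0 : l ≠ 0 := by
    have := hlw.ne_zero 0
    simpa using this
  have hdvd : ∀ r, ∃ q, v r = l * q := by
    intro r
    have h1 : w * v r = l * m r := by
      have := congrArg (fun δ : R →ₗ[ℂ] MvPolynomial (Fin 2) κ => δ r) h
      simpa using this
    have h2 : l ∣ w * v r := ⟨m r, h1⟩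
    exact ((sp2_prime hl hl0).dvd_or_dvd h2).resolve_left (sp2_not_dvd hl hw hlw)
  choose q hq using hdvd
  have hcancel : ∀ x y : MvPolynomial (Fin 2) κ, l * x = l * y → x = y :=
    fun x y hxy => mul_left_cancel₀ hl0 hxy
  let m' : R →ₗ[ℂ] MvPolynomial (Fin 2) κ :=
    { toFun := q
      map_add' := by
        intro x y
        apply hcancel
        rw [← hq, map_add, hq x, hq y, mul_add]
      map_smul' := by
        intro t x
        apply hcancel
        rw [← hq, map_smul, hq x, RingHom.id_apply, mul_smul_comm] }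
  have hm' : ∀ r, v r = l * m' r := hq
  refine ⟨m', ⟨fun x hx y hy => ?_, fun k i hi r hr => ?_, fun k c hc => ?_⟩, ?_⟩
  · apply hcancel
    rw [← hm', hv.1 x hx y hy, hm' x, hm' y]
    ring
  · apply hcancel
    rw [← hm', hv.2.1 k i hi r hr, mul_zero]
  · rcases hv.2.2 k c hc with h | ⟨d, hd, h⟩
    · left
      apply hcancel
      rw [← hm', h, mul_zero]
    · rw [hm'] at h
      rcases sp2_of_mul hl hl0 h with g | ⟨e, he, g⟩
      · exact Or.inl g
      · exact Or.inr ⟨e, by omega, g⟩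
  · ext1 r
    rw [LinearMap.smul_apply, smul_eq_mul]
    exact hm' r

end Vale.Agent.P292
end

section

/-! Theorem E, section 7: rank of the module of derivations. See `PROOF.md`. -/

namespace Vale.Agent.P292

open Module Polynomial

universe u v

variable {R : Type u} [CommRing R] [Algebra ℂ R] {𝒜 : ℕ → Submodule ℂ R} [GradedAlgebra 𝒜]
  {P : R →ₗ[ℂ] R →ₗ[ℂ] R} {H : R} {a : ℤ} {n : ℕ}

variable {κ : Type v} [Field κ] [Algebra ℂ κ] {μ : R →ₐ[ℂ] MvPolynomial (Fin 2) κ}

/-- A linear map which vanishes on all weight spaces is zero. -/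
lemma sp3_eq_zero (hH : IsContactTorus 𝒜 P H) {M : Type*} [AddCommGroup M] [Module ℂ M]
    (φ : R →ₗ[ℂ] M) (h : ∀ (k : ℕ) (m : ℤ), ∀ r ∈ Wt 𝒜 P H k m, φ r = 0) : φ = 0 := by
  ext r
  induction r using DirectSum.Decomposition.inductionOn 𝒜 with
  | zero => simp
  | homogeneous s => simpa using hH.forall_of_Wt φ _ (h _) s s.2
  | add x y hx hy => rw [map_add, hx, hy]; simp

theorem Half.DerM_rank (C : Half 𝒜 P H a n) (hμ : IsLine 𝒜 P H a μ)
    (v : Fin (n + 1) → R →ₗ[ℂ] MvPolynomial (Fin 2) κ) (j : Fin (n + 1) → ℤ)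
    (hv : ∀ i, v i ∈ DerM 𝒜 P H a μ (j i)) :
    ¬ LinearIndependent (MvPolynomial (Fin 2) κ) v := by
  intro hli
  obtain ⟨f, hf⟩ := C.exists_frame_ne
  have hw : LinearIndependent (MvPolynomial (Fin 2) κ)
      (fun i => (fun l => v i (f.b l) : Fin n → MvPolynomial (Fin 2) κ)) := by
    rw [Fintype.linearIndependent_iff] at hli ⊢
    intro g hg
    apply hli g
    have happ : ∀ r, (∑ i, g i • v i) r = ∑ i, g i * v i r := fun r => by
      simp [LinearMap.sum_apply]
    have hleib : ∀ x ∈ Ap 𝒜 P H a, ∀ y ∈ Ap 𝒜 P H a,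
        (∑ i, g i • v i) (x * y) = μ x * (∑ i, g i • v i) y + μ y * (∑ i, g i • v i) x := by
      intro x hx y hy
      rw [happ, happ, happ, Finset.mul_sum, Finset.mul_sum, ← Finset.sum_add_distrib]
      refine Finset.sum_congr rfl fun i _ => ?_
      rw [(hv i).1 x hx y hy]
      ring
    have hb : ∀ l, (∑ i, g i • v i) (f.b l) = 0 := by
      intro l
      have := congrFun hg l
      rw [happ]
      simpa using this
    let ι : MvPolynomial (Fin 2) κ →ₐ[ℂ] FractionRing (MvPolynomial (Fin 2) κ) :=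
      IsScalarTower.toAlgHom ℂ _ _
    have hι : Function.Injective ι := IsFractionRing.injective _ _
    have h0 := C.derivation_eq_zero f hf (ι.comp μ)
      (fun r hr h => hμ.inj r hr (hι (by rw [map_zero]; exact h)))
      (ι.toLinearMap.comp (∑ i, g i • v i))
      (fun x hx y hy => by
        change ι ((∑ i, g i • v i) (x * y)) = ι (μ x) * ι ((∑ i, g i • v i) y) +
          ι (μ y) * ι ((∑ i, g i • v i) x)
        rw [hleib x hx y hy, map_add, map_mul, map_mul])
      (fun l => by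
        change ι ((∑ i, g i • v i) (f.b l)) = 0
        rw [hb, map_zero])
    refine sp3_eq_zero C.ctx.hH _ fun k m r hr => ?_
    by_cases hm : m = a * k
    · subst hm
      have h1 : ι ((∑ i, g i • v i) r) = 0 := h0 r (Algebra.subset_adjoin ⟨k, hr⟩)
      exact hι (by rw [h1, map_zero])
    · rw [happ]
      exact Finset.sum_eq_zero fun i _ => by rw [(hv i).2.1 k m hm r hr, mul_zero]
  have := hw.fintype_card_le_finrank
  simp at this

theorem Half.linearIndependent_pderiv (C : Half 𝒜 P H a n) (hn : 0 < n) [IsAlgClosed κ]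
    (hμ : IsLine 𝒜 P H a μ)
    (v : Fin 2 → R →ₗ[ℂ] MvPolynomial (Fin 2) κ) (hv : ∀ i r, v i r = MvPolynomial.pderiv i (μ r)) :
    LinearIndependent κ v := by
  rw [Fintype.linearIndependent_iff]
  intro g hg
  by_contra hne
  push Not at hne
  obtain ⟨i₀, hi₀⟩ := hne
  have hg0 : g ≠ 0 := fun h => hi₀ (congrFun h i₀)
  obtain ⟨k, hk, c, hc, hgc⟩ := hμ.nonvertex g hg0
  have h1 := (hμ.homog k c hc).sum_X_mul_pderiv
  have h2 := congrArg (MvPolynomial.eval g) h1
  have h3 := congrArg (MvPolynomial.eval g) (LinearMap.congr_fun hg c)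
  simp only [Fin.sum_univ_two, LinearMap.add_apply, LinearMap.smul_apply, hv,
    MvPolynomial.smul_eval, map_add, LinearMap.zero_apply, map_zero] at h3
  simp only [Fin.sum_univ_two, map_add, map_mul, MvPolynomial.eval_X, map_nsmul] at h2
  rw [h3] at h2
  have hchar : CharZero κ := charZero_of_injective_algebraMap (algebraMap ℂ κ).injective
  have h4 := (smul_eq_zero.mp h2.symm)
  rcases h4 with h4 | h4
  · omega
  · exact hgc h4

end Vale.Agent.P292
end

section

set_option linter.all false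

/-! Theorem E, section 5: (SWAP), degree bounds. See `PROOF.md`. -/

namespace Vale.Agent.P292

open Module Polynomial

universe u v

variable {R : Type u} [CommRing R] [Algebra ℂ R] {𝒜 : ℕ → Submodule ℂ R} [GradedAlgebra 𝒜]
  {P : R →ₗ[ℂ] R →ₗ[ℂ] R} {H : R} {a : ℤ} {n : ℕ}

/-- The elements of valuation at most one form a subalgebra. -/
noncomputable def li3_O (κ : Type v) [Field κ] [Algebra ℂ κ] [DecidableEq (RatFunc κ)] :
    Subalgebra ℂ (RatFunc κ) where
  carrier := {f | RatFunc.inftyValuation κ f ≤ 1}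
  mul_mem' := fun {f g} hf hg => by
    change RatFunc.inftyValuation κ (f * g) ≤ 1
    rw [map_mul]
    exact mul_le_one' hf hg
  add_mem' := fun {f g} hf hg => (RatFunc.inftyValuation κ).map_add_le hf hg
  algebraMap_mem' := fun c => by
    change RatFunc.inftyValuation κ (algebraMap ℂ (RatFunc κ) c) ≤ 1
    by_cases hc : algebraMap ℂ κ c = 0
    · rw [IsScalarTower.algebraMap_apply ℂ κ (RatFunc κ), hc, map_zero, map_zero]
      exact zero_le_one
    · rw [IsScalarTower.algebraMap_apply ℂ κ (RatFunc κ), RatFunc.algebraMap_eq_C,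
        RatFunc.inftyValuation.C κ hc]

lemma li3_integral (κ : Type v) [Field κ] [Algebra ℂ κ] [DecidableEq (RatFunc κ)]
    {S : Set (RatFunc κ)} (hS : ∀ f ∈ S, RatFunc.inftyValuation κ f ≤ 1) {f : RatFunc κ}
    (hf : IsIntegral (Algebra.adjoin ℂ S) f) : RatFunc.inftyValuation κ f ≤ 1 := by
  have h1 : Algebra.adjoin ℂ S ≤ li3_O κ := Algebra.adjoin_le hS
  set v := RatFunc.inftyValuation κ with hv
  obtain ⟨p, hp, hpf⟩ := hf
  by_contra hcon
  rw [not_le] at hcon
  have hi : IsIntegral v.integer f := by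
    refine ⟨p.map ((algebraMap (Algebra.adjoin ℂ S) (RatFunc κ)).codRestrict v.integer
      (fun x => h1 x.2)), hp.map _, ?_⟩
    rw [eval₂_map]
    exact hpf
  have := Valuation.Integers.mem_of_integral (Valuation.integer.integers v) hi
  exact absurd this (not_le.mpr hcon)

lemma li3_linear {κ : Type v} [Field κ] {p : MvPolynomial (Fin n) κ} (hp : p.IsHomogeneous 1)
    {β ξ : Fin n → κ} :
    MvPolynomial.aeval (fun i => Polynomial.C (ξ i) + Polynomial.C (β i) * Polynomial.X) p =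
      Polynomial.C (MvPolynomial.eval ξ p) + Polynomial.C (MvPolynomial.eval β p) *
        Polynomial.X := by
  have h1 : p ∈ MvPolynomial.homogeneousSubmodule (Fin n) κ 1 := hp
  rw [MvPolynomial.homogeneousSubmodule_one_eq_span_X] at h1
  clear hp
  induction h1 using Submodule.span_induction with
  | zero => simp
  | add x y _ _ hx hy =>
    rw [map_add, hx, hy, map_add, map_add, map_add, map_add]
    ring
  | smul c x _ hx =>
    rw [map_smul, hx, MvPolynomial.smul_eval, MvPolynomial.smul_eval, Polynomial.smul_eq_C_mul,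
      map_mul, map_mul]
    ring
  | mem x hx =>
    obtain ⟨i, rfl⟩ := hx
    simp

/-- (SWAP), degree bounds. -/
theorem li3_aux (C : Ctx 𝒜 P H a) {κ : Type v} [Field κ] [Algebra ℂ κ]
    (τ : R →ₐ[ℂ] κ[X]) (hW : TypeW 𝒜 P H a τ)
    (hpos : ∀ k : ℕ, ∀ c ∈ Wt 𝒜 P H k (a * k), (τ c).natDegree = 0)
    (hneg : ∀ k : ℕ, ∀ c ∈ Wt 𝒜 P H k (-(a * k)), (τ c).natDegree ≤ k)
    {h : κ} (hh : h ≠ 0) (hH : τ H = Polynomial.C h)
    (k : ℕ) (s : ℤ) (r : R) (hr : r ∈ Wt 𝒜 P H k (a * s)) (hr0 : r ≠ 0) :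
    2 * ((τ r).natDegree : ℤ) ≤ 2 * k - |s| - s := by
  classical
  have ha : 0 < a := (C.hmax.neg C.hX C.hH).2
  have hs : |s| ≤ k := by
    have h1 := C.hmax.le' C.hX C.hH hr hr0
    rw [abs_mul, abs_of_pos ha] at h1
    exact le_of_mul_le_mul_left h1 ha
  have hs1 : s ≤ |s| := le_abs_self s
  have hsk : (s.natAbs : ℤ) = |s| := Int.natCast_natAbs s
  by_cases hτr : τ r = 0
  · rw [hτr, natDegree_zero]
    push_cast
    linarith
  let x : R →ₐ[ℂ] RatFunc κ := (IsScalarTower.toAlgHom ℂ κ[X] (RatFunc κ)).comp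
    (((Polynomial.expand κ 2).restrictScalars ℂ).comp τ)
  have hx : ∀ r, x r = algebraMap κ[X] (RatFunc κ) (Polynomial.expand κ 2 (τ r)) := fun r => rfl
  obtain ⟨φ, hφ⟩ := exists_twist C.hX C.hH x
    (fun k m => (RatFunc.X : RatFunc κ) ^ (-((k : ℤ) - m / a))) (by simp) (by
      rintro k l m n ⟨r, hr, hxr⟩ ⟨s, hs, hxs⟩
      have h1 : a ∣ m := by
        by_contra hm
        apply hxr
        rw [hx, hW k m hm r hr, map_zero, map_zero]
      have h2 : a ∣ n := by
        by_contra hm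
        apply hxs
        rw [hx, hW l n hm s hs, map_zero, map_zero]
      rw [← zpow_add₀ RatFunc.X_ne_zero, Int.add_ediv_of_dvd_left h1]
      congr 1
      push_cast
      ring)
  have hφW : TypeW 𝒜 P H a φ := by
    intro k m hm r hr
    rw [hφ k m r hr, hx, hW k m hm r hr, map_zero, map_zero, mul_zero]
  have hval0 : ∀ (k : ℕ) (s : ℤ) (r : R), r ∈ Wt 𝒜 P H k (a * s) → τ r ≠ 0 →
      RatFunc.inftyValuation κ (φ r) =
        WithZero.exp (-((k : ℤ) - s) + ((2 * (τ r).natDegree : ℕ) : ℤ)) := by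
    intro k s r hr h0
    rw [hφ k _ r hr, map_mul, RatFunc.inftyValuation.X_zpow, Int.mul_ediv_cancel_left _ ha.ne',
      hx, RatFunc.inftyValuation_apply, RatFunc.inftyValuation.polynomial κ
        ((Polynomial.expand_ne_zero two_pos).mpr h0), Polynomial.natDegree_expand,
      ← WithZero.exp_add, mul_comm ((τ r).natDegree)]
  have hval : ∀ (k : ℕ) (s : ℤ) (r : R), r ∈ Wt 𝒜 P H k (a * s) →
      2 * ((τ r).natDegree : ℤ) ≤ k - s → RatFunc.inftyValuation κ (φ r) ≤ 1 := by
    intro k s r hr h1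
    by_cases h0 : τ r = 0
    · rw [hφ k _ r hr, hx, h0, map_zero, map_zero, mul_zero, map_zero]
      exact zero_le_one
    rw [hval0 k s r hr h0, ← WithZero.exp_zero, WithZero.exp_le_exp]
    push_cast
    linarith
  have hAp : ∀ f ∈ φ '' ((Ap 𝒜 P H a : Set R) ∪ (Ap 𝒜 P (-H) a : Set R)),
      RatFunc.inftyValuation κ f ≤ 1 := by
    rintro f ⟨c, hc, rfl⟩
    have h1 : Ap 𝒜 P H a ≤ (li3_O κ).comap φ := by
      refine Algebra.adjoin_le ?_
      rintro c ⟨k, hc⟩
      change RatFunc.inftyValuation κ (φ c) ≤ 1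
      refine hval k k c hc ?_
      rw [hpos k c hc]
      simp
    have h2 : Ap 𝒜 P (-H) a ≤ (li3_O κ).comap φ := by
      refine Algebra.adjoin_le ?_
      rintro c ⟨k, hc⟩
      rw [Wt_neg] at hc
      change RatFunc.inftyValuation κ (φ c) ≤ 1
      refine hval k (-k) c (by rw [mul_neg]; exact hc) ?_
      have := hneg k c hc
      have h3 : ((τ c).natDegree : ℤ) ≤ k := by exact_mod_cast this
      linarith
    rcases hc with hc | hc
    · exact h1 hc
    · exact h2 hc
  have hint := li3_integral κ hAp (C.isIntegral φ hφW hr)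
  set j : ℕ := k - s.natAbs with hj
  have hjk : (j : ℤ) = k - |s| := by
    rw [← hsk] at hs ⊢
    have : s.natAbs ≤ k := by exact_mod_cast hs
    rw [hj]
    push_cast [Nat.cast_sub this]
    ring
  have hHw : H ∈ Wt 𝒜 P H 1 0 := by
    rw [mem_Wt]
    exact ⟨C.hH.mem, by rw [C.hX.alternating]; simp⟩
  have hrH : r * H ^ j ∈ Wt 𝒜 P H (k + j) (a * s) := by
    have h1 := Wt_mul C.hX hr (Wt_pow C.hX hHw j)
    have h2 : Wt 𝒜 P H (k + j * 1) (a * s + j * 0) = Wt 𝒜 P H (k + j) (a * s) := by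
      rw [mul_one, mul_zero, add_zero]
    rw [← h2]
    exact h1
  have hτH : τ (r * H ^ j) = τ r * Polynomial.C (h ^ j) := by
    rw [map_mul, map_pow, hH, ← Polynomial.C_pow]
  have hhj : h ^ j ≠ 0 := pow_ne_zero j hh
  have hτ0 : τ (r * H ^ j) ≠ 0 := by
    rw [hτH]
    exact mul_ne_zero hτr (Polynomial.C_ne_zero.mpr hhj)
  rw [hval0 (k + j) s _ hrH hτ0, ← WithZero.exp_zero, WithZero.exp_le_exp, hτH,
    Polynomial.natDegree_mul_C hhj] at hint
  push_cast at hint
  rw [hjk] at hint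
  linarith

/-- (SWAP), degree bounds. -/
theorem IsCell.natDegree_le' (C : Ctx 𝒜 P H a) {κ : Type v} [Field κ] [Algebra ℂ κ]
    {Ψ : R →ₐ[ℂ] MvPolynomial (Fin n) κ} (hΨ : IsCell 𝒜 P H a Ψ) {β ξ : Fin n → κ}
    (hβ0 : β ≠ 0) (hβ : ∀ k : ℕ, 0 < k → ∀ c ∈ Wt 𝒜 P H k (-(a * k)),
      MvPolynomial.eval β (Ψ c) = 0) (hξ : MvPolynomial.eval ξ (Ψ H) ≠ 0)
    (τ : R →ₐ[ℂ] κ[X])
    (hτ : ∀ r, τ r = MvPolynomial.aeval (fun i => Polynomial.C (ξ i) + Polynomial.C (β i) *
      Polynomial.X) (Ψ r)) (k : ℕ) (s : ℤ) (r : R) (hr : r ∈ Wt 𝒜 P H k (a * s)) (hr0 : r ≠ 0) :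
    2 * ((τ r).natDegree : ℤ) ≤ 2 * k - |s| - s := by
  have hHw : H ∈ Wt 𝒜 P H 1 0 := by
    rw [mem_Wt]
    exact ⟨C.hH.mem, by rw [C.hX.alternating]; simp⟩
  have hW : TypeW 𝒜 P H a τ := by
    intro k m hm r hr
    rw [hτ, hΨ.typeW k m hm r hr, map_zero]
  have hconst : ∀ (p : MvPolynomial (Fin n) κ), p.IsHomogeneous 0 →
      (MvPolynomial.aeval (fun i => Polynomial.C (ξ i) + Polynomial.C (β i) *
      Polynomial.X) p : κ[X]).natDegree = 0 := by
    intro p hp
    have h1 := MvPolynomial.totalDegree_eq_zero_iff_eq_C.mp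
      (Nat.le_zero.mp hp.totalDegree_le)
    rw [h1, MvPolynomial.aeval_C]
    exact Polynomial.natDegree_C _
  have hpos : ∀ k : ℕ, ∀ c ∈ Wt 𝒜 P H k (a * k), (τ c).natDegree = 0 := by
    intro k c hc
    rw [hτ]
    apply hconst
    exact hΨ.homog k 0 c (by simpa using hc)
  -- `Ψ H` vanishes at `β`
  have hHβ : MvPolynomial.eval β (Ψ H) = 0 := by
    let y : R →ₐ[ℂ] κ := ((MvPolynomial.aeval β : MvPolynomial (Fin n) κ →ₐ[κ] κ).restrictScalars
      ℂ).comp Ψ
    have hy : ∀ r, y r = MvPolynomial.eval β (Ψ r) := by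
      intro r
      change MvPolynomial.aeval β (Ψ r) = _
      rw [MvPolynomial.aeval_eq_eval]
    have C' : Ctx 𝒜 P (-H) a := ⟨C.hX, C.hH.neg, (C.hmax.neg C.hX C.hH).1⟩
    have hyW : TypeW 𝒜 P (-H) a y := by
      apply TypeW.neg
      intro k m hm r hr
      rw [hy, hΨ.typeW k m hm r hr, map_zero]
    have hyNV : ¬ NV 𝒜 P (-H) a y := by
      rw [NV_neg_iff]
      rintro ⟨k, hk, c, hc, hyc⟩
      apply hyc
      rw [hy, hβ k hk c hc]
    have := C'.apply_H_eq_zero y hyW hyNV
    rw [map_neg, neg_eq_zero, hy] at this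
    exact this
  have hH1 : (Ψ H).IsHomogeneous 1 := by
    apply hΨ.homog 1 1 H
    simpa using hHw
  have hH : τ H = Polynomial.C (MvPolynomial.eval ξ (Ψ H)) := by
    rw [hτ, li3_linear hH1, hHβ, map_zero, zero_mul, add_zero]
  exact li3_aux C τ hW hpos (hΨ.natDegree_le C hβ0 hβ hξ τ hτ).1 hξ hH k s r hr hr0

end Vale.Agent.P292
end

section

/-! Theorem E, section 4: (DIM) (i). See `PROOF.md`. -/

namespace Vale.Agent.P292

open Module

universe u v

section

open scoped KaehlerDifferential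

/-- A field extension which is not algebraic has a nonzero derivation. -/
theorem di1_exists_der {k : Type u} {K : Type v} [Field k] [Field K] [CharZero k] [Algebra k K]
    [Algebra.EssFiniteType k K] (h : ¬ Algebra.IsAlgebraic k K) :
    ∃ D : Derivation k K K, D ≠ 0 := by
  have h1 : ¬ Algebra.FormallyUnramified k K := by
    rw [Algebra.FormallyUnramified.iff_isSeparable]
    intro h2
    exact h inferInstance
  rw [Algebra.formallyUnramified_iff, not_subsingleton_iff_nontrivial] at h1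
  obtain ⟨v, hv⟩ := exists_ne (0 : Ω[K⁄k])
  have h2 : ∃ φ : Module.Dual K (Ω[K⁄k]), φ v ≠ 0 := by
    by_contra h3
    push Not at h3
    exact hv ((Module.forall_dual_apply_eq_zero_iff K v).1 h3)
  obtain ⟨φ, hφ⟩ := h2
  refine ⟨φ.compDer (KaehlerDifferential.D k K), fun h3 => hφ ?_⟩
  have h4 : v ∈ Submodule.span K (Set.range (KaehlerDifferential.D k K)) := by
    rw [KaehlerDifferential.span_range_derivation]
    trivial
  clear hφ hv
  induction h4 using Submodule.span_induction with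
  | mem x hx =>
    obtain ⟨y, rfl⟩ := hx
    exact congrArg (fun D : Derivation k K K => D y) h3
  | zero => exact map_zero _
  | add x y _ _ hx hy => rw [map_add, hx, hy, add_zero]
  | smul c x _ hx => rw [map_smul, hx, smul_zero]

open scoped IntermediateField.algebraAdjoinAdjoin in
theorem di1_isAlgebraic {k : Type u} {K : Type v} [Field k] [Field K] [Algebra k K] (s : Set K)
    (h : Algebra.IsAlgebraic (IntermediateField.adjoin k s) K) :
    Algebra.IsAlgebraic (Algebra.adjoin k s) K := by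
  have h1 : Algebra.IsAlgebraic (Algebra.adjoin k s) (IntermediateField.adjoin k s) :=
    IsLocalization.isAlgebraic _ (nonZeroDivisors (Algebra.adjoin k s))
  exact Algebra.IsAlgebraic.trans (Algebra.adjoin k s) (IntermediateField.adjoin k s) K

/-- If the maximal ideal `ker y` is generated by `n` elements modulo its square, then the
transcendence degree is at most `n`. -/
theorem di1_trdeg_le {A : Type u} [CommRing A] [IsDomain A] [Algebra ℂ A]
    [Algebra.FiniteType ℂ A] {n : ℕ} (b : Fin n → A) (y : A →ₐ[ℂ] ℂ)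
    (h : ∀ c : A, ∃ γ : Fin n → ℂ, (c - algebraMap ℂ A (y c)) -
      ∑ i, γ i • (b i - algebraMap ℂ A (y (b i))) ∈ RingHom.ker y ^ 2) :
    Algebra.trdeg ℂ A ≤ n := by
  have : Algebra.EssFiniteType ℂ (FractionRing A) := Algebra.EssFiniteType.comp ℂ A _
  obtain ⟨s, hs⟩ : ∃ s : Set (FractionRing A),
      s = Set.range fun i => algebraMap A (FractionRing A) (b i) := ⟨_, rfl⟩
  have : Algebra.EssFiniteType (IntermediateField.adjoin ℂ s) (FractionRing A) :=
    Algebra.EssFiniteType.of_comp ℂ _ _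
  by_cases halg : Algebra.IsAlgebraic (IntermediateField.adjoin ℂ s) (FractionRing A)
  · have := di1_isAlgebraic s halg
    have h1 : Algebra.trdeg ℂ (FractionRing A) ≤ Cardinal.mk s :=
      Algebra.IsAlgebraic.trdeg_le_cardinalMk ℂ s
    have h2 : Cardinal.mk s ≤ n := by
      rw [hs]
      have := Cardinal.mk_range_le_lift (f := fun i => algebraMap A (FractionRing A) (b i))
      simpa using this
    have h3 : Algebra.trdeg ℂ A ≤ Algebra.trdeg ℂ (FractionRing A) :=
      trdeg_le_of_injective (IsScalarTower.toAlgHom ℂ A (FractionRing A))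
        (IsFractionRing.injective A (FractionRing A))
    exact h3.trans (h1.trans h2)
  · exfalso
    obtain ⟨D, hD⟩ := di1_exists_der halg
    obtain ⟨d, hd⟩ : ∃ d : A → FractionRing A, d = fun a => D (algebraMap A _ a) := ⟨_, rfl⟩
    have hadd : ∀ p q, d (p + q) = d p + d q := fun p q => by simp [hd]
    have hsub : ∀ p q, d (p - q) = d p - d q := fun p q => by simp [hd]
    have hmul : ∀ p q, d (p * q) = p • d q + q • d p := fun p q => by
      simp [hd, Algebra.smul_def]
    have hcon : ∀ c : ℂ, d (algebraMap ℂ A c) = 0 := fun c => by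
      rw [hd]
      show D (algebraMap A (FractionRing A) (algebraMap ℂ A c)) = 0
      have e : algebraMap A (FractionRing A) (algebraMap ℂ A c) =
          algebraMap (IntermediateField.adjoin ℂ s) (FractionRing A)
            (algebraMap ℂ (IntermediateField.adjoin ℂ s) c) := by
        rw [← IsScalarTower.algebraMap_apply, ← IsScalarTower.algebraMap_apply]
      rw [e, D.map_algebraMap]
    have hb : ∀ i, d (b i) = 0 := fun i => by
      rw [hd]
      show D (algebraMap A (FractionRing A) (b i)) = 0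
      have e : algebraMap A (FractionRing A) (b i) =
          algebraMap (IntermediateField.adjoin ℂ s) (FractionRing A)
            ⟨algebraMap A (FractionRing A) (b i),
              IntermediateField.subset_adjoin ℂ s (hs ▸ ⟨i, rfl⟩)⟩ := rfl
      rw [e, D.map_algebraMap]
    have hsmul : ∀ (c : ℂ) (p : A), d (c • p) = algebraMap ℂ A c • d p := fun c p => by
      rw [Algebra.smul_def, hmul, hcon, smul_zero, add_zero]
    have hsum : ∀ (γ : Fin n → ℂ), d (∑ i, γ i • (b i - algebraMap ℂ A (y (b i)))) = 0 := by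
      intro γ
      have : ∀ t : Finset (Fin n), d (∑ i ∈ t, γ i • (b i - algebraMap ℂ A (y (b i)))) = 0 := by
        intro t
        classical
        induction t using Finset.induction_on with
        | empty => simpa using hcon 0
        | insert i t hi ih =>
          rw [Finset.sum_insert hi, hadd, ih, hsmul, hsub, hb, hcon, sub_zero, smul_zero,
            add_zero]
      exact this _
    -- the module generated by the values of `d`
    obtain ⟨G, hG⟩ := Algebra.FiniteType.out (R := ℂ) (A := A)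
    have hspan : ∀ p, d p ∈ Submodule.span A (d '' (G : Set A)) := by
      intro p
      have hp : p ∈ Algebra.adjoin ℂ (G : Set A) := by rw [hG]; trivial
      induction hp using Algebra.adjoin_induction with
      | mem x hx => exact Submodule.subset_span ⟨x, hx, rfl⟩
      | algebraMap c => rw [hcon]; exact zero_mem _
      | add x y _ _ hx hy => rw [hadd]; exact add_mem hx hy
      | mul x y _ _ hx hy =>
        rw [hmul]
        exact add_mem (Submodule.smul_mem _ _ hy) (Submodule.smul_mem _ _ hx)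
    obtain ⟨M, hM⟩ : ∃ M : Submodule A (FractionRing A), M = Submodule.span A (Set.range d) :=
      ⟨_, rfl⟩
    have hMG : M = Submodule.span A (d '' (G : Set A)) := by
      rw [hM]
      refine le_antisymm (Submodule.span_le.2 ?_) (Submodule.span_mono (Set.image_subset_range _ _))
      rintro _ ⟨p, rfl⟩
      exact hspan p
    have hfg : M.FG := by
      rw [hMG]
      classical
      exact ⟨G.image d, by rw [Finset.coe_image]⟩
    have hdM : ∀ p, d p ∈ M := fun p => by rw [hM]; exact Submodule.subset_span ⟨p, rfl⟩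
    have hle : M ≤ (RingHom.ker y) • M := by
      conv_lhs => rw [hM]
      refine Submodule.span_le.2 ?_
      rintro _ ⟨p, rfl⟩
      obtain ⟨γ, hγ⟩ := h p
      have e : d p = d ((p - algebraMap ℂ A (y p)) -
          ∑ i, γ i • (b i - algebraMap ℂ A (y (b i)))) := by
        rw [hsub, hsub, hcon, hsum, sub_zero, sub_zero]
      rw [e]
      rw [pow_two] at hγ
      show d _ ∈ (RingHom.ker y) • M
      refine Submodule.mul_induction_on hγ ?_ ?_
      · intro u hu v hv
        rw [hmul]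
        exact add_mem (Submodule.smul_mem_smul hu (hdM v)) (Submodule.smul_mem_smul hv (hdM u))
      · intro u v hu hv
        rw [hadd]
        exact add_mem hu hv
    obtain ⟨r, hr, hr0⟩ := Submodule.exists_sub_one_mem_and_smul_eq_zero_of_fg_of_le_smul _ M hfg hle
    have hrne : r ≠ 0 := by
      rintro rfl
      rw [RingHom.mem_ker, zero_sub, map_neg, map_one] at hr
      norm_num at hr
    have hdz : ∀ p, d p = 0 := fun p => by
      have h1 := hr0 (d p) (hdM p)
      rw [Algebra.smul_def, mul_eq_zero] at h1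
      refine h1.resolve_left fun h2 => hrne ?_
      exact (FaithfulSMul.algebraMap_injective A (FractionRing A)) (by rw [h2, map_zero])
    apply hD
    ext x
    obtain ⟨p, q, hq, rfl⟩ := IsFractionRing.div_surjective (A := A) x
    have hq' : algebraMap A (FractionRing A) q ≠ 0 :=
      IsFractionRing.to_map_ne_zero_of_mem_nonZeroDivisors hq
    have h1 : D (algebraMap A (FractionRing A) p / algebraMap A (FractionRing A) q *
        algebraMap A (FractionRing A) q) = 0 := by
      rw [div_mul_cancel₀ _ hq']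
      have := hdz p
      rwa [hd] at this
    rw [Derivation.leibniz] at h1
    have h2 : D (algebraMap A (FractionRing A) q) = 0 := by
      have := hdz q
      rwa [hd] at this
    rw [h2, smul_zero, zero_add, smul_eq_mul, mul_eq_zero] at h1
    exact h1.resolve_left hq'

end

variable {R : Type u} [CommRing R] [Algebra ℂ R] {𝒜 : ℕ → Submodule ℂ R} [GradedAlgebra 𝒜]
  {P : R →ₗ[ℂ] R →ₗ[ℂ] R} {H : R} {a : ℤ} {n : ℕ}

theorem di1_mem_Ap {u : R} (hu : u ∈ ⨆ k : ℕ, Wt 𝒜 P H k (a * k)) : u ∈ Ap 𝒜 P H a := by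
  have h : (⨆ k : ℕ, Wt 𝒜 P H k (a * k)) ≤ Subalgebra.toSubmodule (Ap 𝒜 P H a) :=
    iSup_le fun k r hr => mem_Ap hr
  exact h hu

/-- The number of elements of a complete frame is at least the transcendence degree. -/
theorem Ctx.trdeg_le (C : Ctx 𝒜 P H a) {y : R →ₐ[ℂ] ℂ} (hy : HasSlope 𝒜 P H y a)
    (f : Frame 𝒜 P H a n) (hf : f.Complete y) : Algebra.trdeg ℂ (Ap 𝒜 P H a) ≤ n := by
  have := C.finiteType_Ap
  have := C.isDomain_Ap
  refine di1_trdeg_le (fun i => ⟨f.b i, mem_Ap (f.hb i)⟩)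
    (y.comp (Ap 𝒜 P H a).val) fun c => ?_
  obtain ⟨γ, hγ⟩ := hf c c.2
  refine ⟨γ, ?_⟩
  obtain ⟨w, hw⟩ : ∃ w : Ap 𝒜 P H a, w = (c - algebraMap ℂ (Ap 𝒜 P H a)
      ((y.comp (Ap 𝒜 P H a).val) c)) - ∑ i, γ i • ((⟨f.b i, mem_Ap (f.hb i)⟩ : Ap 𝒜 P H a) -
        algebraMap ℂ (Ap 𝒜 P H a) ((y.comp (Ap 𝒜 P H a).val) ⟨f.b i, mem_Ap (f.hb i)⟩)) :=
    ⟨_, rfl⟩
  have hwR : (w : R) = (c - algebraMap ℂ R (y c)) -
      ∑ i, γ i • (f.b i - algebraMap ℂ R (y (f.b i))) := by
    rw [hw]
    simp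
  rw [← hwR] at hγ
  show _ ∈ _
  rw [← hw]
  have hwS : (w : R) ∈ ⨆ k : ℕ, Wt 𝒜 P H k (a * k - 0) := by
    refine C.Ap_induction (p := fun r => r ∈ ⨆ k : ℕ, Wt 𝒜 P H k (a * k - 0)) ?_ ?_ ?_ w w.2
    · intro k r hr
      exact Submodule.mem_iSup_of_mem k (by rwa [sub_zero])
    · exact zero_mem _
    · intro r s hr hs
      exact add_mem hr hs
  have h1 := C.ker_sq_graded hy hwS hγ
  -- the elements of `Ap` in the span are in the square of the kernel
  have key : ∀ r ∈ Submodule.span ℂ {s | ∃ δ₁ δ₂ : ℤ, 0 ≤ δ₁ ∧ 0 ≤ δ₂ ∧ δ₁ + δ₂ = 0 ∧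
      ∃ u ∈ (⨆ k : ℕ, Wt 𝒜 P H k (a * k - δ₁)), ∃ v ∈ (⨆ k : ℕ, Wt 𝒜 P H k (a * k - δ₂)),
        y u = 0 ∧ y v = 0 ∧ s = u * v},
      ∃ q : Ap 𝒜 P H a, (q : R) = r ∧ q ∈ RingHom.ker (y.comp (Ap 𝒜 P H a).val) ^ 2 := by
    intro r hr
    induction hr using Submodule.span_induction with
    | mem s hs =>
      obtain ⟨δ₁, δ₂, h1, h2, h3, u, hu, v, hv, yu, yv, rfl⟩ := hs
      obtain rfl : δ₁ = 0 := by omega
      obtain rfl : δ₂ = 0 := by omega
      simp only [sub_zero] at hu hv
      refine ⟨⟨u, di1_mem_Ap hu⟩ * ⟨v, di1_mem_Ap hv⟩, rfl, ?_⟩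
      rw [pow_two]
      exact Ideal.mul_mem_mul yu yv
    | zero => exact ⟨0, rfl, zero_mem _⟩
    | add r s _ _ hr hs =>
      obtain ⟨q, rfl, hq⟩ := hr
      obtain ⟨q', rfl, hq'⟩ := hs
      exact ⟨q + q', rfl, add_mem hq hq'⟩
    | smul c r _ hr =>
      obtain ⟨q, rfl, hq⟩ := hr
      refine ⟨c • q, rfl, ?_⟩
      rw [Algebra.smul_def]
      exact Ideal.mul_mem_left _ _ hq
  obtain ⟨q, hq1, hq2⟩ := key _ h1
  rwa [Subtype.ext hq1] at hq2

end Vale.Agent.P292
end
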