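import Mathlib
import Vale.Agent.P292.Bdl.B1
import Vale.Agent.P292.Bdl.B2
import Vale.Agent.P292.Defs

set_option linter.all false

section

/-! Extension of weight-one functions: integrality plus normality. -/

namespace Vale.Agent.P292

open Module Polynomial

universe u

variable {R : Type u} [CommRing R] [Algebra ℂ R] {𝒜 : ℕ → Submodule ℂ R} [GradedAlgebra 𝒜]
  {P : R →ₗ[ℂ] R →ₗ[ℂ] R}

lemma exists_eq_algebraMap_of_aeval_eq_zero {K : Type*} [CommRing K] [IsDomain K] [Algebra ℂ K]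
    (G : ℂ[X]) (hG : G ≠ 0) (y : K) (h : aeval y G = 0) : ∃ c : ℂ, y = algebraMap ℂ K c := by
  have hs := IsAlgClosed.splits G
  rw [hs.eq_prod_roots] at h
  rw [map_mul, aeval_C] at h
  have hl : algebraMap ℂ K G.leadingCoeff ≠ 0 := by
    rw [Ne, map_eq_zero_iff _ (FaithfulSMul.algebraMap_injective ℂ K)]
    exact leadingCoeff_ne_zero.mpr hG
  have h1 := (mul_eq_zero.mp h).resolve_left hl
  rw [map_multiset_prod, Multiset.prod_eq_zero_iff, Multiset.mem_map] at h1
  obtain ⟨q, hq, hq0⟩ := h1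
  rw [Multiset.mem_map] at hq
  obtain ⟨c, -, rfl⟩ := hq
  refine ⟨c, ?_⟩
  simpa [sub_eq_zero] using hq0

/-- the pieces used in the weight count -/
def T (𝒜 : ℕ → Submodule ℂ R) (P : R →ₗ[ℂ] R →ₗ[ℂ] R) (h e : R) (K j : ℕ) : Submodule ℂ R where
  carrier := {s | s ∈ (𝒜 1) ^ K ∧ s ∈ Module.End.maxGenEigenspace (P h) (2 * (K : ℂ) - j) ∧
    (j ≤ K → ∃ σ ∈ (𝒜 1) ^ j, s = e ^ (K - j) * σ)}
  zero_mem' := ⟨zero_mem _, zero_mem _, fun _ => ⟨0, zero_mem _, by simp⟩⟩
  add_mem' := by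
    rintro a b ⟨ha1, ha2, ha3⟩ ⟨hb1, hb2, hb3⟩
    refine ⟨add_mem ha1 hb1, add_mem ha2 hb2, fun hj => ?_⟩
    obtain ⟨σ, hσ, rfl⟩ := ha3 hj
    obtain ⟨τ, hτ, rfl⟩ := hb3 hj
    exact ⟨σ + τ, add_mem hσ hτ, by ring⟩
  smul_mem' := by
    rintro c a ⟨ha1, ha2, ha3⟩
    refine ⟨Submodule.smul_mem _ c ha1, Submodule.smul_mem _ c ha2, fun hj => ?_⟩
    obtain ⟨σ, hσ, rfl⟩ := ha3 hj
    exact ⟨c • σ, Submodule.smul_mem _ c hσ, by rw [mul_smul_comm]⟩

omit [GradedAlgebra 𝒜] in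
lemma mem_T {h e : R} {K j : ℕ} {s : R} : s ∈ T 𝒜 P h e K j ↔
    s ∈ (𝒜 1) ^ K ∧ s ∈ Module.End.maxGenEigenspace (P h) (2 * (K : ℂ) - j) ∧
    (j ≤ K → ∃ σ ∈ (𝒜 1) ^ j, s = e ^ (K - j) * σ) := Iff.rfl

lemma mul_mem_maxGen (hX : IsContactFano 𝒜 P) (h : R) (μ ν : ℂ) (a b : R)
    (ha : a ∈ Module.End.maxGenEigenspace (P h) μ)
    (hb : b ∈ Module.End.maxGenEigenspace (P h) ν) :
    a * b ∈ Module.End.maxGenEigenspace (P h) (μ + ν) :=
  mem_maxGen_add (P h) (LinearMap.mul ℂ R)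
    (fun a b => by simp [hX.leibniz]) μ ν a b ha hb

lemma pow_mem_maxGen (hX : IsContactFano 𝒜 P) (h : R) (μ : ℂ) (a : R) (n : ℕ)
    (ha : a ∈ Module.End.maxGenEigenspace (P h) μ) :
    a ^ n ∈ Module.End.maxGenEigenspace (P h) (n * μ) := by
  induction n with
  | zero =>
    apply mem_maxGen_of_eq_smul
    simp [hX.P_one_right]
  | succ n ih =>
    have := mul_mem_maxGen hX h _ _ _ _ ih ha
    rw [pow_succ]
    convert this using 2
    push_cast; ring

lemma T_mul (hX : IsContactFano 𝒜 P) {h e : R} (d K j : ℕ)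
    (he : ∀ u ∈ T 𝒜 P h e 1 0, ∃ c : ℂ, u = c • e) (hee : e ∈ 𝒜 1)
    (u s : R) (hu : u ∈ T 𝒜 P h e 1 d) (hs : s ∈ T 𝒜 P h e K j) :
    u * s ∈ T 𝒜 P h e (K + 1) (j + d) := by
  have hu' := hu
  rw [mem_T] at hu hs ⊢
  obtain ⟨hu1, hu2, -⟩ := hu
  obtain ⟨hs1, hs2, hs3⟩ := hs
  refine ⟨?_, ?_, ?_⟩
  · rw [pow_succ']
    exact Submodule.mul_mem_mul (by simpa using hu1) hs1
  · have := mul_mem_maxGen hX h _ _ _ _ hu2 hs2
    convert this using 2
    push_cast; ring
  · intro hj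
    rcases Nat.eq_zero_or_pos d with rfl | hd
    · obtain ⟨c, rfl⟩ := he u hu'
      rcases Nat.lt_or_ge K j with h1 | h1
      · have h2 : j = K + 1 := by omega
        subst h2
        refine ⟨c • e * s, ?_, by simp⟩
        rw [add_zero, pow_succ']
        exact Submodule.mul_mem_mul (by simpa using hu1) hs1
      · obtain ⟨σ, hσ, rfl⟩ := hs3 h1
        refine ⟨c • σ, by simpa using Submodule.smul_mem _ c hσ, ?_⟩
        have e1 : K + 1 - (j + 0) = K - j + 1 := by omega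
        rw [e1, pow_succ, Algebra.smul_def, Algebra.smul_def]
        ring
    · obtain ⟨σ, hσ, rfl⟩ := hs3 (by omega)
      refine ⟨e ^ (d - 1) * (u * σ), ?_, ?_⟩
      · have e1 : j + d = (d - 1) + (1 + j) := by omega
        rw [e1, pow_add, pow_add, pow_one]
        exact Submodule.mul_mem_mul (Submodule.pow_mem_pow _ hee _)
          (Submodule.mul_mem_mul (by simpa using hu1) hσ)
      · have e1 : K - j = (K + 1 - (j + d)) + (d - 1) := by omega
        rw [e1, pow_add]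
        ring

/-- `(𝒜 1) ^ K` is spanned by the pieces. -/
lemma pow_le_iSup_T (hX : IsContactFano 𝒜 P) {h e : R} (hee : e ∈ 𝒜 1)
    (he : ∀ u ∈ T 𝒜 P h e 1 0, ∃ c : ℂ, u = c • e)
    (h1 : 𝒜 1 ≤ ⨆ d, T 𝒜 P h e 1 d) (K : ℕ) : (𝒜 1) ^ K ≤ ⨆ j, T 𝒜 P h e K j := by
  induction K with
  | zero =>
    refine le_trans ?_ (le_iSup _ 0)
    intro s hs
    rw [mem_T]
    refine ⟨hs, ?_, fun _ => ⟨s, by simpa using hs, by simp⟩⟩
    rw [pow_zero, Submodule.mem_one] at hs
    obtain ⟨c, rfl⟩ := hs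
    apply mem_maxGen_of_eq_smul
    simp [hX.P_algebraMap_right]
  | succ K ih =>
    rw [pow_succ']
    refine le_trans (mul_le_mul' h1 ih) ?_
    rw [Submodule.iSup_mul]
    refine iSup_le fun d => ?_
    rw [Submodule.mul_iSup]
    refine iSup_le fun j => ?_
    refine Submodule.mul_le.mpr fun u hu s hs => ?_
    exact Submodule.mem_iSup_of_mem (j + d) (T_mul hX d K j he hee u s hu hs)

/-- Every element of `𝒜 k` of weight `2 k - 1` is divisible by `e ^ (k - 1)`. -/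
theorem exists_of_weight (hX : IsContactFano 𝒜 P) {h e : R} (hee : e ∈ 𝒜 1) (he0 : e ≠ 0)
    (he : ∀ u ∈ T 𝒜 P h e 1 0, ∃ c : ℂ, u = c • e)
    (h1 : 𝒜 1 ≤ ⨆ d, T 𝒜 P h e 1 d)
    (hint : ∀ (k : ℕ) (r : R), r ∈ 𝒜 k → ∃ (m : ℕ) (s : ℕ → R), s 0 = 1 ∧
      (∀ i, s i ∈ (𝒜 1) ^ (i * k)) ∧ ∑ i ∈ Finset.range (m + 1), s i * r ^ (m - i) = 0)
    (k : ℕ) (hk : 0 < k) (w : R) (hw : w ∈ 𝒜 k)
    (hw' : w ∈ Module.End.maxGenEigenspace (P h) (2 * (k : ℂ) - 1)) :
    ∃ u ∈ 𝒜 1, w = e ^ (k - 1) * u := by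
  have := hX.domain
  have := hX.normal
  obtain ⟨m, s, hs0, hs, hsum⟩ := hint k w hw
  set lam : ℂ := m * (2 * (k : ℂ) - 1) with hlam
  set Y : Submodule ℂ R := ⨆ ν, ⨆ _ : ν ≠ lam, Module.End.maxGenEigenspace (P h) ν with hY
  -- splitting of each coefficient
  have hsplit : ∀ i ≤ m, ∀ s ∈ (𝒜 1) ^ (i * k), ∃ σ ∈ (𝒜 1) ^ i,
      e ^ (i * (k - 1)) * σ * w ^ (m - i) ∈ Module.End.maxGenEigenspace (P h) lam ∧
      s * w ^ (m - i) - e ^ (i * (k - 1)) * σ * w ^ (m - i) ∈ Y := by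
    intro i hi s hs
    have hwpow := pow_mem_maxGen hX h _ w (m - i) hw'
    have hcast : ((m - i : ℕ) : ℂ) = m - i := by rw [Nat.cast_sub hi]
    have hs' := pow_le_iSup_T hX hee he h1 (i * k) hs
    refine Submodule.iSup_induction _ (motive := fun s => ∃ σ ∈ (𝒜 1) ^ i,
      e ^ (i * (k - 1)) * σ * w ^ (m - i) ∈ Module.End.maxGenEigenspace (P h) lam ∧
      s * w ^ (m - i) - e ^ (i * (k - 1)) * σ * w ^ (m - i) ∈ Y) hs' ?_ ?_ ?_
    · intro j s hs
      rw [mem_T] at hs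
      obtain ⟨hs1, hs2, hs3⟩ := hs
      by_cases hji : j = i
      · subst hji
        obtain ⟨σ, hσ, hsσ⟩ := hs3 (Nat.le_mul_of_pos_right j hk)
        have e1 : j * k - j = j * (k - 1) := by rw [Nat.mul_sub, mul_one]
        rw [e1] at hsσ
        refine ⟨σ, hσ, ?_, ?_⟩
        · rw [← hsσ]
          have := mul_mem_maxGen hX h _ _ _ _ hs2 hwpow
          convert this using 2
          rw [hcast, hlam]; push_cast; ring
        · rw [← hsσ, sub_self]; exact zero_mem _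
      · refine ⟨0, zero_mem _, by simp, ?_⟩
        rw [mul_zero, zero_mul, sub_zero]
        have := mul_mem_maxGen hX h _ _ _ _ hs2 hwpow
        refine Submodule.mem_iSup_of_mem _ (Submodule.mem_iSup_of_mem ?_ this)
        intro h0
        apply hji
        rw [hcast, hlam] at h0
        have : (j : ℂ) = i := by
          push_cast at h0
          linear_combination -h0
        exact_mod_cast this
    · exact ⟨0, zero_mem _, by simp, by simp⟩
    · rintro a b ⟨σ, hσ, h1, h2⟩ ⟨τ, hτ, h3, h4⟩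
      refine ⟨σ + τ, add_mem hσ hτ, ?_, ?_⟩
      · have := add_mem h1 h3
        convert this using 1; ring
      · have := add_mem h2 h4
        convert this using 1; ring
  -- choose the coefficients, with leading coefficient `1`
  have hchoose : ∀ i, ∃ σ : R, (i = 0 → σ = 1) ∧ (i ≤ m →
      e ^ (i * (k - 1)) * σ * w ^ (m - i) ∈ Module.End.maxGenEigenspace (P h) lam ∧
      s i * w ^ (m - i) - e ^ (i * (k - 1)) * σ * w ^ (m - i) ∈ Y) := by
    intro i
    rcases Nat.eq_zero_or_pos i with rfl | hi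
    · refine ⟨1, fun _ => rfl, fun _ => ⟨?_, ?_⟩⟩
      · have := pow_mem_maxGen hX h _ w m hw'
        simpa [hlam] using this
      · simp [hs0]
    · by_cases him : i ≤ m
      · obtain ⟨σ, -, h2, h3⟩ := hsplit i him (s i) (hs i)
        exact ⟨σ, fun h0 => absurd h0 hi.ne', fun _ => ⟨h2, h3⟩⟩
      · exact ⟨0, fun h0 => absurd h0 hi.ne', fun h0 => absurd h0 him⟩
  choose σ hσ0 hσ using hchoose
  have hsum' : ∑ i ∈ Finset.range (m + 1), e ^ (i * (k - 1)) * σ i * w ^ (m - i) = 0 := by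
    set A := ∑ i ∈ Finset.range (m + 1), e ^ (i * (k - 1)) * σ i * w ^ (m - i) with hA
    have hA1 : A ∈ Module.End.maxGenEigenspace (P h) lam :=
      sum_mem fun i hi => (hσ i (by rw [Finset.mem_range] at hi; omega)).1
    have hA2 : A ∈ Y := by
      have h2 : ∑ i ∈ Finset.range (m + 1),
          (s i * w ^ (m - i) - e ^ (i * (k - 1)) * σ i * w ^ (m - i)) ∈ Y :=
        sum_mem fun i hi => (hσ i (by rw [Finset.mem_range] at hi; omega)).2
      rw [Finset.sum_sub_distrib, hsum, zero_sub] at h2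
      simpa using neg_mem h2
    have hdisj := (Module.End.independent_maxGenEigenspace (P h : End ℂ R)) lam
    exact Submodule.disjoint_def.mp hdisj A hA1 hA2
  -- pass to the fraction field
  let F := FractionRing R
  have heF : algebraMap R F e ≠ 0 := by
    rw [Ne, map_eq_zero_iff _ (IsFractionRing.injective R F)]; exact he0
  set y : F := algebraMap R F w / algebraMap R F (e ^ (k - 1)) with hy
  have hyw : algebraMap R F w = algebraMap R F (e ^ (k - 1)) * y := by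
    rw [hy, mul_div_cancel₀]
    rw [map_pow]; exact pow_ne_zero _ heF
  have hyint : IsIntegral R y := by
    refine ⟨∑ i ∈ Finset.range (m + 1), C (σ i) * X ^ (m - i), ?_, ?_⟩
    · rw [Finset.sum_range_succ', hσ0 0 rfl, Nat.sub_zero, map_one, one_mul, add_comm]
      rcases Nat.eq_zero_or_pos m with rfl | hm
      · simp
      apply monic_X_pow_add
      refine lt_of_le_of_lt (degree_sum_le _ _) ?_
      rw [Finset.sup_lt_iff (by exact_mod_cast WithBot.bot_lt_coe m)]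
      intro i hi
      rw [Finset.mem_range] at hi
      refine lt_of_le_of_lt (degree_C_mul_X_pow_le _ _) ?_
      exact_mod_cast (by omega : m - (i + 1) < m)
    · rw [eval₂_finsetSum]
      have h2 := congrArg (algebraMap R F) hsum'
      rw [map_sum, map_zero] at h2
      have h3 : ∑ i ∈ Finset.range (m + 1),
          algebraMap R F (e ^ (i * (k - 1)) * σ i * w ^ (m - i)) =
          algebraMap R F (e ^ (k - 1)) ^ m * ∑ i ∈ Finset.range (m + 1),
            eval₂ (algebraMap R F) y (C (σ i) * X ^ (m - i)) := by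
        rw [Finset.mul_sum]
        refine Finset.sum_congr rfl fun i hi => ?_
        rw [Finset.mem_range] at hi
        have e1 : m = i + (m - i) := by omega
        rw [map_mul, map_mul, map_pow _ w, hyw, eval₂_mul, eval₂_C, eval₂_pow, eval₂_X,
          mul_comm i, pow_mul, map_pow _ _ i, mul_pow]
        conv_rhs => rw [e1, pow_add]
        have e2 : i + (m - i) - i = m - i := by omega
        rw [e2]
        ring
      rw [h3] at h2
      refine (mul_eq_zero.mp h2).resolve_left (pow_ne_zero _ ?_)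
      rw [map_pow]; exact pow_ne_zero _ heF
  obtain ⟨u, hu⟩ := IsIntegrallyClosed.algebraMap_eq_of_integral hyint
  have hwu : w = e ^ (k - 1) * u := by
    apply IsFractionRing.injective R F
    rw [map_mul, hu, ← hyw]
  -- the degree of `u`
  classical
  have hek : e ^ (k - 1) ∈ 𝒜 (k - 1) := by
    simpa using SetLike.pow_mem_graded (A := 𝒜) (k - 1) hee
  refine ⟨(DirectSum.decompose 𝒜 u 1 : R), SetLike.coe_mem _, ?_⟩
  have h2 := DirectSum.coe_decompose_mul_add_of_left_mem 𝒜 (j := 1) hek (b := u)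
  rw [← hwu] at h2
  have e1 : k - 1 + 1 = k := by omega
  rw [e1, DirectSum.decompose_of_mem_same 𝒜 hw] at h2
  exact h2

end Vale.Agent.P292
end

section

/-! Lie algebras with a semisimple element with eigenvalues `-2, …, 2`. -/

namespace Vale.Agent.P292

open LieAlgebra LieModule Module

section

variable {L : Type*} [LieRing L] [LieAlgebra ℂ L] (h : L)
    (htop : ∀ x : L, x ∈ ⨆ i : Fin 5,
        Module.End.eigenspace (LieAlgebra.ad ℂ L h) ((i : ℂ) - 2))
include htop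

/-- eigenvalues of `ad h` are the obvious ones -/
lemma eq_zero_of_eigen
    (μ : ℂ) (hμ : ∀ i : Fin 5, ((i : ℂ) - 2) ≠ μ) (v : L) (hv : ⁅h, v⁆ = μ • v) : v = 0 := by
  have hd := (Module.End.eigenspaces_iSupIndep (LieAlgebra.ad ℂ L h)) μ
  refine Submodule.disjoint_def.mp hd v ?_ ?_
  · rw [Module.End.mem_eigenspace_iff]; exact hv
  · refine (iSup_le fun i => ?_ : (⨆ i : Fin 5,
        Module.End.eigenspace (LieAlgebra.ad ℂ L h) ((i : ℂ) - 2)) ≤ _) (htop v)
    exact le_iSup_of_le ((i : ℂ) - 2) (le_iSup_of_le (hμ i) le_rfl)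

/-- to prove a linear statement it is enough to treat eigenvectors -/
lemma forall_of_eigen {M : Type*} [AddCommGroup M] [Module ℂ M] (φ : L →ₗ[ℂ] M)
    (hφ : ∀ (i : Fin 5) (v : L), ⁅h, v⁆ = ((i : ℂ) - 2) • v → φ v = 0) (v : L) : φ v = 0 := by
  have h1 : (⨆ i : Fin 5, Module.End.eigenspace (LieAlgebra.ad ℂ L h) ((i : ℂ) - 2)) ≤
      LinearMap.ker φ := iSup_le fun i v hv => by
    rw [Module.End.mem_eigenspace_iff, LieAlgebra.ad_apply] at hv
    exact hφ i v hv
  exact h1 (htop v)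

omit htop in
lemma eigen_lie {a b : ℂ} {u v : L} (hu : ⁅h, u⁆ = a • u) (hv : ⁅h, v⁆ = b • v) :
    ⁅h, ⁅u, v⁆⁆ = (a + b) • ⁅u, v⁆ := by
  rw [leibniz_lie, hu, hv, smul_lie, lie_smul, ← add_smul]

omit htop in
lemma eigen_ad_pow {a b : ℂ} {u v : L} (hu : ⁅h, u⁆ = a • u) (hv : ⁅h, v⁆ = b • v) (n : ℕ) :
    ⁅h, ((ad ℂ L u) ^ n) v⁆ = (b + n * a) • ((ad ℂ L u) ^ n) v := by
  induction n with
  | zero => simpa using hv
  | succ n ih =>
    rw [pow_succ', Module.End.mul_apply, ad_apply, eigen_lie h hu ih]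
    congr 1
    push_cast; ring

/-- eigenvectors for nonzero eigenvalues are nilpotent -/
theorem ad_pow_eq_zero (c : ℤ) (hc : 1 ≤ |c|) (u : L) (hu : ⁅h, u⁆ = (c : ℂ) • u) :
    (ad ℂ L u) ^ (4 + 1) = 0 := by
  ext v
  refine forall_of_eigen h htop ((ad ℂ L u) ^ (4 + 1)) (fun i v hv => ?_) v
  have h1 := eigen_ad_pow h hu hv (4 + 1)
  refine eq_zero_of_eigen h htop _ (fun j hj => ?_) _ h1
  have h2 : ((j : ℤ) - i : ℂ) = ((5 * c : ℤ) : ℂ) := by
    push_cast at hj ⊢
    linear_combination hj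
  have h3 : ((j : ℕ) : ℤ) - ((i : ℕ) : ℤ) = 5 * c := by exact_mod_cast h2
  have hi := i.2
  have hj := j.2
  rcases le_abs.mp hc with h' | h' <;> omega

omit htop in
/-- eigenspaces for eigenvalues with nonzero sum are orthogonal -/
lemma killingForm_eq_zero_of_eigen {a b : ℂ} {u v : L} (hu : ⁅h, u⁆ = a • u)
    (hv : ⁅h, v⁆ = b • v) (hab : a + b ≠ 0) : killingForm ℂ L u v = 0 := by
  have h1 := LieModule.traceForm_apply_lie_apply' ℂ L L h u v
  rw [hu, hv, map_smul, map_smul, LinearMap.smul_apply, smul_eq_mul, smul_eq_mul] at h1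
  have h2 : (a + b) * killingForm ℂ L u v = 0 := by
    change (a + b) * LieModule.traceForm ℂ L L u v = 0
    linear_combination h1
  exact (mul_eq_zero.mp h2).resolve_left hab

/-- generalized eigenvectors are eigenvectors -/
lemma eigen_of_mem_maxGen (μ : ℂ) (v : L)
    (hv : v ∈ Module.End.maxGenEigenspace (ad ℂ L h) μ) : ⁅h, v⁆ = μ • v := by
  have h1 : (⨆ i : Fin 5, Module.End.eigenspace (LieAlgebra.ad ℂ L h) ((i : ℂ) - 2)) ≤
      Module.End.eigenspace (ad ℂ L h) μ ⊔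
        ⨆ ν, ⨆ _ : ν ≠ μ, Module.End.maxGenEigenspace (ad ℂ L h) ν := by
    refine iSup_le fun i => ?_
    by_cases hi : (i : ℂ) - 2 = μ
    · rw [hi]; exact le_sup_left
    · refine le_trans ?_ le_sup_right
      refine le_iSup_of_le ((i : ℂ) - 2) (le_iSup_of_le hi fun w hw => ?_)
      exact mem_maxGen_of_eq_smul _ _ _ (Module.End.mem_eigenspace_iff.mp hw)
  obtain ⟨a, ha, b, hb, hab⟩ := Submodule.mem_sup.mp (h1 (htop v))
  have ha' : a ∈ Module.End.maxGenEigenspace (ad ℂ L h) μ :=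
    mem_maxGen_of_eq_smul _ _ _ (Module.End.mem_eigenspace_iff.mp ha)
  have hb' : b ∈ Module.End.maxGenEigenspace (ad ℂ L h) μ := by
    have : b = v - a := by rw [← hab]; abel
    rw [this]; exact sub_mem hv ha'
  have hd := (Module.End.independent_maxGenEigenspace (ad ℂ L h)) μ
  have hb0 := Submodule.disjoint_def.mp hd b hb' hb
  rw [Module.End.mem_eigenspace_iff, ad_apply] at ha
  rw [← hab, hb0, add_zero, ha]

/-- the bracket is nondegenerate on the eigenspace for the eigenvalue one -/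
lemma eq_zero_of_forall_lie_eq_zero [FiniteDimensional ℂ L] [LieAlgebra.IsKilling ℂ L]
    {e f : L} (ht : IsSl2Triple h e f) (u : L) (hu : ⁅h, u⁆ = (1 : ℂ) • u)
    (hu' : ∀ a : L, ⁅h, a⁆ = (1 : ℂ) • a → ⁅u, a⁆ = 0) : u = 0 := by
  have h0 : killingForm ℂ L u = 0 := by
    ext v
    refine forall_of_eigen h htop (killingForm ℂ L u) (fun i v hv => ?_) v
    by_cases hi : i = 1
    · subst hi
      -- `v` has weight `-1`
      have hv' : ⁅h, v⁆ = (-1 : ℂ) • v := by rw [hv]; norm_num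
      have hfv : ⁅f, v⁆ = 0 := by
        have h1 := eigen_lie h (ht.lie_lie_smul_f ℂ |>.trans (neg_smul _ _).symm) hv'
        refine eq_zero_of_eigen h htop _ (fun j hj => ?_) _ h1
        have h2 : ((j : ℕ) : ℂ) + 1 = 0 := by linear_combination hj
        have h3 : (j : ℕ) + 1 = 0 := by exact_mod_cast h2
        omega
      have hev : ⁅h, ⁅e, v⁆⁆ = (1 : ℂ) • ⁅e, v⁆ := by
        rw [eigen_lie h (ht.lie_h_e_smul ℂ) hv']; norm_num
      have hfe : ⁅f, e⁆ = -h := by rw [← lie_skew, ht.lie_e_f]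
      have hfev : ⁅f, ⁅e, v⁆⁆ = v := by
        rw [leibniz_lie, hfv, lie_zero, add_zero, hfe, neg_lie, hv']
        simp
      rw [← hfev, ← LieModule.traceForm_apply_lie_apply ℂ L L,
        LieModule.traceForm_apply_lie_apply' ℂ L L, hu' _ hev, map_zero, neg_zero]
    · refine killingForm_eq_zero_of_eigen h hu hv (fun h0 => hi ?_)
      have h2 : ((i : ℕ) : ℂ) = ((1 : ℕ) : ℂ) := by push_cast; linear_combination h0
      have h3 : (i : ℕ) = 1 := by exact_mod_cast h2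
      exact Fin.ext h3
  have h1 := LieAlgebra.IsKilling.killingForm_nondegenerate ℂ L
  exact h1.1 u (fun v => by rw [h0]; rfl)

/-- a subspace stable under all eigenvectors with nonzero eigenvalue is an ideal -/
theorem lie_mem_of_forall_eigen [LieAlgebra.IsSimple ℂ L] (I : Submodule ℂ L)
    (hI : ∀ c : ℤ, c ≠ 0 → ∀ u : L, ⁅h, u⁆ = (c : ℂ) • u → ∀ y ∈ I, ⁅u, y⁆ ∈ I)
    (e : L) (he : e ≠ 0) (hhe : ⁅h, e⁆ = (2 : ℂ) • e) (z y : L) (hy : y ∈ I) : ⁅z, y⁆ ∈ I := by
  let N : LieSubalgebra ℂ L :=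
    { carrier := {z | ∀ y ∈ I, ⁅z, y⁆ ∈ I}
      add_mem' := fun {a b} ha hb y hy => by rw [add_lie]; exact add_mem (ha y hy) (hb y hy)
      zero_mem' := fun y _ => by rw [zero_lie]; exact zero_mem _
      smul_mem' := fun c a ha y hy => by rw [smul_lie]; exact I.smul_mem _ (ha y hy)
      lie_mem' := fun {a b} ha hb y hy => by
        rw [lie_lie]; exact sub_mem (ha _ (hb _ hy)) (hb _ (ha _ hy)) }
  set S : Set L := {u | ∃ c : ℤ, c ≠ 0 ∧ ⁅h, u⁆ = (c : ℂ) • u} with hS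
  set M := LieSubalgebra.lieSpan ℂ L S with hM
  have hMN : M ≤ N := LieSubalgebra.lieSpan_le.mpr fun u ⟨c, hc, hu⟩ => hI c hc u hu
  have hideal : ∀ w : L, ∀ m ∈ M, ⁅w, m⁆ ∈ M := by
    intro w m hm
    have hw : w ∈ (⨆ i : Fin 5, Module.End.eigenspace (LieAlgebra.ad ℂ L h) ((i : ℂ) - 2)) :=
      htop w
    refine Submodule.iSup_induction _ (motive := fun w => ⁅w, m⁆ ∈ M) hw ?_
      (by rw [zero_lie]; exact zero_mem _)
      (fun a b ha hb => by rw [add_lie]; exact add_mem ha hb)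
    intro i v hv
    rw [Module.End.mem_eigenspace_iff, LieAlgebra.ad_apply] at hv
    by_cases hi : i = 2
    · subst hi
      have hv' : ⁅h, v⁆ = (0 : ℂ) • v := by rw [hv]; norm_num
      induction hm using LieSubalgebra.lieSpan_induction with
      | mem u hu =>
        obtain ⟨c, hc, hu⟩ := hu
        refine LieSubalgebra.subset_lieSpan ⟨c, hc, ?_⟩
        rw [eigen_lie h hv' hu, zero_add]
      | zero => rw [lie_zero]; exact zero_mem _
      | smul r u _ hu => rw [lie_smul]; exact M.smul_mem _ hu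
      | add u w _ _ hu hw => rw [lie_add]; exact add_mem hu hw
      | lie u w hu hw hu' hw' =>
        rw [leibniz_lie]
        exact add_mem (M.lie_mem hu' hw) (M.lie_mem hu hw')
    · refine M.lie_mem (LieSubalgebra.subset_lieSpan ⟨(i : ℤ) - 2, ?_, ?_⟩) hm
      · intro h0
        apply hi
        apply Fin.ext
        have : ((i : ℕ) : ℤ) = 2 := by omega
        exact_mod_cast this
      · rw [hv]; push_cast; rfl
  let J : LieIdeal ℂ L :=
    { M.toSubmodule with
      lie_mem := fun {w m} hm => hideal w m hm }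
  have hJ : J = ⊤ := by
    rcases LieAlgebra.IsSimple.eq_bot_or_eq_top (R := ℂ) J with h0 | h0
    · exfalso
      have : e ∈ J := LieSubalgebra.subset_lieSpan ⟨2, two_ne_zero, by rw [hhe]; norm_num⟩
      rw [h0] at this
      exact he (by simpa using this)
    · exact h0
  have : z ∈ J := by rw [hJ]; trivial
  exact hMN this y hy

end

end Vale.Agent.P292
end

section

/-! If `|L|` is base point free, the core data exist. -/

namespace Vale.Agent.P292

open Module LieModule Polynomial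

universe u

variable {R : Type u} [CommRing R] [Algebra ℂ R] {𝒜 : ℕ → Submodule ℂ R} [GradedAlgebra 𝒜]
  {P : R →ₗ[ℂ] R →ₗ[ℂ] R}

namespace IsContactFano

variable (hX : IsContactFano 𝒜 P)
include hX

lemma hfin (k : ℕ) : FiniteDimensional ℂ (𝒜 k) := by
  have := hX.finiteType
  exact finiteDimensional_piece 𝒜 hX.connected k

lemma hint (hb : IsBasePointFree 𝒜) (k : ℕ) (r : R) (hr : r ∈ 𝒜 k) :
    ∃ (m : ℕ) (s : ℕ → R), s 0 = 1 ∧ (∀ i, s i ∈ (𝒜 1) ^ (i * k)) ∧
      ∑ i ∈ Finset.range (m + 1), s i * r ^ (m - i) = 0 := by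
  have := hX.domain
  have := hX.finiteType
  refine homogeneous_integral_equation 𝒜 hX.connected ?_ k r hr
  intro p hp
  by_contra hcon
  obtain ⟨s, hs, hps⟩ := hb p hcon
  exact hps (hp s hs)

theorem hasTrivialRadical (hb : IsBasePointFree 𝒜) :
    LieAlgebra.HasTrivialRadical ℂ (LieOne hX) := by
  rw [LieAlgebra.hasTrivialRadical_iff_no_abelian_ideals]
  intro I hI
  rw [LieSubmodule.eq_bot_iff]
  intro y hy
  apply LieOne.incl_injective hX
  rw [map_zero]
  refine hX.eq_zero_of_ad_sq_eq_zero hb _ (LieOne.incl_mem hX y) ?_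
  intro z hz
  have h1 : ⁅y, LieOne.mk hX hz⁆ ∈ I := by
    rw [← lie_skew]; exact neg_mem (I.lie_mem hy)
  have h2 : (⁅(⟨y, hy⟩ : I), (⟨_, h1⟩ : I)⁆ : I) = 0 := trivial_lie_zero _ _ _ _
  have h3 : ⁅y, ⁅y, LieOne.mk hX hz⁆⁆ = 0 := congrArg Subtype.val h2
  have h4 := congrArg (LieOne.incl hX) h3
  simpa using h4

lemma nontrivial_lieOne (hb : IsBasePointFree 𝒜) : Nontrivial (LieOne hX) := by
  obtain ⟨p, hp⟩ := hX.nonempty
  obtain ⟨s, hs, hps⟩ := hb p hp
  refine ⟨⟨LieOne.mk hX hs, 0, fun h0 => hps ?_⟩⟩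
  have := congrArg (LieOne.incl hX) h0
  rw [LieOne.incl_mk, map_zero] at this
  rw [this, map_zero]

omit hX in
/-- rescaling a point -/
lemma exists_rescale (p : R →ₐ[ℂ] ℂ) (t : ℂ) :
    ∃ p' : R →ₐ[ℂ] ℂ, ∀ k, ∀ r ∈ 𝒜 k, p' r = t ^ k * p r := by
  obtain ⟨c, hc⟩ := exists_flow 𝒜 (0 : Derivation ℂ R R) (fun k r _ => by simp) 1
    (fun k r _ => by
      rw [Function.iterate_succ_apply']
      simp) p
  refine ⟨(Polynomial.aeval t).comp c, fun k r hr => ?_⟩
  rw [AlgHom.comp_apply, hc k r hr, Finset.sum_range_succ', Finset.sum_eq_zero]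
  · simp only [Function.iterate_zero, id_eq, Nat.factorial_zero, Nat.cast_one, div_one,
      Nat.sub_zero, one_mul, zero_add, map_mul, map_pow, aeval_X, aeval_C, Algebra.algebraMap_self,
      RingHom.id_apply]
    ring
  · intro i _
    rw [Function.iterate_succ_apply']
    simp

/-- the core data exist -/
theorem exists_isCore (hb : IsBasePointFree 𝒜) :
    ∃ (e h f : R) (x : R →ₐ[ℂ] ℂ) (hC : IsCore hX e h f x), ∀ u : LieOne hX,
      u ∈ ⨆ i : Fin 5, Module.End.eigenspace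
        (LieAlgebra.ad ℂ (LieOne hX) (LieOne.mk hX hC.hh)) ((i : ℂ) - 2) := by
  classical
  have := hX.domain
  have := hX.finiteType
  have h1 := hX.hasTrivialRadical hb
  have h2 := hX.nontrivial_lieOne hb
  obtain ⟨h0, e0, f0, ht, htop, htwo, hneg⟩ := exists_long_sl2 (LieOne hX)
  set e := LieOne.incl hX e0 with he
  set h := LieOne.incl hX h0 with hh
  set f := LieOne.incl hX f0 with hf
  have heA : e ∈ 𝒜 1 := LieOne.incl_mem hX e0
  have hhA : h ∈ 𝒜 1 := LieOne.incl_mem hX h0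
  have hfA : f ∈ 𝒜 1 := LieOne.incl_mem hX f0
  have hef : P e f = h := by
    rw [he, hf, ← LieOne.incl_lie, ht.lie_e_f]
  have hhe : P h e = (2 : ℂ) • e := by
    rw [he, hh, ← LieOne.incl_lie, ht.lie_h_e_smul ℂ, map_smul]
  have hhf : P h f = -((2 : ℂ) • f) := by
    rw [hf, hh, ← LieOne.incl_lie, ht.lie_lie_smul_f ℂ, map_neg, map_smul]
  have he0 : e ≠ 0 := fun h0 => ht.e_ne_zero (LieOne.incl_injective hX (by rw [map_zero]; exact h0))
  have hf0 : f ≠ 0 := fun h0 => ht.f_ne_zero (LieOne.incl_injective hX (by rw [map_zero]; exact h0))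
  -- `f` acts with cube zero on `𝒜 1`, and its square has image in `ℂ f`
  have hsq : ∀ y ∈ 𝒜 1, ∃ c : ℂ, P f (P f y) = c • f := by
    intro y hy
    have key : ∀ v : LieOne hX, ∃ c : ℂ, ⁅f0, ⁅f0, v⁆⁆ = c • f0 := by
      intro v
      refine Submodule.iSup_induction _ (motive := fun v => ∃ c : ℂ, ⁅f0, ⁅f0, v⁆⁆ = c • f0)
        (htop v) ?_ ⟨0, by simp⟩ ?_
      · intro i v hv
        rw [Module.End.mem_eigenspace_iff, LieAlgebra.ad_apply] at hv
        have h3 : ∀ (w : LieOne hX) (μ : ℂ), ⁅h0, w⁆ = μ • w → ⁅h0, ⁅f0, w⁆⁆ = (μ - 2) • ⁅f0, w⁆ := by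
          intro w μ hw
          rw [leibniz_lie h0, ht.lie_lie_smul_f ℂ, hw, lie_smul, neg_lie, smul_lie, sub_smul]
          abel
        have h4 := h3 _ _ (h3 v _ hv)
        by_cases hi : i = 4
        · subst hi
          apply hneg
          rw [h4]
          congr 1
          norm_num
        · refine ⟨0, ?_⟩
          rw [zero_smul]
          refine eq_zero_of_eigen h0 htop _ ?_ _ h4
          intro j hj
          have h5 : ((j : ℕ) : ℂ) + 4 = ((i : ℕ) : ℂ) := by linear_combination hj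
          have h6 : (j : ℕ) + 4 = i := by exact_mod_cast h5
          omega
      · rintro a b ⟨c, hc⟩ ⟨d, hd⟩
        exact ⟨c + d, by rw [lie_add, lie_add, hc, hd, add_smul]⟩
    obtain ⟨c, hc⟩ := key (LieOne.mk hX hy)
    refine ⟨c, ?_⟩
    have := congrArg (LieOne.incl hX) hc
    simpa using this
  set D := hX.ham f with hD
  have hDdeg : ∀ k, ∀ r ∈ 𝒜 k, D r ∈ 𝒜 k := fun k r hr => hX.mem_of_mem_one hfA hr
  have hDf : D f = 0 := hX.alternating f
  have hnil : ∀ (k : ℕ) (r : R), r ∈ 𝒜 k → (⇑D)^[2 * k + 1] r = 0 :=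
    fun k r hr => iterate_eq_zero_of_integral 𝒜 D hX.hfin (hX.hint hb) hDdeg 2
      (fun r hr => by
        obtain ⟨c, hc⟩ := hsq r hr
        have : (⇑D)^[2 + 1] r = D (P f (P f r)) := rfl
        rw [this, hc, Derivation.map_smul, hDf, smul_zero]) k r hr
  -- the limit homomorphisms
  have hlim : ∀ p : R →ₐ[ℂ] ℂ, ∃ q : R →ₐ[ℂ] ℂ, ∀ k, ∀ r ∈ 𝒜 k,
      q r = p ((⇑D)^[2 * k] r) / ((2 * k).factorial : ℂ) := by
    intro p
    obtain ⟨c, hc⟩ := exists_flow 𝒜 D hDdeg 2 hnil p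
    refine ⟨(Polynomial.aeval 0).comp c, fun k r hr => ?_⟩
    rw [AlgHom.comp_apply, hc k r hr, Finset.sum_range_succ, map_add, map_sum,
      Finset.sum_eq_zero]
    · simp
    · intro l hl
      rw [Finset.mem_range] at hl
      have : 2 * k - l ≠ 0 := by omega
      simp [this]
  choose q hq using hlim
  have hq1 : ∀ s ∈ 𝒜 1, ∃ γ : ℂ, ∀ p, q p s = γ * (-(p f)) := by
    intro s hs
    obtain ⟨c, hc⟩ := hsq s hs
    refine ⟨-c / 2, fun p => ?_⟩
    rw [hq p 1 s hs]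
    have : (⇑D)^[2 * 1] s = P f (P f s) := rfl
    rw [this, hc, map_smul]
    simp
    ring
  have hqK : ∀ K, ∀ s ∈ (𝒜 1) ^ K, ∃ γ : ℂ, ∀ p, q p s = γ * (-(p f)) ^ K := by
    intro K
    induction K with
    | zero =>
      intro s hs
      rw [pow_zero, Submodule.mem_one] at hs
      obtain ⟨c, rfl⟩ := hs
      exact ⟨c, fun p => by simp⟩
    | succ K ih =>
      intro s hs
      rw [pow_succ] at hs
      refine Submodule.mul_induction_on hs ?_ ?_
      · intro a ha b hb'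
        obtain ⟨γ, hγ⟩ := ih a ha
        obtain ⟨δ, hδ⟩ := hq1 b hb'
        exact ⟨γ * δ, fun p => by rw [map_mul, hγ, hδ]; ring⟩
      · rintro a b ⟨γ, hγ⟩ ⟨δ, hδ⟩
        exact ⟨γ + δ, fun p => by rw [map_add, hγ, hδ]; ring⟩
  -- the square of `f` at each level
  have hkey : ∀ k, ∀ r ∈ 𝒜 k, ∃ c : ℂ, (⇑D)^[2 * k] r = (((2 * k).factorial : ℂ) * c) • (-f) ^ k := by
    intro k r hr
    obtain ⟨m, s, hs0, hs, hsum⟩ := hX.hint hb k r hr
    choose γ hγ using fun i => hqK (i * k) (s i) (hs i)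
    obtain ⟨p₀, -⟩ := hX.nonempty
    have hγ0 : γ 0 = 1 := by
      have := hγ 0 p₀
      rw [hs0, map_one] at this
      simpa using this.symm
    have hfac : ((2 * k).factorial : ℂ) ≠ 0 := by exact_mod_cast Nat.factorial_ne_zero _
    set ρ : R := ((2 * k).factorial : ℂ)⁻¹ • (⇑D)^[2 * k] r with hρ
    have hpρ : ∀ p, q p r = p ρ := by
      intro p
      rw [hq p k r hr, hρ, map_smul, smul_eq_mul]
      field_simp
    have hzero : ∑ i ∈ Finset.range (m + 1), γ i • ((-f) ^ (i * k) * ρ ^ (m - i)) = 0 := by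
      by_contra hne
      obtain ⟨p, hp⟩ := exists_point_ne_zero _ hne
      apply hp
      have h3 := congrArg (q p) hsum
      rw [map_sum, map_zero] at h3
      rw [map_sum, ← h3]
      refine Finset.sum_congr rfl fun i _ => ?_
      rw [map_mul, map_pow, hpρ, hγ, map_smul, map_mul, map_pow, map_pow, map_neg, smul_eq_mul]
      ring
    let F := FractionRing R
    have hfF : algebraMap R F (-f) ≠ 0 := by
      rw [Ne, map_eq_zero_iff _ (IsFractionRing.injective R F)]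
      exact neg_ne_zero.mpr hf0
    set y : F := algebraMap R F ρ / algebraMap R F ((-f) ^ k) with hy
    have hyw : algebraMap R F ρ = algebraMap R F ((-f) ^ k) * y := by
      rw [hy, mul_div_cancel₀]
      rw [map_pow]; exact pow_ne_zero _ hfF
    let G : ℂ[X] := ∑ i ∈ Finset.range (m + 1), C (γ i) * X ^ (m - i)
    have hGmonic : G.Monic := by
      change Monic (∑ i ∈ Finset.range (m + 1), C (γ i) * X ^ (m - i))
      rw [Finset.sum_range_succ', hγ0, Nat.sub_zero, map_one, one_mul, add_comm]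
      rcases Nat.eq_zero_or_pos m with rfl | hm
      · simp
      apply monic_X_pow_add
      refine lt_of_le_of_lt (degree_sum_le _ _) ?_
      rw [Finset.sup_lt_iff (by exact_mod_cast WithBot.bot_lt_coe m)]
      intro i hi
      rw [Finset.mem_range] at hi
      refine lt_of_le_of_lt (degree_C_mul_X_pow_le _ _) ?_
      exact_mod_cast (by omega : m - (i + 1) < m)
    have hGy : aeval y G = 0 := by
      have h3 := congrArg (algebraMap R F) hzero
      rw [map_sum, map_zero] at h3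
      have h4 : ∑ i ∈ Finset.range (m + 1),
          algebraMap R F (γ i • ((-f) ^ (i * k) * ρ ^ (m - i))) =
          algebraMap R F ((-f) ^ k) ^ m * aeval y G := by
        change _ = _ * aeval y (∑ i ∈ Finset.range (m + 1), C (γ i) * X ^ (m - i))
        rw [map_sum, Finset.mul_sum]
        refine Finset.sum_congr rfl fun i hi => ?_
        rw [Finset.mem_range] at hi
        have e1 : m = i + (m - i) := by omega
        have e3 : ∀ a : F, a ^ (i * k) * (a ^ k) ^ (m - i) = (a ^ k) ^ m := by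
          intro a
          conv_rhs => rw [e1, pow_add]
          rw [mul_comm i, pow_mul]
        rw [Algebra.smul_def, map_mul, map_mul, map_pow (algebraMap R F) ρ, hyw,
          map_pow (algebraMap R F) (-f), map_pow (algebraMap R F) (-f), mul_pow,
          ← IsScalarTower.algebraMap_apply, map_mul, aeval_C, map_pow (aeval y), aeval_X,
          ← e3 (algebraMap R F (-f))]
        ring
      rw [h4] at h3
      refine (mul_eq_zero.mp h3).resolve_left (pow_ne_zero _ ?_)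
      rw [map_pow]; exact pow_ne_zero _ hfF
    obtain ⟨c, hc⟩ := exists_eq_algebraMap_of_aeval_eq_zero G hGmonic.ne_zero y hGy
    refine ⟨c, ?_⟩
    have h5 : ρ = c • (-f) ^ k := by
      apply IsFractionRing.injective R F
      rw [hyw, hc, Algebra.smul_def, map_mul, ← IsScalarTower.algebraMap_apply, mul_comm]
    rw [mul_smul, ← h5, hρ, smul_smul, mul_inv_cancel₀ hfac, one_smul]
  -- the base point
  obtain ⟨p₀, hp₀⟩ := exists_point_ne_zero f hf0
  obtain ⟨p₁, hp₁⟩ := exists_rescale (𝒜 := 𝒜) p₀ (-(p₀ f)⁻¹)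
  have hp₁f : p₁ f = -1 := by
    rw [hp₁ 1 f hfA, pow_one, neg_mul, inv_mul_cancel₀ hp₀]
  have hflow : ∀ k, ∀ r ∈ 𝒜 k,
      (⇑D)^[2 * k] r = (((2 * k).factorial : ℂ) * q p₁ r) • (-f) ^ k := by
    intro k r hr
    obtain ⟨c, hc⟩ := hkey k r hr
    have hfac : ((2 * k).factorial : ℂ) ≠ 0 := by exact_mod_cast Nat.factorial_ne_zero _
    have h3 : q p₁ r = c := by
      rw [hq p₁ k r hr, hc, map_smul, map_pow, map_neg, hp₁f, neg_neg, one_pow, smul_eq_mul,
        mul_one, mul_div_cancel_left₀ _ hfac]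
    rw [h3]; exact hc
  refine ⟨e, h, f, q p₁, ?_, htop⟩
  refine
    { he := heA
      hh := hhA
      hf := hfA
      ef := hef
      h_e := hhe
      h_f := hhf
      xe := ?_
      flow := hflow
      full := ?_ }
  · have h3 := hflow 1 e heA
    have h4 : (⇑D)^[2 * 1] e = P f (P f e) := rfl
    have h5 : P f h = (2 : ℂ) • f := by rw [hX.skew, hhf, neg_neg]
    rw [h4, hX.skew f e, hef, map_neg, h5, pow_one, smul_neg, neg_inj] at h3
    have h6 := smul_left_injective ℂ hf0 h3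
    have h7 : (2 : ℂ) = 2 * q p₁ e := by simpa using h6
    linear_combination -h7 / 2
  · refine fun k hk w hw hw' => exists_of_weight hX heA he0 ?_ ?_ (hX.hint hb) k hk w hw hw'
    · intro u hu
      rw [mem_T] at hu
      obtain ⟨σ, hσ, hu⟩ := hu.2.2 (Nat.zero_le _)
      rw [pow_zero, Submodule.mem_one] at hσ
      obtain ⟨c, rfl⟩ := hσ
      refine ⟨c, ?_⟩
      rw [hu, Algebra.smul_def]; simp [mul_comm]
    · intro u hu
      have key : ∀ v : LieOne hX, LieOne.incl hX v ∈ ⨆ d, T 𝒜 P h e 1 d := by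
        intro v
        refine Submodule.iSup_induction _
          (motive := fun v => LieOne.incl hX v ∈ ⨆ d, T 𝒜 P h e 1 d)
          (htop v) ?_ (by rw [map_zero]; exact zero_mem _) ?_
        · intro i v hv
          rw [Module.End.mem_eigenspace_iff, LieAlgebra.ad_apply] at hv
          have hv' : P h (LieOne.incl hX v) = ((i : ℂ) - 2) • LieOne.incl hX v := by
            rw [hh, ← LieOne.incl_lie, hv, map_smul]
          refine Submodule.mem_iSup_of_mem (4 - (i : ℕ)) ?_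
          rw [mem_T]
          refine ⟨by simpa using LieOne.incl_mem hX v, ?_, ?_⟩
          · apply mem_maxGen_of_eq_smul
            rw [hv']
            congr 1
            rw [Nat.cast_sub (by omega)]
            push_cast
            ring
          · intro hi
            rcases (by omega : (i : ℕ) = 4 ∨ (i : ℕ) = 3) with hi4 | hi3
            · have h3 : ⁅h0, v⁆ = (2 : ℂ) • v := by
                rw [hv, hi4]; congr 1; norm_num
              obtain ⟨c, hc⟩ := htwo v h3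
              refine ⟨algebraMap ℂ R c, ?_, ?_⟩
              · rw [hi4, Nat.sub_self, pow_zero]
                exact Submodule.algebraMap_mem c
              · rw [hc, map_smul, hi4, Algebra.smul_def]
                simp [he, mul_comm]
            · refine ⟨LieOne.incl hX v, ?_, ?_⟩
              · rw [hi3]; simpa using LieOne.incl_mem hX v
              · rw [hi3]; simp
        · intro a b ha hb'
          rw [map_add]; exact add_mem ha hb'
      exact key (LieOne.mk hX hu)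

end IsContactFano

end Vale.Agent.P292
end

section

/-! Factors of homogeneous elements. -/

namespace Vale.Agent.P292

open Module Polynomial

universe u

variable {R : Type u} [CommRing R] [Algebra ℂ R] {𝒜 : ℕ → Submodule ℂ R} [GradedAlgebra 𝒜]
  {P : R →ₗ[ℂ] R →ₗ[ℂ] R}

/-- Factors of monomials are monomials. -/
private lemma factor_monomial {S : Type*} [CommRing S] [IsDomain S] {f g : S[X]} {n : ℕ} {s : S}
    (hs : s ≠ 0) (h : f * g = monomial n s) :
    ∃ i j, i + j = n ∧ f = monomial i (f.coeff i) ∧ g = monomial j (g.coeff j) := by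
  have h0 : monomial n s ≠ 0 := by rwa [Ne, monomial_eq_zero_iff]
  have hf0 : f ≠ 0 := by rintro rfl; rw [zero_mul] at h; exact h0 h.symm
  have hg0 : g ≠ 0 := by rintro rfl; rw [mul_zero] at h; exact h0 h.symm
  have h1 : f.natDegree + g.natDegree = n := by
    rw [← natDegree_mul hf0 hg0, h, natDegree_monomial_eq n hs]
  have h2 : f.natTrailingDegree + g.natTrailingDegree = n := by
    rw [← natTrailingDegree_mul hf0 hg0, h, natTrailingDegree_monomial hs]
  have h3 := natTrailingDegree_le_natDegree f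
  have h4 := natTrailingDegree_le_natDegree g
  have key : ∀ f : S[X], f.natTrailingDegree = f.natDegree →
      f = monomial f.natDegree (f.coeff f.natDegree) := by
    intro f hf
    ext m
    rw [coeff_monomial]
    split_ifs with hm
    · rw [hm]
    · rcases lt_or_gt_of_ne hm with h5 | h5
      · exact coeff_eq_zero_of_natDegree_lt h5
      · exact coeff_eq_zero_of_lt_natTrailingDegree (by omega)
  exact ⟨f.natDegree, g.natDegree, h1, key f (by omega), key g (by omega)⟩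

/-- Factors of homogeneous elements are homogeneous. -/
theorem exists_mem_of_mul_mem [IsDomain R] {a b : R} {k : ℕ} (hab : a * b ∈ 𝒜 k)
    (h0 : a * b ≠ 0) : ∃ i j, a ∈ 𝒜 i ∧ b ∈ 𝒜 j ∧ i + j = k := by
  classical
  have heig : ∀ (k : ℕ), ∀ r ∈ 𝒜 k, r ∈ Module.End.maxGenEigenspace (euler 𝒜) (k : ℂ) := by
    intro k r hr
    apply mem_maxGen_of_eq_smul
    exact euler_apply k r hr
  obtain ⟨c, hc⟩ := exists_hom_of_maxGen (euler 𝒜) euler_mul (fun r => by
    rw [← DirectSum.sum_support_decompose 𝒜 r]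
    exact sum_mem fun k _ => Submodule.mem_iSup_of_mem k
      (heig k _ (DirectSum.decompose 𝒜 r k).2)) (AlgHom.id ℂ R)
  have hc' : ∀ (k : ℕ), ∀ r ∈ 𝒜 k, c r = monomial k r := fun k r hr => by
    rw [hc k r (heig k r hr)]; rfl
  have heval : ∀ r : R, (c r).eval 1 = r := by
    intro r
    rw [← DirectSum.sum_support_decompose 𝒜 r, map_sum, eval_finsetSum]
    refine Finset.sum_congr rfl fun k _ => ?_
    rw [hc' k _ (DirectSum.decompose 𝒜 r k).2, eval_monomial, one_pow, mul_one]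
  have hcoeff : ∀ (r : R) (i : ℕ), (c r).coeff i ∈ 𝒜 i := by
    intro r i
    rw [← DirectSum.sum_support_decompose 𝒜 r, map_sum, finsetSum_coeff]
    refine sum_mem fun k _ => ?_
    rw [hc' k _ (DirectSum.decompose 𝒜 r k).2, coeff_monomial]
    split_ifs with hk
    · subst hk; exact (DirectSum.decompose 𝒜 r k).2
    · exact zero_mem _
  obtain ⟨i, j, hij, hi, hj⟩ := factor_monomial h0 ((map_mul c a b).symm.trans (hc' k _ hab))
  refine ⟨i, j, ?_, ?_, hij⟩
  · have h1 := heval a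
    rw [hi, eval_monomial, one_pow, mul_one] at h1
    rw [← h1]; exact hcoeff a i
  · have h1 := heval b
    rw [hj, eval_monomial, one_pow, mul_one] at h1
    rw [← h1]; exact hcoeff b j

end Vale.Agent.P292
end

section

/-! Theorem E, section 1: (TRI). See `PROOF.md`. -/

namespace Vale.Agent.P292

open Module

universe u v

variable {R : Type u} [CommRing R] [Algebra ℂ R] {𝒜 : ℕ → Submodule ℂ R} [GradedAlgebra 𝒜]
  {P : R →ₗ[ℂ] R →ₗ[ℂ] R} {H : R} {a : ℤ} {n : ℕ}

variable {B : Type v} [CommRing B] [Algebra ℂ B] [IsDomain B]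

/-- (TRI), second part. -/
theorem Ctx.kill_mid (C : Ctx 𝒜 P H a) (x : R →ₐ[ℂ] B) (hW : TypeW 𝒜 P H a x)
    (h : ¬ NV 𝒜 P H a x) (h0 : ∀ k : ℕ, 0 < k → ∀ r ∈ Wt 𝒜 P H k 0, x r = 0)
    (k : ℕ) (m : ℤ) (hm : -(a * k) < m) (r : R) (hr : r ∈ Wt 𝒜 P H k m) : x r = 0 :=
  tri_all C.hX C.hH C.hmax hW h h0 hm hr

/-- Points over any domain detect lines. -/
theorem Ctx.hasLine_of_point (C : Ctx 𝒜 P H a) (x : R →ₐ[ℂ] B) (hW : TypeW 𝒜 P H a x)
    (hp : NV 𝒜 P H a x) (hm : ¬ NV 𝒜 P (-H) a x)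
    (h : ∃ (k : ℕ) (m : ℤ), m ≠ a * k ∧ ∃ r ∈ Wt 𝒜 P H k m, x r ≠ 0) : HasLine 𝒜 P H a := by
  obtain ⟨k, hk, b, hb, hxb⟩ := hp
  obtain ⟨l, m, hml, r, hr, hxr⟩ := h
  obtain ⟨x', h1, h2⟩ := exists_closed C.hX x (b * r) (by
    rw [map_mul]; exact mul_ne_zero hxb hxr)
  rw [map_mul] at h2
  refine ⟨x', fun k m hkm r hr => h1 r (hW k m hkm r hr),
    ⟨k, hk, b, hb, left_ne_zero_of_mul h2⟩, ?_, l, m, hml, r, hr, right_ne_zero_of_mul h2⟩
  rintro ⟨k', hk', c, hc, hxc⟩
  exact hm ⟨k', hk', c, hc, fun h0 => hxc (h1 c h0)⟩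

end Vale.Agent.P292
end

section

/-! # Elimination of simple connectedness, part D: Poisson ideals. -/

namespace Vale.Agent.P292

open Module

universe u v

/-- Linear algebra: a bilinear form whose right radical is a subspace `N` of finite codimension
has dual families. -/
theorem exists_dual_families {U : Type*} [AddCommGroup U] [Module ℂ U]
    (β : U →ₗ[ℂ] U →ₗ[ℂ] ℂ) (N : Submodule ℂ U) [FiniteDimensional ℂ (U ⧸ N)]
    (h1 : ∀ v, ∀ u ∈ N, β v u = 0) (h2 : ∀ u, (∀ v, β v u = 0) → u ∈ N) :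
    ∃ (n : ℕ) (x y : Fin n → U), ∀ u, u - ∑ i, β (y i) u • x i ∈ N := by
  classical
  let W := U ⧸ N
  let φ : U →ₗ[ℂ] Dual ℂ W :=
    { toFun := fun v => N.liftQ (β v) (fun u hu => h1 v u hu)
      map_add' := fun v w => by
        apply Submodule.linearMap_qext
        ext u
        change β (v + w) u = β v u + β w u
        rw [map_add]; rfl
      map_smul' := fun c v => by
        apply Submodule.linearMap_qext
        ext u
        change β (c • v) u = c • β v u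
        rw [map_smul]; rfl }
  have hφ : ∀ v u, φ v (N.mkQ u) = β v u := fun v u => rfl
  have hsurj : LinearMap.range φ = ⊤ := by
    by_contra hne
    obtain ⟨f, hf0, hf⟩ := Submodule.exists_le_ker_of_lt_top _ (lt_top_iff_ne_top.mpr hne)
    obtain ⟨w, hw⟩ := (Module.evalEquiv ℂ W).surjective f
    obtain ⟨u, rfl⟩ := N.mkQ_surjective w
    have h3 : u ∈ N := by
      apply h2
      intro v
      have h4 : f (φ v) = 0 := hf ⟨v, rfl⟩
      rw [← hw] at h4
      exact h4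
    apply hf0
    have h5 : N.mkQ u = 0 := by
      rwa [Submodule.mkQ_apply, Submodule.Quotient.mk_eq_zero]
    rw [← hw, h5, map_zero]
  let b := Module.finBasis ℂ W
  have hy : ∀ i, ∃ y : U, φ y = b.coord i := fun i => by
    have : b.coord i ∈ LinearMap.range φ := by rw [hsurj]; trivial
    exact this
  choose y hy using hy
  have hx : ∀ i, ∃ x : U, N.mkQ x = b i := fun i => N.mkQ_surjective (b i)
  choose x hx using hx
  refine ⟨_, x, y, fun u => ?_⟩
  rw [← Submodule.Quotient.mk_eq_zero, ← Submodule.mkQ_apply, map_sub, map_sum, sub_eq_zero]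
  conv_lhs => rw [← b.sum_repr (N.mkQ u)]
  refine Finset.sum_congr rfl fun i _ => ?_
  rw [map_smul, hx, ← hφ, hy]
  rfl

variable {R : Type u} [CommRing R] [Algebra ℂ R] {𝒜 : ℕ → Submodule ℂ R} [GradedAlgebra 𝒜]
  {P : R →ₗ[ℂ] R →ₗ[ℂ] R}

/-- The subspace `ℂ + (ker p)²`. -/
def constSq (p : R →ₐ[ℂ] ℂ) : Submodule ℂ R :=
  ((RingHom.ker p ^ 2).restrictScalars ℂ).comap
    (LinearMap.id - (Algebra.linearMap ℂ R) ∘ₗ p.toLinearMap)

lemma mem_constSq {p : R →ₐ[ℂ] ℂ} {u : R} :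
    u ∈ constSq p ↔ u - algebraMap ℂ R (p u) ∈ RingHom.ker p ^ 2 := Iff.rfl

lemma finiteDimensional_quotient_constSq [Algebra.FiniteType ℂ R] (p : R →ₐ[ℂ] ℂ) :
    FiniteDimensional ℂ (R ⧸ constSq p) := by
  classical
  obtain ⟨s, hs⟩ := Algebra.FiniteType.out (R := ℂ) (A := R)
  set 𝔪 := RingHom.ker p with h𝔪
  let g : R → R := fun r => r - algebraMap ℂ R (p r)
  have hg : ∀ r, g r ∈ 𝔪 := fun r => by
    rw [h𝔪, RingHom.mem_ker]; simp [g]
  let T : Submodule ℂ R := Submodule.span ℂ (g '' s) ⊔ (𝔪 ^ 2).restrictScalars ℂ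
  have hT : T ≤ 𝔪.restrictScalars ℂ := by
    refine sup_le ?_ ?_
    · rw [Submodule.span_le]
      rintro _ ⟨r, -, rfl⟩
      exact hg r
    · intro r hr
      exact Ideal.pow_le_self two_ne_zero hr
  have key : ∀ r : R, g r ∈ T := by
    intro r
    have hr : r ∈ Algebra.adjoin ℂ (s : Set R) := by rw [hs]; trivial
    induction hr using Algebra.adjoin_induction with
    | mem r hr => exact Submodule.mem_sup_left (Submodule.subset_span ⟨r, hr, rfl⟩)
    | algebraMap c =>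
      have : g (algebraMap ℂ R c) = 0 := by simp [g]
      rw [this]; exact zero_mem _
    | add a b _ _ ha hb =>
      have : g (a + b) = g a + g b := by simp [g]; ring
      rw [this]; exact add_mem ha hb
    | mul a b _ _ ha hb =>
      have h1 : g (a * b) = g a * g b + p b • g a + p a • g b := by
        simp only [g, map_mul, Algebra.smul_def]; ring
      rw [h1]
      refine add_mem (add_mem (Submodule.mem_sup_right ?_) (Submodule.smul_mem _ _ ha))
        (Submodule.smul_mem _ _ hb)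
      change g a * g b ∈ 𝔪 ^ 2
      rw [sq]
      exact Ideal.mul_mem_mul (hg a) (hg b)
  have hfin : (⊤ : Submodule ℂ (R ⧸ constSq p)) ≤
      Submodule.span ℂ ((fun r => (constSq p).mkQ r) '' (s : Set R)) := by
    rintro w -
    obtain ⟨r, rfl⟩ := (constSq p).mkQ_surjective w
    have h1 := key r
    obtain ⟨t, ht, z, hz, htz⟩ := Submodule.mem_sup.mp h1
    have hconst : ∀ c : ℂ, (constSq p).mkQ (algebraMap ℂ R c) = 0 := fun c => by
      rw [Submodule.mkQ_apply, Submodule.Quotient.mk_eq_zero, mem_constSq]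
      simp
    have hzz : (constSq p).mkQ z = 0 := by
      rw [Submodule.mkQ_apply, Submodule.Quotient.mk_eq_zero, mem_constSq]
      have hz0 : p z = 0 := Ideal.pow_le_self two_ne_zero hz
      rw [hz0, map_zero, sub_zero]
      exact hz
    have h2 : (constSq p).mkQ r = (constSq p).mkQ t := by
      have h3 : (constSq p).mkQ (g r) = (constSq p).mkQ r := by
        simp only [g]
        rw [map_sub, hconst, sub_zero]
      rw [← h3, ← htz, map_add, hzz, add_zero]
    rw [h2]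
    have h4 : Submodule.span ℂ (g '' (s : Set R)) ≤
        (Submodule.span ℂ ((fun r => (constSq p).mkQ r) '' (s : Set R))).comap
          (constSq p).mkQ := by
      rw [Submodule.span_le]
      rintro _ ⟨r, hr, rfl⟩
      rw [SetLike.mem_coe, Submodule.mem_comap]
      simp only [g]
      rw [map_sub, hconst, sub_zero]
      exact Submodule.subset_span ⟨r, hr, rfl⟩
    exact h4 ht
  refine ⟨?_⟩
  rw [← top_le_iff.mp hfin]
  exact Submodule.fg_span (s.finite_toSet.image _)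

/-- An Euler type family at a nonvertex point. -/
theorem exists_euler_at (hX : IsContactFano 𝒜 P) {p : R →ₐ[ℂ] ℂ} (hp : ¬ IsVertex 𝒜 p) :
    ∃ (n : ℕ) (x y : Fin n → R), (∀ i, p (x i) = 0) ∧
      ∀ u, p u = 0 → (∑ i, x i * P (y i) u) - u ∈ RingHom.ker p ^ 2 := by
  classical
  have := hX.finiteType
  have := finiteDimensional_quotient_constSq p
  let β : R →ₗ[ℂ] R →ₗ[ℂ] ℂ := P.compr₂ p.toLinearMap
  have hβ : ∀ v u, β v u = p (P v u) := fun v u => rfl
  obtain ⟨n, x, y, hxy⟩ := exists_dual_families β (constSq p) (by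
    intro v u hu
    rw [mem_constSq] at hu
    have h1 : u = (u - algebraMap ℂ R (p u)) + algebraMap ℂ R (p u) := by ring
    rw [hβ, h1, map_add, hX.P_algebraMap_right, add_zero]
    refine Submodule.mul_induction_on (C := fun z => p (P v z) = 0) (by rwa [sq] at hu) ?_ ?_
    · intro a ha b hb
      have ha' : p a = 0 := ha
      have hb' : p b = 0 := hb
      rw [hX.leibniz, map_add, map_mul, map_mul, ha', hb', mul_zero, zero_mul, add_zero]
    · intro a b ha hb
      rw [map_add, map_add, ha, hb, add_zero]) (by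
    intro u hu
    rw [mem_constSq]
    refine hX.nondegenerate p hp u fun b => ?_
    rw [hX.skew, map_neg, ← hβ, hu, neg_zero])
  refine ⟨n, fun i => x i - algebraMap ℂ R (p (x i)), y, fun i => by simp, fun u hu => ?_⟩
  have h1 := hxy u
  rw [mem_constSq] at h1
  have h2 : ∀ i, P (y i) u - algebraMap ℂ R (p (P (y i) u)) ∈ RingHom.ker p := fun i => by
    rw [RingHom.mem_ker]; simp
  have h3 : ∀ i, x i - algebraMap ℂ R (p (x i)) ∈ RingHom.ker p := fun i => by
    rw [RingHom.mem_ker]; simp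
  have h4 : (∑ i, (x i - algebraMap ℂ R (p (x i))) *
      (P (y i) u - algebraMap ℂ R (p (P (y i) u)))) ∈ RingHom.ker p ^ 2 := by
    refine sum_mem fun i _ => ?_
    rw [sq]; exact Ideal.mul_mem_mul (h3 i) (h2 i)
  have h5 : (∑ i, (x i - algebraMap ℂ R (p (x i))) * P (y i) u) - u =
      (∑ i, (x i - algebraMap ℂ R (p (x i))) *
      (P (y i) u - algebraMap ℂ R (p (P (y i) u)))) -
      ((u - ∑ i, β (y i) u • x i) - algebraMap ℂ R (p (u - ∑ i, β (y i) u • x i))) := by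
    have h6 : ∀ i, algebraMap ℂ R (p (P (y i) u)) * x i = x i * algebraMap ℂ R (p (P (y i) u)) :=
      fun i => mul_comm _ _
    have h7 : ∀ i, algebraMap ℂ R (p (P (y i) u)) * algebraMap ℂ R (p (x i)) =
      algebraMap ℂ R (p (x i)) * algebraMap ℂ R (p (P (y i) u)) := fun i => mul_comm _ _
    simp only [hβ, map_sub, map_sum, hu, mul_sub, Finset.sum_sub_distrib,
      Algebra.smul_def, map_mul, sub_mul, zero_sub, map_neg, AlgHom.commutes,
      Algebra.algebraMap_self, RingHom.id_apply, h6, h7]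
    ring
  rw [h5]
  exact sub_mem h4 h1

/-- (D1) A nonzero Poisson ideal has only the vertex as zero. -/
theorem poisson_simple (hX : IsContactFano 𝒜 P) {p : R →ₐ[ℂ] ℂ} (hp : ¬ IsVertex 𝒜 p)
    (J : Ideal R) (hJ : ∀ b, ∀ u ∈ J, P b u ∈ J) (hJp : ∀ u ∈ J, p u = 0) : J = ⊥ := by
  classical
  have := hX.domain
  have := hX.finiteType
  have hnoeth : IsNoetherianRing R := Algebra.FiniteType.isNoetherianRing ℂ R
  obtain ⟨n, x, y, hx, hxy⟩ := exists_euler_at hX hp
  set 𝔪 := RingHom.ker p with h𝔪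
  let E : R → R := fun u => ∑ i, x i * P (y i) u
  have hEmul : ∀ s t, E (s * t) = E s * t + s * E t := by
    intro s t
    simp only [E, hX.leibniz, mul_add, Finset.sum_add_distrib, Finset.sum_mul, Finset.mul_sum]
    congr 1
    · exact Finset.sum_congr rfl fun i _ => by ring
    · exact Finset.sum_congr rfl fun i _ => by ring
  have hEadd : ∀ s t, E (s + t) = E s + E t := by
    intro s t
    simp only [E, map_add, mul_add, Finset.sum_add_distrib]
  have h1 : ∀ j : ℕ, ∀ u ∈ 𝔪 ^ (j + 1), E u - ((j + 1 : ℕ) : R) * u ∈ 𝔪 ^ (j + 2) := by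
    intro j
    induction j with
    | zero =>
      intro u hu
      rw [zero_add, pow_one] at hu
      rw [zero_add, Nat.cast_one, one_mul]
      exact hxy u hu
    | succ j ih =>
      intro u hu
      rw [pow_succ'] at hu
      refine Submodule.mul_induction_on (C := fun u => E u - ((j + 1 + 1 : ℕ) : R) * u ∈
        𝔪 ^ (j + 1 + 2)) hu ?_ ?_
      · intro s hs t ht
        have e1 : E (s * t) - ((j + 1 + 1 : ℕ) : R) * (s * t) =
            (E s - s) * t + s * (E t - ((j + 1 : ℕ) : R) * t) := by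
          rw [hEmul]; push_cast; ring
        rw [e1]
        refine add_mem ?_ ?_
        · have h2 := Ideal.mul_mem_mul (hxy s hs) ht
          rw [← pow_add] at h2
          have e2 : 2 + (j + 1) = j + 1 + 2 := by ring
          rwa [e2] at h2
        · have h2 := Ideal.mul_mem_mul hs (ih t ht)
          rw [← pow_succ'] at h2
          exact h2
      · intro s t hs ht
        have e1 : E (s + t) - ((j + 1 + 1 : ℕ) : R) * (s + t) =
            (E s - ((j + 1 + 1 : ℕ) : R) * s) + (E t - ((j + 1 + 1 : ℕ) : R) * t) := by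
          rw [hEadd]; ring
        rw [e1]; exact add_mem hs ht
  have h2 : ∀ j : ℕ, J ≤ 𝔪 ^ (j + 1) := by
    intro j
    induction j with
    | zero =>
      intro u hu
      rw [zero_add, pow_one]
      exact hJp u hu
    | succ j ih =>
      intro u hu
      have h3 := h1 j u (ih hu)
      have h4 : E u ∈ 𝔪 ^ (j + 1 + 1) := by
        refine sum_mem fun i _ => ?_
        rw [pow_succ']
        exact Ideal.mul_mem_mul (hx i) (ih (hJ (y i) u hu))
      have h5 : ((j + 1 : ℕ) : R) * u ∈ 𝔪 ^ (j + 1 + 1) := by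
        have h6 : ((j + 1 : ℕ) : R) * u = E u - (E u - ((j + 1 : ℕ) : R) * u) := by ring
        rw [h6]; exact sub_mem h4 h3
      have h6 : u = algebraMap ℂ R (((j + 1 : ℕ) : ℂ)⁻¹) * (((j + 1 : ℕ) : R) * u) := by
        rw [← mul_assoc, ← map_natCast (algebraMap ℂ R) (j + 1), ← map_mul, inv_mul_cancel₀
          (by exact_mod_cast Nat.succ_ne_zero j), map_one, one_mul]
      rw [h6]
      exact Ideal.mul_mem_left _ _ h5
  have h𝔪top : 𝔪 ≠ ⊤ := by
    rw [h𝔪]
    exact RingHom.ker_ne_top p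
  have h3 := Ideal.iInf_pow_eq_bot_of_isDomain 𝔪 h𝔪top
  rw [eq_bot_iff, ← h3]
  refine le_iInf fun j => ?_
  rcases Nat.eq_zero_or_pos j with rfl | hj
  · rw [pow_zero]; exact Ideal.one_eq_top (R := R) ▸ le_top
  · obtain ⟨i, rfl⟩ : ∃ i, j = i + 1 := ⟨j - 1, by omega⟩
    exact h2 i

end Vale.Agent.P292
end

section

/-! # Elimination of simple connectedness, part D: freeness, integral extensions,
nondegeneracy. -/

namespace Vale.Agent.P292

open Module

universe u v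

section Freeness

variable {R : Type u} [CommRing R] [Algebra ℂ R] {𝒜 : ℕ → Submodule ℂ R} [GradedAlgebra 𝒜]
  {P : R →ₗ[ℂ] R →ₗ[ℂ] R}
  {S : Type v} [CommRing S] [Algebra ℂ S] [Algebra R S] [IsScalarTower ℂ R S]

/-- (D2) Freeness of the action: an automorphism over `R` commuting with the brackets with
elements of `R` and fixing a closed point over a nonvertex point is trivial. -/
theorem eq_refl_of_fixed [IsDomain S] [Algebra.IsIntegral R S] (hX : IsContactFano 𝒜 P)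
    (D : R → S → S) (hadd : ∀ b s t, D b (s + t) = D b s + D b t)
    (hmul : ∀ b s t, D b (s * t) = D b s * t + s * D b t)
    (hext : ∀ b r, D b (algebraMap R S r) = algebraMap R S (P b r))
    (σ : S ≃ₐ[R] S) (hσ : ∀ b s, σ (D b s) = D b (σ s))
    (p : S →ₐ[ℂ] ℂ) (hp : ¬ IsVertex 𝒜 (p.comp (IsScalarTower.toAlgHom ℂ R S)))
    (hfix : ∀ s, p (σ s) = p s) : σ = AlgEquiv.refl := by
  have := hX.domain
  have hzero : ∀ b, D b 0 = 0 := fun b => by
    have := hadd b 0 0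
    rw [add_zero] at this
    simpa using this
  have hsub : ∀ b s t, D b (s - t) = D b s - D b t := fun b s t => by
    have := hadd b (s - t) t
    rw [sub_add_cancel] at this
    rw [this]; ring
  let I : Ideal S := Ideal.span (Set.range fun s => σ s - s)
  have h1 : I ≤ RingHom.ker p := by
    rw [Ideal.span_le]
    rintro _ ⟨s, rfl⟩
    change p (σ s - s) = 0
    rw [map_sub, hfix, sub_self]
  have h2 : ∀ b, ∀ u ∈ I, D b u ∈ I := by
    intro b u hu
    induction hu using Submodule.span_induction with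
    | mem u hu =>
      obtain ⟨s, rfl⟩ := hu
      change D b (σ s - s) ∈ I
      rw [hsub, ← hσ]
      exact Ideal.subset_span ⟨D b s, rfl⟩
    | zero => rw [hzero]; exact zero_mem _
    | add u v _ _ hu hv => rw [hadd]; exact add_mem hu hv
    | smul c u hu' hu =>
      rw [smul_eq_mul, hmul]
      exact add_mem (I.mul_mem_left _ hu') (I.mul_mem_left _ hu)
  have h3 : I.comap (algebraMap R S) = ⊥ := by
    refine poisson_simple hX hp _ ?_ ?_
    · intro b u hu
      rw [Ideal.mem_comap] at hu ⊢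
      rw [← hext]
      exact h2 b _ hu
    · intro u hu
      exact h1 hu
  have h4 : I = ⊥ := Ideal.eq_bot_of_comap_eq_bot h3
  ext s
  have h5 : σ s - s ∈ I := Ideal.subset_span ⟨s, rfl⟩
  rw [h4, Ideal.mem_bot, sub_eq_zero] at h5
  exact h5

/-- (D2) The version with a scaling. -/
theorem eq_refl_of_fixed_scale [IsDomain S] [Algebra.IsIntegral R S] (hX : IsContactFano 𝒜 P)
    {ℬ : ℕ → Submodule ℂ S} [GradedAlgebra ℬ]
    (hAB : ∀ k, ∀ r ∈ 𝒜 k, algebraMap R S r ∈ ℬ k)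
    (D : R → S → S) (hadd : ∀ b s t, D b (s + t) = D b s + D b t)
    (hmul : ∀ b s t, D b (s * t) = D b s * t + s * D b t)
    (hext : ∀ b r, D b (algebraMap R S r) = algebraMap R S (P b r))
    (σ : S ≃ₐ[R] S) (hσ : ∀ b s, σ (D b s) = D b (σ s))
    (p : S →ₐ[ℂ] ℂ) (hp : ¬ IsVertex 𝒜 (p.comp (IsScalarTower.toAlgHom ℂ R S)))
    (c : ℂ) (hfix : ∀ k, ∀ s ∈ ℬ k, p (σ s) = c ^ k * p s) : σ = AlgEquiv.refl := by
  have hc : c = 1 := by
    have h1 := hX.lineBundle _ hp (orderOf c) (by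
      intro k r hr hpr
      apply orderOf_dvd_of_pow_eq_one
      have h2 := hfix k _ (hAB k r hr)
      rw [AlgEquiv.commutes] at h2
      have h3 : p (algebraMap R S r) ≠ 0 := hpr
      have h4 : (c ^ k - 1) * p (algebraMap R S r) = 0 := by
        rw [sub_mul, ← h2]; ring
      rcases mul_eq_zero.mp h4 with h5 | h5
      · exact sub_eq_zero.mp h5
      · exact absurd h5 h3)
    rwa [orderOf_eq_one_iff] at h1
  refine eq_refl_of_fixed hX D hadd hmul hext σ hσ p hp fun s => ?_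
  classical
  rw [← DirectSum.sum_support_decompose ℬ s, map_sum, map_sum, map_sum]
  refine Finset.sum_congr rfl fun i _ => ?_
  rw [hfix i _ (SetLike.coe_mem _), hc, one_pow, one_mul]

end Freeness

end Vale.Agent.P292
end

section

/-! # Elimination of simple connectedness, part B4: integral Galois extensions of the section
ring of a contact Fano manifold. -/

namespace Vale.Agent.P292

open Module

universe u v

section Integral

variable {R : Type u} [CommRing R] [Algebra ℂ R] {𝒜 : ℕ → Submodule ℂ R} [GradedAlgebra 𝒜]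
  {P : R →ₗ[ℂ] R →ₗ[ℂ] R}
  {S : Type v} [CommRing S] [Algebra ℂ S] [Algebra R S] [IsScalarTower ℂ R S]
  {ℬ : ℕ → Submodule ℂ S} [GradedAlgebra ℬ]

omit [IsScalarTower ℂ R S] in
lemma coe_decompose_algebraMap (hAB : ∀ k, ∀ r ∈ 𝒜 k, algebraMap R S r ∈ ℬ k) (r : R) (k : ℕ) :
    (DirectSum.decompose ℬ (algebraMap R S r) k : S) =
      algebraMap R S (DirectSum.decompose 𝒜 r k : R) := by
  classical
  induction r using DirectSum.Decomposition.inductionOn 𝒜 with
  | zero => simp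
  | homogeneous m =>
    rename_i i
    by_cases h : i = k
    · subst h
      rw [DirectSum.decompose_of_mem_same ℬ (hAB _ _ m.2),
        DirectSum.decompose_of_mem_same 𝒜 m.2]
    · rw [DirectSum.decompose_of_mem_ne ℬ (hAB _ _ m.2) h,
        DirectSum.decompose_of_mem_ne 𝒜 m.2 h, map_zero]
  | add a b ha hb =>
    rw [map_add, DirectSum.decompose_add, DirectSum.decompose_add, DirectSum.add_apply,
      DirectSum.add_apply, Submodule.coe_add, Submodule.coe_add, map_add, ha, hb]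

omit [IsScalarTower ℂ R S] in
/-- Homogeneous integral elements satisfy homogeneous integral equations. -/
theorem exists_homogeneous_integral (hAB : ∀ k, ∀ r ∈ 𝒜 k, algebraMap R S r ∈ ℬ k) {k : ℕ}
    {s : S} (hs : s ∈ ℬ k) (hint : IsIntegral R s) :
    ∃ (n : ℕ) (r : ℕ → R), (∀ i < n, r i ∈ 𝒜 ((n - i) * k)) ∧
      s ^ n + ∑ i ∈ Finset.range n, algebraMap R S (r i) * s ^ i = 0 := by
  obtain ⟨q, hq, hqs⟩ := hint
  set n := q.natDegree with hn
  refine ⟨n, fun i => (DirectSum.decompose 𝒜 (q.coeff i) ((n - i) * k) : R),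
    fun i _ => SetLike.coe_mem _, ?_⟩
  have hsum : ∑ i ∈ Finset.range (n + 1), algebraMap R S (q.coeff i) * s ^ i = 0 := by
    rw [← hqs, Polynomial.eval₂_eq_sum_range]
  have hcomp : ∀ i ∈ Finset.range (n + 1),
      (DirectSum.decompose ℬ (algebraMap R S (q.coeff i) * s ^ i) (n * k) : S) =
      algebraMap R S (DirectSum.decompose 𝒜 (q.coeff i) ((n - i) * k) : R) * s ^ i := by
    intro i hi
    have hi' : i ≤ n := by
      have := Finset.mem_range.mp hi
      omega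
    have h1 : s ^ i ∈ ℬ (i * k) := by
      have := SetLike.pow_mem_graded i hs
      rwa [smul_eq_mul] at this
    have h2 : n * k = (n - i) * k + i * k := by
      rw [← add_mul, Nat.sub_add_cancel hi']
    rw [h2, DirectSum.coe_decompose_mul_add_of_right_mem ℬ h1, coe_decompose_algebraMap hAB]
  have h3 : (DirectSum.decompose ℬ (∑ i ∈ Finset.range (n + 1),
      algebraMap R S (q.coeff i) * s ^ i) (n * k) : S) = 0 := by
    rw [hsum]; simp
  rw [DirectSum.decompose_sum, DFinsupp.finsetSum_apply, Submodule.coe_sum,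
    Finset.sum_congr rfl hcomp, Finset.sum_range_succ] at h3
  have h4 : (DirectSum.decompose 𝒜 (q.coeff n) ((n - n) * k) : R) = 1 := by
    rw [hn, hq.coeff_natDegree, Nat.sub_self, zero_mul]
    exact DirectSum.decompose_of_mem_same 𝒜 SetLike.GradedOne.one_mem
  rw [h4, map_one, one_mul, add_comm] at h3
  exact h3

/-- Closed nonvertex points of an integral extension restrict to nonvertex points. -/
theorem not_isVertex_restrict [Algebra.IsIntegral R S]
    (hAB : ∀ k, ∀ r ∈ 𝒜 k, algebraMap R S r ∈ ℬ k) {p : S →ₐ[ℂ] ℂ} (hp : ¬ IsVertex ℬ p) :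
    ¬ IsVertex 𝒜 (p.comp (IsScalarTower.toAlgHom ℂ R S)) := by
  intro hv
  apply hp
  intro k hk s hs
  obtain ⟨n, r, hr, hrs⟩ := exists_homogeneous_integral hAB hs (Algebra.IsIntegral.isIntegral s)
  have h1 := congrArg p hrs
  rw [map_add, map_sum, map_zero, map_pow, Finset.sum_eq_zero, add_zero] at h1
  · have hn : n ≠ 0 := by
      rintro rfl
      rw [pow_zero] at h1; exact absurd h1 one_ne_zero
    exact (pow_eq_zero_iff hn).mp h1
  · intro i hi
    have hi' := Finset.mem_range.mp hi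
    have h2 := hv ((n - i) * k) (Nat.mul_pos (by omega) hk) (r i) (hr i hi')
    have h3 : p (algebraMap R S (r i)) = 0 := h2
    rw [map_mul, h3, zero_mul]

/-- Closed points lift to integral extensions. -/
theorem exists_lift_point [Algebra.IsIntegral R S]
    (hinj : Function.Injective (algebraMap R S)) (p : R →ₐ[ℂ] ℂ) :
    ∃ p' : S →ₐ[ℂ] ℂ, p'.comp (IsScalarTower.toAlgHom ℂ R S) = p := by
  have hprime : (RingHom.ker p).IsPrime := RingHom.ker_isPrime _
  obtain ⟨Q, -, hQ, hQp⟩ := Ideal.exists_ideal_over_prime_of_isIntegral (S := S) (RingHom.ker p) ⊥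
    (by
      intro r hr
      rw [Ideal.mem_comap, Ideal.mem_bot, map_eq_zero_iff _ hinj] at hr
      rw [hr]; exact zero_mem _)
  have hmk : ∀ r : R, Ideal.Quotient.mk Q (algebraMap R S r) = algebraMap ℂ (S ⧸ Q) (p r) := by
    intro r
    have h1 : r - algebraMap ℂ R (p r) ∈ Q.comap (algebraMap R S) := by
      rw [hQp, RingHom.mem_ker]; simp
    rw [Ideal.mem_comap, map_sub, ← IsScalarTower.algebraMap_apply] at h1
    have h2 := Ideal.Quotient.eq.mpr h1
    rw [h2]; rfl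
  have hint : Algebra.IsIntegral ℂ (S ⧸ Q) := by
    refine ⟨fun w => ?_⟩
    obtain ⟨s, rfl⟩ := Ideal.Quotient.mk_surjective w
    obtain ⟨q, hq, hqs⟩ := Algebra.IsIntegral.isIntegral (R := R) s
    refine ⟨q.map p.toRingHom, hq.map _, ?_⟩
    rw [Polynomial.eval₂_map]
    have h3 : (algebraMap ℂ (S ⧸ Q)).comp p.toRingHom =
        (Ideal.Quotient.mk Q).comp (algebraMap R S) := by
      ext r
      exact (hmk r).symm
    rw [h3, ← Polynomial.hom_eval₂, hqs, map_zero]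
  have hbij : Function.Bijective (algebraMap ℂ (S ⧸ Q)) :=
    IsAlgClosed.algebraMap_bijective_of_isIntegral
  let e : ℂ ≃ₐ[ℂ] (S ⧸ Q) := AlgEquiv.ofBijective (Algebra.ofId ℂ (S ⧸ Q)) hbij
  refine ⟨(e.symm : (S ⧸ Q) →ₐ[ℂ] ℂ).comp (Ideal.Quotient.mkₐ ℂ Q), ?_⟩
  ext r
  change e.symm (Ideal.Quotient.mk Q (algebraMap R S r)) = p r
  rw [hmk]
  exact e.symm_apply_apply (p r)

/-- Degree zero elements of an integral extension are constants. -/
theorem exists_eq_algebraMap_of_degree_zero [IsDomain S] [Algebra.IsIntegral R S]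
    (hAB : ∀ k, ∀ r ∈ 𝒜 k, algebraMap R S r ∈ ℬ k)
    (hconn : ∀ r ∈ 𝒜 0, ∃ c : ℂ, r = algebraMap ℂ R c) {s : S} (hs : s ∈ ℬ 0) :
    ∃ c : ℂ, s = algebraMap ℂ S c := by
  obtain ⟨n, r, hr, hrs⟩ := exists_homogeneous_integral hAB hs (Algebra.IsIntegral.isIntegral s)
  have hc : ∀ i, ∃ c : ℂ, i < n → r i = algebraMap ℂ R c := fun i => by
    by_cases hi : i < n
    · have h1 := hr i hi
      rw [mul_zero] at h1
      obtain ⟨c, hc⟩ := hconn _ h1
      exact ⟨c, fun _ => hc⟩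
    · exact ⟨0, fun h => absurd h hi⟩
  choose c hc using hc
  have hint : IsIntegral ℂ s := by
    refine ⟨Polynomial.X ^ n + ∑ i ∈ Finset.range n, Polynomial.C (c i) * Polynomial.X ^ i,
      ?_, ?_⟩
    · refine Polynomial.monic_X_pow_add ?_
      rw [Finset.sum_range]
      exact Polynomial.degree_sum_fin_lt _
    · rw [Polynomial.eval₂_add, Polynomial.eval₂_X_pow, Polynomial.eval₂_finsetSum, ← hrs]
      congr 1
      refine Finset.sum_congr rfl fun i hi => ?_
      rw [Polynomial.eval₂_mul, Polynomial.eval₂_C, Polynomial.eval₂_X_pow,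
        hc i (Finset.mem_range.mp hi), ← IsScalarTower.algebraMap_apply]
  have h2 : Function.Bijective (algebraMap ℂ (integralClosure ℂ S)) := by
    have h1 : (algebraMap ℂ (integralClosure ℂ S)).IsIntegral := algebraMap_isIntegral_iff.mpr
      inferInstance
    exact IsAlgClosed.algebraMap_bijective_of_isIntegral
  obtain ⟨l, hl⟩ := h2.2 ⟨s, hint⟩
  exact ⟨l, (congrArg Subtype.val hl).symm⟩

end Integral

end Vale.Agent.P292
end

section

/-! Theorem E, section 8: `Q` stays irreducible. See `PROOF.md`. -/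

namespace Vale.Agent.P292

open Module Polynomial

universe u v

variable {R : Type u} [CommRing R] [Algebra ℂ R] {𝒜 : ℕ → Submodule ℂ R} [GradedAlgebra 𝒜]
  {P : R →ₗ[ℂ] R →ₗ[ℂ] R} {H : R} {a : ℤ} {n : ℕ}

/-! ### Task UN2 : `Q` stays irreducible; Bezout -/

/-- A monic divisor of a monic polynomial over `A₊` comes from `A₊`. -/
theorem un3_lift (C : Ctx 𝒜 P H a) {Q : (Ap 𝒜 P H a)[X]} (hm : Q.Monic) (K : Type v) [Field K]
    [Algebra R K] [IsFractionRing R K] {g : K[X]} (hg : g.Monic)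
    (hd : g ∣ Q.map (algebraMap (Ap 𝒜 P H a) K)) :
    ∃ G : (Ap 𝒜 P H a)[X], G.map (algebraMap (Ap 𝒜 P H a) K) = g := by
  have := C.hX.domain
  have := C.hX.normal
  have := C.isDomain_Ap
  have h1 := integralClosure.mem_lifts_of_monic_of_dvd_map K hm hg hd
  rw [lifts_iff_coeff_lifts] at h1
  have h2 : g ∈ lifts (algebraMap (Ap 𝒜 P H a) K) := by
    rw [lifts_iff_coeff_lifts]
    intro n
    obtain ⟨⟨c, hc⟩, hc'⟩ := h1 n
    have hc0 : c = g.coeff n := hc'
    have hc1 : IsIntegral (Ap 𝒜 P H a) c := hc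
    obtain ⟨r, hr⟩ := IsIntegrallyClosed.isIntegral_iff.mp (hc1.tower_top (A := R))
    have h3 : IsAlgebraic (Ap 𝒜 P H a) (algebraMap R K r) := by
      rw [hr]
      exact hc1.isAlgebraic
    have h4 : IsAlgebraic (Ap 𝒜 P H a) r :=
      (isAlgebraic_algebraMap_iff (IsFractionRing.injective R K)).1 h3
    exact ⟨⟨r, C.mem_Ap_of_isAlgebraic h4⟩, by rw [← hc0, ← hr]; rfl⟩
  obtain ⟨G, hG⟩ := (mem_lifts _).1 h2
  exact ⟨G, hG⟩

theorem Ctx.irreducible_map_of_irreducible (C : Ctx 𝒜 P H a) {Q : (Ap 𝒜 P H a)[X]}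
    (hm : Q.Monic) (hirr : Irreducible Q) (K : Type v) [Field K] [Algebra R K]
    [IsFractionRing R K] :
    Irreducible (Q.map ((algebraMap R K).comp (Ap 𝒜 P H a).val.toRingHom)) := by
  have := C.hX.domain
  have := C.isDomain_Ap
  have hφ : (algebraMap R K).comp (Ap 𝒜 P H a).val.toRingHom =
    algebraMap (Ap 𝒜 P H a) K := rfl
  rw [hφ]
  have hinj : Function.Injective (algebraMap (Ap 𝒜 P H a) K) := by
    rw [← hφ]
    exact (IsFractionRing.injective R K).comp Subtype.val_injective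
  rw [(hm.map _).irreducible_iff_natDegree]
  have hQ := (hm.irreducible_iff_natDegree).1 hirr
  refine ⟨fun h => hQ.1 (Polynomial.map_injective _ hinj (by rw [h, Polynomial.map_one])), ?_⟩
  intro f g hf hg hfg
  obtain ⟨F, rfl⟩ := un3_lift C hm K hf ⟨g, hfg.symm⟩
  obtain ⟨G, rfl⟩ := un3_lift C hm K hg ⟨_, by rw [mul_comm]; exact hfg.symm⟩
  have hF := Polynomial.monic_of_injective hinj hf
  have hG := Polynomial.monic_of_injective hinj hg
  have h := hQ.2 F G hF hG (Polynomial.map_injective _ hinj (by rw [Polynomial.map_mul, hfg]))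
  rwa [hF.natDegree_map, hG.natDegree_map]

end Vale.Agent.P292
end

section

/-! # Tools with valuations. -/

namespace Vale.Agent.P292

open Module

universe u v

/-- Integrality via valuation rings. -/
theorem isIntegral_of_forall_valuationSubring {A : Type*} {Ω : Type v} [CommRing A] [Field Ω]
    [Algebra A Ω] (t : Ω)
    (h : ∀ V : ValuationSubring Ω, (∀ a : A, algebraMap A Ω a ∈ V) → t ∈ V) : IsIntegral A t := by
  have h1 := iInf_valuationSubring_superset (s := Set.range (algebraMap A Ω))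
  have h2 : t ∈ (⨅ V : {V : ValuationSubring Ω // Set.range (algebraMap A Ω) ⊆ V.toSubring},
      V.1.toSubring) := by
    rw [Subring.mem_iInf]
    rintro ⟨V, hV⟩
    exact h V fun a => hV ⟨a, rfl⟩
  rw [h1] at h2
  have h3 : IsIntegral (Subring.closure (Set.range (algebraMap A Ω))) t := h2
  have hcl : ∀ a : A, algebraMap A Ω a ∈ Subring.closure (Set.range (algebraMap A Ω)) :=
    fun a => Subring.subset_closure ⟨a, rfl⟩
  let f : A →+* Subring.closure (Set.range (algebraMap A Ω)) :=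
    (algebraMap A Ω).codRestrict _ hcl
  have hf : Function.Surjective f := by
    rintro ⟨x, hx⟩
    have h4 : Subring.closure (Set.range (algebraMap A Ω)) = (algebraMap A Ω).range := by
      rw [← RingHom.coe_range, Subring.closure_eq]
    rw [h4] at hx
    obtain ⟨a, rfl⟩ := hx
    exact ⟨a, rfl⟩
  let inst : Algebra A (Subring.closure (Set.range (algebraMap A Ω))) := f.toAlgebra
  have inst2 : IsScalarTower A (Subring.closure (Set.range (algebraMap A Ω))) Ω :=
    IsScalarTower.of_algebraMap_eq fun a => rfl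
  have inst3 : Algebra.IsIntegral A (Subring.closure (Set.range (algebraMap A Ω))) :=
    ⟨f.isIntegral_of_surjective hf⟩
  exact isIntegral_trans t h3

/-- An algebraically closed field containing a domain. -/
theorem exists_algClosed_embedding (B : Type v) [CommRing B] [IsDomain B] [Algebra ℂ B] :
    ∃ (Ω : Type v) (_ : Field Ω) (_ : IsAlgClosed Ω) (_ : Algebra ℂ Ω) (ι : B →ₐ[ℂ] Ω),
      Function.Injective ι := by
  refine ⟨AlgebraicClosure (FractionRing B), inferInstance, inferInstance, inferInstance,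
    (IsScalarTower.toAlgHom ℂ (FractionRing B) (AlgebraicClosure (FractionRing B))).comp
      (IsScalarTower.toAlgHom ℂ B (FractionRing B)), ?_⟩
  rw [AlgHom.coe_comp]
  exact ((algebraMap (FractionRing B) (AlgebraicClosure (FractionRing B))).injective).comp
    (IsFractionRing.injective B (FractionRing B))

/-- Scaling a finite family in an algebraically closed valued field. -/
theorem exists_scale {Ω : Type v} [Field Ω] [IsAlgClosed Ω] {Γ : Type*}
    [LinearOrderedCommGroupWithZero Γ] (v : Valuation Ω Γ) {ι : Type*} (s : Finset ι)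
    (x : ι → Ω) (n : ι → ℕ) (hn : ∀ i ∈ s, 0 < n i) (hne : ∃ i ∈ s, x i ≠ 0) :
    ∃ θ : Ω, θ ≠ 0 ∧ (∀ i ∈ s, v (θ ^ n i * x i) ≤ 1) ∧ ∃ i ∈ s, v (θ ^ n i * x i) = 1 := by
  classical
  have h1 : ∀ i ∈ s, ∃ θ : Ω, x i ≠ 0 → θ ^ n i * x i = 1 := by
    intro i hi
    obtain ⟨θ, hθ⟩ := IsAlgClosed.exists_pow_nat_eq (x i)⁻¹ (hn i hi)
    exact ⟨θ, fun h => by rw [hθ, inv_mul_cancel₀ h]⟩
  choose! θ hθ using h1
  obtain ⟨i₀, hi₀, hmin⟩ := Finset.exists_min_image (s.filter fun i => x i ≠ 0)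
    (fun i => v (θ i)) (by
      obtain ⟨i, hi, hxi⟩ := hne
      exact ⟨i, Finset.mem_filter.mpr ⟨hi, hxi⟩⟩)
  rw [Finset.mem_filter] at hi₀
  refine ⟨θ i₀, ?_, fun i hi => ?_, i₀, hi₀.1, ?_⟩
  · intro h0
    have := hθ i₀ hi₀.1 hi₀.2
    rw [h0, zero_pow (hn i₀ hi₀.1).ne', zero_mul] at this
    exact zero_ne_one this
  · by_cases hxi : x i = 0
    · rw [hxi, mul_zero, map_zero]; exact zero_le_one
    · have h2 := hmin i (Finset.mem_filter.mpr ⟨hi, hxi⟩)
      calc v (θ i₀ ^ n i * x i) = v (θ i₀) ^ n i * v (x i) := by rw [map_mul, map_pow]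
        _ ≤ v (θ i) ^ n i * v (x i) := by gcongr
        _ = 1 := by rw [← map_pow, ← map_mul, hθ i hi hxi, map_one]
  · rw [hθ i₀ hi₀.1 hi₀.2, map_one]

/-- A homomorphism with integral values on generators has integral values. -/
theorem valuation_le_one_of_generators {R : Type u} [CommRing R] [Algebra ℂ R]
    {Ω : Type v} [Field Ω] [Algebra ℂ Ω] {Γ : Type*} [LinearOrderedCommGroupWithZero Γ]
    (v : Valuation Ω Γ) (hc : ∀ c : ℂ, v (algebraMap ℂ Ω c) ≤ 1) {s : Set R}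
    (hs : Algebra.adjoin ℂ s = ⊤) (x : R →ₐ[ℂ] Ω) (hx : ∀ g ∈ s, v (x g) ≤ 1) (r : R) :
    v (x r) ≤ 1 := by
  have hr : r ∈ Algebra.adjoin ℂ s := by rw [hs]; trivial
  induction hr using Algebra.adjoin_induction with
  | mem g hg => exact hx g hg
  | algebraMap c => rw [AlgHom.commutes]; exact hc c
  | add a b _ _ ha hb => rw [map_add]; exact v.map_add_le ha hb
  | mul a b _ _ ha hb => rw [map_mul, map_mul]; exact mul_le_one' ha hb

end Vale.Agent.P292
end

section

/-! # Theorem D without factoriality: extremal functions. -/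

namespace Vale.Agent.P292

open Module

universe u v

variable {R : Type u} [CommRing R] [Algebra ℂ R] {𝒜 : ℕ → Submodule ℂ R} [GradedAlgebra 𝒜]
  {P : R →ₗ[ℂ] R →ₗ[ℂ] R} {H : R} {a : ℤ}

/-- The projection to the functions of extremal slope. -/
theorem exists_pure_part (hX : IsContactFano 𝒜 P) (hH : IsContactTorus 𝒜 P H)
    (hmax : IsMaxSlope 𝒜 P H a) {B : Type v} [CommRing B] [Algebra ℂ B] (x : R →ₐ[ℂ] B) :
    ∃ φ : R →ₐ[ℂ] B, ∀ (k : ℕ) (m : ℤ), ∀ r ∈ Wt 𝒜 P H k m,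
      φ r = if m = a * k then x r else 0 := by
  obtain ⟨φ, hφ⟩ := exists_twist hX hH x (fun k m => if m = a * k then 1 else 0) (by simp) (by
    rintro k l m n ⟨r, hr, hxr⟩ ⟨s, hs, hxs⟩
    have h1 := hmax.le k m r hr (by rintro rfl; exact hxr (map_zero x))
    have h2 := hmax.le l n s hs (by rintro rfl; exact hxs (map_zero x))
    by_cases h3 : m = a * k
    · by_cases h4 : n = a * l
      · rw [if_pos h3, if_pos h4, if_pos, one_mul]
        push_cast; linarith
      · rw [if_neg h4, mul_zero, if_neg]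
        intro h5
        push_cast at h5
        apply h4
        linarith
    · rw [if_neg h3, zero_mul, if_neg]
      intro h5
      push_cast at h5
      apply h3
      linarith)
  refine ⟨φ, fun k m r hr => ?_⟩
  rw [hφ k m r hr]
  by_cases h : m = a * k
  · rw [if_pos h, if_pos h, one_mul]
  · rw [if_neg h, if_neg h, zero_mul]

/-- If an extremal function of degree one vanishes nowhere on the source, all the extremal
functions are multiples of its powers. -/
theorem eq_smul_pow_of_nonvanishing (hX : IsContactFano 𝒜 P) (hH : IsContactTorus 𝒜 P H)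
    (hmax : IsMaxSlope 𝒜 P H a) {e : R} (he : e ∈ Wt 𝒜 P H 1 a)
    (hne : ∀ p, HasSlope 𝒜 P H p a → p e ≠ 0) (k : ℕ) (w : R) (hw : w ∈ Wt 𝒜 P H k (a * k)) :
    ∃ l : ℂ, w = l • e ^ k := by
  classical
  have := hX.domain
  have he0 : e ≠ 0 := by
    obtain ⟨q, hq⟩ := hmax.exists_slope
    rintro rfl
    exact hne q hq (map_zero q)
  obtain ⟨Ω, _, _, _, ι, hι⟩ := exists_algClosed_embedding R
  have hιe : ι e ≠ 0 := by
    rw [Ne, map_eq_zero_iff ι hι]; exact he0
  obtain ⟨φ, hφ⟩ := exists_pure_part hX hH hmax ι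
  obtain ⟨s, hs, hg⟩ := exists_Wt_generators hX hH
  choose! hg0 K M hK hKM using hg
  have he' : e ∈ Wt 𝒜 P H 1 (a * (1 : ℕ)) := by simpa using he
  have hφe : φ e = ι e := by rw [hφ 1 _ e he', if_pos rfl]
  have hφw : φ w = ι w := by rw [hφ k _ w hw, if_pos rfl]
  -- some generator has nonzero pure part
  have hex : ∃ g ∈ s, φ g ≠ 0 := by
    by_contra hcon
    push Not at hcon
    have h1 := Wt_le_of_generators hX hH hs (fun g hg => ⟨K g, M g, hKM g hg⟩)
      (fun k m => if k = 0 then ⊤ else LinearMap.ker φ.toLinearMap) (by simp) (by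
        intro g hg k m _ l n r _ _
        by_cases h : k + l = 0
        · rw [if_pos h]; trivial
        · rw [if_neg h, LinearMap.mem_ker]
          change φ (g * r) = 0
          rw [map_mul, hcon g hg, zero_mul]) 1 _ he'
    rw [if_neg one_ne_zero, LinearMap.mem_ker] at h1
    exact hιe (by rw [← hφe]; exact h1)
  have key : IsIntegral ℂ (ι w / ι e ^ k) := by
    refine isIntegral_of_forall_valuationSubring _ fun V hV => ?_
    have hc : ∀ c : ℂ, V.valuation (algebraMap ℂ Ω c) ≤ 1 := fun c =>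
      (V.valuation_le_one_iff _).mpr (hV c)
    obtain ⟨θ, hθ0, hθ, g₀, hg₀, hθ1⟩ := exists_scale V.valuation s (fun g => φ g) K hK hex
    obtain ⟨x, hx⟩ := exists_twist hX hH φ (fun k _ => θ ^ k) (by simp)
      (fun k l m n _ _ => pow_add θ k l)
    have hxle : ∀ r, V.valuation (x r) ≤ 1 :=
      valuation_le_one_of_generators V.valuation hc hs x fun g hg => by
        rw [hx _ _ g (hKM g hg)]; exact hθ g hg
    obtain ⟨p, hp, hpg⟩ := exists_closed_of_valuation hX V.valuation x hxle g₀ (by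
      rw [hx _ _ g₀ (hKM g₀ hg₀), hθ1]; exact lt_irrefl _)
    have hps : HasSlope 𝒜 P H p a := by
      rw [hasSlope_iff hH]
      refine ⟨fun hv => hpg (hv (K g₀) (hK g₀ hg₀) g₀ (mem_Wt.mp (hKM g₀ hg₀)).1),
        fun k m r hr hm => hp r ?_⟩
      rw [hx k m r hr, hφ k m r hr, if_neg hm, mul_zero, map_zero]
      exact zero_lt_one
    have h1 : V.valuation (θ * ι e) = 1 := by
      have h2 : ¬ V.valuation (x e) < 1 := fun h => hne p hps (hp e h)
      have h3 := hxle e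
      rw [hx 1 _ e he', hφe, pow_one] at h2 h3
      exact le_antisymm h3 (not_lt.mp h2)
    have h4 : V.valuation (θ ^ k * ι w) ≤ 1 := by
      have h5 := hxle w
      rwa [hx k _ w hw, hφw] at h5
    rw [← V.valuation_le_one_iff]
    have h6 : ι w / ι e ^ k = (θ ^ k * ι w) / (θ * ι e) ^ k := by
      rw [mul_pow, mul_div_mul_left _ _ (pow_ne_zero k hθ0)]
    rw [h6, map_div₀, map_pow, h1, one_pow, div_one]
    exact h4
  obtain ⟨l, hl⟩ : ∃ l : ℂ, algebraMap ℂ Ω l = ι w / ι e ^ k := by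
    have h1 : (algebraMap ℂ (integralClosure ℂ Ω)).IsIntegral := algebraMap_isIntegral_iff.mpr
      inferInstance
    have h2 : Function.Bijective (algebraMap ℂ (integralClosure ℂ Ω)) :=
      IsAlgClosed.algebraMap_bijective_of_isIntegral
    obtain ⟨l, hl⟩ := h2.2 ⟨ι w / ι e ^ k, key⟩
    exact ⟨l, congrArg Subtype.val hl⟩
  refine ⟨l, hι ?_⟩
  rw [map_smul, map_pow, Algebra.smul_def, hl, div_mul_cancel₀ _ (pow_ne_zero k hιe)]

end Vale.Agent.P292
end

section

/-! Quadratic pencils of operators. -/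

namespace Vale.Agent.P292

open Module

/-- A quadratic pencil of operators with invertible leading coefficient has an eigenvalue. -/
theorem exists_quadratic_eigenvector {U : Type*} [AddCommGroup U] [Module ℂ U]
    [FiniteDimensional ℂ U] [Nontrivial U] (A₀ A₁ A₂ : Module.End ℂ U)
    (h₂ : Function.Injective A₂) :
    ∃ (t : ℂ) (u : U), u ≠ 0 ∧ A₀ u + t • A₁ u + t ^ 2 • A₂ u = 0 := by
  let B : U ≃ₗ[ℂ] U := LinearEquiv.ofInjectiveEndo A₂ h₂
  have hB : ∀ x, A₂ (B.symm x) = x := fun x => by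
    have h := B.apply_symm_apply x
    exact h
  let T : Module.End ℂ (U × U) :=
    (LinearMap.snd ℂ U U).prod
      (-(B.symm.toLinearMap ∘ₗ (A₀ ∘ₗ LinearMap.fst ℂ U U + A₁ ∘ₗ LinearMap.snd ℂ U U)))
  obtain ⟨t, ht⟩ := Module.End.exists_eigenvalue T
  obtain ⟨w, hw⟩ := ht.exists_hasEigenvector
  have hw1 : T w = t • w := hw.apply_eq_smul
  have h1 : w.2 = t • w.1 := congrArg Prod.fst hw1
  have h2 : -(B.symm (A₀ w.1 + A₁ w.2)) = t • w.2 := congrArg Prod.snd hw1
  refine ⟨t, w.1, ?_, ?_⟩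
  · intro h0
    apply hw.2
    rw [h0, smul_zero] at h1
    exact Prod.ext h0 h1
  · have h3 : A₀ w.1 + A₁ w.2 = - (t • A₂ w.2) := by
      have h4 := congrArg A₂ h2
      rw [map_neg, hB, map_smul] at h4
      rw [← h4, neg_neg]
    rw [h1, map_smul, map_smul] at h3
    rw [h3, smul_smul, sq]
    simp

end Vale.Agent.P292
end

section

/-! Primitive idempotents of the Jordan pair. -/

namespace Vale.Agent.P292

open Module Polynomial

universe u

variable {R : Type u} [CommRing R] [Algebra ℂ R] {𝒜 : ℕ → Submodule ℂ R} [GradedAlgebra 𝒜]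
  {P : R →ₗ[ℂ] R →ₗ[ℂ] R}

/-- An `sl₂`-triple whose nilpotent elements lie in the extremal weight spaces. -/
structure IsTriple (𝒜 : ℕ → Submodule ℂ R) (P : R →ₗ[ℂ] R →ₗ[ℂ] R) (H : R) (a : ℤ)
    (e h f : R) : Prop where
  he : e ∈ Wt 𝒜 P H 1 a
  hf : f ∈ Wt 𝒜 P H 1 (-a)
  ef : P e f = h
  h_e : P h e = (2 : ℂ) • e
  h_f : P h f = -((2 : ℂ) • f)
  e_ne : e ≠ 0

lemma Jordan2_mem_pos (hX : IsContactFano 𝒜 P) {H : R} {a : ℤ} {e f : R}
    (he : e ∈ Wt 𝒜 P H 1 a) (hf : f ∈ Wt 𝒜 P H 1 (-a)) : P e (P e f) ∈ Wt 𝒜 P H 1 a := by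
  have h1 := Wt_P hX (j := 1) rfl he (Wt_P hX (j := 1) rfl he hf)
  have h2 : a + (a + -a) = a := by ring
  rwa [h2] at h1

lemma Jordan2_mem_neg (hX : IsContactFano 𝒜 P) {H : R} {a : ℤ} {e f : R}
    (he : e ∈ Wt 𝒜 P H 1 a) (hf : f ∈ Wt 𝒜 P H 1 (-a)) : P f (P f e) ∈ Wt 𝒜 P H 1 (-a) := by
  have h1 := Wt_P hX (j := 1) rfl hf (Wt_P hX (j := 1) rfl hf he)
  have h2 : -a + (-a + a) = -a := by ring
  rwa [h2] at h1

/-- the fundamental formula with the roles exchanged -/
lemma Jordan2_formula_neg (hX : IsContactFano 𝒜 P) {H : R}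
    (hH : IsContactTorus 𝒜 P H) {a : ℤ} (hmax : IsMaxSlope 𝒜 P H a)
    (hmax' : IsMaxSlope 𝒜 P (-H) a) {e f g : R} (he : e ∈ Wt 𝒜 P H 1 a)
    (hf : f ∈ Wt 𝒜 P H 1 (-a)) (hg : g ∈ Wt 𝒜 P H 1 a) :
    P (P f (P f e)) (P (P f (P f e)) g) = P f (P f (P e (P e (P f (P f g))))) := by
  have hmax2 : IsMaxSlope 𝒜 P (-(-H)) a := by rwa [neg_neg]
  refine fundamental_formula hX hH.neg hmax' hmax2 ?_ ?_ ?_
  · rw [Wt_neg]; exact hf
  · rw [Wt_neg, neg_neg]; exact he
  · rw [Wt_neg, neg_neg]; exact hg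

/-- An element of a minimal inner ideal lies in an `sl₂`-triple. -/
theorem exists_isTriple_of_mem (hX : IsContactFano 𝒜 P) {H : R}
    (hH : IsContactTorus 𝒜 P H) {a : ℤ} (hmax : IsMaxSlope 𝒜 P H a)
    (hmax' : IsMaxSlope 𝒜 P (-H) a) {e f₀ : R} (he : e ∈ Wt 𝒜 P H 1 a) (he0 : e ≠ 0)
    (hf₀ : f₀ ∈ Wt 𝒜 P H 1 (-a)) (h : P e (P e f₀) = e) :
    ∃ h f : R, IsTriple 𝒜 P H a e h f := by
  set f₁ : R := P f₀ (P f₀ e) with hf₁
  have hf₁m : f₁ ∈ Wt 𝒜 P H 1 (-a) := Jordan2_mem_neg hX he hf₀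
  have h1 : P e (P e f₁) = e := by
    have h2 := fundamental_formula hX hH hmax hmax' he hf₀ hf₀
    rw [h, h] at h2
    exact h2.symm
  have h3 : P f₁ (P f₁ e) = f₁ := by
    have h2 := Jordan2_formula_neg hX hH hmax hmax' he hf₀ he
    rw [← hf₁, h1] at h2
    exact h2
  have hef : P f₁ (P e f₁) = -f₁ := by
    rw [hX.skew e f₁, map_neg, h3]
  refine ⟨P e (-((2 : ℂ) • f₁)), -((2 : ℂ) • f₁), he, ?_, rfl, ?_, ?_, he0⟩
  · exact neg_mem ((Wt 𝒜 P H 1 (-a)).smul_mem _ hf₁m)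
  · rw [hX.skew, map_neg, map_smul, map_neg, map_smul, h1]
    simp
  · rw [hX.skew, map_neg, map_smul, LinearMap.neg_apply, LinearMap.smul_apply, map_neg, map_smul,
      map_neg, map_smul, hef]
    simp only [smul_neg, neg_neg]
    

/-- the inner ideal generated by `e` -/
noncomputable def Jordan2_D (𝒜 : ℕ → Submodule ℂ R) (P : R →ₗ[ℂ] R →ₗ[ℂ] R) (H : R) (a : ℤ)
    (e : R) : Submodule ℂ R := (Wt 𝒜 P H 1 (-a)).map (P e ∘ₗ P e)

omit [GradedAlgebra 𝒜] in
lemma Jordan2_mem_D {H : R} {a : ℤ} {e x : R} :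
    x ∈ Jordan2_D 𝒜 P H a e ↔ ∃ g ∈ Wt 𝒜 P H 1 (-a), P e (P e g) = x := by
  rw [Jordan2_D, Submodule.mem_map]
  rfl

lemma Jordan2_finite (hX : IsContactFano 𝒜 P) (W : Submodule ℂ R) (hW : W ≤ 𝒜 1) :
    FiniteDimensional ℂ W := by
  have := hX.finiteType
  have := finiteDimensional_piece 𝒜 hX.connected 1
  exact Submodule.finiteDimensional_of_le hW

lemma Jordan2_D_le (hX : IsContactFano 𝒜 P) {H : R} {a : ℤ} {e : R}
    (he : e ∈ Wt 𝒜 P H 1 a) : Jordan2_D 𝒜 P H a e ≤ Wt 𝒜 P H 1 a := by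
  intro x hx
  obtain ⟨g, hg, rfl⟩ := Jordan2_mem_D.1 hx
  exact Jordan2_mem_pos hX he hg

lemma Jordan2_D_mono (hX : IsContactFano 𝒜 P) {H : R}
    (hH : IsContactTorus 𝒜 P H) {a : ℤ} (hmax : IsMaxSlope 𝒜 P H a)
    (hmax' : IsMaxSlope 𝒜 P (-H) a) {e x : R} (he : e ∈ Wt 𝒜 P H 1 a)
    (hx : x ∈ Jordan2_D 𝒜 P H a e) : Jordan2_D 𝒜 P H a x ≤ Jordan2_D 𝒜 P H a e := by
  obtain ⟨g, hg, rfl⟩ := Jordan2_mem_D.1 hx
  intro y hy
  obtain ⟨g', hg', rfl⟩ := Jordan2_mem_D.1 hy
  rw [fundamental_formula hX hH hmax hmax' he hg hg']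
  exact Jordan2_mem_D.2 ⟨_, Jordan2_mem_neg hX (Jordan2_mem_pos hX he hg') hg, rfl⟩

/-- A minimal inner ideal. -/
theorem exists_minimal (hX : IsContactFano 𝒜 P) {H : R}
    (hH : IsContactTorus 𝒜 P H) {a : ℤ} (hmax : IsMaxSlope 𝒜 P H a)
    (hmax' : IsMaxSlope 𝒜 P (-H) a) (hne : ∃ e ∈ Wt 𝒜 P H 1 a, e ≠ 0)
    (hnd : ∀ e ∈ Wt 𝒜 P H 1 a, e ≠ 0 → ∃ f ∈ Wt 𝒜 P H 1 (-a), P e (P e f) ≠ 0) :
    ∃ e ∈ Wt 𝒜 P H 1 a, e ≠ 0 ∧ (∃ f ∈ Wt 𝒜 P H 1 (-a), P e (P e f) = e) ∧
      ∀ g ∈ Wt 𝒜 P H 1 (-a), P e (P e g) ≠ 0 → ∀ g' ∈ Wt 𝒜 P H 1 (-a),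
        ∃ g'' ∈ Wt 𝒜 P H 1 (-a), P (P e (P e g)) (P (P e (P e g)) g'') = P e (P e g') := by
  classical
  have hex : ∃ n : ℕ, ∃ e ∈ Wt 𝒜 P H 1 a, e ≠ 0 ∧
      Module.finrank ℂ (Jordan2_D 𝒜 P H a e) = n := by
    obtain ⟨e, he, he0⟩ := hne
    exact ⟨_, e, he, he0, rfl⟩
  obtain ⟨e₁, he₁, he₁0, hn⟩ := Nat.find_spec hex
  have hmin : ∀ x ∈ Jordan2_D 𝒜 P H a e₁, x ≠ 0 →
      Jordan2_D 𝒜 P H a x = Jordan2_D 𝒜 P H a e₁ := by
    intro x hx hx0
    have hle := Jordan2_D_mono hX hH hmax hmax' he₁ hx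
    have hfin : FiniteDimensional ℂ (Jordan2_D 𝒜 P H a e₁) :=
      Jordan2_finite hX _ ((Jordan2_D_le hX he₁).trans inf_le_left)
    refine Submodule.eq_of_le_of_finrank_le hle ?_
    rw [hn]
    exact Nat.find_min' hex ⟨x, Jordan2_D_le hX he₁ hx, hx0, rfl⟩
  obtain ⟨g₁, hg₁, hg₁0⟩ := hnd e₁ he₁ he₁0
  have hmem : P e₁ (P e₁ g₁) ∈ Jordan2_D 𝒜 P H a e₁ := Jordan2_mem_D.2 ⟨g₁, hg₁, rfl⟩
  have hD := hmin _ hmem hg₁0
  refine ⟨P e₁ (P e₁ g₁), Jordan2_mem_pos hX he₁ hg₁, hg₁0, ?_, ?_⟩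
  · rw [← hD] at hmem
    exact Jordan2_mem_D.1 hmem
  · intro g hg hg0 g' hg'
    have h1 : P (P e₁ (P e₁ g₁)) (P (P e₁ (P e₁ g₁)) g) ∈ Jordan2_D 𝒜 P H a e₁ := by
      rw [← hD]
      exact Jordan2_mem_D.2 ⟨g, hg, rfl⟩
    have h2 := hmin _ h1 hg0
    have h3 : P (P e₁ (P e₁ g₁)) (P (P e₁ (P e₁ g₁)) g') ∈ Jordan2_D 𝒜 P H a e₁ := by
      rw [← hD]
      exact Jordan2_mem_D.2 ⟨g', hg', rfl⟩
    rw [← h2] at h3
    exact Jordan2_mem_D.1 h3

section triple

variable {H : R} {a : ℤ} {e h f : R}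

lemma IsTriple.Jordan2_EF (hX : IsContactFano 𝒜 P) (hT : IsTriple 𝒜 P H a e h f) (x : R) :
    P e (P f x) = P h x + P f (P e x) := by
  rw [hX.jacobi e f x, hT.ef]

lemma IsTriple.Jordan2_HE (hX : IsContactFano 𝒜 P) (hT : IsTriple 𝒜 P H a e h f) (x : R) :
    P h (P e x) = (P e x + P e x) + P e (P h x) := by
  rw [hX.jacobi h e x, hT.h_e, two_smul, map_add, LinearMap.add_apply]

lemma IsTriple.Jordan2_HF (hX : IsContactFano 𝒜 P) (hT : IsTriple 𝒜 P H a e h f) (x : R) :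
    P h (P f x) = -(P f x + P f x) + P f (P h x) := by
  rw [hX.jacobi h f x, hT.h_f, two_smul, map_neg, map_add, LinearMap.neg_apply,
    LinearMap.add_apply]

lemma Jordan2_E_zero (hX : IsContactFano 𝒜 P) (ha : 0 < a) (hmax : IsMaxSlope 𝒜 P H a)
    {u v : R} (hu : u ∈ Wt 𝒜 P H 1 a) (hv : v ∈ Wt 𝒜 P H 1 a) : P u v = 0 :=
  P_eq_zero_of_lt hX hmax (by linarith) hu hv

lemma Jordan2_F_zero (hX : IsContactFano 𝒜 P) (ha : 0 < a) (hmax' : IsMaxSlope 𝒜 P (-H) a)
    {u v : R} (hu : u ∈ Wt 𝒜 P H 1 (-a)) (hv : v ∈ Wt 𝒜 P H 1 (-a)) : P u v = 0 := by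
  refine P_eq_zero_of_lt hX hmax' (m := a) (n := a) (by linarith) ?_ ?_
  · rw [Wt_neg]; exact hu
  · rw [Wt_neg]; exact hv

lemma IsTriple.Jordan2_h_EE (hX : IsContactFano 𝒜 P) (hT : IsTriple 𝒜 P H a e h f)
    (ha : 0 < a) (hmax : IsMaxSlope 𝒜 P H a) (hmax' : IsMaxSlope 𝒜 P (-H) a) {g : R}
    (hg : g ∈ Wt 𝒜 P H 1 (-a)) : P h (P e (P e g)) = P e (P e g) + P e (P e g) := by
  have a0 : P f g = 0 := Jordan2_F_zero hX ha hmax' hT.hf hg
  have a3 : P e (P e (P e g)) = 0 :=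
    Jordan2_E_zero hX ha hmax hT.he (Jordan2_mem_pos hX hT.he hg)
  have b1 := hT.Jordan2_EF hX g
  rw [a0, map_zero] at b1
  have hb1 : P f (P e g) = -(P h g) := by linear_combination -b1
  have b2 := hT.Jordan2_EF hX (P e g)
  have c1 := hT.Jordan2_HE hX g
  rw [hb1, map_neg] at b2
  have hb2 : P f (P e (P e g)) = -(P e (P h g) + P e (P h g)) - (P e g + P e g) := by
    linear_combination -b2 - c1
  have b3 := hT.Jordan2_EF hX (P e (P e g))
  rw [a3, map_zero, hb2, map_sub, map_neg, map_add, map_add] at b3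
  have c2 := hT.Jordan2_HE hX (P e g)
  rw [c1, map_add, map_add] at c2
  have h3 : (3 : ℂ) • (P h (P e (P e g)) - (P e (P e g) + P e (P e g))) = 0 := by
    have : (3 : ℂ) • (P h (P e (P e g)) - (P e (P e g) + P e (P e g))) =
        3 * (P h (P e (P e g)) - (P e (P e g) + P e (P e g))) := by
      rw [Algebra.smul_def, map_ofNat]
    rw [this]
    linear_combination 2 * c2 - b3
  rcases smul_eq_zero.1 h3 with h4 | h4
  · norm_num at h4
  · exact sub_eq_zero.1 h4

lemma IsTriple.Jordan2_EEFF (hX : IsContactFano 𝒜 P) (hT : IsTriple 𝒜 P H a e h f)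
    (ha : 0 < a) (hmax : IsMaxSlope 𝒜 P H a) {s : R}
    (hs : s ∈ Wt 𝒜 P H 1 a) (hh : P h s = s + s) :
    P e (P e (P f (P f s))) = (4 : ℂ) • s := by
  have a0 : P e s = 0 := Jordan2_E_zero hX ha hmax hT.he hs
  have b1 := hT.Jordan2_EF hX s
  rw [a0, map_zero, hh, add_zero] at b1
  have b2 := hT.Jordan2_EF hX (P f s)
  rw [hT.Jordan2_HF hX s, b1, hh, map_add] at b2
  have b3 : P e (P f (P f s)) = P f s + P f s := by linear_combination b2
  rw [b3, map_add, b1, Algebra.smul_def, map_ofNat]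
  ring

lemma IsTriple.Jordan2_e_mem (hX : IsContactFano 𝒜 P) (hT : IsTriple 𝒜 P H a e h f)
    (ha : 0 < a) (hmax : IsMaxSlope 𝒜 P H a) {s : R}
    (hs : s ∈ Wt 𝒜 P H 1 a) (hh : P h s = s + s) : s ∈ Jordan2_D 𝒜 P H a e := by
  refine Jordan2_mem_D.2 ⟨(4 : ℂ)⁻¹ • P f (P f s),
    (Wt 𝒜 P H 1 (-a)).smul_mem _ (Jordan2_mem_neg hX hs hT.hf), ?_⟩
  rw [map_smul, map_smul, hT.Jordan2_EEFF hX ha hmax hs hh, smul_smul]
  norm_num

lemma IsTriple.Jordan2_of_mem_D (hX : IsContactFano 𝒜 P) (hT : IsTriple 𝒜 P H a e h f)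
    (ha : 0 < a) (hmax : IsMaxSlope 𝒜 P H a) (hmax' : IsMaxSlope 𝒜 P (-H) a) {s : R}
    (hs : s ∈ Jordan2_D 𝒜 P H a e) : s ∈ Wt 𝒜 P H 1 a ∧ P h s = s + s := by
  obtain ⟨g, hg, rfl⟩ := Jordan2_mem_D.1 hs
  exact ⟨Jordan2_mem_pos hX hT.he hg, hT.Jordan2_h_EE hX ha hmax hmax' hg⟩

/-- the operator `P x P y F²` -/
noncomputable def Jordan2_B (P : R →ₗ[ℂ] R →ₗ[ℂ] R) (f x y : R) : R →ₗ[ℂ] R :=
  P x ∘ₗ P y ∘ₗ P f ∘ₗ P f

omit [GradedAlgebra 𝒜] in
lemma Jordan2_B_apply (f x y s : R) : Jordan2_B P f x y s = P x (P y (P f (P f s))) := rfl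

lemma IsTriple.Jordan2_B_mem (hX : IsContactFano 𝒜 P) (hH : IsContactTorus 𝒜 P H)
    (hT : IsTriple 𝒜 P H a e h f)
    (ha : 0 < a) (hmax : IsMaxSlope 𝒜 P H a) (hmax' : IsMaxSlope 𝒜 P (-H) a) {x s : R}
    (hx : x ∈ Jordan2_D 𝒜 P H a e) (hs : s ∈ Jordan2_D 𝒜 P H a e) :
    Jordan2_B P f x x s ∈ Jordan2_D 𝒜 P H a e := by
  refine Jordan2_D_mono hX hH hmax hmax' hT.he hx (Jordan2_mem_D.2 ⟨P f (P f s), ?_, rfl⟩)
  exact Jordan2_mem_neg hX (hT.Jordan2_of_mem_D hX ha hmax hmax' hs).1 hT.hf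

lemma IsTriple.Jordan2_B_inj (hX : IsContactFano 𝒜 P) (hH : IsContactTorus 𝒜 P H)
    (hT : IsTriple 𝒜 P H a e h f)
    (ha : 0 < a) (hmax : IsMaxSlope 𝒜 P H a) (hmax' : IsMaxSlope 𝒜 P (-H) a)
    (hmin : ∀ g ∈ Wt 𝒜 P H 1 (-a), P e (P e g) ≠ 0 → ∀ g' ∈ Wt 𝒜 P H 1 (-a),
        ∃ g'' ∈ Wt 𝒜 P H 1 (-a), P (P e (P e g)) (P (P e (P e g)) g'') = P e (P e g')) {x : R}
    (hx : x ∈ Jordan2_D 𝒜 P H a e) (hx0 : x ≠ 0) {s : R} (hs : s ∈ Jordan2_D 𝒜 P H a e)
    (hs0 : Jordan2_B P f x x s = 0) : s = 0 := by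
  have hfin : FiniteDimensional ℂ (Jordan2_D 𝒜 P H a e) :=
    Jordan2_finite hX _ ((Jordan2_D_le hX hT.he).trans inf_le_left)
  let A : Jordan2_D 𝒜 P H a e →ₗ[ℂ] Jordan2_D 𝒜 P H a e :=
    (Jordan2_B P f x x).restrict fun s hs => hT.Jordan2_B_mem hX hH ha hmax hmax' hx hs
  have hA : ∀ u, ((A u : Jordan2_D 𝒜 P H a e) : R) = Jordan2_B P f x x u := fun u => rfl
  have hsurj : Function.Surjective A := by
    rintro ⟨y, hy⟩
    obtain ⟨g', hg', rfl⟩ := Jordan2_mem_D.1 hy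
    obtain ⟨g, hg, rfl⟩ := Jordan2_mem_D.1 hx
    obtain ⟨g'', hg'', hgg⟩ := hmin g hg hx0 g' hg'
    have hu : P e (P e g'') ∈ Jordan2_D 𝒜 P H a e := Jordan2_mem_D.2 ⟨g'', hg'', rfl⟩
    have hu' := hT.Jordan2_of_mem_D hX ha hmax hmax' hu
    refine ⟨⟨(4 : ℂ)⁻¹ • P e (P e g''), (Jordan2_D 𝒜 P H a e).smul_mem _ hu⟩, ?_⟩
    apply Subtype.ext
    rw [hA, Jordan2_B_apply]
    change _ = P e (P e g')
    rw [← hgg]
    have h1 := fundamental_formula hX hH hmax hmax' hT.he hg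
      (g := g'' - (4 : ℂ)⁻¹ • P f (P f (P e (P e g''))))
      (sub_mem hg'' ((Wt 𝒜 P H 1 (-a)).smul_mem _ (Jordan2_mem_neg hX hu'.1 hT.hf)))
    have h2 : P e (P e (g'' - (4 : ℂ)⁻¹ • P f (P f (P e (P e g''))))) = 0 := by
      rw [map_sub, map_sub, map_smul, map_smul, hT.Jordan2_EEFF hX ha hmax hu'.1 hu'.2, smul_smul]
      norm_num
    rw [h2] at h1
    simp only [map_zero, map_sub] at h1
    rw [sub_eq_zero] at h1
    rw [h1]
    simp only [map_smul]
  have hinj : Function.Injective A := LinearMap.injective_iff_surjective.2 hsurj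
  have h1 : A ⟨s, hs⟩ = 0 := Subtype.ext hs0
  have h2 := (map_eq_zero_iff A hinj).1 h1
  exact congrArg Subtype.val h2

end triple

/-- A primitive idempotent of the Jordan pair. -/
theorem exists_primitive (hX : IsContactFano 𝒜 P) {H : R}
    (hH : IsContactTorus 𝒜 P H) {a : ℤ} (hmax : IsMaxSlope 𝒜 P H a)
    (hmax' : IsMaxSlope 𝒜 P (-H) a) (hne : ∃ e ∈ Wt 𝒜 P H 1 a, e ≠ 0)
    (hnd : ∀ e ∈ Wt 𝒜 P H 1 a, e ≠ 0 → ∃ f ∈ Wt 𝒜 P H 1 (-a), P e (P e f) ≠ 0) :
    ∃ e h f : R, IsTriple 𝒜 P H a e h f ∧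
      ∀ s ∈ Wt 𝒜 P H 1 a, P h s = (2 : ℂ) • s → ∃ c : ℂ, s = c • e := by
  obtain ⟨e, he, he0, ⟨f₀, hf₀, hef₀⟩, hmin⟩ := exists_minimal hX hH hmax hmax' hne hnd
  obtain ⟨h, f, hT⟩ := exists_isTriple_of_mem hX hH hmax hmax' he he0 hf₀ hef₀
  have ha : 0 < a := (hmax.symm hX hH hmax').2
  refine ⟨e, h, f, hT, ?_⟩
  intro s hs hhs
  by_contra hcon
  push Not at hcon
  rw [two_smul] at hhs
  have hsD : s ∈ Jordan2_D 𝒜 P H a e := hT.Jordan2_e_mem hX ha hmax hs hhs
  have heD : e ∈ Jordan2_D 𝒜 P H a e :=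
    hT.Jordan2_e_mem hX ha hmax he (by rw [hT.h_e, two_smul])
  have hs0 : s ≠ 0 := by
    intro h0
    exact hcon 0 (by rw [h0, zero_smul])
  have hfin : FiniteDimensional ℂ (Jordan2_D 𝒜 P H a e) :=
    Jordan2_finite hX _ ((Jordan2_D_le hX hT.he).trans inf_le_left)
  have hnt : Nontrivial (Jordan2_D 𝒜 P H a e) :=
    ⟨⟨⟨s, hsD⟩, 0, fun h0 => hs0 (congrArg Subtype.val h0)⟩⟩
  have hB := fun {x s : R} (hx : x ∈ Jordan2_D 𝒜 P H a e) (hs : s ∈ Jordan2_D 𝒜 P H a e) =>
    hT.Jordan2_B_mem hX hH ha hmax hmax' hx hs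
  let A₀ : Module.End ℂ (Jordan2_D 𝒜 P H a e) :=
    (Jordan2_B P f e e).restrict fun u hu => hB heD hu
  let A₂ : Module.End ℂ (Jordan2_D 𝒜 P H a e) :=
    (Jordan2_B P f s s).restrict fun u hu => hB hsD hu
  let A₁ : Module.End ℂ (Jordan2_D 𝒜 P H a e) :=
    (Jordan2_B P f e s + Jordan2_B P f s e).restrict fun u hu => by
      have h1 := sub_mem (sub_mem (hB (add_mem heD hsD) hu) (hB heD hu)) (hB hsD hu)
      refine (congrArg (· ∈ Jordan2_D 𝒜 P H a e) ?_).mp h1
      simp only [LinearMap.add_apply, Jordan2_B_apply, map_add]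
      ring
  have hA₂ : Function.Injective A₂ := by
    refine (injective_iff_map_eq_zero A₂).2 ?_
    rintro ⟨u, hu⟩ h0
    have h1 : Jordan2_B P f s s u = 0 := congrArg Subtype.val h0
    exact Subtype.ext (hT.Jordan2_B_inj hX hH ha hmax hmax' hmin hsD hs0 hu h1)
  obtain ⟨t, ⟨u, hu⟩, hu0, htu⟩ := exists_quadratic_eigenvector A₀ A₁ A₂ hA₂
  have htu' : Jordan2_B P f e e u + t • (Jordan2_B P f e s + Jordan2_B P f s e) u +
      t ^ 2 • Jordan2_B P f s s u = 0 := congrArg Subtype.val htu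
  have hx : e + t • s ∈ Jordan2_D 𝒜 P H a e :=
    add_mem heD ((Jordan2_D 𝒜 P H a e).smul_mem _ hsD)
  have hx0 : e + t • s ≠ 0 := by
    intro h0
    have ht : t ≠ 0 := by
      intro ht
      rw [ht, zero_smul, add_zero] at h0
      exact he0 h0
    refine hcon (-t⁻¹) ?_
    have h1 : e = -(t • s) := eq_neg_of_add_eq_zero_left h0
    rw [h1, smul_neg, neg_smul, neg_neg, smul_smul, inv_mul_cancel₀ ht, one_smul]
  have h2 : Jordan2_B P f (e + t • s) (e + t • s) u = 0 := by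
    rw [← htu']
    simp only [LinearMap.add_apply, Jordan2_B_apply, map_add, map_smul, LinearMap.smul_apply]
    simp only [smul_add, smul_smul, pow_two]
    abel
  exact hu0 (Subtype.ext (hT.Jordan2_B_inj hX hH ha hmax hmax' hmin hx hx0 hu h2))

end Vale.Agent.P292
end

section

/-! Refining a contact torus by an `sl₂`-triple. -/

namespace Vale.Agent.P292

open Module Polynomial

universe u

variable {R : Type u} [CommRing R] [Algebra ℂ R] {𝒜 : ℕ → Submodule ℂ R} [GradedAlgebra 𝒜]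
  {P : R →ₗ[ℂ] R →ₗ[ℂ] R}

/-- An eigenvector in the sum of some eigenspaces belongs to one of them. -/
lemma jordan3_exists_eq {V ι : Type*} [AddCommGroup V] [Module ℂ V] (T : Module.End ℂ V)
    (μ : ι → ℂ) {v : V} (hv : v ∈ ⨆ i, Module.End.eigenspace T (μ i)) {ν : ℂ}
    (hv' : v ∈ Module.End.eigenspace T ν) (hv0 : v ≠ 0) : ∃ i, μ i = ν := by
  by_contra hcon
  push Not at hcon
  have h1 := (Module.End.eigenspaces_iSupIndep T) ν
  rw [Submodule.disjoint_def] at h1
  refine hv0 (h1 v hv' ?_)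
  have h2 : (⨆ i, Module.End.eigenspace T (μ i)) ≤
      ⨆ (j : ℂ) (_ : j ≠ ν), Module.End.eigenspace T j :=
    iSup_le fun i => le_iSup₂_of_le (μ i) (hcon i) le_rfl
  exact h2 hv

/-- Simultaneous diagonalisation of two commuting operators with integral eigenvalues. -/
lemma jordan3_joint {V : Type*} [AddCommGroup V] [Module ℂ V] [FiniteDimensional ℂ V]
    (S T : Module.End ℂ V) (hST : ∀ v, S (T v) = T (S v))
    (hS : ∀ v, v ∈ ⨆ m : ℤ, Module.End.eigenspace S (m : ℂ))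
    (hT : ∀ v, v ∈ ⨆ m : ℤ, Module.End.eigenspace T (m : ℂ)) (v : V) :
    v ∈ ⨆ mj : ℤ × ℤ, Module.End.eigenspace S (mj.1 : ℂ) ⊓ Module.End.eigenspace T (mj.2 : ℂ) := by
  have h1 : (⨆ j : ℤ, Module.End.eigenspace T (j : ℂ)) ≤
      ⨆ mj : ℤ × ℤ, Module.End.eigenspace S (mj.1 : ℂ) ⊓ Module.End.eigenspace T (mj.2 : ℂ) := by
    refine iSup_le fun j => ?_
    intro w hw
    have hinv : ∀ x ∈ Module.End.eigenspace T (j : ℂ), S x ∈ Module.End.eigenspace T (j : ℂ) := by
      intro x hx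
      rw [Module.End.mem_eigenspace_iff] at hx ⊢
      rw [← hST, hx, map_smul]
    have h2 := Submodule.inf_iSup_genEigenspace (f := S) (p := Module.End.eigenspace T (j : ℂ))
      hinv 1
    have h3 : w ∈ Module.End.eigenspace T (j : ℂ) ⊓ ⨆ μ, S.genEigenspace μ 1 := by
      refine ⟨hw, ?_⟩
      have h4 : (⨆ m : ℤ, Module.End.eigenspace S (m : ℂ)) ≤ ⨆ μ, S.genEigenspace μ 1 :=
        iSup_le fun m => le_iSup (fun μ => S.genEigenspace μ 1) (m : ℂ)
      exact h4 (hS w)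
    rw [h2] at h3
    have h5 : (⨆ μ, Module.End.eigenspace T (j : ℂ) ⊓ S.genEigenspace μ 1) ≤
        ⨆ mj : ℤ × ℤ, Module.End.eigenspace S (mj.1 : ℂ) ⊓ Module.End.eigenspace T (mj.2 : ℂ) := by
      refine iSup_le fun μ => ?_
      intro x hx
      by_cases hx0 : x = 0
      · rw [hx0]; exact zero_mem _
      obtain ⟨m, hm⟩ := jordan3_exists_eq S (fun m : ℤ => (m : ℂ)) (hS x) hx.2 hx0
      have h6 : x ∈ Module.End.eigenspace S (m : ℂ) ⊓ Module.End.eigenspace T (j : ℂ) := by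
        refine ⟨?_, hx.1⟩
        have h7 : x ∈ Module.End.eigenspace S μ := hx.2
        rw [← hm] at h7
        exact h7
      exact (le_iSup (fun mj : ℤ × ℤ => Module.End.eigenspace S (mj.1 : ℂ) ⊓
        Module.End.eigenspace T (mj.2 : ℂ)) (m, j)) h6
    exact h5 h3
  exact h1 (hT v)

/-- the operator `P u` on `𝒜 k` -/
noncomputable def jordan3_op (hX : IsContactFano 𝒜 P) (k : ℕ) {u : R} (hu : u ∈ 𝒜 1) :
    Module.End ℂ (𝒜 k) :=
  (P u).restrict (fun _ hx => hX.mem_of_mem_one hu hx)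

lemma jordan3_op_coe (hX : IsContactFano 𝒜 P) (k : ℕ) {u : R} (hu : u ∈ 𝒜 1) (x : 𝒜 k) :
    ((jordan3_op hX k hu x : 𝒜 k) : R) = P u x := rfl

lemma jordan3_mem_eigenspace (hX : IsContactFano 𝒜 P) (k : ℕ) {u : R} (hu : u ∈ 𝒜 1)
    (x : 𝒜 k) (μ : ℂ) :
    x ∈ Module.End.eigenspace (jordan3_op hX k hu) μ ↔ P u (x : R) = μ • (x : R) := by
  rw [Module.End.mem_eigenspace_iff, Subtype.ext_iff]
  rfl

section triple

variable {H : R} {a : ℤ} {e h f : R}

lemma IsTriple.e_mem (hT : IsTriple 𝒜 P H a e h f) : e ∈ 𝒜 1 := (mem_Wt.1 hT.he).1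

lemma IsTriple.f_mem (hT : IsTriple 𝒜 P H a e h f) : f ∈ 𝒜 1 := (mem_Wt.1 hT.hf).1

lemma IsTriple.h_Wt (hX : IsContactFano 𝒜 P) (hT : IsTriple 𝒜 P H a e h f) :
    h ∈ Wt 𝒜 P H 1 0 := by
  have := Wt_P hX (j := 1) (by norm_num) hT.he hT.hf
  rw [hT.ef, add_neg_cancel] at this
  exact this

lemma IsTriple.h_mem (hX : IsContactFano 𝒜 P) (hT : IsTriple 𝒜 P H a e h f) : h ∈ 𝒜 1 :=
  (mem_Wt.1 (hT.h_Wt hX)).1

lemma IsTriple.op_rel (hX : IsContactFano 𝒜 P) (hT : IsTriple 𝒜 P H a e h f) (k : ℕ) :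
    jordan3_op hX k hT.e_mem * jordan3_op hX k hT.f_mem -
        jordan3_op hX k hT.f_mem * jordan3_op hX k hT.e_mem = jordan3_op hX k (hT.h_mem hX) ∧
      jordan3_op hX k (hT.h_mem hX) * jordan3_op hX k hT.e_mem -
        jordan3_op hX k hT.e_mem * jordan3_op hX k (hT.h_mem hX) =
          (2 : ℂ) • jordan3_op hX k hT.e_mem ∧
      jordan3_op hX k (hT.h_mem hX) * jordan3_op hX k hT.f_mem -
        jordan3_op hX k hT.f_mem * jordan3_op hX k (hT.h_mem hX) =
          -((2 : ℂ) • jordan3_op hX k hT.f_mem) := by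
  refine ⟨?_, ?_, ?_⟩
  · refine LinearMap.ext fun x => Subtype.ext ?_
    change P e (P f (x : R)) - P f (P e (x : R)) = P h x
    rw [hX.jacobi e f, hT.ef]
    abel
  · refine LinearMap.ext fun x => Subtype.ext ?_
    change P h (P e (x : R)) - P e (P h (x : R)) = (2 : ℂ) • P e x
    rw [hX.jacobi h e, hT.h_e, map_smul, LinearMap.smul_apply]
    abel
  · refine LinearMap.ext fun x => Subtype.ext ?_
    change P h (P f (x : R)) - P f (P h (x : R)) = -((2 : ℂ) • P f x)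
    rw [hX.jacobi h f, hT.h_f, map_neg, map_smul, LinearMap.neg_apply, LinearMap.smul_apply]
    abel

end triple

/-- Simultaneous diagonalisation of `H` and `h`. -/
theorem IsTriple.le_iSup (hX : IsContactFano 𝒜 P) {H : R}
    (hH : IsContactTorus 𝒜 P H) {a : ℤ} {e h f : R} (hT : IsTriple 𝒜 P H a e h f) (k : ℕ) :
    𝒜 k ≤ ⨆ mj : ℤ × ℤ, Wt 𝒜 P H k mj.1 ⊓ Wt 𝒜 P h k mj.2 := by
  have := hX.finiteType
  have := finiteDimensional_piece 𝒜 hX.connected k
  intro r hr
  obtain ⟨h1, h2, h3⟩ := hT.op_rel hX k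
  have hcomm : ∀ v, jordan3_op hX k hH.mem (jordan3_op hX k (hT.h_mem hX) v) =
      jordan3_op hX k (hT.h_mem hX) (jordan3_op hX k hH.mem v) := by
    intro v
    apply Subtype.ext
    rw [jordan3_op_coe, jordan3_op_coe, jordan3_op_coe, jordan3_op_coe, hX.jacobi H h,
      (mem_Wt.1 (hT.h_Wt hX)).2]
    simp
  have hwt : ∀ v, v ∈ ⨆ m : ℤ, Module.End.eigenspace (jordan3_op hX k hH.mem) (m : ℂ) := by
    intro v
    have h4 := hH.weights k v.2
    have h5 : (⨆ m : ℤ, Wt 𝒜 P H k m) ≤ Submodule.map (𝒜 k).subtype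
        (⨆ m : ℤ, Module.End.eigenspace (jordan3_op hX k hH.mem) (m : ℂ)) := by
      rw [Submodule.map_iSup]
      refine iSup_mono fun m => ?_
      intro x hx
      rw [mem_Wt] at hx
      exact ⟨⟨x, hx.1⟩, (jordan3_mem_eigenspace hX k hH.mem ⟨x, hx.1⟩ m).2 hx.2, rfl⟩
    obtain ⟨w, hw, hwv⟩ := h5 h4
    have : w = v := Subtype.ext hwv
    rwa [← this]
  have h6 := jordan3_joint (jordan3_op hX k hH.mem) (jordan3_op hX k (hT.h_mem hX)) hcomm hwt
    (iSup_eigenspace_of_sl2 _ _ _ h1 h2 h3) ⟨r, hr⟩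
  have h7 := Submodule.mem_map_of_mem (f := (𝒜 k).subtype) h6
  rw [Submodule.map_iSup] at h7
  have h8 : (⨆ mj : ℤ × ℤ, Submodule.map (𝒜 k).subtype
      (Module.End.eigenspace (jordan3_op hX k hH.mem) (mj.1 : ℂ) ⊓
        Module.End.eigenspace (jordan3_op hX k (hT.h_mem hX)) (mj.2 : ℂ))) ≤
      ⨆ mj : ℤ × ℤ, Wt 𝒜 P H k mj.1 ⊓ Wt 𝒜 P h k mj.2 := by
    refine iSup_mono fun mj => ?_
    rintro _ ⟨x, hx, rfl⟩
    exact ⟨mem_Wt.2 ⟨x.2, (jordan3_mem_eigenspace hX k hH.mem x _).1 hx.1⟩,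
      mem_Wt.2 ⟨x.2, (jordan3_mem_eigenspace hX k (hT.h_mem hX) x _).1 hx.2⟩⟩
  exact h8 h7

/-- a functional which does not vanish on `𝒜 k` does not vanish at some joint weight vector -/
lemma IsTriple.exists_joint (hX : IsContactFano 𝒜 P) {H : R}
    (hH : IsContactTorus 𝒜 P H) {a : ℤ} {e h f : R} (hT : IsTriple 𝒜 P H a e h f) (k : ℕ)
    (φ : R →ₗ[ℂ] ℂ) {r : R} (hr : r ∈ 𝒜 k) (hφ : φ r ≠ 0) :
    ∃ (m j : ℤ), ∃ s, s ∈ Wt 𝒜 P H k m ∧ s ∈ Wt 𝒜 P h k j ∧ φ s ≠ 0 := by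
  by_contra hcon
  push Not at hcon
  have h1 : (⨆ mj : ℤ × ℤ, Wt 𝒜 P H k mj.1 ⊓ Wt 𝒜 P h k mj.2) ≤ LinearMap.ker φ :=
    iSup_le fun mj s hs => hcon mj.1 mj.2 s hs.1 hs.2
  exact hφ (h1 (hT.le_iSup hX hH k hr))

theorem IsTriple.isContactTorus_h (hX : IsContactFano 𝒜 P) {H : R}
    (hH : IsContactTorus 𝒜 P H) {a : ℤ} {e h f : R} (hT : IsTriple 𝒜 P H a e h f) :
    IsContactTorus 𝒜 P h where
  mem := hT.h_mem hX
  ne_zero := by
    intro h0
    have h1 := hT.h_e
    rw [h0, map_zero, LinearMap.zero_apply] at h1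
    rcases smul_eq_zero.1 h1.symm with h2 | h2
    · norm_num at h2
    · exact hT.e_ne h2
  weights := fun k => (hT.le_iSup hX hH k).trans (iSup_le fun mj =>
    inf_le_right.trans (_root_.le_iSup (fun m : ℤ => Wt 𝒜 P h k m) mj.2))

/-- weight vectors of the refined torus -/
lemma mem_Wt_refine {H h : R} {k : ℕ} {m j : ℤ} {s : R} (N : ℕ) (h1 : s ∈ Wt 𝒜 P H k m)
    (h2 : s ∈ Wt 𝒜 P h k j) : s ∈ Wt 𝒜 P ((N : ℂ) • H + h) k (N * m + j) := by
  rw [mem_Wt] at h1 h2 ⊢
  refine ⟨h1.1, ?_⟩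
  rw [map_add, map_smul, LinearMap.add_apply, LinearMap.smul_apply, h1.2, h2.2, smul_smul,
    ← add_smul]
  push_cast
  rfl

/-- The refined torus. -/
theorem IsTriple.isContactTorus (hX : IsContactFano 𝒜 P) {H : R}
    (hH : IsContactTorus 𝒜 P H) {a : ℤ} (ha : 0 < a) {e h f : R}
    (hT : IsTriple 𝒜 P H a e h f) (N : ℕ) :
    IsContactTorus 𝒜 P ((N : ℂ) • H + h) where
  mem := add_mem (Submodule.smul_mem _ _ hH.mem) (hT.h_mem hX)
  ne_zero := by
    intro h0
    have h1 : e ∈ Wt 𝒜 P h 1 2 := mem_Wt.2 ⟨hT.e_mem, by rw [hT.h_e]; norm_num⟩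
    have h2 := (mem_Wt.1 (mem_Wt_refine N hT.he h1)).2
    rw [h0, map_zero, LinearMap.zero_apply] at h2
    rcases smul_eq_zero.1 h2.symm with h3 | h3
    · have h4 : (N : ℤ) * a + 2 = 0 := by exact_mod_cast h3
      have h5 : 0 ≤ (N : ℤ) * a := mul_nonneg (Int.natCast_nonneg N) ha.le
      omega
    · exact hT.e_ne h3
  weights := fun k => (hT.le_iSup hX hH k).trans (iSup_le fun mj s hs =>
    (_root_.le_iSup (fun m : ℤ => Wt 𝒜 P ((N : ℂ) • H + h) k m) (N * mj.1 + mj.2))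
      (mem_Wt_refine N hs.1 hs.2))

/-- For large `N` the source of the refined torus lies in the source of `H`. -/
theorem IsTriple.exists_refine (hX : IsContactFano 𝒜 P) {H : R}
    (hH : IsContactTorus 𝒜 P H) {a : ℤ} (hmax : IsMaxSlope 𝒜 P H a)
    (hmax' : IsMaxSlope 𝒜 P (-H) a) {e h f : R}
    (hT : IsTriple 𝒜 P H a e h f) :
    ∃ N₀ : ℕ, ∀ N : ℕ, N₀ ≤ N → ∀ a', IsMaxSlope 𝒜 P ((N : ℂ) • H + h) a' →
      ∀ p, HasSlope 𝒜 P ((N : ℂ) • H + h) p a' → HasSlope 𝒜 P H p a := by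
  have ha : 0 < a := (hmax.neg hX hH).2
  obtain ⟨N₂, hN₂⟩ := (hT.isContactTorus_h hX hH).exists_bound hX
  refine ⟨2 * N₂ + 1, fun N hN a' ha' p hp => ?_⟩
  have hH' : IsContactTorus 𝒜 P ((N : ℂ) • H + h) := hT.isContactTorus hX hH ha N
  -- the slope of the refined torus
  have hle : N * a - N₂ ≤ a' := by
    obtain ⟨y, hy⟩ := hmax.exists_slope
    obtain ⟨k₀, hk₀, b, hb, hyb⟩ := torus3_exists_weight hH hy
    obtain ⟨m, j, s, hs1, hs2, hys⟩ :=
      hT.exists_joint hX hH k₀ y.toLinearMap (mem_Wt.1 hb).1 hyb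
    have hys' : y s ≠ 0 := hys
    have hs0 : s ≠ 0 := fun h0 => hys' (by rw [h0, map_zero])
    have hm : m = a * k₀ := by
      by_contra hm
      exact hys' (((hasSlope_iff hH y a).1 hy).2 k₀ m s hs1 hm)
    have h1 := ha'.le k₀ _ s (mem_Wt_refine N hs1 hs2) hs0
    have h2 := hN₂ k₀ j s hs2 hs0
    rw [abs_le] at h2
    rw [hm] at h1
    have h3 : (0 : ℤ) < k₀ := by exact_mod_cast hk₀
    have h4 : (N * a - N₂) * (k₀ : ℤ) ≤ a' * k₀ := by
      have : N * (a * (k₀ : ℤ)) = N * a * k₀ := by ring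
      rw [this] at h1
      rw [sub_mul]
      linarith [h2.1]
    exact le_of_mul_le_mul_right h4 h3
  -- the limit of `p` for `-H`
  obtain ⟨c, q, hq, hcq⟩ := exists_upper hX hH.neg p hp.1
  obtain ⟨k₁, hk₁, b, hb, hqb⟩ := torus3_exists_weight hH.neg hq
  obtain ⟨m, j, s, hs1, hs2, hqs⟩ :=
    hT.exists_joint hX hH k₁ q.toLinearMap (mem_Wt.1 hb).1 hqb
  have hqs' : q s ≠ 0 := hqs
  have hs0 : s ≠ 0 := fun h0 => hqs' (by rw [h0, map_zero])
  have hs1' : s ∈ Wt 𝒜 P (-H) k₁ (-m) := by rw [Wt_neg, neg_neg]; exact hs1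
  have hm : -m = c * k₁ := by
    by_contra hm
    exact hqs' (((hasSlope_iff hH.neg q c).1 hq).2 k₁ (-m) s hs1' hm)
  have hps : p s ≠ 0 := by
    rw [← (hcq k₁ (-m) s hs1').2 hm]
    exact hqs'
  have h1 : N * m + j = a' * k₁ := by
    by_contra hcon
    exact hps (((hasSlope_iff hH' p a').1 hp).2 k₁ _ s (mem_Wt_refine N hs1 hs2) hcon)
  have h2 := hN₂ k₁ j s hs2 hs0
  rw [abs_le] at h2
  have h3 : (0 : ℤ) < k₁ := by exact_mod_cast hk₁
  have hac : a ≤ -c := by
    have h4 : (N * a - N₂) * (k₁ : ℤ) ≤ a' * k₁ := mul_le_mul_of_nonneg_right hle h3.le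
    have h5 : (N * a - 2 * N₂) * (k₁ : ℤ) ≤ (N * (-c)) * k₁ := by
      have h6 : (N * (-c)) * (k₁ : ℤ) = N * m := by
        have : m = -c * k₁ := by linarith
        rw [this]; ring
      rw [h6, sub_mul]
      rw [sub_mul] at h4
      linarith [h2.2]
    have h7 : (N : ℤ) * a - 2 * N₂ ≤ N * (-c) := le_of_mul_le_mul_right h5 h3
    have h8 : (2 * N₂ + 1 : ℤ) ≤ N := by exact_mod_cast hN
    have h9 : (N : ℤ) * (a - 1) < N * (-c) := by
      rw [mul_sub, mul_one]
      linarith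
    have h10 : (0 : ℤ) < N := by
      have : (0 : ℤ) ≤ N₂ := Int.natCast_nonneg N₂
      omega
    have h11 := lt_of_mul_lt_mul_left h9 h10.le
    omega
  rw [hasSlope_iff hH]
  refine ⟨hp.1, fun k m r hr hm' => ?_⟩
  by_contra hpr
  have hr0 : r ≠ 0 := fun h0 => hpr (by rw [h0, map_zero])
  have h4 := hmax.le k m r hr hr0
  have h5 := (hcq k (-m) r (by rw [Wt_neg, neg_neg]; exact hr)).1 hpr
  have h6 : a * (k : ℤ) ≤ -c * k := mul_le_mul_of_nonneg_right hac (Int.natCast_nonneg k)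
  exact hm' (by linarith)

/-- `x` of weight `a` acts nilpotently in degree one -/
lemma jordan3_cube (hX : IsContactFano 𝒜 P) {H : R} (hH : IsContactTorus 𝒜 P H) {a : ℤ}
    (ha : 0 < a) (hmax : IsMaxSlope 𝒜 P H a) (hmax' : IsMaxSlope 𝒜 P (-H) a) {x : R}
    (hx : x ∈ Wt 𝒜 P H 1 a) {r : R} (hr : r ∈ 𝒜 1) : P x (P x (P x r)) = 0 := by
  refine hH.forall_of_Wt (P x ∘ₗ P x ∘ₗ P x) 1 (fun m s hs => ?_) r hr
  change P x (P x (P x s)) = 0
  by_cases hs0 : s = 0
  · rw [hs0, map_zero, map_zero, map_zero]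
  have h1 := hmax'.le 1 (-m) s (by rw [Wt_neg, neg_neg]; exact hs) hs0
  by_contra h0
  have h2 : P x (P x (P x s)) ∈ Wt 𝒜 P H 1 (a + (a + (a + m))) :=
    Wt_P hX (j := 1) (by norm_num) hx
      (Wt_P hX (j := 1) (by norm_num) hx (Wt_P hX (j := 1) (by norm_num) hx hs))
  have h3 := hmax.le 1 _ _ h2 h0
  simp only [Nat.cast_one, mul_one] at h1 h3
  omega

/-- The eigenvalues of `h` in degree one. -/
theorem IsTriple.eigen_one (hX : IsContactFano 𝒜 P) {H : R}
    (hH : IsContactTorus 𝒜 P H) {a : ℤ} (hmax : IsMaxSlope 𝒜 P H a)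
    (hmax' : IsMaxSlope 𝒜 P (-H) a) {e h f : R}
    (hT : IsTriple 𝒜 P H a e h f) {j : ℤ} {r : R} (hr : r ∈ Wt 𝒜 P h 1 j) (hr0 : r ≠ 0) :
    -2 ≤ j ∧ j ≤ 2 := by
  have ha : 0 < a := (hmax.neg hX hH).2
  have := hX.finiteType
  have := finiteDimensional_piece 𝒜 hX.connected 1
  obtain ⟨h1, h2, h3⟩ := hT.op_rel hX 1
  have hmax'' : IsMaxSlope 𝒜 P (-(-H)) a := by rwa [neg_neg]
  have he3 : jordan3_op hX 1 hT.e_mem ^ 3 = 0 := by
    refine LinearMap.ext fun x => Subtype.ext ?_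
    exact jordan3_cube hX hH ha hmax hmax' hT.he x.2
  have hf3 : jordan3_op hX 1 hT.f_mem ^ 3 = 0 := by
    refine LinearMap.ext fun x => Subtype.ext ?_
    exact jordan3_cube hX hH.neg ha hmax' hmax'' (by rw [Wt_neg]; exact hT.hf) x.2
  rw [mem_Wt] at hr
  have h4 := iSup_eigenspace_of_cube _ _ _ h1 h2 h3 he3 hf3 ⟨r, hr.1⟩
  obtain ⟨i, hi⟩ := jordan3_exists_eq (jordan3_op hX 1 (hT.h_mem hX))
    (fun i : Fin 5 => ((i : ℂ) - 2)) h4
    ((jordan3_mem_eigenspace hX 1 (hT.h_mem hX) ⟨r, hr.1⟩ j).2 hr.2)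
    (fun h0 => hr0 (congrArg Subtype.val h0))
  have h5 : ((i : ℕ) : ℤ) - 2 = j := by
    have : (((i : ℕ) : ℤ) - 2 : ℂ) = (j : ℂ) := by
      push_cast
      simpa using hi
    exact_mod_cast this
  have := i.2
  omega

end Vale.Agent.P292
end

section

/-! Contact tori with isolated source. -/

namespace Vale.Agent.P292

open Module Polynomial

universe u

variable {R : Type u} [CommRing R] [Algebra ℂ R] {𝒜 : ℕ → Submodule ℂ R} [GradedAlgebra 𝒜]
  {P : R →ₗ[ℂ] R →ₗ[ℂ] R}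

end Vale.Agent.P292
end

section

/-! Contact tori with isolated source. -/

namespace Vale.Agent.P292

open Module Polynomial

universe u

variable {R : Type u} [CommRing R] [Algebra ℂ R] {𝒜 : ℕ → Submodule ℂ R} [GradedAlgebra 𝒜]
  {P : R →ₗ[ℂ] R →ₗ[ℂ] R}

end Vale.Agent.P292
end

section

/-! Part E: refining a torus. -/

namespace Vale.Agent.P292

open Module LieAlgebra

universe u

lemma x7_finite {V : Type*} [AddCommGroup V] [Module ℂ V] [FiniteDimensional ℂ V]
    (T : Module.End ℂ V) :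
    {j : ℤ | ∃ x : V, x ≠ 0 ∧ x ∈ Module.End.eigenspace T (j : ℂ)}.Finite := by
  have h1 : {μ : ℂ | T.HasEigenvalue μ}.Finite := Module.End.finite_hasEigenvalue T
  refine (h1.preimage (f := fun j : ℤ => (j : ℂ)) Int.cast_injective.injOn).subset ?_
  rintro j ⟨x, hx0, hx⟩
  exact Module.End.hasEigenvalue_of_hasEigenvector ⟨hx, hx0⟩

/-- An eigenvector in a sum of subspaces of eigenspaces lies in the sum of the relevant ones. -/
lemma x7_mem {V ι : Type*} [AddCommGroup V] [Module ℂ V] (U : Module.End ℂ V)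
    (E : ι → Submodule ℂ V) (μ : ι → ℂ) (hE : ∀ i, E i ≤ Module.End.eigenspace U (μ i)) {v : V}
    {ν : ℂ} (hv : v ∈ ⨆ i, E i) (hv' : v ∈ Module.End.eigenspace U ν) :
    v ∈ ⨆ (i) (_ : μ i = ν), E i := by
  have h1 : (⨆ i, E i) ≤ (⨆ (i) (_ : μ i = ν), E i) ⊔
      ⨆ (j : ℂ) (_ : j ≠ ν), Module.End.eigenspace U j := by
    refine iSup_le fun i => ?_
    by_cases h : μ i = ν
    · exact le_trans (le_iSup₂_of_le i h le_rfl) le_sup_left
    · exact le_trans ((hE i).trans (le_iSup₂_of_le (μ i) h le_rfl)) le_sup_right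
  obtain ⟨v1, hv1, v2, hv2, rfl⟩ := Submodule.mem_sup.mp (h1 hv)
  have h2 : (⨆ (i) (_ : μ i = ν), E i) ≤ Module.End.eigenspace U ν :=
    iSup₂_le fun i hi => hi ▸ hE i
  have h3 := (Module.End.eigenspaces_iSupIndep U) ν
  rw [Submodule.disjoint_def] at h3
  have h4 : v2 ∈ Module.End.eigenspace U ν := by
    have := Submodule.sub_mem _ hv' (h2 hv1)
    rwa [add_sub_cancel_left] at this
  rw [h3 v2 h4 hv2, add_zero]
  exact hv1

variable {g : Type u} [LieRing g] [LieAlgebra ℂ g] [FiniteDimensional ℂ g]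

lemma x7_max (s : Set ℤ) (hs : s.Finite) (hne : s.Nonempty) : ∃ a ∈ s, ∀ b ∈ s, b ≤ a := by
  obtain ⟨a, ha, hmax⟩ := hs.exists_maximalFor id s hne
  exact ⟨a, ha, fun b hb => (le_total b a).elim id fun h => hmax hb h⟩

/-- There is a largest eigenvalue. -/
theorem exists_isTop [Nontrivial g] {h : g} (hh : IsInt h) : ∃ a, IsTop h a := by
  have hne : {j : ℤ | ∃ x : g, x ≠ 0 ∧ x ∈ Module.End.eigenspace (ad ℂ g h) (j : ℂ)}.Nonempty := by
    by_contra hcon
    rw [Set.not_nonempty_iff_eq_empty] at hcon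
    obtain ⟨x, hx⟩ := exists_ne (0 : g)
    have h1 : (⨆ m : ℤ, Module.End.eigenspace (ad ℂ g h) (m : ℂ)) ≤ ⊥ := by
      refine iSup_le fun m y hy => ?_
      by_contra h2
      have h3 : m ∈ {j : ℤ | ∃ x : g, x ≠ 0 ∧ x ∈ Module.End.eigenspace (ad ℂ g h) (j : ℂ)} :=
        ⟨y, fun h4 => h2 (by rw [h4]; exact zero_mem _), hy⟩
      rw [hcon] at h3
      exact h3
    exact hx ((Submodule.mem_bot ℂ).mp (h1 (hh x)))
  obtain ⟨a, ⟨v, hv0, hv⟩, hmax⟩ := x7_max _ (x7_finite (ad ℂ g h)) hne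
  exact ⟨a, ⟨v, hv0, hv⟩, fun m w hw0 hw => hmax m ⟨w, hw0, hw⟩⟩

/-- The refined torus. -/
theorem exists_refined {h u v w : g} {a i j : ℤ} (hh : IsInt h) (h0 : h ≠ 0) (ha : IsTop h a)
    (hu : IsInt u) (hhu : ⁅h, u⁆ = 0) (hv : v ≠ 0) (hw : w ≠ 0) (hhv : v ∈ TopSp h a)
    (hhw : w ∈ TopSp h a) (hij : i ≠ j) (huv : ⁅u, v⁆ = (i : ℂ) • v)
    (huw : ⁅u, w⁆ = (j : ℂ) • w) :
    ∃ (N : ℕ) (a' : ℤ), (N : ℂ) • h + u ≠ 0 ∧ IsInt ((N : ℂ) • h + u) ∧
      IsTop ((N : ℂ) • h + u) a' ∧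
      finrank ℂ (TopSp ((N : ℂ) • h + u) a') < finrank ℂ (TopSp h a) := by
  classical
  -- bound of the eigenvalues of `u`
  obtain ⟨B, hB⟩ : ∃ B : ℕ, ∀ (k : ℤ) (x : g), x ≠ 0 → x ∈ Module.End.eigenspace (ad ℂ g u) (k : ℂ) →
      |k| ≤ B := by
    have hfin := x7_finite (ad ℂ g u)
    obtain ⟨b1, hb1⟩ := hfin.bddAbove
    obtain ⟨b2, hb2⟩ := hfin.bddBelow
    refine ⟨(max |b1| |b2|).toNat, fun k x hx0 hx => ?_⟩
    have h1 : k ≤ b1 := hb1 ⟨x, hx0, hx⟩
    have h2 : b2 ≤ k := hb2 ⟨x, hx0, hx⟩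
    rw [Int.toNat_of_nonneg (le_trans (abs_nonneg b1) (le_max_left _ _))]
    rw [abs_le]
    constructor
    · have h3 := neg_abs_le b2
      have h4 := le_max_right |b1| |b2|
      omega
    · have h3 := le_abs_self b1
      have h4 := le_max_left |b1| |b2|
      omega
  obtain ⟨N, hN⟩ : ∃ N : ℕ, N = 2 * B + 2 := ⟨_, rfl⟩
  -- joint eigenspaces
  obtain ⟨E, hE⟩ : ∃ E : ℤ × ℤ → Submodule ℂ g, E = fun mj =>
      Module.End.eigenspace (ad ℂ g h) (mj.1 : ℂ) ⊓ Module.End.eigenspace (ad ℂ g u) (mj.2 : ℂ) :=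
    ⟨_, rfl⟩
  have hmemE : ∀ (m k : ℤ) (x : g), x ∈ E (m, k) ↔ ⁅h, x⁆ = (m : ℂ) • x ∧ ⁅u, x⁆ = (k : ℂ) • x := by
    intro m k x
    rw [hE]
    simp only [Submodule.mem_inf, Module.End.mem_eigenspace_iff, ad_apply]
  have hjoint : ∀ x : g, x ∈ ⨆ mj, E mj := by
    intro x
    rw [hE]
    refine jordan3_joint (ad ℂ g h) (ad ℂ g u) (fun y => ?_) hh hu x
    rw [ad_apply, ad_apply, ad_apply, ad_apply, leibniz_lie, hhu, zero_lie, zero_add]
  have hEU : ∀ mj : ℤ × ℤ, E mj ≤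
      Module.End.eigenspace (ad ℂ g ((N : ℂ) • h + u)) (((N * mj.1 + mj.2 : ℤ)) : ℂ) := by
    rintro ⟨m, k⟩ x hx
    obtain ⟨h1, h2⟩ := (hmemE m k x).mp hx
    rw [Module.End.mem_eigenspace_iff, ad_apply, add_lie, smul_lie, h1, h2, smul_smul, ← add_smul]
    push_cast
    rfl
  -- the largest eigenvalue of `u` on the top space
  have hne : {k : ℤ | ∃ x : g, x ≠ 0 ∧ x ∈ E (a, k)}.Nonempty :=
    ⟨i, v, hv, (hmemE a i v).mpr ⟨mem_TopSp.mp hhv, huv⟩⟩
  have hfin : {k : ℤ | ∃ x : g, x ≠ 0 ∧ x ∈ E (a, k)}.Finite := by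
    refine (x7_finite (ad ℂ g u)).subset ?_
    rintro k ⟨x, hx0, hx⟩
    exact ⟨x, hx0, by rw [hE] at hx; exact hx.2⟩
  obtain ⟨k0, ⟨x0, hx0, hx0E⟩, hk0⟩ := x7_max _ hfin hne
  have hk0B : |k0| ≤ B := hB k0 x0 hx0 (by rw [hE] at hx0E; exact hx0E.2)
  have key : ∀ (m k : ℤ) (x : g), x ≠ 0 → x ∈ E (m, k) → (m < a ∧ N * m + k < N * a + k0) ∨
      (m = a ∧ k ≤ k0) := by
    intro m k x hxne hx
    have h1 : m ≤ a := ha.le m x hxne (mem_TopSp.mpr ((hmemE m k x).mp hx).1)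
    rcases lt_or_eq_of_le h1 with h2 | h2
    · left
      have h3 : |k| ≤ B := hB k x hxne (by rw [hE] at hx; exact hx.2)
      have h4 := le_abs_self k
      have h5 := neg_abs_le k0
      have h6 : (N : ℤ) = 2 * B + 2 := by rw [hN]; push_cast; ring
      refine ⟨h2, ?_⟩
      nlinarith
    · right
      rw [h2] at hx
      exact ⟨h2, hk0 k ⟨x, hxne, hx⟩⟩
  have hmem : ∀ (m' : ℤ) (x : g), x ≠ 0 → x ∈ TopSp ((N : ℂ) • h + u) m' →
      x ∈ ⨆ (mj : ℤ × ℤ) (_ : ((N * mj.1 + mj.2 : ℤ) : ℂ) = (m' : ℂ)), E mj := fun m' x _ hx =>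
    x7_mem (ad ℂ g ((N : ℂ) • h + u)) E _ hEU (hjoint x) hx
  refine ⟨N, N * a + k0, ?_, ?_, ⟨⟨x0, hx0, ?_⟩, ?_⟩, ?_⟩
  · intro h1
    have h2 : ∀ (x : g) (k : ℤ), x ≠ 0 → x ∈ TopSp h a → ⁅u, x⁆ = (k : ℂ) • x → k = -(N * a) := by
      intro x k hxne hxa hxk
      have h3 : ⁅(N : ℂ) • h + u, x⁆ = ((N * a + k : ℤ) : ℂ) • x := by
        rw [add_lie, smul_lie, mem_TopSp.mp hxa, hxk, smul_smul, ← add_smul]
        push_cast
        rfl
      rw [h1, zero_lie] at h3
      have h4 := (smul_eq_zero.mp h3.symm).resolve_right hxne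
      have h5 : (N * a + k : ℤ) = 0 := by exact_mod_cast h4
      omega
    exact hij ((h2 v i hv hhv huv).trans (h2 w j hw hhw huw).symm)
  · intro x
    exact (iSup_le fun mj => (hEU mj).trans (le_iSup
      (fun m : ℤ => Module.End.eigenspace (ad ℂ g ((N : ℂ) • h + u)) (m : ℂ)) _)) (hjoint x)
  · exact hEU (a, k0) hx0E
  · intro m' x hxne hx
    by_contra hcon
    push Not at hcon
    have h1 : (⨆ (mj : ℤ × ℤ) (_ : ((N * mj.1 + mj.2 : ℤ) : ℂ) = (m' : ℂ)), E mj) ≤ ⊥ := by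
      refine iSup₂_le ?_
      rintro ⟨m, k⟩ hmk y hy
      by_contra h2
      have hy0 : y ≠ 0 := fun h3 => h2 (by rw [h3]; exact zero_mem _)
      have h4 : N * m + k = m' := by exact_mod_cast hmk
      rcases key m k y hy0 hy with ⟨_, h5⟩ | ⟨h5, h6⟩
      · omega
      · rw [h5] at h4
        omega
    exact hxne ((Submodule.mem_bot ℂ).mp (h1 (hmem m' x hxne hx)))
  · have hle : TopSp ((N : ℂ) • h + u) (N * a + k0) ≤ E (a, k0) := by
      intro x hx
      by_cases hxne : x = 0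
      · rw [hxne]; exact zero_mem _
      have h1 : (⨆ (mj : ℤ × ℤ) (_ : ((N * mj.1 + mj.2 : ℤ) : ℂ) = ((N * a + k0 : ℤ) : ℂ)), E mj) ≤
          E (a, k0) := by
        refine iSup₂_le ?_
        rintro ⟨m, k⟩ hmk y hy
        by_cases hy0 : y = 0
        · rw [hy0]; exact zero_mem _
        have h4 : N * m + k = N * a + k0 := by exact_mod_cast hmk
        rcases key m k y hy0 hy with ⟨_, h5⟩ | ⟨h5, h6⟩
        · omega
        · rw [h5] at h4 hy
          have h7 : k = k0 := by omega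
          rw [h7] at hy
          exact hy
      exact h1 (hmem _ x hxne hx)
    have hlt : TopSp ((N : ℂ) • h + u) (N * a + k0) < TopSp h a := by
      refine lt_of_le_of_ne (fun x hx => mem_TopSp.mpr ((hmemE a k0 x).mp (hle hx)).1) ?_
      intro heq
      have h1 : ∀ (x : g) (k : ℤ), x ≠ 0 → x ∈ TopSp h a → ⁅u, x⁆ = (k : ℂ) • x → k = k0 := by
        intro x k hxne hxa hxk
        rw [← heq] at hxa
        have h2 := ((hmemE a k0 x).mp (hle hxa)).2
        rw [hxk] at h2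
        have h3 : ((k : ℂ) - (k0 : ℂ)) • x = 0 := by rw [sub_smul, h2, sub_self]
        have h4 := (smul_eq_zero.mp h3).resolve_right hxne
        have h5 : (k : ℂ) = (k0 : ℂ) := sub_eq_zero.mp h4
        exact_mod_cast h5
      exact hij ((h1 v i hv hhv huv).trans (h1 w j hw hhw huw).symm)
    exact Submodule.finrank_lt_finrank_of_lt hlt

end Vale.Agent.P292
end

section

/-! Part E: tori of `g` and contact tori of `R`. -/

namespace Vale.Agent.P292

open Module LieAlgebra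

universe u

variable {R : Type u} [CommRing R] [Algebra ℂ R] {𝒜 : ℕ → Submodule ℂ R} [GradedAlgebra 𝒜]
  {P : R →ₗ[ℂ] R →ₗ[ℂ] R} {g : Type u} [LieRing g] [LieAlgebra ℂ g] [FiniteDimensional ℂ g]

omit [FiniteDimensional ℂ g] in
theorem isInt_of_isContactTorus {φ : g →ₗ[ℂ] R} (hφ : Function.Injective φ)
    (hrange : LinearMap.range φ = 𝒜 1) (hbr : ∀ x y : g, φ ⁅x, y⁆ = P (φ x) (φ y)) {h : g}
    (hH : IsContactTorus 𝒜 P (φ h)) : IsInt h := by
  have key : (⨆ m : ℤ, 𝒜 1 ⊓ Module.End.eigenspace (P (φ h)) (m : ℂ)) ≤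
      Submodule.map φ (⨆ m : ℤ, Module.End.eigenspace (ad ℂ g h) (m : ℂ)) := by
    refine iSup_le fun m y hy => ?_
    obtain ⟨hy1, hy2⟩ := Submodule.mem_inf.1 hy
    rw [← hrange] at hy1
    obtain ⟨x, rfl⟩ := hy1
    refine Submodule.mem_map.2 ⟨x, Submodule.mem_iSup_of_mem m ?_, rfl⟩
    rw [Module.End.mem_eigenspace_iff] at hy2 ⊢
    rw [ad_apply]
    apply hφ
    rw [hbr, hy2, map_smul]
  intro x
  have hx : φ x ∈ 𝒜 1 := hrange ▸ LinearMap.mem_range_self φ x
  obtain ⟨x', hx', he⟩ := Submodule.mem_map.1 (key (hH.weights 1 hx))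
  rwa [← hφ he]

omit [FiniteDimensional ℂ g] in
theorem isContactTorus_of_isInt (hX : IsContactFano 𝒜 P) {φ : g →ₗ[ℂ] R}
    (hφ : Function.Injective φ) (hrange : LinearMap.range φ = 𝒜 1)
    (hbr : ∀ x y : g, φ ⁅x, y⁆ = P (φ x) (φ y))
    (hgen : Algebra.adjoin ℂ (𝒜 1 : Set R) = ⊤) {h : g} (h0 : h ≠ 0) (hh : IsInt h) :
    IsContactTorus 𝒜 P (φ h) := by
  have h1 : ∀ x : R, x ∈ 𝒜 1 → x ∈ ⨆ m : ℤ, Wt 𝒜 P (φ h) 1 m := by
    intro x hx
    rw [← hrange] at hx
    obtain ⟨y, rfl⟩ := hx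
    have hle : Submodule.map φ (⨆ m : ℤ, Module.End.eigenspace (ad ℂ g h) (m : ℂ)) ≤
        ⨆ m : ℤ, Wt 𝒜 P (φ h) 1 m := by
      rw [Submodule.map_iSup]
      refine iSup_mono fun m z hz => ?_
      obtain ⟨w, hw, rfl⟩ := Submodule.mem_map.1 hz
      rw [Module.End.mem_eigenspace_iff, ad_apply] at hw
      refine Submodule.mem_inf.2 ⟨hrange ▸ LinearMap.mem_range_self φ w, ?_⟩
      rw [Module.End.mem_eigenspace_iff, ← hbr, hw, map_smul]
    exact hle (Submodule.mem_map_of_mem (hh y))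
  set W : Submodule ℂ R := ⨆ km : ℕ × ℤ, Wt 𝒜 P (φ h) km.1 km.2 with hW
  have hWmul : W * W ≤ W := by
    rw [hW, Submodule.iSup_mul]
    refine iSup_le fun a => ?_
    rw [Submodule.mul_iSup]
    refine iSup_le fun b => ?_
    rw [Submodule.mul_le]
    intro x hx y hy
    exact Submodule.mem_iSup_of_mem (p := fun km : ℕ × ℤ => Wt 𝒜 P (φ h) km.1 km.2)
      (a.1 + b.1, a.2 + b.2) (Wt_mul hX hx hy)
  have hWtop : ∀ r : R, r ∈ W := by
    intro r
    have hr : r ∈ Algebra.adjoin ℂ (𝒜 1 : Set R) := by rw [hgen]; trivial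
    induction hr using Algebra.adjoin_induction with
    | mem x hx =>
      have hle : (⨆ m : ℤ, Wt 𝒜 P (φ h) 1 m) ≤ W :=
        iSup_le fun m => le_iSup (fun km : ℕ × ℤ => Wt 𝒜 P (φ h) km.1 km.2) (1, m)
      exact hle (h1 x hx)
    | algebraMap c =>
      refine Submodule.mem_iSup_of_mem (p := fun km : ℕ × ℤ => Wt 𝒜 P (φ h) km.1 km.2) (0, 0) ?_
      refine Submodule.mem_inf.2 ⟨?_, ?_⟩
      · rw [Algebra.algebraMap_eq_smul_one]
        exact (𝒜 0).smul_mem _ SetLike.GradedOne.one_mem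
      · rw [Module.End.mem_eigenspace_iff, hX.P_algebraMap_right]
        simp
    | add x y _ _ hx hy => exact W.add_mem hx hy
    | mul x y _ _ hx hy => exact hWmul (Submodule.mul_mem_mul hx hy)
  refine ⟨hrange ▸ LinearMap.mem_range_self φ h, fun hc => h0 (hφ (by rw [hc, map_zero])),
    fun k r hr => ?_⟩
  have hproj : W ≤ Submodule.comap (GradedAlgebra.proj 𝒜 k) (⨆ m : ℤ, Wt 𝒜 P (φ h) k m) := by
    refine iSup_le fun a => ?_
    intro y hy
    rw [Submodule.mem_comap, GradedAlgebra.proj_apply]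
    by_cases hak : a.1 = k
    · subst hak
      rw [DirectSum.decompose_of_mem_same 𝒜 (Submodule.mem_inf.1 hy).1]
      exact Submodule.mem_iSup_of_mem a.2 hy
    · rw [DirectSum.decompose_of_mem_ne 𝒜 (Submodule.mem_inf.1 hy).1 hak]
      exact Submodule.zero_mem _
  have h2 := hproj (hWtop r)
  rw [Submodule.mem_comap, GradedAlgebra.proj_apply, DirectSum.decompose_of_mem_same 𝒜 hr] at h2
  exact h2

end Vale.Agent.P292
end

section

/-! Part E: the fixed point given by an isolated torus. -/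

namespace Vale.Agent.P292

open Module LieAlgebra

universe u

variable {R : Type u} [CommRing R] [Algebra ℂ R] {𝒜 : ℕ → Submodule ℂ R} [GradedAlgebra 𝒜]
  {P : R →ₗ[ℂ] R →ₗ[ℂ] R} {g : Type u} [LieRing g] [LieAlgebra ℂ g] [FiniteDimensional ℂ g]

omit [GradedAlgebra 𝒜] in
/-- Points which agree in degree one agree. -/
theorem x11_ext (hgen : Algebra.adjoin ℂ (𝒜 1 : Set R) = ⊤) {y z : R →ₐ[ℂ] ℂ}
    (h : ∀ r ∈ 𝒜 1, y r = z r) : y = z :=
  AlgHom.ext_of_adjoin_eq_top hgen fun r hr => h r hr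

/-- A point which is a multiple of another one in degree one. -/
theorem x11_scale (hgen : Algebra.adjoin ℂ (𝒜 1 : Set R) = ⊤) {y z : R →ₐ[ℂ] ℂ} {c : ℂ}
    (h : ∀ r ∈ 𝒜 1, z r = c * y r) : ∀ k, ∀ r ∈ 𝒜 k, z r = c ^ k * y r := by
  obtain ⟨y', hy'⟩ := IsContactFano.exists_rescale (𝒜 := 𝒜) y c
  have h1 : z = y' := x11_ext hgen fun r hr => by rw [h r hr, hy' 1 r hr, pow_one]
  intro k r hr
  rw [h1, hy' k r hr]

omit [GradedAlgebra 𝒜] [FiniteDimensional ℂ g] in
/-- Linear functionals on eigenvectors. -/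
theorem x11_eig {H : R} {φ : g →ₗ[ℂ] R} (hbr : ∀ x y : g, φ ⁅x, y⁆ = P (φ x) (φ y)) {h : g}
    (hH : H = φ h) (hmem : ∀ x, φ x ∈ 𝒜 1) {y : R →ₐ[ℂ] ℂ} {b : ℤ}
    (hy : ∀ k : ℕ, ∀ r ∈ 𝒜 k, y (P H r) = ((b * k : ℤ) : ℂ) * y r) {m : ℤ} {v : g}
    (hv : v ∈ TopSp h m) (hmb : m ≠ b) :
    y (φ v) = 0 := by
  have h1 := hy 1 (φ v) (hmem v)
  rw [hH, ← hbr, mem_TopSp.1 hv, map_smul, map_smul, smul_eq_mul] at h1
  by_contra h0
  have h2 := mul_right_cancel₀ h0 h1
  apply hmb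
  simpa using h2

/-- Points of the source of an isolated torus are fixed by the automorphisms fixing the
torus. -/
theorem exists_fixed_of_isolated (hX : IsContactFano 𝒜 P) {φ : g →ₗ[ℂ] R}
    (hφ : Function.Injective φ) (hrange : LinearMap.range φ = 𝒜 1)
    (hbr : ∀ x y : g, φ ⁅x, y⁆ = P (φ x) (φ y))
    (hgen : Algebra.adjoin ℂ (𝒜 1 : Set R) = ⊤) (σ : R ≃ₐ[ℂ] R)
    (hσ𝒜 : ∀ k, ∀ r ∈ 𝒜 k, σ r ∈ 𝒜 k) (hσP : ∀ r s, σ (P r s) = P (σ r) (σ s)) {h : g}
    (h0 : h ≠ 0) (hh : IsInt h) (hσh : σ (φ h) = φ h) {a : ℤ} {v₁ : g} (ha : IsTop h a)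
    (hv₁ : ∀ v ∈ TopSp h a, ∃ c : ℂ, v = c • v₁) :
    ∃ x : R →ₐ[ℂ] ℂ, ¬ IsVertex 𝒜 x ∧ ∃ c : ℂ, ∀ k, ∀ r ∈ 𝒜 k, x (σ r) = c ^ k * x r := by
  have hH := isContactTorus_of_isInt hX hφ hrange hbr hgen h0 hh
  have hmem : ∀ x, φ x ∈ 𝒜 1 := fun x => hrange ▸ LinearMap.mem_range_self φ x
  obtain ⟨b, hmax⟩ := exists_isMaxSlope hX hH
  obtain ⟨y, hy⟩ := hmax.exists_slope
  -- a weight vector on which `y` does not vanish
  obtain ⟨m, v, hv, hyv⟩ : ∃ m : ℤ, ∃ v ∈ TopSp h m, y (φ v) ≠ 0 := by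
    by_contra hne
    push Not at hne
    have h1 : ∀ x : g, y (φ x) = 0 := by
      intro x
      refine Submodule.iSup_induction (p := fun m : ℤ => Module.End.eigenspace (ad ℂ g h) (m : ℂ))
        (motive := fun x => y (φ x) = 0) (hh x) (fun m v hv => hne m v hv) (by simp) ?_
      intro u w hu hw
      rw [map_add, map_add, hu, hw, add_zero]
    have h2 : ∀ r ∈ 𝒜 1, y r = 0 := by
      intro r hr
      rw [← hrange] at hr
      obtain ⟨x, rfl⟩ := hr
      exact h1 x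
    have h3 := x11_scale hgen (y := y) (z := y) (c := 0) fun r hr => by rw [h2 r hr, zero_mul]
    exact hy.1 fun k hk r hr => by rw [h3 k r hr, zero_pow hk.ne', zero_mul]
  have hv0 : v ≠ 0 := by
    rintro rfl
    simp at hyv
  have hmb : m = b := by
    by_contra hmb
    exact hyv (x11_eig hbr rfl hmem hy.2 hv hmb)
  subst hmb
  have hba : m ≤ a := ha.le m v hv0 hv
  have hab : a ≤ m := by
    obtain ⟨u, hu0, hu⟩ := ha.ne
    have h1 := hmax.le 1 a (φ u) (by
      refine mem_Wt.mpr ⟨hmem u, ?_⟩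
      rw [← hbr, mem_TopSp.1 hu, map_smul]) (by
      intro h2
      exact hu0 (hφ (by rw [h2, map_zero])))
    simpa using h1
  have hma : m = a := le_antisymm hba hab
  subst hma
  have hyv1 : y (φ v₁) ≠ 0 := by
    obtain ⟨c, hc⟩ := hv₁ v hv
    intro h1
    rw [hc, map_smul, map_smul, h1, smul_zero] at hyv
    exact hyv rfl
  -- the translated point
  have hy' : ∀ k : ℕ, ∀ r ∈ 𝒜 k, (y.comp (σ : R →ₐ[ℂ] R)) (P (φ h) r) =
      ((m * k : ℤ) : ℂ) * (y.comp (σ : R →ₐ[ℂ] R)) r := by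
    intro k r hr
    change y (σ (P (φ h) r)) = _ * y (σ r)
    rw [hσP, hσh]
    exact hy.2 k (σ r) (hσ𝒜 k r hr)
  refine ⟨y, hy.1, y (σ (φ v₁)) / y (φ v₁), ?_⟩
  have key : ∀ r ∈ 𝒜 1, (y.comp (σ : R →ₐ[ℂ] R)) r = y (σ (φ v₁)) / y (φ v₁) * y r := by
    intro r hr
    rw [← hrange] at hr
    obtain ⟨x, rfl⟩ := hr
    refine Submodule.iSup_induction (p := fun m : ℤ => Module.End.eigenspace (ad ℂ g h) (m : ℂ))
      (motive := fun x => (y.comp (σ : R →ₐ[ℂ] R)) (φ x) =
        y (σ (φ v₁)) / y (φ v₁) * y (φ x)) (hh x) (fun j u hu => ?_) (by simp) ?_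
    · by_cases hj : j = m
      · subst hj
        obtain ⟨c, hc⟩ := hv₁ u hu
        change y (σ (φ u)) = _
        rw [hc, map_smul, map_smul, map_smul, map_smul, smul_eq_mul, smul_eq_mul]
        field_simp
      · rw [x11_eig hbr rfl hmem hy.2 hu hj, x11_eig hbr rfl hmem hy' hu hj, mul_zero]
    · intro u w hu hw
      rw [map_add, map_add, map_add, hu, hw, mul_add]
  exact x11_scale hgen key

end Vale.Agent.P292
end

section

/-! Theorem E without (SC), group U: the tower. See `E/PROOF_SC.md`, (B0). -/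

namespace Vale.Agent.P292

open Module Polynomial

universe u v

/-- The roots in `Ω` of the monic separable polynomials over `𝒪`. -/
def EtGen (𝒪 : Type u) (Ω : Type v) [CommRing 𝒪] [Field Ω] [Algebra 𝒪 Ω] : Set Ω :=
  {α | ∃ q : 𝒪[X], q.Monic ∧ q.Separable ∧ aeval α q = 0}

/-- (UNR) in the fraction field. -/
private theorem red_base {𝒪 : Type u} {K : Type v} [CommRing 𝒪] [IsDomain 𝒪]
    [IsIntegrallyClosed 𝒪] [Field K] [Algebra 𝒪 K] [IsFractionRing 𝒪 K] {ϖ : 𝒪} (hϖ : ϖ ≠ 0)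
    (hred : ∀ x : 𝒪, ϖ ∣ x ^ 2 → ϖ ∣ x) {s : K}
    (hs : IsIntegral 𝒪 (s ^ 2 / algebraMap 𝒪 K ϖ)) :
    IsIntegral 𝒪 (s / algebraMap 𝒪 K ϖ) := by
  have hϖK : algebraMap 𝒪 K ϖ ≠ 0 := fun h =>
    hϖ ((IsFractionRing.injective 𝒪 K) (by rw [h, map_zero]))
  obtain ⟨o, ho⟩ := IsIntegrallyClosed.isIntegral_iff.1 hs
  have hs2 : s ^ 2 = algebraMap 𝒪 K (ϖ * o) := by
    rw [map_mul, ho]
    field_simp
  have hsi : IsIntegral 𝒪 s := by
    refine IsIntegral.of_pow (n := 2) (by norm_num) ?_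
    rw [hs2]
    exact isIntegral_algebraMap
  obtain ⟨y, hy⟩ := IsIntegrallyClosed.isIntegral_iff.1 hsi
  have hy2 : y ^ 2 = ϖ * o := IsFractionRing.injective 𝒪 K (by rw [map_pow, hy, hs2])
  obtain ⟨z, hz⟩ := hred y ⟨o, hy2⟩
  have : s / algebraMap 𝒪 K ϖ = algebraMap 𝒪 K z := by
    rw [← hy, hz, map_mul]
    field_simp
  rw [this]
  exact isIntegral_algebraMap

/-- (UNR) for finitely many generators. -/
private theorem red_finset {Ω : Type u} [Field Ω] [DecidableEq Ω] (E : Finset Ω) :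
    ∀ (𝒪 K : Type u) [CommRing 𝒪] [IsDomain 𝒪] [IsIntegrallyClosed 𝒪] [Field K] [CharZero K]
      [Algebra 𝒪 K] [IsFractionRing 𝒪 K] [Algebra K Ω] [Algebra 𝒪 Ω] [IsScalarTower 𝒪 K Ω]
      (ϖ : 𝒪) (_ : ϖ ≠ 0) (_ : ∀ x : 𝒪, ϖ ∣ x ^ 2 → ϖ ∣ x) (_ : ∀ α ∈ E, α ∈ EtGen 𝒪 Ω) (s : Ω)
      (_ : s ∈ IntermediateField.adjoin K (E : Set Ω))
      (_ : IsIntegral 𝒪 (s ^ 2 / algebraMap 𝒪 Ω ϖ)), IsIntegral 𝒪 (s / algebraMap 𝒪 Ω ϖ) := by
  induction E using Finset.induction_on with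
  | empty =>
    intro 𝒪 K _ _ _ _ _ _ _ _ _ _ ϖ hϖ hred _ s hsE hs
    rw [Finset.coe_empty, IntermediateField.adjoin_empty, IntermediateField.mem_bot] at hsE
    obtain ⟨x, rfl⟩ := hsE
    have h1 : algebraMap 𝒪 Ω ϖ = algebraMap K Ω (algebraMap 𝒪 K ϖ) :=
      IsScalarTower.algebraMap_apply 𝒪 K Ω ϖ
    rw [h1, ← map_pow, ← map_div₀] at hs
    rw [h1, ← map_div₀]
    have hinj : Function.Injective (algebraMap K Ω) := (algebraMap K Ω).injective
    exact (isIntegral_algebraMap_iff hinj).2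
      (red_base hϖ hred ((isIntegral_algebraMap_iff hinj).1 hs))
  | insert α E _ ih =>
    intro 𝒪 K _ _ _ _ _ _ _ _ _ _ ϖ hϖ hred hE s hsE hs
    obtain ⟨q, hqm, hqs, hqα⟩ := hE α (Finset.mem_insert_self _ _)
    have hαint : IsIntegral 𝒪 α := ⟨q, hqm, hqα⟩
    have hαK : IsIntegral K α := hαint.tower_top
    let L : IntermediateField K Ω := IntermediateField.adjoin K {α}
    have hfin : FiniteDimensional K L := IntermediateField.adjoin.finiteDimensional hαK
    have : CharZero L := charZero_of_injective_algebraMap (algebraMap K L).injective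
    have : IsScalarTower 𝒪 K L := inferInstance
    have : IsScalarTower 𝒪 L Ω := IsScalarTower.of_algebraMap_eq fun x => rfl
    let C := integralClosure 𝒪 L
    have : IsIntegrallyClosed C := integralClosure.isIntegrallyClosedOfFiniteExtension K
    have : IsFractionRing C L := integralClosure.isFractionRing_of_finite_extension K L
    have : IsScalarTower C L Ω := inferInstance
    have : IsScalarTower 𝒪 C Ω := IsScalarTower.of_algebraMap_eq fun x => rfl
    have hαL : α ∈ L := IntermediateField.mem_adjoin_simple_self K α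
    let α' : L := ⟨α, hαL⟩
    have htop : IntermediateField.adjoin K {α'} = ⊤ := by
      rw [eq_top_iff]
      intro x _
      have h1 : (x : Ω) ∈ (IntermediateField.adjoin K {α'}).map L.val := by
        rw [IntermediateField.adjoin_map, Set.image_singleton]
        exact x.2
      obtain ⟨y, hy, hyx⟩ := h1
      have : y = x := Subtype.ext hyx
      rw [← this]
      exact hy
    have hqα' : aeval α' q = 0 := by
      have h1 : algebraMap L Ω (aeval α' q) = 0 := by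
        rw [← aeval_algebraMap_apply]
        exact hqα
      exact (map_eq_zero (algebraMap L Ω)).1 h1
    have hinjC : Function.Injective (algebraMap C L) := Subtype.val_injective
    have hinj𝒪 : Function.Injective (algebraMap 𝒪 L) := by
      rw [IsScalarTower.algebraMap_eq 𝒪 K L]
      exact (algebraMap K L).injective.comp (IsFractionRing.injective 𝒪 K)
    have hϖL : algebraMap 𝒪 L ϖ ≠ 0 := fun h => hϖ (hinj𝒪 (by rw [h, map_zero]))
    have hϖC : algebraMap 𝒪 C ϖ ≠ 0 := fun h => hϖL (by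
      rw [IsScalarTower.algebraMap_apply 𝒪 C L, h, map_zero])
    have hredC : ∀ x : C, algebraMap 𝒪 C ϖ ∣ x ^ 2 → algebraMap 𝒪 C ϖ ∣ x := by
      rintro x ⟨y, hy⟩
      have h1 : (algebraMap C L x) ^ 2 / algebraMap 𝒪 L ϖ = algebraMap C L y := by
        rw [← map_pow, hy, map_mul, ← IsScalarTower.algebraMap_apply 𝒪 C L]
        field_simp
      have h2 : IsIntegral 𝒪 ((algebraMap C L x) ^ 2 / algebraMap 𝒪 L ϖ) := by
        rw [h1]
        exact y.2
      have h3 := red_step hϖ hred hqm hqs hqα' htop h2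
      refine ⟨⟨_, h3⟩, hinjC ?_⟩
      rw [map_mul, ← IsScalarTower.algebraMap_apply 𝒪 C L]
      change algebraMap C L x = algebraMap 𝒪 L ϖ * (algebraMap C L x / algebraMap 𝒪 L ϖ)
      field_simp
    have hEC : ∀ β ∈ E, β ∈ EtGen C Ω := by
      intro β hβ
      obtain ⟨r, hrm, hrs, hrβ⟩ := hE β (Finset.mem_insert_of_mem hβ)
      refine ⟨r.map (algebraMap 𝒪 C), hrm.map _, hrs.map, ?_⟩
      rw [aeval_map_algebraMap]
      exact hrβ
    have hsL : s ∈ IntermediateField.adjoin L (E : Set Ω) := by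
      rw [Finset.coe_insert, Set.insert_eq, ← IntermediateField.adjoin_adjoin_left] at hsE
      exact hsE
    have hϖΩ : algebraMap C Ω (algebraMap 𝒪 C ϖ) = algebraMap 𝒪 Ω ϖ :=
      (IsScalarTower.algebraMap_apply 𝒪 C Ω ϖ).symm
    have hsC : IsIntegral C (s ^ 2 / algebraMap C Ω (algebraMap 𝒪 C ϖ)) := by
      rw [hϖΩ]
      exact hs.tower_top
    have h := ih C L (algebraMap 𝒪 C ϖ) hϖC hredC hEC s hsL hsC
    rw [hϖΩ] at h
    have : Algebra.IsIntegral 𝒪 C := integralClosure.AlgebraIsIntegral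
    exact isIntegral_trans _ h

/-- (UNR) for towers. -/
theorem red_tower {𝒪 : Type u} {K : Type u} {Ω : Type u} [CommRing 𝒪] [IsDomain 𝒪]
    [IsIntegrallyClosed 𝒪] [Field K] [CharZero K] [Algebra 𝒪 K] [IsFractionRing 𝒪 K] [Field Ω]
    [Algebra K Ω] [Algebra 𝒪 Ω] [IsScalarTower 𝒪 K Ω] {ϖ : 𝒪} (hϖ : ϖ ≠ 0)
    (hred : ∀ x : 𝒪, ϖ ∣ x ^ 2 → ϖ ∣ x) {s : Ω}
    (hsE : s ∈ IntermediateField.adjoin K (EtGen 𝒪 Ω))
    (hs : IsIntegral 𝒪 (s ^ 2 / algebraMap 𝒪 Ω ϖ)) :
    IsIntegral 𝒪 (s / algebraMap 𝒪 Ω ϖ) := by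
  classical
  obtain ⟨T, hT, hsT⟩ := IntermediateField.exists_finset_of_mem_adjoin hsE
  exact red_finset T 𝒪 K ϖ hϖ hred (fun α hα => hT hα) s hsT hs

end Vale.Agent.P292
end

section

/-! Theorem E, section 8: reducedness. See `PROOF.md`. -/

namespace Vale.Agent.P292

open Module Polynomial

universe u v

variable {R : Type u} [CommRing R]

end Vale.Agent.P292
end

section

/-! Theorem E without (SC) and without factoriality, group U: the good pure point with values in a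
discrete valuation ring. See `E/PROOF_SC.md`, (B0). -/

namespace Vale.Agent.P292

open Module

universe u v

variable {R : Type u} [CommRing R] [Algebra ℂ R] {𝒜 : ℕ → Submodule ℂ R} [GradedAlgebra 𝒜]
  {P : R →ₗ[ℂ] R →ₗ[ℂ] R} {H : R} {a : ℤ} {n : ℕ}

open IsDiscreteValuationRing in
/-- The closed point below a homogeneous valuation: if `v(ν r) ≥ (p / k₀) k` for all `r` of
degree `k`, with equality for `g` of degree `k₀`, then there is a closed point which does not
kill `g` and kills all `r` of degree `k` with `v(ν r) > (p / k₀) k`. -/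
theorem exists_closed_of_slope (hX : IsContactFano 𝒜 P) {V : Type v} [CommRing V] [IsDomain V]
    [IsDiscreteValuationRing V] [Algebra ℂ V] (ν : R →ₐ[ℂ] V) (p k₀ : ℕ) (hk₀ : 0 < k₀)
    (hb : ∀ k, ∀ r ∈ 𝒜 k, ((p * k : ℕ) : ℕ∞) ≤ (k₀ : ℕ∞) * addVal V (ν r))
    (g : R) (hg : g ∈ 𝒜 k₀) (hgp : addVal V (ν g) = p) :
    ∃ z : R →ₐ[ℂ] ℂ, z g ≠ 0 ∧ ∀ k, ∀ r ∈ 𝒜 k, z r ≠ 0 →
      (k₀ : ℕ∞) * addVal V (ν r) = ((p * k : ℕ) : ℕ∞) := by
  classical
  have hk₀' : (k₀ : ℕ∞) ≠ 0 := by exact_mod_cast hk₀.ne'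
  let N : ℕ → Set R := fun k => {x | ((p * k : ℕ) : ℕ∞) < (k₀ : ℕ∞) * addVal V (ν x)}
  have hNdef : ∀ k x, x ∈ N k ↔ ((p * k : ℕ) : ℕ∞) < (k₀ : ℕ∞) * addVal V (ν x) :=
    fun k x => Iff.rfl
  have hN0 : ∀ k, (0 : R) ∈ N k := by
    intro k
    rw [hNdef, map_zero, addVal_zero, ENat.mul_top hk₀']
    exact ENat.natCast_lt_top _
  have hNadd : ∀ k x y, x ∈ N k → y ∈ N k → x + y ∈ N k := by
    intro k x y hx hy
    rw [hNdef] at *
    rw [map_add]
    refine lt_of_lt_of_le ?_ (mul_le_mul_right addVal_add _)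
    rcases min_choice (addVal V (ν x)) (addVal V (ν y)) with h | h <;> rw [h]
    · exact hx
    · exact hy
  have hNmul : ∀ i j x y, x ∈ 𝒜 i → y ∈ N j → x * y ∈ N (i + j) := by
    intro i j x y hx hy
    rw [hNdef] at *
    rw [map_mul, addVal_mul, mul_add, mul_add, Nat.cast_add]
    exact WithTop.add_lt_add_of_le_of_lt (ENat.natCast_ne_top _) (hb i x hx) hy
  let I : Ideal R :=
    { carrier := {r | ∀ k, (DirectSum.decompose 𝒜 r k : R) ∈ N k}
      add_mem' := fun {r s} hr hs k => by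
        rw [DirectSum.decompose_add, DirectSum.add_apply, Submodule.coe_add]
        exact hNadd k _ _ (hr k) (hs k)
      zero_mem' := fun k => by
        rw [DirectSum.decompose_zero, DirectSum.zero_apply, Submodule.coe_zero]
        exact hN0 k
      smul_mem' := fun c r hr => by
        rw [smul_eq_mul]
        induction c using DirectSum.Decomposition.inductionOn 𝒜 with
        | zero =>
          intro k
          rw [zero_mul, DirectSum.decompose_zero, DirectSum.zero_apply, Submodule.coe_zero]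
          exact hN0 k
        | @homogeneous i c =>
          intro k
          rw [DirectSum.coe_decompose_mul_of_left_mem 𝒜 k c.2]
          split_ifs with h
          · have h1 := hNmul i (k - i) c _ c.2 (hr (k - i))
            rwa [Nat.add_sub_cancel' h] at h1
          · exact hN0 k
        | add c d hc hd =>
          intro k
          rw [add_mul, DirectSum.decompose_add, DirectSum.add_apply, Submodule.coe_add]
          exact hNadd k _ _ (hc k) (hd k) }
  have hI : ∀ r, r ∈ I ↔ ∀ k, (DirectSum.decompose 𝒜 r k : R) ∈ N k := fun r => Iff.rfl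
  have hIhom : ∀ k, ∀ r ∈ 𝒜 k, (r ∈ I ↔ r ∈ N k) := by
    intro k r hr
    rw [hI]
    constructor
    · intro h
      have h1 := h k
      rwa [DirectSum.decompose_of_mem_same 𝒜 hr] at h1
    · intro h l
      by_cases hkl : k = l
      · subst hkl
        rwa [DirectSum.decompose_of_mem_same 𝒜 hr]
      · rw [DirectSum.decompose_of_mem_ne 𝒜 hr hkl]
        exact hN0 l
  have hgI : g ∉ I := by
    rw [hIhom k₀ g hg, hNdef, hgp, mul_comm p k₀, Nat.cast_mul]
    exact lt_irrefl _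
  have hIH : I.IsHomogeneous 𝒜 := by
    intro i r hr
    exact (hIhom i _ (DirectSum.decompose 𝒜 r i).2).2 (hr i)
  have hIprime : I.IsPrime := by
    refine hIH.isPrime_of_homogeneous_mem_or_mem (fun h => hgI (h ▸ Submodule.mem_top)) ?_
    rintro x y ⟨i, hx⟩ ⟨j, hy⟩ hxy
    rw [hIhom (i + j) _ (SetLike.GradedMul.mul_mem hx hy), hNdef, map_mul, addVal_mul,
      mul_add, mul_add, Nat.cast_add] at hxy
    rw [hIhom i x hx, hIhom j y hy, hNdef, hNdef]
    by_contra hcon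
    push Not at hcon
    exact absurd (add_le_add hcon.1 hcon.2) (not_le.2 hxy)
  obtain ⟨z, hz, hzg⟩ := exists_closed_of_prime hX I
    (fun r m hm => hIprime.mem_of_pow_mem m hm) g hgI
  refine ⟨z, hzg, fun k r hr hzr => ?_⟩
  by_contra hne
  refine hzr (hz r ((hIhom k r hr).2 ?_))
  rw [hNdef]
  exact lt_of_le_of_ne (hb k r hr) (Ne.symm hne)

open IsDiscreteValuationRing in
/-- Let `φ : R → V` be a point with values in a discrete valuation ring, not the vertex on `A₊`.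
Then there is a scaled pure point `x`, `x c = θ^k φ c` for `c` of degree `k` in `A₊`, still with
values in `V`, whose reduction is not the vertex. -/
theorem Ctx.exists_scaled_point (C : Ctx 𝒜 P H a) {V : Type v} [CommRing V] [IsDomain V]
    [IsDiscreteValuationRing V] [Algebra ℂ V] (φ : R →ₐ[ℂ] V) (hφ : NV 𝒜 P H a φ)
    (K : Type v) [Field K] [Algebra V K] [IsFractionRing V K] :
    ∃ (θ : K) (x : R →ₐ[ℂ] V), θ ≠ 0 ∧ PureA 𝒜 P H a x ∧
      (∀ k : ℕ, ∀ c ∈ Wt 𝒜 P H k (a * k), algebraMap V K (x c) = θ ^ k * algebraMap V K (φ c)) ∧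
      ∃ k : ℕ, 0 < k ∧ ∃ c ∈ Wt 𝒜 P H k (a * k), IsUnit (x c) := by
  classical
  obtain ⟨ν, hν, hνφ⟩ := C.exists_pure φ
  obtain ⟨s, hs, hg⟩ := exists_Wt_generators C.hX C.hH
  choose! hg0 D M hD hDM using hg
  -- some generator is not killed
  have hex : ∃ g ∈ s, ν g ≠ 0 := by
    by_contra hcon
    push Not at hcon
    obtain ⟨k, hk, r, hr, hφr⟩ := hφ
    have := Wt_le_of_generators C.hX C.hH hs (fun g hg => ⟨D g, M g, hDM g hg⟩)
      (fun k m => if k = 0 then ⊤ else LinearMap.ker ν.toLinearMap) (by simp) (by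
        intro g hg k m _ l n r _ _
        by_cases h : k + l = 0
        · rw [if_pos h]; trivial
        · rw [if_neg h, LinearMap.mem_ker]
          change ν (g * r) = 0
          rw [map_mul, hcon g hg, zero_mul]) k _ hr
    rw [if_neg hk.ne', LinearMap.mem_ker] at this
    rw [← hνφ r (mem_Ap hr)] at hφr
    exact hφr this
  obtain ⟨π, hπ⟩ := IsDiscreteValuationRing.exists_irreducible V
  have hval : ∀ y : V, y ≠ 0 → ∃ (m : ℕ) (e : Vˣ), y = e * π ^ m ∧ addVal V y = m := by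
    intro y hy
    obtain ⟨m, e, he⟩ := eq_unit_mul_pow_irreducible hy hπ
    exact ⟨m, e, he, by rw [he, addVal_def' e hπ m]⟩
  choose! q e hqe hq using hval
  obtain ⟨g₀, hg₀, hmin⟩ := Finset.exists_min_image (s.filter fun t => ν t ≠ 0)
    (fun t => (q (ν t) : ℚ) / D t) (by
      obtain ⟨t, ht, ht'⟩ := hex
      exact ⟨t, Finset.mem_filter.mpr ⟨ht, ht'⟩⟩)
  rw [Finset.mem_filter] at hg₀
  obtain ⟨hg₀s, hg₀ν⟩ := hg₀
  have hk₀ : 0 < D g₀ := hD g₀ hg₀s
  obtain ⟨p, hp⟩ : ∃ p, p = q (ν g₀) := ⟨_, rfl⟩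
  have hgen : ∀ g ∈ s, ν g ≠ 0 → p * D g ≤ D g₀ * q (ν g) := by
    intro g hg hνg
    have h1 := hmin g (Finset.mem_filter.mpr ⟨hg, hνg⟩)
    have h2 : (0 : ℚ) < D g := by exact_mod_cast hD g hg
    have h3 : (0 : ℚ) < D g₀ := by exact_mod_cast hk₀
    rw [div_le_div_iff₀ h3 h2, ← hp, mul_comm (q (ν g) : ℚ)] at h1
    exact_mod_cast h1
  have hk₀' : ((D g₀ : ℕ) : ℕ∞) ≠ 0 := by exact_mod_cast hk₀.ne'
  -- the bound for weight vectors
  let Mk : ℕ → Submodule ℂ R := fun k =>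
    { carrier := {x | ((p * k : ℕ) : ℕ∞) ≤ (D g₀ : ℕ∞) * addVal V (ν x)}
      add_mem' := fun {x y} hx hy => by
        change _ ≤ (D g₀ : ℕ∞) * addVal V (ν (x + y))
        rw [map_add]
        refine le_trans ?_ (mul_le_mul_right addVal_add _)
        rcases min_choice (addVal V (ν x)) (addVal V (ν y)) with h | h <;> rw [h]
        · exact hx
        · exact hy
      zero_mem' := by
        change _ ≤ (D g₀ : ℕ∞) * addVal V (ν 0)
        rw [map_zero, addVal_zero, ENat.mul_top hk₀']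
        exact le_top
      smul_mem' := fun c x hx => by
        change _ ≤ (D g₀ : ℕ∞) * addVal V (ν (c • x))
        rw [map_smul, Algebra.smul_def, addVal_mul, mul_add]
        exact le_add_left hx }
  have hMk : ∀ k x, x ∈ Mk k ↔ ((p * k : ℕ) : ℕ∞) ≤ (D g₀ : ℕ∞) * addVal V (ν x) :=
    fun k x => Iff.rfl
  have hWt : ∀ (k : ℕ) (m : ℤ), Wt 𝒜 P H k m ≤ Mk k := by
    refine Wt_le_of_generators C.hX C.hH hs (fun g hg => ⟨D g, M g, hDM g hg⟩)
      (fun k _ => Mk k) ?_ ?_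
    · rw [hMk, mul_zero, Nat.cast_zero]
      exact bot_le
    · intro g hg k m hgkm l n r hr _
      have h1 : k = D g := (Wt_unique (hg0 g hg) hgkm (hDM g hg)).1
      rw [hMk] at hr ⊢
      rw [map_mul, addVal_mul, mul_add, mul_add, Nat.cast_add]
      refine add_le_add ?_ hr
      by_cases hνg : ν g = 0
      · rw [hνg, addVal_zero, ENat.mul_top hk₀']
        exact le_top
      · rw [hq _ hνg, h1]
        exact_mod_cast hgen g hg hνg
  have hb : ∀ k, ∀ r ∈ 𝒜 k, ((p * k : ℕ) : ℕ∞) ≤ (D g₀ : ℕ∞) * addVal V (ν r) := by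
    intro k r hr
    exact (iSup_le fun m => hWt k m : (⨆ m, Wt 𝒜 P H k m) ≤ Mk k) (C.hH.weights k hr)
  have hp' : addVal V (ν g₀) = p := by rw [hq _ hg₀ν, hp]
  obtain ⟨z, hzg, hz⟩ := exists_closed_of_slope C.hX ν p (D g₀) hk₀ hb g₀
    (mem_Wt.1 (hDM g₀ hg₀s)).1 hp'
  -- integrality of the slope
  have hdvd : D g₀ ∣ p := by
    have hG0 : 0 < Nat.gcd (D g₀) p := Nat.gcd_pos_of_pos_left _ hk₀
    obtain ⟨N, hN⟩ : Nat.gcd (D g₀) p ∣ D g₀ := Nat.gcd_dvd_left _ _
    have hN1 : N = 1 := by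
      refine C.hX.lineBundle z (fun h => hzg (h (D g₀) hk₀ g₀ (mem_Wt.1 (hDM g₀ hg₀s)).1)) N
        fun k r hr hzr => ?_
      have h1 := hz k r hr hzr
      have h2 : ν r ≠ 0 := by
        intro h
        rw [h, addVal_zero, ENat.mul_top hk₀'] at h1
        exact ENat.top_ne_natCast _ h1
      rw [hq _ h2] at h1
      have h3 : D g₀ * q (ν r) = p * k := by exact_mod_cast h1
      have h4 : D g₀ ∣ Nat.gcd (D g₀) p * k := by
        rw [← Nat.gcd_mul_right]
        exact Nat.dvd_gcd (Nat.dvd_mul_right _ k) ⟨_, h3.symm⟩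
      have h5 : Nat.gcd (D g₀) p * N ∣ Nat.gcd (D g₀) p * k := by
        rwa [← hN]
      exact Nat.dvd_of_mul_dvd_mul_left hG0 h5
    rw [hN1, mul_one] at hN
    rw [hN]
    exact Nat.gcd_dvd_right _ _
  obtain ⟨w, hw⟩ := hdvd
  have hdiv : ∀ k, ∀ r ∈ 𝒜 k, π ^ (w * k) ∣ ν r := by
    intro k r hr
    by_cases h : ν r = 0
    · rw [h]; exact dvd_zero _
    have h1 := hb k r hr
    rw [hq _ h, hw] at h1
    have h2 : D g₀ * (w * k) ≤ D g₀ * q (ν r) := by
      rw [← mul_assoc]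
      exact_mod_cast h1
    have h3 : w * k ≤ q (ν r) := Nat.le_of_mul_le_mul_left h2 hk₀
    rw [hqe _ h]
    exact Dvd.dvd.mul_left (pow_dvd_pow _ h3) _
  -- the point in `K`
  let inst : Algebra ℂ K := ((algebraMap V K).comp (algebraMap ℂ V)).toAlgebra
  have inst2 : IsScalarTower ℂ V K := IsScalarTower.of_algebraMap_eq fun _ => rfl
  have hinj : Function.Injective (algebraMap V K) := IsFractionRing.injective V K
  have hπ0 : algebraMap V K π ≠ 0 := fun h => hπ.ne_zero (hinj (by rw [h, map_zero]))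
  let ι : V →ₐ[ℂ] K := IsScalarTower.toAlgHom ℂ V K
  have hι : ∀ y, ι y = algebraMap V K y := fun _ => rfl
  obtain ⟨θ, hθ⟩ : ∃ θ : K, θ = ((algebraMap V K π) ^ w)⁻¹ := ⟨_, rfl⟩
  have hθ0 : θ ≠ 0 := by
    rw [hθ]
    exact inv_ne_zero (pow_ne_zero _ hπ0)
  have hθk : ∀ (k : ℕ) (y : V), θ ^ k * algebraMap V K (π ^ (w * k) * y) = algebraMap V K y := by
    intro k y
    rw [hθ, map_mul, map_pow, pow_mul, inv_pow, inv_mul_cancel_left₀]
    exact pow_ne_zero _ (pow_ne_zero _ hπ0)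
  obtain ⟨xK, hxK⟩ := exists_twist C.hX C.hH (ι.comp ν) (fun k _ => θ ^ k) (pow_zero _)
    (fun k l _ _ _ _ => pow_add θ k l)
  have hmem : ∀ r, xK r ∈ ι.range := by
    intro r
    refine Wt_induction C.hH (p := fun r => xK r ∈ ι.range) ?_ ?_ ?_ r
    · intro r s hr hs
      rw [map_add]
      exact add_mem hr hs
    · rw [map_zero]
      exact zero_mem _
    · intro k m r hr
      obtain ⟨y, hy⟩ := hdiv k r (mem_Wt.1 hr).1
      refine ⟨y, ?_⟩
      rw [hxK k m r hr, AlgHom.comp_apply]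
      change ι y = θ ^ k * algebraMap V K (ν r)
      rw [hy, hθk]
      rfl
  let x : R →ₐ[ℂ] V := ((AlgEquiv.ofInjective ι hinj).symm : ι.range →ₐ[ℂ] V).comp
    (xK.codRestrict ι.range hmem)
  have hx : ∀ r, algebraMap V K (x r) = xK r := by
    intro r
    change ((AlgEquiv.ofInjective ι hinj) ((AlgEquiv.ofInjective ι hinj).symm
      (xK.codRestrict ι.range hmem r)) : K) = xK r
    rw [AlgEquiv.apply_symm_apply]
    rfl
  have hxW : ∀ k m, ∀ r ∈ Wt 𝒜 P H k m, algebraMap V K (x r) = θ ^ k * algebraMap V K (ν r) := by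
    intro k m r hr
    rw [hx, hxK k m r hr]
    rfl
  refine ⟨θ, x, hθ0, ?_, ?_, D g₀, hk₀, g₀, ?_, ?_⟩
  · intro k m hm r hr
    apply hinj
    rw [hxW k m r hr, hν k m hm r hr, map_zero, mul_zero]
  · intro k c hc
    rw [hxW k _ c hc, hνφ c (mem_Ap hc)]
  · have h1 : M g₀ = a * D g₀ := by
      by_contra h
      exact hg₀ν (hν _ _ h g₀ (hDM g₀ hg₀s))
    have h2 := hDM g₀ hg₀s
    rwa [h1] at h2
  · obtain ⟨e₀, he₀⟩ : ∃ e₀ : Vˣ, ν g₀ = π ^ (w * D g₀) * e₀ := ⟨e (ν g₀), by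
      conv_lhs => rw [hqe _ hg₀ν, ← hp, hw, mul_comm (D g₀) w, mul_comm]⟩
    have h1 : x g₀ = e₀ := by
      apply hinj
      rw [hxW _ _ g₀ (hDM g₀ hg₀s), he₀, hθk]
    rw [h1]
    exact e₀.isUnit

end Vale.Agent.P292
end

section

/-! Theorem E, general algebra: (P2). See `PROOF.md`. -/

namespace Vale.Agent.P292

open Module Polynomial

universe u v w

section

variable {κ : Type u} {Ω : Type v} [Field κ] [Field Ω] [Algebra κ Ω]

lemma al1_mul (E : Derivation κ Ω Ω) {a b α β : Ω} (ha : E a = α * a) (hb : E b = β * b) :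
    E (a * b) = (α + β) * (a * b) := by
  rw [Derivation.leibniz, ha, hb, smul_eq_mul, smul_eq_mul]
  ring

lemma al1_pow (E : Derivation κ Ω Ω) {f α : Ω} (hf : E f = α * f) (i : ℕ) :
    E (f ^ i) = (i * α) * f ^ i := by
  induction i with
  | zero => simp
  | succ i ih =>
    rw [pow_succ, al1_mul E ih hf]
    push_cast
    ring

/-- Elements of the subalgebra are sums of eigenvectors with eigenvalues in `ℕ`. -/
lemma al1_lift {σ : Type*} (u : σ → Ω) (E : Derivation κ Ω Ω) (hE : ∀ i, E (u i) = u i) {c : Ω}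
    (hc : c ∈ Algebra.adjoin κ (Set.range u)) :
    ∃ P : Polynomial Ω, P.eval 1 = c ∧ (∀ j, E (P.coeff j) = (j : Ω) * P.coeff j) ∧
      P.coeff 0 ∈ (algebraMap κ Ω).range := by
  induction hc using Algebra.adjoin_induction with
  | mem x hx =>
    obtain ⟨i, rfl⟩ := hx
    refine ⟨C (u i) * X, by simp, fun j => ?_, ⟨0, by simp⟩⟩
    rcases eq_or_ne j 1 with rfl | hj
    · simp [hE]
    · have : (C (u i) * X).coeff j = 0 := by
        rw [coeff_C_mul, coeff_X_of_ne_one hj, mul_zero]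
      rw [this]
      simp
  | algebraMap r =>
    refine ⟨C (algebraMap κ Ω r), by simp, fun j => ?_, ⟨r, by simp⟩⟩
    rcases eq_or_ne j 0 with rfl | hj
    · simp
    · rw [coeff_C_of_ne_zero hj]
      simp
  | add x y _ _ hx hy =>
    obtain ⟨P, hP1, hP2, hP3⟩ := hx
    obtain ⟨Q, hQ1, hQ2, hQ3⟩ := hy
    refine ⟨P + Q, by rw [eval_add, hP1, hQ1], fun j => ?_, ?_⟩
    · rw [coeff_add, map_add, hP2, hQ2]
      ring
    · rw [coeff_add]
      exact Subring.add_mem _ hP3 hQ3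
  | mul x y _ _ hx hy =>
    obtain ⟨P, hP1, hP2, hP3⟩ := hx
    obtain ⟨Q, hQ1, hQ2, hQ3⟩ := hy
    refine ⟨P * Q, by rw [eval_mul, hP1, hQ1], fun j => ?_, ?_⟩
    · rw [coeff_mul, map_sum, Finset.mul_sum]
      refine Finset.sum_congr rfl fun x hx => ?_
      rw [al1_mul E (hP2 _) (hQ2 _), ← Finset.HasAntidiagonal.mem_antidiagonal.1 hx]
      push_cast
      ring
    · rw [mul_coeff_zero]
      exact Subring.mul_mem _ hP3 hQ3

/-- The homogeneous part of the equation. -/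
lemma al1_main [CharZero Ω] {σ : Type*} (u : σ → Ω) (E : Derivation κ Ω Ω)
    (hE : ∀ i, E (u i) = u i)
    {f : Ω} (hf : IsIntegral (Algebra.adjoin κ (Set.range u)) f) {q : ℚ} (hq : q ≤ 0)
    (hEf : E f = (q : Ω) * f) : ∃ (n : ℕ) (r : ℕ → κ),
      f ^ n + ∑ i ∈ Finset.range n, (if q = 0 then algebraMap κ Ω (r i) else 0) * f ^ i = 0 := by
  classical
  have hκ : CharZero κ := (algebraMap κ Ω).charZero
  obtain ⟨p, hp, hpf⟩ := hf
  set n := p.natDegree with hn
  choose P hP1 hP2 hP3 using fun i => al1_lift u E hE (p.coeff i).2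
  choose r hr using hP3
  refine ⟨n, r, ?_⟩
  set g : Ω := f ^ n + ∑ i ∈ Finset.range n,
    (if q = 0 then algebraMap κ Ω (r i) else 0) * f ^ i with hg
  -- the equation
  have heq : f ^ n + ∑ i ∈ Finset.range n, (P i).eval 1 * f ^ i = 0 := by
    rw [eval₂_eq_sum_range, Finset.sum_range_succ, ← hn] at hpf
    have h1 : p.coeff n = 1 := hp
    rw [h1, map_one, one_mul, add_comm] at hpf
    rw [← hpf]
    congr 1
    refine Finset.sum_congr rfl fun i _ => ?_
    rw [hP1]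
    rfl
  let F : End κ Ω := (E : Ω →ₗ[κ] Ω)
  have hmem : ∀ {x : Ω} {s : ℚ}, E x = (s : Ω) * x →
      x ∈ F.eigenspace (s : κ) := by
    intro x s hx
    rw [Module.End.mem_eigenspace_iff]
    rw [Algebra.smul_def, map_ratCast]
    exact hx
  have hpow : ∀ i : ℕ, E (f ^ i) = ((i * q : ℚ) : Ω) * f ^ i := by
    intro i
    rw [al1_pow E hEf]
    push_cast
    ring
  have hg1 : g ∈ F.eigenspace ((n * q : ℚ) : κ) := by
    rw [hg]
    refine Submodule.add_mem _ (hmem (hpow n)) (Submodule.sum_mem _ fun i _ => ?_)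
    split_ifs with h0
    · apply hmem
      rw [Derivation.leibniz, Derivation.map_algebraMap, hpow, h0]
      simp
    · rw [zero_mul]
      exact Submodule.zero_mem _
  have hg2 : g ∈ ⨆ μ ≠ ((n * q : ℚ) : κ), F.eigenspace μ := by
    have hle : ∀ {x : Ω} {s : ℚ}, s ≠ n * q → E x = (s : Ω) * x →
        x ∈ ⨆ μ ≠ ((n * q : ℚ) : κ), F.eigenspace μ := by
      intro x s hs hx
      have hs' : (s : κ) ≠ ((n * q : ℚ) : κ) := fun h => hs (Rat.cast_injective h)
      exact (le_iSup₂_of_le (f := fun μ (_ : μ ≠ ((n * q : ℚ) : κ)) =>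
        F.eigenspace μ) (s : κ) hs' le_rfl) (hmem hx)
    have h2 : g = -∑ i ∈ Finset.range n, ((P i).eval 1 -
        (if q = 0 then algebraMap κ Ω (r i) else 0)) * f ^ i := by
      rw [hg]
      simp only [sub_mul, Finset.sum_sub_distrib]
      linear_combination heq
    rw [h2]
    refine Submodule.neg_mem _ (Submodule.sum_mem _ fun i hi => ?_)
    have hi' : (i : ℚ) < n := by exact_mod_cast Finset.mem_range.1 hi
    rw [eval_eq_sum_range, Finset.sum_range_succ', add_sub_assoc, add_mul, Finset.sum_mul]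
    refine Submodule.add_mem _ (Submodule.sum_mem _ fun j _ => ?_) ?_
    · apply hle (s := (j + 1 : ℕ) + i * q)
      · intro h
        have : (j : ℚ) + 1 + i * q = n * q := by
          rw [← h]; push_cast; ring
        have h3 : (0 : ℚ) ≤ j := Nat.cast_nonneg j
        nlinarith
      · rw [one_pow, mul_one, al1_mul E (hP2 i (j + 1)) (hpow i)]
        push_cast
        ring
    · split_ifs with h0
      · rw [hr i]
        simp
      · apply hle (s := i * q)
        · intro h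
          have h3 : q < 0 := lt_of_le_of_ne hq h0
          nlinarith
        · rw [one_pow, mul_one, sub_zero, al1_mul E (hP2 i 0) (hpow i)]
          push_cast
          ring
  have hdis := Module.End.eigenspaces_iSupIndep F ((n * q : ℚ) : κ)
  exact Submodule.disjoint_def.1 hdis g hg1 hg2

end

/-- (P2) Integral eigenvectors of nonpositive weight of an Euler derivation. -/
theorem eq_zero_of_isIntegral_of_neg {κ : Type u} {Ω : Type v} [Field κ] [Field Ω] [CharZero Ω]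
    [Algebra κ Ω] {σ : Type*} (u : σ → Ω) (E : Derivation κ Ω Ω) (hE : ∀ i, E (u i) = u i)
    {f : Ω} (hf : IsIntegral (Algebra.adjoin κ (Set.range u)) f) {q : ℚ} (hq : q < 0)
    (hEf : E f = (q : Ω) * f) : f = 0 := by
  obtain ⟨n, r, h⟩ := al1_main u E hE hf hq.le hEf
  simp only [if_neg hq.ne, zero_mul, Finset.sum_const_zero, add_zero] at h
  exact eq_zero_of_pow_eq_zero h

theorem isAlgebraic_of_isIntegral_of_zero {κ : Type u} {Ω : Type v} [Field κ] [Field Ω]
    [CharZero Ω] [Algebra κ Ω] {σ : Type*} (u : σ → Ω) (E : Derivation κ Ω Ω)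
    (hE : ∀ i, E (u i) = u i) {f : Ω} (hf : IsIntegral (Algebra.adjoin κ (Set.range u)) f)
    (hEf : E f = 0) : IsAlgebraic κ f := by
  obtain ⟨n, r, h⟩ := al1_main u E hE hf (q := 0) le_rfl (by rw [hEf]; simp)
  simp only [if_true] at h
  refine ⟨X ^ n + ∑ i ∈ Finset.range n, C (r i) * X ^ i, ?_, ?_⟩
  · refine (monic_X_pow_add ?_).ne_zero
    rw [← mem_degreeLT]
    refine Submodule.sum_mem _ fun i hi => ?_
    rw [mem_degreeLT]
    exact (degree_C_mul_X_pow_le _ _).trans_lt (by exact_mod_cast Finset.mem_range.1 hi)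
  · simpa using h

end Vale.Agent.P292
end

section

/-! Theorem E, general algebra: (G). See `PROOF.md`. -/

namespace Vale.Agent.P292

open Module Polynomial

universe u v w

/-- (G), abstract form. -/
theorem al2_aux {A : Type*} {Ω : Type*} [CommRing A] [IsDomain A] [IsIntegrallyClosed A]
    [Field Ω] [Algebra A Ω] [FaithfulSMul A Ω] {a b : A} (ha : Prime a) (hab : ¬ a ∣ b)
    (N : ℕ) {f : Ω} (hi : IsIntegral A (a ^ N • f)) (hj : IsIntegral A (b ^ N • f)) :
    IsIntegral A f := by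
  have hb0 : b ≠ 0 := fun h => hab (h ▸ dvd_zero a)
  have haN : a ^ N ≠ 0 := pow_ne_zero N ha.ne_zero
  have hbN : b ^ N ≠ 0 := pow_ne_zero N hb0
  have h1 := IsIntegrallyClosed.minpoly_smul hbN hi
  have h2 := IsIntegrallyClosed.minpoly_smul haN hj
  rw [smul_comm, h2] at h1
  set p := minpoly A (a ^ N • f) with hp
  set q := minpoly A (b ^ N • f) with hq
  have hd : q.natDegree = p.natDegree := by
    rw [← natDegree_scaleRoots q (a ^ N), h1, natDegree_scaleRoots]
  have hmon : p.Monic := minpoly.monic hi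
  have hdvd : ∀ s, ∃ r, p.coeff s = (a ^ N) ^ (p.natDegree - s) * r := by
    intro s
    have h3 : q.coeff s * (a ^ N) ^ (p.natDegree - s) =
        p.coeff s * (b ^ N) ^ (p.natDegree - s) := by
      have h4 := congrArg (fun t => t.coeff s) h1
      simp only [coeff_scaleRoots] at h4
      rwa [hd] at h4
    have h5 : a ^ (N * (p.natDegree - s)) ∣ p.coeff s * (b ^ N) ^ (p.natDegree - s) := by
      rw [← h3, pow_mul]
      exact dvd_mul_left _ _
    have h6 : ¬ a ∣ (b ^ N) ^ (p.natDegree - s) := fun h => hab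
      (ha.dvd_of_dvd_pow (ha.dvd_of_dvd_pow h))
    have h7 := ha.pow_dvd_of_dvd_mul_right _ h6 h5
    rw [pow_mul] at h7
    exact h7
  choose r hr using hdvd
  set d := p.natDegree with hdd
  refine ⟨X ^ d + ∑ s : Fin d, C (r s) * X ^ (s : ℕ),
    monic_X_pow_add (degree_sum_fin_lt fun s : Fin d => r s), ?_⟩
  have h8 : aeval (a ^ N • f) p = 0 := minpoly.aeval A _
  have h9 : (a ^ N) ^ d • (f ^ d + ∑ s ∈ Finset.range d, r s • f ^ s) = 0 := by
    rw [aeval_eq_sum_range, ← hdd, Finset.sum_range_succ, hdd, hmon.coeff_natDegree, ← hdd,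
      one_smul] at h8
    rw [← h8, smul_add, add_comm, _root_.smul_pow, Finset.smul_sum]
    congr 1
    refine Finset.sum_congr rfl fun s hs => ?_
    rw [hr s, _root_.smul_pow, smul_smul, smul_smul]
    congr 1
    have hsd := (Finset.mem_range.1 hs).le
    calc (a ^ N) ^ d * r s = (a ^ N) ^ (d - s + s) * r s := by rw [Nat.sub_add_cancel hsd]
      _ = _ := by rw [pow_add]; ring
  have h10 : f ^ d + ∑ s ∈ Finset.range d, r s • f ^ s = 0 := by
    rw [Algebra.smul_def] at h9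
    refine (mul_eq_zero.1 h9).resolve_left fun h => ?_
    exact pow_ne_zero d haN ((FaithfulSMul.algebraMap_eq_zero_iff A Ω).1 h)
  rw [eval₂_add, eval₂_pow, eval₂_X, eval₂_finsetSum]
  rw [Finset.sum_range] at h10
  rw [← h10]
  congr 1
  refine Finset.sum_congr rfl fun s _ => ?_
  rw [eval₂_mul, eval₂_C, eval₂_pow, eval₂_X, Algebra.smul_def]

/-- (G) -/
theorem isIntegral_of_pow_mul {κ : Type u} {Ω : Type v} [Field κ] [Field Ω] [Algebra κ Ω]
    {σ : Type w} [Finite σ] (u : σ → Ω) (hu : AlgebraicIndependent κ u) {i j : σ} (hij : i ≠ j)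
    (N : ℕ) {f : Ω} (hi : IsIntegral (Algebra.adjoin κ (Set.range u)) (u i ^ N * f))
    (hj : IsIntegral (Algebra.adjoin κ (Set.range u)) (u j ^ N * f)) :
    IsIntegral (Algebra.adjoin κ (Set.range u)) f := by
  have : IsIntegrallyClosed (Algebra.adjoin κ (Set.range u)) :=
    IsIntegrallyClosed.of_equiv hu.aevalEquiv.toRingEquiv
  have hc : ∀ l, ((hu.aevalEquiv (MvPolynomial.X l) : Algebra.adjoin κ (Set.range u)) : Ω) =
      u l := by
    intro l
    have h1 := hu.algebraMap_aevalEquiv (MvPolynomial.X l)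
    rw [MvPolynomial.aeval_X] at h1
    exact h1
  have hp : Prime (hu.aevalEquiv (MvPolynomial.X i)) :=
    (MulEquiv.prime_iff hu.aevalEquiv).2 MvPolynomial.X_prime
  have hd : ¬ hu.aevalEquiv (MvPolynomial.X i) ∣ hu.aevalEquiv (MvPolynomial.X j) := by
    rw [map_dvd_iff, MvPolynomial.X_dvd_X]
    exact hij
  refine al2_aux hp hd N ?_ ?_
  · rw [Algebra.smul_def, map_pow]
    change IsIntegral _ ((hu.aevalEquiv (MvPolynomial.X i) : Ω) ^ N * f)
    rw [hc]
    exact hi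
  · rw [Algebra.smul_def, map_pow]
    change IsIntegral _ ((hu.aevalEquiv (MvPolynomial.X j) : Ω) ^ N * f)
    rw [hc]
    exact hj

end Vale.Agent.P292
end

section

/-! Theorem E, section 8: Bezout. See `PROOF.md`. -/

namespace Vale.Agent.P292

open Module Polynomial

universe u v

variable {R : Type u} [CommRing R] [Algebra ℂ R] {𝒜 : ℕ → Submodule ℂ R} [GradedAlgebra 𝒜]
  {P : R →ₗ[ℂ] R →ₗ[ℂ] R} {H : R} {a : ℤ} {n : ℕ}

end Vale.Agent.P292
end

section

/-! Theorem E, section 8: finite unramified extensions are trivial. See `PROOF.md`. -/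

namespace Vale.Agent.P292

open Module Polynomial

universe u v

variable {R : Type u} [CommRing R] [Algebra ℂ R]

end Vale.Agent.P292
end

section

/-! Theorem E, section 4: frames are algebraically independent. See `PROOF.md`. -/

namespace Vale.Agent.P292

open Module

universe u v

variable {R : Type u} [CommRing R] [Algebra ℂ R] {𝒜 : ℕ → Submodule ℂ R} [GradedAlgebra 𝒜]
  {P : R →ₗ[ℂ] R →ₗ[ℂ] R} {H : R} {a : ℤ} {n : ℕ}

/-- The chain rule for the bracket. -/
lemma di2_chain (hX : IsContactFano 𝒜 P) (b : Fin n → R) (r : R)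
    (q : MvPolynomial (Fin n) ℂ) :
    P (MvPolynomial.aeval b q) r =
      ∑ i, MvPolynomial.aeval b (MvPolynomial.pderiv i q) * P (b i) r := by
  induction q using MvPolynomial.induction_on with
  | C c =>
    simp [hX.P_algebraMap_left]
  | add p q hp hq =>
    simp only [map_add, LinearMap.add_apply, hp, hq, add_mul, Finset.sum_add_distrib]
  | mul_X p j hp =>
    rw [map_mul, MvPolynomial.aeval_X, hX.leibniz_left, hp]
    have h : ∀ i, MvPolynomial.aeval b (MvPolynomial.pderiv i (p * MvPolynomial.X j)) *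
        P (b i) r = (if i = j then MvPolynomial.aeval b p * P (b i) r else 0) +
          b j * (MvPolynomial.aeval b (MvPolynomial.pderiv i p) * P (b i) r) := by
      intro i
      rw [MvPolynomial.pderiv_mul, map_add, map_mul, map_mul, MvPolynomial.aeval_X]
      by_cases hij : i = j
      · subst hij
        rw [MvPolynomial.pderiv_X_self]
        simp only [map_one, if_true]
        ring
      · rw [MvPolynomial.pderiv_X_of_ne (Ne.symm hij)]
        simp only [map_zero, if_neg hij]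
        ring
    simp only [h, Finset.sum_add_distrib, Finset.sum_ite_eq', Finset.mem_univ, if_true,
      ← Finset.mul_sum]

/-- In characteristic zero a polynomial without partial derivatives is constant. -/
lemma di2_const (q : MvPolynomial (Fin n) ℂ) (h : ∀ i, MvPolynomial.pderiv i q = 0) :
    q = MvPolynomial.C (MvPolynomial.coeff 0 q) := by
  classical
  ext m
  rw [MvPolynomial.coeff_C]
  split_ifs with hm
  · rw [hm]
  · obtain ⟨i, hi⟩ : ∃ i, m i ≠ 0 := by
      by_contra hc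
      push Not at hc
      exact hm (Finsupp.ext fun i => by simpa using (hc i)).symm
    have h1 : m = (m - Finsupp.single i 1) + Finsupp.single i 1 := by
      refine (tsub_add_cancel_of_le ?_).symm
      rw [Finsupp.single_le_iff]
      omega
    have h2 := congrArg (MvPolynomial.coeff (m - Finsupp.single i 1)) (h i)
    rw [MvPolynomial.coeff_pderiv, ← h1, MvPolynomial.coeff_zero] at h2
    rcases mul_eq_zero.mp h2 with h3 | h3
    · exact h3
    · exact absurd h3 (Nat.cast_add_one_ne_zero _)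

lemma di2_degree (q : MvPolynomial (Fin n) ℂ) (d : ℕ) (h : q.totalDegree ≤ d + 1)
    (i : Fin n) : (MvPolynomial.pderiv i q).totalDegree ≤ d := by
  refine Finset.sup_le fun m hm => ?_
  rw [MvPolynomial.mem_support_iff, MvPolynomial.coeff_pderiv] at hm
  have h1 := MvPolynomial.le_totalDegree (MvPolynomial.mem_support_iff.mpr (left_ne_zero_of_mul hm))
  rw [Finsupp.sum_add_index' (fun _ => rfl) (fun _ _ _ => rfl), Finsupp.sum_single_index rfl] at h1
  omega

lemma di2_main (hX : IsContactFano 𝒜 P) (f : Frame 𝒜 P H a n) (hΔ : f.Δ ≠ 0) (d : ℕ) :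
    ∀ q : MvPolynomial (Fin n) ℂ, q.totalDegree ≤ d → MvPolynomial.aeval f.b q = 0 → q = 0 := by
  have := hX.domain
  have hc : ∀ q : MvPolynomial (Fin n) ℂ, (∀ i, MvPolynomial.pderiv i q = 0) →
      MvPolynomial.aeval f.b q = 0 → q = 0 := by
    intro q h1 h2
    have h3 := di2_const q h1
    rw [h3, MvPolynomial.aeval_C] at h2
    have h4 : MvPolynomial.coeff 0 q = 0 :=
      (map_eq_zero_iff _ (algebraMap ℂ R).injective).mp h2
    rw [h3, h4, map_zero]
  have key : ∀ q : MvPolynomial (Fin n) ℂ, MvPolynomial.aeval f.b q = 0 →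
      ∀ i, MvPolynomial.aeval f.b (MvPolynomial.pderiv i q) = 0 := by
    intro q hq
    have hv : Matrix.vecMul (fun i => MvPolynomial.aeval f.b (MvPolynomial.pderiv i q)) f.mat
        = 0 := by
      funext j
      have h := di2_chain hX f.b (f.r j) q
      rw [hq, map_zero, LinearMap.zero_apply] at h
      simpa [Matrix.vecMul, dotProduct, Frame.mat] using h.symm
    exact fun i => congrFun (Matrix.eq_zero_of_vecMul_eq_zero hΔ hv) i
  induction d with
  | zero =>
    intro q hd hq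
    refine hc q (fun i => ?_) hq
    rw [MvPolynomial.totalDegree_eq_zero_iff_eq_C.mp (Nat.le_zero.mp hd), MvPolynomial.pderiv_C]
  | succ d ih =>
    intro q hd hq
    exact hc q (fun i => ih _ (di2_degree q d hd i) (key q hq i)) hq

/-- A frame with nonzero determinant consists of algebraically independent elements. -/
theorem Ctx.frame_indep (C : Ctx 𝒜 P H a) (f : Frame 𝒜 P H a n) (hΔ : f.Δ ≠ 0) :
    AlgebraicIndependent ℂ f.b := by
  rw [algebraicIndependent_iff]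
  intro q hq
  exact di2_main C.hX f hΔ q.totalDegree q le_rfl hq

end Vale.Agent.P292
end

section

/-! Group T: dual bases at a nonvertex point. -/

namespace Vale.Agent.P292

open Module

universe u v

namespace T3A

/-- Linear algebra: a bilinear form whose right radical is a subspace `N` of finite codimension
has dual families; they are dual to each other. -/
theorem exists_dual_families' {U : Type*} [AddCommGroup U] [Module ℂ U]
    (β : U →ₗ[ℂ] U →ₗ[ℂ] ℂ) (N : Submodule ℂ U) [FiniteDimensional ℂ (U ⧸ N)]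
    (h1 : ∀ v, ∀ u ∈ N, β v u = 0) (h2 : ∀ u, (∀ v, β v u = 0) → u ∈ N) :
    ∃ (n : ℕ) (x y : Fin n → U), (∀ i j, β (y i) (x j) = if i = j then 1 else 0) ∧
      ∀ u, u - ∑ i, β (y i) u • x i ∈ N := by
  classical
  let W := U ⧸ N
  let φ : U →ₗ[ℂ] Dual ℂ W :=
    { toFun := fun v => N.liftQ (β v) (fun u hu => h1 v u hu)
      map_add' := fun v w => by
        apply Submodule.linearMap_qext
        ext u
        change β (v + w) u = β v u + β w u
        rw [map_add]; rfl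
      map_smul' := fun c v => by
        apply Submodule.linearMap_qext
        ext u
        change β (c • v) u = c • β v u
        rw [map_smul]; rfl }
  have hφ : ∀ v u, φ v (N.mkQ u) = β v u := fun v u => rfl
  have hsurj : LinearMap.range φ = ⊤ := by
    by_contra hne
    obtain ⟨f, hf0, hf⟩ := Submodule.exists_le_ker_of_lt_top _ (lt_top_iff_ne_top.mpr hne)
    obtain ⟨w, hw⟩ := (Module.evalEquiv ℂ W).surjective f
    obtain ⟨u, rfl⟩ := N.mkQ_surjective w
    have h3 : u ∈ N := by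
      apply h2
      intro v
      have h4 : f (φ v) = 0 := hf ⟨v, rfl⟩
      rw [← hw] at h4
      exact h4
    apply hf0
    have h5 : N.mkQ u = 0 := by
      rwa [Submodule.mkQ_apply, Submodule.Quotient.mk_eq_zero]
    rw [← hw, h5, map_zero]
  let b := Module.finBasis ℂ W
  have hy : ∀ i, ∃ y : U, φ y = b.coord i := fun i => by
    have : b.coord i ∈ LinearMap.range φ := by rw [hsurj]; trivial
    exact this
  choose y hy using hy
  have hx : ∀ i, ∃ x : U, N.mkQ x = b i := fun i => N.mkQ_surjective (b i)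
  choose x hx using hx
  refine ⟨_, x, y, fun i j => ?_, fun u => ?_⟩
  · rw [← hφ, hy, hx, Basis.coord_apply, b.repr_self, Finsupp.single_apply]
    by_cases hij : i = j
    · rw [if_pos hij, if_pos hij.symm]
    · rw [if_neg hij, if_neg (Ne.symm hij)]
  · rw [← Submodule.Quotient.mk_eq_zero, ← Submodule.mkQ_apply, map_sub, map_sum, sub_eq_zero]
    conv_lhs => rw [← b.sum_repr (N.mkQ u)]
    refine Finset.sum_congr rfl fun i _ => ?_
    rw [map_smul, hx, ← hφ, hy]
    rfl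

end T3A

variable {R : Type u} [CommRing R] [Algebra ℂ R] {𝒜 : ℕ → Submodule ℂ R} [GradedAlgebra 𝒜]
  {P : R →ₗ[ℂ] R →ₗ[ℂ] R}

/-- Dual bases at a nonvertex point. -/
theorem exists_dual_bases_at (hX : IsContactFano 𝒜 P) {p : R →ₐ[ℂ] ℂ} (hp : ¬ IsVertex 𝒜 p) :
    ∃ (N : ℕ) (x y : Fin N → R), (∀ i, p (x i) = 0) ∧
      (∀ i j, p (P (y i) (x j)) = if i = j then 1 else 0) ∧
      ∀ u, p u = 0 → u - ∑ i, p (P (y i) u) • x i ∈ RingHom.ker p ^ 2 := by
  classical
  have := hX.finiteType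
  have := finiteDimensional_quotient_constSq p
  let β : R →ₗ[ℂ] R →ₗ[ℂ] ℂ := P.compr₂ p.toLinearMap
  have hβ : ∀ v u, β v u = p (P v u) := fun v u => rfl
  obtain ⟨n, x, y, hdual, hxy⟩ := T3A.exists_dual_families' β (constSq p) (by
    intro v u hu
    rw [mem_constSq] at hu
    have h1 : u = (u - algebraMap ℂ R (p u)) + algebraMap ℂ R (p u) := by ring
    rw [hβ, h1, map_add, hX.P_algebraMap_right, add_zero]
    refine Submodule.mul_induction_on (C := fun z => p (P v z) = 0) (by rwa [sq] at hu) ?_ ?_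
    · intro a ha b hb
      have ha' : p a = 0 := ha
      have hb' : p b = 0 := hb
      rw [hX.leibniz, map_add, map_mul, map_mul, ha', hb', mul_zero, zero_mul, add_zero]
    · intro a b ha hb
      rw [map_add, map_add, ha, hb, add_zero]) (by
    intro u hu
    rw [mem_constSq]
    refine hX.nondegenerate p hp u fun b => ?_
    rw [hX.skew, map_neg, ← hβ, hu, neg_zero])
  refine ⟨n, fun i => x i - algebraMap ℂ R (p (x i)), y, fun i => by simp, fun i j => ?_,
    fun u hu => ?_⟩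
  · rw [map_sub, hX.P_algebraMap_right, sub_zero]
    exact hdual i j
  · have h1 := hxy u
    rw [mem_constSq] at h1
    have h5 : u - ∑ i, p (P (y i) u) • (x i - algebraMap ℂ R (p (x i))) =
        (u - ∑ i, β (y i) u • x i) - algebraMap ℂ R (p (u - ∑ i, β (y i) u • x i)) := by
      simp only [hβ, map_sub, map_sum, hu, Algebra.smul_def, map_mul, zero_sub, map_neg,
        AlgHom.commutes, Algebra.algebraMap_self, RingHom.id_apply, mul_sub,
        Finset.sum_sub_distrib]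
      ring
    rw [h5]
    exact h1

/-- Derivations which vanish on generators of `𝔪` modulo `𝔪²` are zero. -/
theorem derivation_eq_zero_at (hX : IsContactFano 𝒜 P) {p : R →ₐ[ℂ] ℂ} {N : ℕ} {x : Fin N → R}
    (hx : ∀ i, p (x i) = 0)
    (hgen : ∀ u, p u = 0 → ∃ γ : Fin N → ℂ, u - ∑ i, γ i • x i ∈ RingHom.ker p ^ 2)
    (Θ : R →ₗ[ℂ] R) (hΘ : ∀ a b, Θ (a * b) = Θ a * b + a * Θ b) (h0 : ∀ i, Θ (x i) = 0) :
    Θ = 0 := by
  classical
  have := hX.domain
  have := hX.finiteType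
  have hnoeth : IsNoetherianRing R := Algebra.FiniteType.isNoetherianRing ℂ R
  set 𝔪 := RingHom.ker p with h𝔪
  set I : Ideal R := Ideal.span (Set.range Θ) with hI
  have hmemI : ∀ a, Θ a ∈ I := fun a => Ideal.subset_span ⟨a, rfl⟩
  have hone : Θ 1 = 0 := by
    have h1 := hΘ 1 1
    simp only [mul_one, one_mul] at h1
    have h2 : Θ 1 + 0 = Θ 1 + Θ 1 := by rw [add_zero]; exact h1
    exact (add_left_cancel h2).symm
  have hconst : ∀ c : ℂ, Θ (algebraMap ℂ R c) = 0 := fun c => by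
    rw [Algebra.algebraMap_eq_smul_one, map_smul, hone, smul_zero]
  have hsq : ∀ z ∈ 𝔪 ^ 2, Θ z ∈ 𝔪 • I := by
    intro z hz
    rw [sq] at hz
    refine Submodule.mul_induction_on (C := fun z => Θ z ∈ 𝔪 • I) hz ?_ ?_
    · intro a ha b hb
      rw [hΘ]
      refine add_mem ?_ ?_
      · rw [mul_comm, smul_eq_mul]
        exact Ideal.mul_mem_mul hb (hmemI a)
      · rw [smul_eq_mul]
        exact Ideal.mul_mem_mul ha (hmemI b)
    · intro a b ha hb
      rw [map_add]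
      exact add_mem ha hb
  have hle : I ≤ 𝔪 • I := by
    rw [hI, Ideal.span_le, ← hI]
    rintro _ ⟨u, rfl⟩
    have hu : p (u - algebraMap ℂ R (p u)) = 0 := by simp
    obtain ⟨γ, hγ⟩ := hgen _ hu
    have h1 := hsq _ hγ
    have h2 : Θ (u - algebraMap ℂ R (p u) - ∑ i, γ i • x i) = Θ u := by
      rw [map_sub, map_sub, hconst, sub_zero, map_sum, Finset.sum_eq_zero, sub_zero]
      intro i _
      rw [map_smul, h0, smul_zero]
    rw [h2] at h1
    exact h1
  have hfg : I.FG := (isNoetherianRing_iff_ideal_fg R).mp hnoeth I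
  obtain ⟨r, hr, hr0⟩ := Submodule.exists_sub_one_mem_and_smul_eq_zero_of_fg_of_le_smul 𝔪 I hfg hle
  have hrne : r ≠ 0 := by
    rintro rfl
    rw [h𝔪, RingHom.mem_ker, zero_sub, map_neg, map_one] at hr
    exact one_ne_zero (neg_eq_zero.mp hr)
  ext u
  have h3 := hr0 (Θ u) (hmemI u)
  rw [smul_eq_mul] at h3
  rcases mul_eq_zero.mp h3 with h4 | h4
  · exact absurd h4 hrne
  · exact h4

end Vale.Agent.P292
end
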