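import Vale.Agent.P292.MathlibUsed
import Vale.Agent.P292.Bdl.B4
import Vale.Agent.P292.Bdl.B1
import Vale.Agent.P292.Bdl.B2
import Vale.Agent.P292.Bdl.B3

set_option linter.all false

section

/-! # Theorem D without factoriality: functions of weight one. -/

namespace Vale.Agent.P292

open Module

universe u v

variable {R : Type u} [CommRing R] [Algebra ℂ R] {𝒜 : ℕ → Submodule ℂ R} [GradedAlgebra 𝒜]
  {P : R →ₗ[ℂ] R →ₗ[ℂ] R} {H : R} {a : ℤ}

/-- If the slopes of the torus `h` are at most `2` and the extremal functions are the multiples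
of the powers of `e`, every function of degree `k` and weight `2 k - 1` is divisible by
`e ^ (k - 1)`. -/
theorem exists_of_weight_of_torus (hX : IsContactFano 𝒜 P) {h e : R}
    (hT : IsContactTorus 𝒜 P h) (hmax : IsMaxSlope 𝒜 P h 2) (he : e ∈ Wt 𝒜 P h 1 2)
    (he0 : e ≠ 0) (hgen : ∀ k : ℕ, ∀ w ∈ Wt 𝒜 P h k (2 * k), ∃ l : ℂ, w = l • e ^ k)
    {k : ℕ} (hk : 0 < k) {w : R} (hw : w ∈ Wt 𝒜 P h k (2 * k - 1)) :
    ∃ u ∈ 𝒜 1, w = e ^ (k - 1) * u := by
  classical
  have := hX.domain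
  have := hX.normal
  by_cases hw0 : w = 0
  · exact ⟨0, zero_mem _, by rw [hw0, mul_zero]⟩
  let K := FractionRing R
  let Ω := AlgebraicClosure K
  let ι : R →ₐ[ℂ] Ω := (IsScalarTower.toAlgHom ℂ K Ω).comp (IsScalarTower.toAlgHom ℂ R K)
  have hι : Function.Injective ι := by
    rw [AlgHom.coe_comp]
    exact ((algebraMap K Ω).injective).comp (IsFractionRing.injective R K)
  have hne : ∀ r : R, r ≠ 0 → ι r ≠ 0 := fun r hr => by
    rwa [Ne, map_eq_zero_iff ι hι]
  obtain ⟨s, hs, hg⟩ := exists_Wt_generators hX hT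
  choose! hg0 D M hD hDM using hg
  have h20 : (e ^ (k - 1)) ≠ 0 := pow_ne_zero _ he0
  -- integrality
  have key : IsIntegral R (algebraMap K Ω (algebraMap R K w / algebraMap R K (e ^ (k - 1)))) := by
    have e1 : algebraMap K Ω (algebraMap R K w / algebraMap R K (e ^ (k - 1))) =
        ι w / ι e ^ (k - 1) := by
      rw [map_div₀, map_pow, map_pow]; rfl
    rw [e1]
    refine isIntegral_of_forall_valuationSubring _ fun V hV => ?_
    have hVR : ∀ r : R, V.valuation (ι r) ≤ 1 := fun r => (V.valuation_le_one_iff _).mpr (hV r)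
    have hc : ∀ c : ℂ, V.valuation (algebraMap ℂ Ω c) ≤ 1 := fun c => by
      rw [← ι.commutes]; exact hVR _
    rw [← V.valuation_le_one_iff]
    by_contra hcon
    rw [not_le, map_div₀, map_pow] at hcon
    have hve : V.valuation (ι e) ≠ 0 := by
      rw [Ne, Valuation.zero_iff]; exact hne e he0
    have hve' : V.valuation (ι e) ^ (k - 1) ≠ 0 := pow_ne_zero _ hve
    have hlt : V.valuation (ι e) ^ (k - 1) < V.valuation (ι w) := by
      have h1 := (lt_div_iff₀ (zero_lt_iff.mpr hve')).mp hcon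
      rwa [one_mul] at h1
    -- the generators of slope greater than one
    set s' := s.filter fun g => (D g : ℤ) < M g with hs'
    have hex : ∃ g ∈ s', ι g ≠ 0 := by
      by_contra hcon2
      push Not at hcon2
      have hall : ∀ g ∈ s, M g ≤ D g := by
        intro g hg
        by_contra hlt
        rw [not_le] at hlt
        exact hne g (hg0 g hg) (hcon2 g (Finset.mem_filter.mpr ⟨hg, hlt⟩))
      have h1 := Wt_le_of_generators hX hT hs (fun g hg => ⟨D g, M g, hDM g hg⟩)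
        (fun k m => if m ≤ k then ⊤ else ⊥) (by simp) (by
          intro g hg k m hgkm l n r hr _
          by_cases h : m + n ≤ ((k + l : ℕ) : ℤ)
          · rw [if_pos h]; trivial
          · rw [if_neg h]
            obtain ⟨rfl, rfl⟩ := Wt_unique (hg0 g hg) hgkm (hDM g hg)
            have h2 := hall g hg
            by_cases hn : n ≤ l
            · exfalso; apply h; push_cast; linarith
            · rw [if_neg hn] at hr
              have h3 : r = 0 := hr
              rw [h3, mul_zero]; exact zero_mem _) 1 2 he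
      rw [if_neg (by norm_num)] at h1
      exact he0 h1
    obtain ⟨η, hη0, hη, g₀, hg₀, hη1⟩ := exists_scale V.valuation s' (fun g => ι g)
      (fun g => (M g - D g).toNat) (fun g hg => by
        have := (Finset.mem_filter.mp hg).2
        omega) hex
    obtain ⟨x, hx⟩ := exists_twist hX hT ι (fun k m => η ^ (m - k)) (by simp) (by
      intro k l m n _ _
      rw [← zpow_add₀ hη0]
      congr 1
      push_cast
      ring)
    have hg₀' := Finset.mem_filter.mp hg₀
    have hg₀v : V.valuation (x g₀) = 1 := by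
      rw [hx _ _ g₀ (hDM g₀ hg₀'.1), ← hη1]
      congr 2
      rw [← zpow_natCast]
      congr 1
      omega
    have hη1' : 1 ≤ V.valuation η := by
      by_contra hlt
      rw [not_le] at hlt
      have h1 : V.valuation (η ^ ((M g₀ - D g₀).toNat)) < 1 := by
        rw [map_pow]
        exact pow_lt_one₀ zero_le hlt (by omega)
      have h2 : V.valuation (η ^ ((M g₀ - D g₀).toNat) * ι g₀) < 1 := by
        rw [map_mul]
        exact (mul_le_of_le_one_right' (hVR g₀)).trans_lt h1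
      rw [hη1] at h2
      exact lt_irrefl _ h2
    have hxle : ∀ r, V.valuation (x r) ≤ 1 :=
      valuation_le_one_of_generators V.valuation hc hs x fun g hg => by
        rw [hx _ _ g (hDM g hg)]
        by_cases hlt : (D g : ℤ) < M g
        · have h1 := hη g (Finset.mem_filter.mpr ⟨hg, hlt⟩)
          rw [← zpow_natCast] at h1
          have h2 : (((M g - D g).toNat : ℕ) : ℤ) = M g - D g := by omega
          rwa [h2] at h1
        · rw [not_lt] at hlt
          rw [map_mul, map_zpow₀]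
          have h1 : V.valuation η ^ (M g - D g) ≤ 1 := by
            have h2 : V.valuation η ^ (M g - (D g : ℤ)) ≤ V.valuation η ^ (0 : ℤ) :=
              zpow_le_zpow_right₀ hη1' (by linarith)
            rwa [zpow_zero] at h2
          exact mul_le_one' h1 (hVR g)
    obtain ⟨p, hp, hpg⟩ := exists_closed_of_valuation hX V.valuation x hxle g₀ (by
      rw [hg₀v]; exact lt_irrefl _)
    have hpv : ¬ IsVertex 𝒜 p := fun hv =>
      hpg (hv (D g₀) (hD g₀ hg₀'.1) g₀ (mem_Wt.mp (hDM g₀ hg₀'.1)).1)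
    -- `e` vanishes at `p`
    have hpe : p e = 0 := by
      apply hp
      rw [hx 1 2 e he, map_mul, map_zpow₀]
      have h1 : V.valuation (x w) ≤ 1 := hxle w
      rw [hx k _ w hw, map_mul, map_zpow₀] at h1
      have h2 : ((2 : ℤ) * k - 1 - k) = ((k - 1 : ℕ) : ℤ) := by omega
      rw [h2, zpow_natCast] at h1
      have h3 : (2 : ℤ) - ((1 : ℕ) : ℤ) = 1 := by norm_num
      rw [h3, zpow_one]
      by_contra hge
      rw [not_lt] at hge
      have h4 : 1 ≤ (V.valuation η * V.valuation (ι e)) ^ (k - 1) := one_le_pow₀ hge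
      rw [mul_pow] at h4
      have h5 : V.valuation η ^ (k - 1) * V.valuation (ι e) ^ (k - 1) <
          V.valuation η ^ (k - 1) * V.valuation (ι w) := by
        have h6 : V.valuation η ^ (k - 1) ≠ 0 := by
          apply pow_ne_zero
          rw [Ne, Valuation.zero_iff]; exact hη0
        exact (mul_lt_mul_iff_right₀ (zero_lt_iff.mpr h6)).mpr hlt
      exact absurd (h4.trans_lt h5) (not_lt.mpr h1)
    obtain ⟨b, q, hq, hall⟩ := exists_upper hX hT p hpv
    have h1 := (hall _ _ g₀ (hDM g₀ hg₀'.1)).1 hpg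
    have hD0 : (0 : ℤ) < D g₀ := by exact_mod_cast hD g₀ hg₀'.1
    have h2 : b ≤ 2 := hmax.slope_le hT hq
    have h3 : b = 2 := by
      by_contra hb
      have hb1 : b ≤ 1 := by omega
      have h4 := hg₀'.2
      nlinarith
    subst h3
    obtain ⟨k', hk', r, hr, hqr⟩ := hq.torus2_exists hT
    have h4 := (hall k' _ r hr).2 rfl
    obtain ⟨l, rfl⟩ := hgen k' r hr
    apply hqr
    rw [h4, map_smul, map_pow, hpe, zero_pow hk'.ne', smul_zero]
  rw [isIntegral_algebraMap_iff (algebraMap K Ω).injective] at key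
  obtain ⟨u, hu⟩ := (IsIntegrallyClosed.isIntegral_iff (R := R) (K := K)).mp key
  have hwu : w = e ^ (k - 1) * u := by
    apply IsFractionRing.injective R K
    rw [map_mul, hu, mul_div_cancel₀]
    rw [Ne, map_eq_zero_iff _ (IsFractionRing.injective R K)]
    exact h20
  refine ⟨u, ?_, hwu⟩
  obtain ⟨i, j, hi, hj, hij⟩ := exists_mem_of_mul_mem (𝒜 := 𝒜) (a := e ^ (k - 1)) (b := u)
    (k := k) (by rw [← hwu]; exact (mem_Wt.mp hw).1) (by rw [← hwu]; exact hw0)
  have h1 : e ^ (k - 1) ∈ 𝒜 (k - 1) := by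
    have := SetLike.pow_mem_graded (k - 1) (mem_Wt.mp he).1
    simpa using this
  have h2 := DirectSum.degree_eq_of_mem_mem 𝒜 hi h1 h20
  have h3 : j = 1 := by omega
  rwa [h3] at hj

end Vale.Agent.P292
end

section

/-! Factorial section rings. -/

namespace Vale.Agent.P292

open Module Polynomial

universe u

variable {R : Type u} [CommRing R] [Algebra ℂ R] {𝒜 : ℕ → Submodule ℂ R} [GradedAlgebra 𝒜]
  {P : R →ₗ[ℂ] R →ₗ[ℂ] R}

end Vale.Agent.P292
end

section

/-! Contact tori with isolated source. -/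

namespace Vale.Agent.P292

open Module Polynomial

universe u

variable {R : Type u} [CommRing R] [Algebra ℂ R] {𝒜 : ℕ → Submodule ℂ R} [GradedAlgebra 𝒜]
  {P : R →ₗ[ℂ] R →ₗ[ℂ] R}

/-- the top derivative of a power of an element whose second derivative is `2 g`. -/
lemma iso4_iterate_pow (D : Derivation ℂ R R) {e g : R} (h2 : (⇑D)^[2] e = (2 : ℂ) • g)
    (h3 : (⇑D)^[3] e = 0) (k : ℕ) :
    (⇑D)^[2 * k] (e ^ k) = ((2 * k).factorial : ℂ) • g ^ k := by
  induction k with
  | zero => simp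
  | succ k ih =>
    have h4 := iterate_pow_eq_zero D (i := 2) h3 k
    have h5 := iterate_mul_top D (i := k * 2) (j := 2) h4 h3
    have e1 : 2 * (k + 1) = k * 2 + 2 := by ring
    rw [pow_succ, e1, h5, mul_comm k 2, ih, h2]
    have e2 : (2 * k + 2).choose (2 * k) * (2 * k).factorial * 2 = (2 * k + 2).factorial := by
      have h6 := Nat.choose_mul_factorial_mul_factorial (n := 2 * k + 2) (k := 2 * k) (by omega)
      rwa [show 2 * k + 2 - 2 * k = 2 by omega, Nat.factorial_two] at h6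
    have e3 : ((((2 * k + 2).choose (2 * k)) : ℕ) : ℂ) * ((2 * k).factorial : ℂ) * 2 =
        ((2 * k + 2).factorial : ℂ) := by
      exact_mod_cast e2
    rw [smul_mul_smul_comm, ← Nat.cast_smul_eq_nsmul ℂ, smul_smul, ← e3, pow_succ, mul_assoc]

end Vale.Agent.P292
end

section

/-! The adjoint group acts transitively on the points of the cone. -/

namespace Vale.Agent.P292

open Module LieAlgebra Polynomial

universe u

variable {R : Type u} [CommRing R] [Algebra ℂ R] {𝒜 : ℕ → Submodule ℂ R} [GradedAlgebra 𝒜]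
  {P : R →ₗ[ℂ] R →ₗ[ℂ] R}

/-- the points of the punctured cone, as linear forms on `𝔤` -/
def IsPt (hX : IsContactFano 𝒜 P) (l : Module.Dual ℂ (LieOne hX)) : Prop :=
  ∃ p : R →ₐ[ℂ] ℂ, ¬ IsVertex 𝒜 p ∧ ∀ u, l u = p (LieOne.incl hX u)

namespace IsCore

variable {hX : IsContactFano 𝒜 P} {e h f : R} {x : R →ₐ[ℂ] ℂ} (hC : IsCore hX e h f x)
include hC

lemma isVertex_of_forall (p : R →ₐ[ℂ] ℂ) (hp : ∀ u ∈ 𝒜 1, p u = 0) : IsVertex 𝒜 p := by
  intro k hk r hr
  obtain ⟨k, rfl⟩ := Nat.exists_eq_succ_of_ne_zero hk.ne'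
  rw [← hC.pow_eq, pow_succ] at hr
  refine Submodule.mul_induction_on hr ?_ ?_
  · intro a _ b hb
    rw [map_mul, hp b hb, mul_zero]
  · intro a b ha hb
    rw [map_add, ha, hb, add_zero]

lemma isPt_ne_zero (l : Module.Dual ℂ (LieOne hX)) (hl : IsPt hX l) : l ≠ 0 := by
  rintro rfl
  obtain ⟨p, hp, h⟩ := hl
  exact hp (hC.isVertex_of_forall p fun u hu => (h (LieOne.mk hX hu)).symm)

omit hC in
lemma incl_ad_pow (y : LieOne hX) (n : ℕ) (u : LieOne hX) :
    LieOne.incl hX (((ad ℂ (LieOne hX) y) ^ n) u) =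
      (⇑(hX.ham (LieOne.incl hX y)))^[n] (LieOne.incl hX u) := by
  induction n with
  | zero => rfl
  | succ n ih =>
    rw [pow_succ', Module.End.mul_apply, ad_apply, LieOne.incl_lie, ih,
      Function.iterate_succ_apply']
    rfl

lemma isPt_comp_expAd (y : LieOne hX) (n : ℕ) (hy : (ad ℂ (LieOne hX) y) ^ (n + 1) = 0)
    (l : Module.Dual ℂ (LieOne hX)) (hl : IsPt hX l) :
    IsPt hX (l ∘ₗ (expAd y n hy : LieOne hX →ₗ[ℂ] LieOne hX)) := by
  obtain ⟨p, hp, hlp⟩ := id hl
  set D := hX.ham (LieOne.incl hX y) with hD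
  have hDdeg : ∀ k, ∀ r ∈ 𝒜 k, D r ∈ 𝒜 k :=
    fun k r hr => hX.mem_of_mem_one (LieOne.incl_mem hX y) hr
  have h1 : ∀ r ∈ 𝒜 1, (⇑D)^[n + 1] r = 0 := by
    intro r hr
    have := incl_ad_pow (hX := hX) y (n + 1) (LieOne.mk hX hr)
    rw [hy, LinearMap.zero_apply, map_zero] at this
    exact this.symm
  have hnil : ∀ (k : ℕ) (r : R), r ∈ 𝒜 k → (⇑D)^[n * k + 1] r = 0 := fun k r hr =>
    iterate_eq_zero_of_mem_pow 𝒜 D n h1 k r (by rw [hC.pow_eq]; exact hr)
  obtain ⟨c, hc⟩ := exists_flow 𝒜 D hDdeg n hnil p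
  have hval : ∀ u, ((aeval (1 : ℂ)).comp c) (LieOne.incl hX u) = l (expAd y n hy u) := by
    intro u
    rw [AlgHom.comp_apply, hc 1 _ (LieOne.incl_mem hX u), expAd_apply, map_sum, map_sum, mul_one]
    refine Finset.sum_congr rfl fun i _ => ?_
    rw [map_smul, hlp, incl_ad_pow]
    simp [← hD, div_eq_inv_mul]
  refine ⟨(aeval (1 : ℂ)).comp c, ?_, fun u => (hval u).symm⟩
  intro hv
  apply hC.isPt_ne_zero l hl
  ext u
  have h2 := hval ((expAd y n hy).symm u)
  rw [LinearEquiv.apply_symm_apply, hv 1 one_pos _ (LieOne.incl_mem hX _)] at h2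
  exact h2.symm

theorem isPt_comp (σ : LieOne hX ≃ₗ[ℂ] LieOne hX) (hσ : σ ∈ adjointGroup (LieOne hX))
    (l : Module.Dual ℂ (LieOne hX)) (hl : IsPt hX l) :
    IsPt hX (l ∘ₗ (σ : LieOne hX →ₗ[ℂ] LieOne hX)) := by
  refine adjointGroup_induction (Q := fun σ => ∀ l, IsPt hX l → IsPt hX
    (l ∘ₗ (σ : LieOne hX →ₗ[ℂ] LieOne hX))) ?_ ?_ ?_ σ hσ l hl
  · intro y n hy l hl
    exact hC.isPt_comp_expAd y n hy l hl
  · intro l hl; exact hl
  · intro σ τ h1 h2 l hl
    exact h2 _ (h1 _ hl)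

variable (hss : ∀ u : LieOne hX, u ∈ ⨆ i : Fin 5, Module.End.eigenspace
        (LieAlgebra.ad ℂ (LieOne hX) (LieOne.mk hX hC.hh)) ((i : ℂ) - 2))
include hss

/-- a nonzero linear form does not vanish on the orbit of `e` -/
theorem exists_apply_ne_zero (l : Module.Dual ℂ (LieOne hX)) (hl : l ≠ 0) :
    ∃ σ ∈ adjointGroup (LieOne hX), l (σ (LieOne.mk hX hC.he)) ≠ 0 := by
  by_contra hcon
  push Not at hcon
  apply hl
  have := hC.isSimple
  set h' := LieOne.mk hX hC.hh
  have ht := hC.isSl2Triple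
  let I : Submodule ℂ (LieOne hX) :=
    { carrier := {y | ∀ σ ∈ adjointGroup (LieOne hX), l (σ y) = 0}
      add_mem' := fun {a b} ha hb σ hσ => by rw [map_add, map_add, ha σ hσ, hb σ hσ, add_zero]
      zero_mem' := fun σ _ => by rw [map_zero, map_zero]
      smul_mem' := fun c a ha σ hσ => by rw [map_smul, map_smul, ha σ hσ, smul_zero] }
  have hI : ∀ c : ℤ, c ≠ 0 → ∀ u : LieOne hX, ⁅h', u⁆ = (c : ℂ) • u → ∀ y ∈ I, ⁅u, y⁆ ∈ I := by
    intro c hc u hu y hy σ hσ
    have hnil : ∀ t : ℂ, (ad ℂ (LieOne hX) (t • u)) ^ (4 + 1) = 0 := fun t =>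
      ad_pow_eq_zero h' hss c (Int.one_le_abs hc) (t • u) (by rw [lie_smul, hu, smul_comm])
    let Q : ℂ[X] := ∑ m ∈ Finset.range (4 + 1),
      monomial m ((m.factorial : ℂ)⁻¹ * l (σ (((ad ℂ (LieOne hX) u) ^ m) y)))
    have hQ : Q = 0 := by
      apply Polynomial.funext
      intro t
      have h1 := hy (σ * expAd (t • u) 4 (hnil t)) (mul_mem hσ (expAd_mem _ _ _))
      have h2 : l (σ (expAd (t • u) 4 (hnil t) y)) = 0 := h1
      rw [expAd_apply, map_sum, map_sum] at h2
      rw [eval_zero, eval_finsetSum, ← h2]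
      refine Finset.sum_congr rfl fun m _ => ?_
      rw [eval_monomial, map_smul, map_smul, smul_eq_mul, map_smul (ad ℂ (LieOne hX)), _root_.smul_pow,
        LinearMap.smul_apply, map_smul, map_smul, smul_eq_mul]
      ring
    have h3 : Q.coeff 1 = 0 := by rw [hQ]; rfl
    simpa [Q, Finset.sum_range_succ, coeff_monomial] using h3
  have hI' := lie_mem_of_forall_eigen h' hss I hI _ ht.e_ne_zero (ht.lie_h_e_smul ℂ)
  let J : LieIdeal ℂ (LieOne hX) :=
    { I with lie_mem := fun {w m} hm => hI' w m hm }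
  have hJ : J = ⊤ := by
    rcases LieAlgebra.IsSimple.eq_bot_or_eq_top (R := ℂ) J with h0 | h0
    · exfalso
      have : LieOne.mk hX hC.he ∈ J := fun σ hσ => hcon σ hσ
      rw [h0] at this
      exact ht.e_ne_zero (by simpa using this)
    · exact h0
  ext u
  have : u ∈ J := by rw [hJ]; trivial
  exact this 1 (one_mem _)

omit hss in
lemma mem_maxGen_ad (v : LieOne hX) (μ : ℂ)
    (hv : LieOne.incl hX v ∈ Module.End.maxGenEigenspace (P h) μ) :
    v ∈ Module.End.maxGenEigenspace (ad ℂ (LieOne hX) (LieOne.mk hX hC.hh)) μ := by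
  have key : ∀ n : ℕ, LieOne.incl hX
      (((ad ℂ (LieOne hX) (LieOne.mk hX hC.hh) - μ • (1 : End ℂ (LieOne hX))) ^ n) v) =
      (((P h - μ • (1 : End ℂ R)) : End ℂ R) ^ n) (LieOne.incl hX v) := by
    intro n
    induction n with
    | zero => rfl
    | succ n ih =>
      rw [pow_succ', Module.End.mul_apply, pow_succ', Module.End.mul_apply, ← ih]
      simp
  rw [mem_maxGen_iff] at hv ⊢
  obtain ⟨n, hn⟩ := hv
  refine ⟨n, LieOne.incl_injective hX ?_⟩
  rw [key, hn, map_zero]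

omit hss in
lemma eq_smul_e (v : LieOne hX) (hv : ⁅LieOne.mk hX hC.hh, v⁆ = (2 : ℂ) • v) :
    v = x (LieOne.incl hX v) • LieOne.mk hX hC.he := by
  apply LieOne.incl_injective hX
  have h1 : LieOne.incl hX v ∈ wt 𝒜 P h 1 0 := by
    refine ⟨LieOne.incl_mem hX v, mem_maxGen_of_eq_smul _ _ _ ?_⟩
    have := congrArg (LieOne.incl hX) hv
    rw [LieOne.incl_lie, map_smul, LieOne.incl_mk] at this
    rw [this]; norm_num
  have h2 := hC.eq_of_mem_wt_zero 1 _ h1
  rw [map_smul, LieOne.incl_mk]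
  rwa [pow_one] at h2

theorem exists_normalize (l : Module.Dual ℂ (LieOne hX)) (hl : IsPt hX l)
    (hs : l (LieOne.mk hX hC.he) ≠ 0) :
    ∃ σ ∈ adjointGroup (LieOne hX), ∀ u, l (σ u) =
      l (LieOne.mk hX hC.he) * x (LieOne.incl hX u) := by
  have := hC.isSimple
  set e' := LieOne.mk hX hC.he
  set h' := LieOne.mk hX hC.hh
  set f' := LieOne.mk hX hC.hf
  have ht : IsSl2Triple h' e' f' := hC.isSl2Triple
  set s := l e' with hsdef
  set E1 := Module.End.eigenspace (ad ℂ (LieOne hX) h') 1 with hE1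
  have hE1m : ∀ a : LieOne hX, a ∈ E1 ↔ ⁅h', a⁆ = (1 : ℂ) • a := fun a => by
    rw [hE1, Module.End.mem_eigenspace_iff, ad_apply]
  have hbig : ∀ (n : ℕ), 3 ≤ n → ∀ v : LieOne hX, ⁅h', v⁆ = (n : ℂ) • v → v = 0 := by
    intro n hn v hv
    refine eq_zero_of_eigen h' hss _ (fun j hj => ?_) v hv
    have h2 : ((j : ℕ) : ℂ) = ((n + 2 : ℕ) : ℂ) := by push_cast; linear_combination hj
    have h3 : (j : ℕ) = n + 2 := by exact_mod_cast h2
    omega
  have hEe : ∀ a ∈ E1, ⁅e', a⁆ = 0 := by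
    intro a ha
    refine hbig 3 le_rfl _ ?_
    rw [eigen_lie h' (ht.lie_h_e_smul ℂ) ((hE1m a).mp ha)]; norm_num
  -- the nondegenerate pairing
  let β : E1 →ₗ[ℂ] Module.Dual ℂ E1 :=
    LinearMap.mk₂ ℂ (fun u a => l ⁅(u : LieOne hX), (a : LieOne hX)⁆)
      (by simp) (by simp) (by simp) (by simp)
  have hβ : ∀ u a : E1, β u a = l ⁅(u : LieOne hX), (a : LieOne hX)⁆ := fun u a => rfl
  have hinj : Function.Injective β := by
    rw [← LinearMap.ker_eq_bot, LinearMap.ker_eq_bot']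
    intro u hu
    apply Subtype.ext
    refine eq_zero_of_forall_lie_eq_zero h' hss ht (u : LieOne hX) ((hE1m _).mp u.2) ?_
    intro a ha
    have h1 : l ⁅(u : LieOne hX), a⁆ = 0 := by
      have := LinearMap.congr_fun hu ⟨a, (hE1m a).mpr ha⟩
      rw [hβ] at this
      exact this
    have h2 := hC.eq_smul_e ⁅(u : LieOne hX), a⁆ (by
      rw [eigen_lie h' ((hE1m _).mp u.2) ha]; norm_num)
    rw [h2, map_smul, smul_eq_mul] at h1
    rw [h2, (mul_eq_zero.mp h1).resolve_right hs, zero_smul]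
  have hsurj : Function.Surjective β :=
    (LinearMap.injective_iff_surjective_of_finrank_eq_finrank
      (Subspace.dual_finrank_eq.symm)).mp hinj
  obtain ⟨u, hu⟩ := hsurj (-(l ∘ₗ E1.subtype))
  have hu' : ∀ a ∈ E1, l ⁅(u : LieOne hX), a⁆ = - l a := fun a ha =>
    LinearMap.congr_fun hu ⟨a, ha⟩
  have hunil : (ad ℂ (LieOne hX) (u : LieOne hX)) ^ (4 + 1) = 0 :=
    ad_pow_eq_zero h' hss 1 (by norm_num) _ (by rw [(hE1m _).mp u.2]; norm_num)
  set σ₁ := expAd (u : LieOne hX) 4 hunil with hσ₁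
  have hσ₁E : ∀ a ∈ E1, l (σ₁ a) = 0 := by
    intro a ha
    have h1 : ⁅(u : LieOne hX), ⁅(u : LieOne hX), a⁆⁆ = 0 := by
      refine hbig 3 le_rfl _ ?_
      rw [eigen_lie h' ((hE1m _).mp u.2) (eigen_lie h' ((hE1m _).mp u.2) ((hE1m _).mp ha))]
      norm_num
    rw [hσ₁, expAd_apply_of_cube _ _ _ (by rw [h1, lie_zero]), h1, smul_zero, add_zero, map_add,
      hu' a ha, add_neg_cancel]
  have hσ₁e : l (σ₁ e') = s := by
    have h1 : ⁅(u : LieOne hX), e'⁆ = 0 := by
      rw [← lie_skew, hEe _ u.2, neg_zero]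
    rw [hσ₁, expAd_apply_of_cube _ _ _ (by rw [h1, lie_zero, lie_zero]), h1, lie_zero, smul_zero,
      add_zero, add_zero]
  set t : ℂ := l (σ₁ h') / (2 * s) with ht'
  have htnil : (ad ℂ (LieOne hX) (t • e')) ^ (4 + 1) = 0 :=
    ad_pow_eq_zero h' hss 2 (by norm_num) _ (by
      rw [lie_smul, ht.lie_h_e_smul ℂ, smul_comm]; norm_num)
  set σ₂ := expAd (t • e') 4 htnil with hσ₂
  have hσ₂E : ∀ a ∈ E1, l (σ₁ (σ₂ a)) = 0 := by
    intro a ha
    have h1 : ⁅t • e', a⁆ = 0 := by rw [smul_lie, hEe a ha, smul_zero]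
    rw [hσ₂, expAd_apply_of_cube (t • e') htnil a (by rw [h1, lie_zero, lie_zero]), h1, lie_zero,
      smul_zero, add_zero, add_zero]
    exact hσ₁E a ha
  have hσ₂e : l (σ₁ (σ₂ e')) = s := by
    have h1 : ⁅t • e', e'⁆ = 0 := by rw [smul_lie, lie_self, smul_zero]
    rw [hσ₂, expAd_apply_of_cube (t • e') htnil e' (by rw [h1, lie_zero, lie_zero]), h1, lie_zero,
      smul_zero, add_zero, add_zero]
    exact hσ₁e
  have hσ₂h : l (σ₁ (σ₂ h')) = 0 := by
    have h1 : ⁅t • e', h'⁆ = (-(2 * t)) • e' := by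
      rw [smul_lie, ← lie_skew, ht.lie_h_e_smul ℂ, smul_neg, smul_smul, neg_smul, mul_comm]
    have h2 : ⁅t • e', ⁅t • e', h'⁆⁆ = 0 := by
      rw [h1, lie_smul, smul_lie, lie_self, smul_zero, smul_zero]
    rw [hσ₂, expAd_apply_of_cube (t • e') htnil h' (by rw [h2, lie_zero]), h2, h1, smul_zero,
      add_zero, map_add, map_add, map_smul, map_smul, hσ₁e, smul_eq_mul, ht']
    field_simp
    ring
  refine ⟨σ₁ * σ₂, mul_mem (expAd_mem _ _ _) (expAd_mem _ _ _), fun w => ?_⟩
  obtain ⟨p, hp, hlp⟩ := hC.isPt_comp _ (mul_mem (expAd_mem _ _ hunil) (expAd_mem _ _ htnil)) l hl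
  obtain ⟨q, hq⟩ := IsContactFano.exists_rescale (𝒜 := 𝒜) p s⁻¹
  have hpe : p e = s := by
    have := hlp e'
    rw [← hσ₂e]; exact this.symm
  have hph : p h = 0 := by
    have := hlp h'
    rw [← hσ₂h]; exact this.symm
  have hqx : q = x := by
    apply hC.eq_of_normalized
    · rw [hq 1 e hC.he, hpe, pow_one, inv_mul_cancel₀ hs]
    · rw [hq 1 h hC.hh, hph, mul_zero]
    · intro a ha
      rw [hq 1 a ha.1]
      have h1 : LieOne.mk hX ha.1 ∈ E1 := by
        rw [hE1m]
        apply eigen_of_mem_maxGen h' hss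
        apply hC.mem_maxGen_ad
        have := ha.2
        rw [SetLike.mem_coe] at this
        rw [LieOne.incl_mk]
        convert this using 1
        norm_num
      have h2 := hlp (LieOne.mk hX ha.1)
      have h3 := hσ₂E _ h1
      have h4 : p a = 0 := by
        rw [← h3]; exact h2.symm
      rw [h4, mul_zero]
  have h5 : l (σ₁ (σ₂ w)) = p (LieOne.incl hX w) := hlp w
  change l (σ₁ (σ₂ w)) = _
  rw [h5, ← hqx, hq 1 _ (LieOne.incl_mem hX w), pow_one, ← mul_assoc, mul_inv_cancel₀ hs, one_mul]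

omit hss in
lemma x_f : x f = 0 := by
  have h1 := hC.x_P_h 1 f hC.hf
  rw [hC.h_f, map_neg, map_smul, smul_eq_mul] at h1
  have h2 : (4 : ℂ) * x f = 0 := by push_cast at h1; linear_combination -h1
  exact (mul_eq_zero.mp h2).resolve_left (by norm_num)

/-- the adjoint group contains elements scaling `x` -/
theorem exists_scale (s : ℂ) (hs : s ≠ 0) :
    ∃ τ ∈ adjointGroup (LieOne hX), ∀ u, x (LieOne.incl hX (τ u)) = s * x (LieOne.incl hX u) := by
  set e' := LieOne.mk hX hC.he with he'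
  set h' := LieOne.mk hX hC.hh with hh'
  set f' := LieOne.mk hX hC.hf with hf'
  have ht : IsSl2Triple h' e' f' := hC.isSl2Triple
  obtain ⟨z, hz⟩ := IsAlgClosed.exists_pow_nat_eq s (n := 2) (by norm_num)
  set c : ℂ := z - 1 with hc
  let l : Module.Dual ℂ (LieOne hX) := x.toLinearMap ∘ₗ LieOne.incl hX
  have hl : IsPt hX l := ⟨x, hC.not_isVertex, fun u => rfl⟩
  have hle : l e' = 1 := hC.xe
  have hlh : l h' = 0 := hC.x_h
  have hlf : l f' = 0 := hC.x_f
  have hehe : ⁅h', e'⁆ = (2 : ℂ) • e' := ht.lie_h_e_smul ℂ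
  have hehf : ⁅h', f'⁆ = -((2 : ℂ) • f') := ht.lie_lie_smul_f ℂ
  have hef : ⁅e', f'⁆ = h' := ht.lie_e_f
  have heh : ⁅e', h'⁆ = -((2 : ℂ) • e') := by rw [← lie_skew, hehe]
  have hfe : ⁅f', e'⁆ = -h' := by rw [← lie_skew, hef]
  have hfh : ⁅f', h'⁆ = (2 : ℂ) • f' := by rw [← lie_skew, hehf, neg_neg]
  have h1nil : (ad ℂ (LieOne hX) e') ^ (4 + 1) = 0 :=
    ad_pow_eq_zero h' hss 2 (by norm_num) _ (by rw [hehe]; norm_num)
  have h2nil : (ad ℂ (LieOne hX) (c • f')) ^ (4 + 1) = 0 :=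
    ad_pow_eq_zero h' hss (-2) (by norm_num) _ (by
      rw [lie_smul, hehf, smul_neg, smul_comm]; push_cast; rw [neg_smul])
  set τ₁ := expAd e' 4 h1nil with hτ₁
  set τ₂ := expAd (c • f') 4 h2nil with hτ₂
  have e1 : τ₁ e' = e' := by
    rw [hτ₁, expAd_apply_of_cube e' h1nil e' (by simp)]; simp
  have e2 : τ₁ h' = h' - (2 : ℂ) • e' := by
    rw [hτ₁, expAd_apply_of_cube e' h1nil h' (by simp [heh])]
    simp [heh, sub_eq_add_neg]
  have e3 : τ₁ f' = f' + h' - e' := by
    rw [hτ₁, expAd_apply_of_cube e' h1nil f' (by simp [hef, heh])]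
    simp only [hef, heh, smul_neg, smul_smul]
    norm_num
    abel
  have e4 : τ₂ e' = e' - c • h' - c ^ 2 • f' := by
    rw [hτ₂, expAd_apply_of_cube (c • f') h2nil e' (by simp [hfe, hfh])]
    simp only [smul_lie, lie_smul, hfe, hfh, smul_neg, lie_neg, smul_smul]
    module
  have hval : l (τ₁ (τ₂ e')) = s := by
    have e5 : τ₁ (e' - c • h' - c ^ 2 • f') =
        e' - c • (h' - (2 : ℂ) • e') - c ^ 2 • (f' + h' - e') := by
      rw [map_sub, map_sub, map_smul, map_smul, e1, e2, e3]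
    rw [e4, e5]
    simp only [map_sub, map_add, map_smul, hle, hlh, hlf, smul_eq_mul]
    rw [← hz, hc]
    ring
  have hpt := hC.isPt_comp (τ₁ * τ₂) (mul_mem (expAd_mem _ _ _) (expAd_mem _ _ _)) l hl
  obtain ⟨σ, hσ, h3⟩ := hC.exists_normalize hss _ hpt (by
    change l (τ₁ (τ₂ e')) ≠ 0
    rw [hval]; exact hs)
  refine ⟨τ₁ * τ₂ * σ, mul_mem (mul_mem (expAd_mem _ _ _) (expAd_mem _ _ _)) hσ, fun u => ?_⟩
  have h4 := h3 u
  have h5 : l (τ₁ (τ₂ (σ u))) = l (τ₁ (τ₂ e')) * x (LieOne.incl hX u) := h4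
  rw [hval] at h5
  exact h5

/-- transitivity -/
theorem exists_eq (l : Module.Dual ℂ (LieOne hX)) (hl : IsPt hX l) :
    ∃ σ ∈ adjointGroup (LieOne hX), ∀ u, l u = x (LieOne.incl hX (σ u)) := by
  obtain ⟨σ₁, hσ₁, h1⟩ := hC.exists_apply_ne_zero hss l (hC.isPt_ne_zero l hl)
  obtain ⟨σ₂, hσ₂, h2⟩ := hC.exists_normalize hss _ (hC.isPt_comp σ₁ hσ₁ l hl) h1
  obtain ⟨τ, hτ, h3⟩ := hC.exists_scale hss _ h1
  refine ⟨τ * (σ₁ * σ₂)⁻¹, mul_mem hτ (inv_mem (mul_mem hσ₁ hσ₂)), fun u => ?_⟩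
  have h4 := h2 ((σ₁ * σ₂)⁻¹ u)
  have h5 : (l ∘ₗ (σ₁ : LieOne hX →ₗ[ℂ] LieOne hX)) (σ₂ ((σ₁ * σ₂)⁻¹ u)) = l u := by
    change l ((σ₁ * σ₂) ((σ₁ * σ₂)⁻¹ u)) = l u
    congr 1
    exact LinearEquiv.apply_symm_apply (σ₁ * σ₂) u
  rw [h5] at h4
  rw [h4]
  exact (h3 ((σ₁ * σ₂)⁻¹ u)).symm

end IsCore

end Vale.Agent.P292
end

section

/-! The cone is the closure of the minimal nilpotent orbit. -/

namespace Vale.Agent.P292

open Module LieAlgebra

universe u

variable {R : Type u} [CommRing R] [Algebra ℂ R] {𝒜 : ℕ → Submodule ℂ R} [GradedAlgebra 𝒜]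
  {P : R →ₗ[ℂ] R →ₗ[ℂ] R}

namespace IsCore

variable {hX : IsContactFano 𝒜 P} {e h f : R} {x : R →ₐ[ℂ] ℂ} (hC : IsCore hX e h f x)
include hC

variable (hss : ∀ u : LieOne hX, u ∈ ⨆ i : Fin 5, Module.End.eigenspace
        (LieAlgebra.ad ℂ (LieOne hX) (LieOne.mk hX hC.hh)) ((i : ℂ) - 2))
include hss

theorem isAdjointVariety : IsAdjointVariety 𝒜 P := by
  classical
  have := hC.isSimple
  set g := LieOne hX with hg
  set κ := killingForm ℂ g with hκ
  have hnd : κ.Nondegenerate := LieAlgebra.IsKilling.killingForm_nondegenerate ℂ g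
  have hsymm : ∀ u v, κ u v = κ v u := LieModule.traceForm_comm ℂ g g
  have hnd' : ∀ y z : g, (∀ u, κ u y = κ u z) → y = z := by
    intro y z h1
    rw [← sub_eq_zero]
    refine hnd.2 _ (fun u => ?_)
    rw [map_sub, h1, sub_self]
  -- the duality
  let θ : Module.Dual ℂ g ≃ₗ[ℂ] g := (LinearMap.BilinForm.toDual κ hnd).symm
  have hθ : ∀ (l : Module.Dual ℂ g) (y : g), κ (θ l) y = l y := fun l y =>
    LinearMap.BilinForm.apply_toDual_symm_apply l y
  set O : Set g := {y : g | ∃ p : R →ₐ[ℂ] ℂ, ¬ IsVertex 𝒜 p ∧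
    ∀ u, p (LieOne.incl hX u) = κ u y} with hO
  refine ⟨g, inferInstance, inferInstance, inferInstance, this, LieOne.incl hX, O,
    LieOne.incl_injective hX, Submodule.range_subtype _, fun _ _ => rfl, hC.adjoin_eq_top,
    ⟨?_, ?_⟩, rfl⟩
  · let l₀ : Module.Dual ℂ g := x.toLinearMap ∘ₗ LieOne.incl hX
    have hl₀ : IsPt hX l₀ := ⟨x, hC.not_isVertex, fun u => rfl⟩
    set y₀ := θ l₀ with hy₀
    have hκy₀ : ∀ u, κ u y₀ = x (LieOne.incl hX u) := fun u => by
      rw [hsymm, hθ]; rfl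
    refine ⟨y₀, ?_, ?_, ?_⟩
    · intro h0
      have h1 := hκy₀ (LieOne.mk hX hC.he)
      rw [h0, map_zero, LieOne.incl_mk, hC.xe] at h1
      exact zero_ne_one h1
    · refine ⟨4 + 1, ad_pow_eq_zero (LieOne.mk hX hC.hh) hss (-2) (by norm_num) _ ?_⟩
      apply hnd'
      intro u
      have h1 := LieModule.traceForm_apply_lie_apply' ℂ g g (LieOne.mk hX hC.hh) u y₀
      have h2 : κ ⁅LieOne.mk hX hC.hh, u⁆ y₀ = 2 * κ u y₀ := by
        rw [hκy₀, hκy₀, LieOne.incl_lie, LieOne.incl_mk, hC.x_P_h 1 _ (LieOne.incl_mem hX u)]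
        norm_num
      have h3 : κ ⁅LieOne.mk hX hC.hh, u⁆ y₀ = - κ u ⁅LieOne.mk hX hC.hh, y₀⁆ := h1
      rw [map_smul, smul_eq_mul]
      push_cast
      linear_combination h3 - h2
    · ext y
      constructor
      · rintro ⟨p, hp, hpy⟩
        obtain ⟨σ, hσ, h1⟩ := hC.exists_eq hss (κ.flip y) ⟨p, hp, fun u => (hpy u).symm⟩
        refine ⟨σ⁻¹, inv_mem hσ, ?_⟩
        apply hnd'
        intro u
        have h2 := h1 u
        have h3 : κ u y = x (LieOne.incl hX (σ u)) := h2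
        rw [h3, ← hκy₀]
        exact killingForm_apply_left σ hσ u y₀
      · rintro ⟨σ, hσ, rfl⟩
        obtain ⟨p, hp, h1⟩ := hC.isPt_comp σ⁻¹ (inv_mem hσ) l₀ hl₀
        refine ⟨p, hp, fun u => ?_⟩
        rw [← h1 u]
        change x (LieOne.incl hX (σ⁻¹ u)) = _
        rw [← hκy₀]
        have := killingForm_apply_left σ⁻¹ (inv_mem hσ) u y₀
        rw [inv_inv] at this
        exact this
  · let Φ : MvPolynomial (Module.Dual ℂ g) ℂ →ₐ[ℂ] R :=
      MvPolynomial.aeval (fun l => LieOne.incl hX (θ l))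
    have hΦ : Function.Surjective Φ := by
      rw [← AlgHom.range_eq_top, eq_top_iff, ← hC.adjoin_eq_top, Algebra.adjoin_le_iff]
      intro u hu
      refine ⟨MvPolynomial.X (θ.symm (LieOne.mk hX hu)), ?_⟩
      simp [Φ]
    refine ⟨{F | Φ F = 0}, ?_⟩
    have hpt : ∀ (p : R →ₐ[ℂ] ℂ) (y : g), (∀ u, p (LieOne.incl hX u) = κ u y) →
        MvPolynomial.aeval (fun l : Module.Dual ℂ g => l y) = p.comp Φ := by
      intro p y hpy
      apply MvPolynomial.algHom_ext
      intro l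
      simp only [MvPolynomial.aeval_X, AlgHom.comp_apply, Φ]
      rw [hpy, hθ]
    ext y
    constructor
    · rintro (⟨p, hp, hpy⟩ | rfl)
      · intro F hF
        rw [hpt p y hpy, AlgHom.comp_apply]
        have : Φ F = 0 := hF
        rw [this, map_zero]
      · intro F hF
        obtain ⟨q, hq⟩ := IsContactFano.exists_rescale (𝒜 := 𝒜) x 0
        rw [hpt q 0 (fun u => by
          rw [hq 1 _ (LieOne.incl_mem hX u), map_zero, pow_one, zero_mul]), AlgHom.comp_apply]
        have : Φ F = 0 := hF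
        rw [this, map_zero]
    · intro hy
      let Ψ : MvPolynomial (Module.Dual ℂ g) ℂ →ₐ[ℂ] ℂ :=
        MvPolynomial.aeval (fun l : Module.Dual ℂ g => l y)
      let p : R →ₐ[ℂ] ℂ := AlgHom.liftOfSurjective Φ hΦ Ψ (fun F hF => hy F hF)
      have hp : ∀ F, p (Φ F) = Ψ F := fun F => AlgHom.liftOfSurjective_apply Φ hΦ Ψ _ F
      have hpu : ∀ u, p (LieOne.incl hX u) = κ u y := by
        intro u
        have h1 := hp (MvPolynomial.X (θ.symm u))
        simp only [Φ, Ψ, MvPolynomial.aeval_X, LinearEquiv.apply_symm_apply] at h1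
        rw [h1, ← hθ, LinearEquiv.apply_symm_apply]
      by_cases hv : IsVertex 𝒜 p
      · right
        rw [Set.mem_singleton_iff]
        apply hnd'
        intro u
        rw [← hpu, hv 1 one_pos _ (LieOne.incl_mem hX u), map_zero]
      · left
        exact ⟨p, hv, hpu⟩

end IsCore

end Vale.Agent.P292
end

section

/-! Contact Fano manifolds with a contact torus with isolated source. -/

namespace Vale.Agent.P292

open Module

universe u

variable {R : Type u} [CommRing R] [Algebra ℂ R] {𝒜 : ℕ → Submodule ℂ R} [GradedAlgebra 𝒜]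
  {P : R →ₗ[ℂ] R →ₗ[ℂ] R}

end Vale.Agent.P292
end

section

/-! Contact Fano manifolds with a contact torus whose source and sink avoid the base locus. -/

namespace Vale.Agent.P292

open Module

universe u

variable {R : Type u} [CommRing R] [Algebra ℂ R] {𝒜 : ℕ → Submodule ℂ R} [GradedAlgebra 𝒜]
  {P : R →ₗ[ℂ] R →ₗ[ℂ] R}

end Vale.Agent.P292
end

section

/-! # Theorem D without factoriality. -/

namespace Vale.Agent.P292

open Module

universe u v

variable {R : Type u} [CommRing R] [Algebra ℂ R] {𝒜 : ℕ → Submodule ℂ R} [GradedAlgebra 𝒜]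
  {P : R →ₗ[ℂ] R →ₗ[ℂ] R} {H : R} {a : ℤ}

/-- Generalised eigenvectors of a torus are eigenvectors. -/
theorem P_eq_smul_of_mem_maxGen (hX : IsContactFano 𝒜 P) {h : R}
    (hT : IsContactTorus 𝒜 P h) (μ : ℂ) {w : R}
    (hw : w ∈ Module.End.maxGenEigenspace (P h) μ) : P h w = μ • w := by
  classical
  let Bi : ℕ × ℤ → Submodule ℂ R := fun i => Wt 𝒜 P h i.1 i.2
  let inst : GradedAlgebra Bi := bigrading hX hT
  have hsum := DirectSum.sum_support_decompose Bi w
  set S := (DirectSum.decompose Bi w).support with hS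
  set S₁ : R := ∑ i ∈ S.filter fun i => ((i.2 : ℤ) : ℂ) = μ, (DirectSum.decompose Bi w i : R)
    with hS₁
  set S₂ : R := ∑ i ∈ S.filter fun i => ¬ ((i.2 : ℤ) : ℂ) = μ, (DirectSum.decompose Bi w i : R)
    with hS₂
  have h12 : S₁ + S₂ = w := by
    rw [← hsum, hS₁, hS₂, Finset.sum_filter_add_sum_filter_not]
  have hP : P h S₁ = μ • S₁ := by
    rw [hS₁, map_sum, Finset.smul_sum]
    refine Finset.sum_congr rfl fun i hi => ?_
    have h1 := (mem_Wt.mp (DirectSum.decompose Bi w i).2).2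
    rw [h1, (Finset.mem_filter.mp hi).2]
  have hm1 : S₁ ∈ Module.End.maxGenEigenspace (P h) μ := mem_maxGen_of_eq_smul _ _ _ hP
  have hm2 : S₂ ∈ Module.End.maxGenEigenspace (P h) μ := by
    have : S₂ = w - S₁ := by rw [← h12]; ring
    rw [this]; exact sub_mem hw hm1
  have hm3 : S₂ ∈ ⨆ (ν : ℂ) (_ : ν ≠ μ), Module.End.maxGenEigenspace (P h) ν := by
    rw [hS₂]
    refine sum_mem fun i hi => ?_
    refine Submodule.mem_iSup_of_mem ((i.2 : ℤ) : ℂ)
      (Submodule.mem_iSup_of_mem (Finset.mem_filter.mp hi).2 ?_)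
    exact mem_maxGen_of_eq_smul _ _ _ (mem_Wt.mp (DirectSum.decompose Bi w i).2).2
  have hdisj := (Module.End.independent_maxGenEigenspace (P h : End ℂ R)) μ
  have h0 : S₂ = 0 := Submodule.disjoint_def.mp hdisj S₂ hm2 hm3
  rw [h0, add_zero] at h12
  rw [← h12]; exact hP

/-- The core data from a triple of extremal weights. -/
theorem isPreCore_of_torus (hX : IsContactFano 𝒜 P) (hH : IsContactTorus 𝒜 P H)
    (hmax : IsMaxSlope 𝒜 P H a) {e h f : R} (he : e ∈ Wt 𝒜 P H 1 a)
    (hf : f ∈ Wt 𝒜 P H 1 (-a)) (hef : P e f = h) (hhe : P h e = (2 : ℂ) • e)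
    (hhf : P h f = -((2 : ℂ) • f))
    (hgen : ∀ k : ℕ, ∀ w ∈ Wt 𝒜 P H k (a * k), ∃ l : ℂ, w = l • e ^ k)
    {x : R →ₐ[ℂ] ℂ} (hx : HasSlope 𝒜 P H x a) (hxe : x e = 1) : IsPreCore hX e h f x := by
  obtain ⟨hneg, ha⟩ := hmax.neg hX hH
  have hmem : ∀ {k : ℕ} {m : ℤ} {r : R}, r ∈ Wt 𝒜 P H k m → r ∈ 𝒜 k := fun h => (mem_Wt.1 h).1
  refine ⟨hmem he, ?_, hmem hf, hef, hhe, hhf, hxe, ?_⟩
  · rw [← hef]; exact hX.mem_of_mem_one (hmem he) (hmem hf)
  · intro k r hr
    let D : Module.End ℂ R := (hX.ham f : R →ₗ[ℂ] R)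
    let φ : R →ₗ[ℂ] R := D ^ (2 * k) -
      (((2 * k).factorial : ℂ) • (x.toLinearMap.smulRight ((-f) ^ k)))
    have hD : ∀ (n : ℕ) (s : R), (D ^ n) s = (⇑(hX.ham f))^[n] s := by
      intro n s
      rw [Module.End.pow_apply]
      rfl
    have hφ : φ r = 0 := by
      refine hH.forall_of_Wt φ k (fun m s hs => ?_) r hr
      change (D ^ (2 * k)) s - ((2 * k).factorial : ℂ) • (x s • (-f) ^ k) = 0
      by_cases hs0 : s = 0
      · rw [hs0, map_zero, map_zero, zero_smul, smul_zero, sub_zero]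
      have hle := hmax.le k m s hs hs0
      rcases hle.lt_or_eq with hlt | heq
      · have hys : x s = 0 := ((hasSlope_iff hH x a).1 hx).2 k m s hs hlt.ne
        have hit : ∀ n : ℕ, (⇑(hX.ham f))^[n] s ∈ Wt 𝒜 P H k (m - n * a) := by
          intro n
          induction n with
          | zero => simpa using hs
          | succ n ih =>
            rw [Function.iterate_succ_apply', hX.ham_apply]
            have h3 := Wt_P hX (k := 1) (l := k) (j := k) (by omega) hf ih
            have h4 : -a + (m - n * a) = m - ((n + 1 : ℕ) : ℤ) * a := by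
              push_cast
              ring
            rwa [h4] at h3
        have h3 : (D ^ (2 * k)) s = 0 := by
          rw [hD]
          by_contra hne
          have h4 : (⇑(hX.ham f))^[2 * k] s ∈
              Wt 𝒜 P (-H) k (-(m - ((2 * k : ℕ) : ℤ) * a)) := by
            rw [Wt_neg, neg_neg]
            exact hit (2 * k)
          have h5 := hneg.le k _ _ h4 hne
          push_cast at h5
          nlinarith
        rw [h3, hys, zero_smul, smul_zero, sub_zero]
      · subst heq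
        have hPfe : P f e = -h := by rw [hX.skew, hef]
        have h3 : (⇑(hX.ham f))^[2] e = (2 : ℂ) • (-f) := by
          change P f (P f e) = _
          rw [hPfe, map_neg, hX.skew f h, hhf]
          module
        have h4 : (⇑(hX.ham f))^[3] e = 0 := by
          rw [Function.iterate_succ_apply', h3, hX.ham_apply, map_smul, map_neg, hX.alternating,
            neg_zero, smul_zero]
        have h5 := iso4_iterate_pow (hX.ham f) h3 h4 k
        obtain ⟨l, rfl⟩ := hgen k s hs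
        rw [map_smul, hD, h5, map_smul, map_pow, hxe, one_pow, smul_eq_mul, mul_one, smul_comm,
          sub_self]
    have h3 : (D ^ (2 * k)) r - ((2 * k).factorial : ℂ) • (x r • (-f) ^ k) = 0 := hφ
    rw [hD, sub_eq_zero, smul_smul] at h3
    exact h3

/-- The full core data from a triple of extremal weights. -/
theorem isCore_of_torus (hX : IsContactFano 𝒜 P) {e h f : R} {x : R →ₐ[ℂ] ℂ}
    (hC : IsPreCore hX e h f x) (hT : IsContactTorus 𝒜 P h) : IsCore hX e h f x := by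
  have hmax : IsMaxSlope 𝒜 P h 2 := by
    refine ⟨⟨x, hC.not_isVertex, fun k r hr => ?_⟩, fun k m r hr hr0 => ?_⟩
    · rw [hC.x_P_h k r hr]; push_cast; ring
    · obtain ⟨h1, h2⟩ := mem_Wt.mp hr
      obtain ⟨i, hi⟩ := hC.eigenvalue_eq k r h1 hr0 _ h2
      have h3 : m = 2 * k - i := by exact_mod_cast hi
      omega
  have he : e ∈ Wt 𝒜 P h 1 2 := mem_Wt.mpr ⟨hC.he, by rw [hC.h_e]; norm_num⟩
  refine ⟨hC, fun k hk w hw hwm => ?_⟩
  have h1 := P_eq_smul_of_mem_maxGen hX hT _ hwm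
  refine exists_of_weight_of_torus hX hT hmax he hC.e_ne_zero (fun k w hw => ⟨x w, ?_⟩) hk
    (mem_Wt.mpr ⟨hw, ?_⟩)
  · obtain ⟨h2, h3⟩ := mem_Wt.mp hw
    refine hC.eq_of_mem_wt_zero k w ⟨h2, mem_maxGen_of_eq_smul _ _ _ ?_⟩
    rw [h3]; push_cast; simp
  · rw [h1]; push_cast; rfl

/-- Adjointness from an extremal triple. -/
theorem isAdjointVariety_of_triple (hX : IsContactFano 𝒜 P) (hH : IsContactTorus 𝒜 P H)
    (hmax : IsMaxSlope 𝒜 P H a) {e h f : R} (he : e ∈ Wt 𝒜 P H 1 a)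
    (hf : f ∈ Wt 𝒜 P H 1 (-a)) (hef : P e f = h) (hhe : P h e = (2 : ℂ) • e)
    (hhf : P h f = -((2 : ℂ) • f))
    (hgen : ∀ k : ℕ, ∀ w ∈ Wt 𝒜 P H k (a * k), ∃ l : ℂ, w = l • e ^ k)
    (hT : IsContactTorus 𝒜 P h)
    {x : R →ₐ[ℂ] ℂ} (hx : HasSlope 𝒜 P H x a) (hxe : x e ≠ 0) : IsAdjointVariety 𝒜 P := by
  obtain ⟨hneg, ha⟩ := hmax.neg hX hH
  obtain ⟨x', hx'⟩ := IsContactFano.exists_rescale (𝒜 := 𝒜) x (x e)⁻¹
  have hx'e : x' e = 1 := by
    rw [hx' 1 e (mem_Wt.mp he).1, pow_one, inv_mul_cancel₀ hxe]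
  have hx's : HasSlope 𝒜 P H x' a := by
    rw [hasSlope_iff hH]
    refine ⟨fun hv => ?_, fun k m r hr hm => ?_⟩
    · rw [hv 1 one_pos e (mem_Wt.mp he).1] at hx'e
      exact zero_ne_one hx'e
    · rw [hx' k r (mem_Wt.mp hr).1, ((hasSlope_iff hH x a).1 hx).2 k m r hr hm, mul_zero]
  have hC := isPreCore_of_torus hX hH hmax he hf hef hhe hhf hgen hx's hx'e
  have hcore : IsCore hX e h f x' := isCore_of_torus hX hC hT
  have he3 : ∀ v ∈ 𝒜 1, P e (P e (P e v)) = 0 := by
    intro v hv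
    refine hH.forall_of_Wt ((P e).comp ((P e).comp (P e))) 1 (fun m s hs => ?_) v hv
    change P e (P e (P e s)) = 0
    by_contra hne
    have hs0 : s ≠ 0 := by
      rintro rfl
      exact hne (by rw [map_zero, map_zero, map_zero])
    have h3 : s ∈ Wt 𝒜 P (-H) 1 (-m) := by rwa [Wt_neg, neg_neg]
    have h4 := hneg.le 1 (-m) s h3 hs0
    have h5 : P e (P e (P e s)) ∈ Wt 𝒜 P H 1 (a + (a + (a + m))) :=
      Wt_P hX (k := 1) (l := 1) (j := 1) rfl he (Wt_P hX (k := 1) (l := 1) (j := 1) rfl he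
        (Wt_P hX (k := 1) (l := 1) (j := 1) rfl he hs))
    have h6 := hmax.le 1 _ _ h5 hne
    push_cast at h4 h6
    omega
  have hfd : FiniteDimensional ℂ (LieOne hX) := by
    have := hX.finiteType
    exact finiteDimensional_piece 𝒜 hX.connected 1
  refine hcore.isAdjointVariety fun u => ?_
  set E : LieOne hX := LieOne.mk hX hC.he with hE
  set h' : LieOne hX := LieOne.mk hX hC.hh with hh'
  set F : LieOne hX := LieOne.mk hX hC.hf with hF
  refine iSup_eigenspace_of_cube (LieAlgebra.ad ℂ (LieOne hX) E) (LieAlgebra.ad ℂ (LieOne hX) h')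
    (LieAlgebra.ad ℂ (LieOne hX) F) ?_ ?_ ?_ ?_ ?_ u
  · ext v
    apply LieOne.incl_injective hX
    change P e (P f (LieOne.incl hX v)) - P f (P e (LieOne.incl hX v)) = P h (LieOne.incl hX v)
    rw [hX.jacobi e f, hC.ef, add_sub_cancel_right]
  · ext v
    apply LieOne.incl_injective hX
    change P h (P e (LieOne.incl hX v)) - P e (P h (LieOne.incl hX v)) =
      (2 : ℂ) • P e (LieOne.incl hX v)
    rw [hX.jacobi h e, hC.h_e, add_sub_cancel_right, map_smul, LinearMap.smul_apply]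
  · ext v
    apply LieOne.incl_injective hX
    change P h (P f (LieOne.incl hX v)) - P f (P h (LieOne.incl hX v)) =
      -((2 : ℂ) • P f (LieOne.incl hX v))
    rw [hX.jacobi h f, hC.h_f, add_sub_cancel_right, map_neg, map_smul, LinearMap.neg_apply,
      LinearMap.smul_apply]
  · ext v
    apply LieOne.incl_injective hX
    exact he3 _ (LieOne.incl_mem hX v)
  · ext v
    apply LieOne.incl_injective hX
    exact hC.iterate_succ_eq_zero 1 _ (LieOne.incl_mem hX v)

/-- Theorem D without factoriality: a contact Fano manifold with a contact torus whose source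
and sink avoid the base locus of `|L|` is an adjoint variety. -/
theorem isAdjointVariety_of_sourceFree' (hX : IsContactFano 𝒜 P) {H : R}
    (hH : IsContactTorus 𝒜 P H) (hp : IsSourceFree 𝒜 P H)
    (hm : IsSourceFree 𝒜 P (-H)) : IsAdjointVariety 𝒜 P := by
  obtain ⟨a, hmax⟩ := exists_isMaxSlope hX hH
  obtain ⟨hmax', ha⟩ := hmax.neg hX hH
  have hne : ∃ e ∈ Wt 𝒜 P H 1 a, e ≠ 0 := by
    obtain ⟨y, hy⟩ := hmax.exists_slope
    obtain ⟨s, hs, hys⟩ := exists_Wt_one_of_sourceFree hX hH hmax hp hy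
    exact ⟨s, hs, fun h => hys (by rw [h, map_zero])⟩
  obtain ⟨e, h, f, hT, huniq⟩ := exists_primitive hX hH hmax hmax' hne
    (fun e he he0 => exists_P_P_ne_zero hX hH hmax hm he he0)
  obtain ⟨N, hN⟩ := hT.exists_refine hX hH hmax hmax'
  have hH' := hT.isContactTorus hX hH ha N
  obtain ⟨a', hmaxN⟩ := exists_isMaxSlope hX hH'
  have hWt : ∀ (c j : ℤ) (r : R), r ∈ Wt 𝒜 P H 1 c → P h r = (j : ℂ) • r →
      r ∈ Wt 𝒜 P ((N : ℂ) • H + h) 1 (N * c + j) := by
    intro c j r hr hrj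
    rw [mem_Wt] at hr ⊢
    refine ⟨hr.1, ?_⟩
    rw [map_add, map_smul, LinearMap.add_apply, LinearMap.smul_apply, hr.2, hrj]
    push_cast
    module
  have he' : e ∈ Wt 𝒜 P ((N : ℂ) • H + h) 1 (N * a + 2) :=
    hWt a 2 e hT.he (by rw [hT.h_e]; norm_num)
  have hf' : f ∈ Wt 𝒜 P ((N : ℂ) • H + h) 1 (-(N * a + 2)) := by
    have h1 := hWt (-a) (-2) f hT.hf (by rw [hT.h_f]; push_cast; module)
    have h2 : (N : ℤ) * -a + -2 = -(N * a + 2) := by ring
    rwa [h2] at h1
  have hle : N * a + 2 ≤ a' := by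
    have := hmaxN.le 1 _ e he' hT.e_ne
    simpa using this
  have key : ∀ p, HasSlope 𝒜 P ((N : ℂ) • H + h) p a' → a' = N * a + 2 ∧ p e ≠ 0 := by
    intro p hpN
    have hpH := hN N le_rfl a' hmaxN p hpN
    obtain ⟨s, hs, hps⟩ := exists_Wt_one_of_sourceFree hX hH hmax hp hpH
    obtain ⟨⟨m, j⟩, r, hr, hpr⟩ : ∃ mj : ℤ × ℤ, ∃ r ∈ Wt 𝒜 P H 1 mj.1 ⊓ Wt 𝒜 P h 1 mj.2,
        p r ≠ 0 := by
      by_contra hcon
      push Not at hcon
      have h1 : (⨆ mj : ℤ × ℤ, Wt 𝒜 P H 1 mj.1 ⊓ Wt 𝒜 P h 1 mj.2) ≤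
          LinearMap.ker p.toLinearMap := iSup_le fun mj r hr => hcon mj r hr
      exact hps (h1 (hT.le_iSup hX hH 1 (mem_Wt.mp hs).1))
    obtain ⟨hrH, hrh⟩ := Submodule.mem_inf.mp hr
    simp only at hrH hrh
    have hr0 : r ≠ 0 := fun h0 => hpr (by rw [h0, map_zero])
    have hma : m = a := by
      by_contra hma
      exact hpr (((hasSlope_iff hH p a).mp hpH).2 1 m r hrH (by simpa using hma))
    subst hma
    have hrN := hWt m j r hrH (mem_Wt.mp hrh).2
    have hja : N * m + j = a' := by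
      by_contra hne
      exact hpr (((hasSlope_iff hH' p a').mp hpN).2 1 _ r hrN (by simpa using hne))
    have hj2 := (hT.eigen_one hX hH hmax hmax' hrh hr0).2
    have hj : j = 2 := by linarith
    subst hj
    refine ⟨hja.symm, ?_⟩
    obtain ⟨c, hc⟩ := huniq r hrH (by
      have := (mem_Wt.mp hrh).2
      push_cast at this
      exact this)
    intro hpe
    refine hpr ?_
    rw [hc, map_smul, hpe, smul_zero]
  obtain ⟨p₀, hp₀⟩ := hmaxN.exists_slope
  obtain ⟨ha', hp₀e⟩ := key p₀ hp₀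
  subst ha'
  exact isAdjointVariety_of_triple hX hH' hmaxN he' hf' hT.ef hT.h_e hT.h_f
    (fun k w hw => eq_smul_pow_of_nonvanishing hX hH' hmaxN he' (fun p hp => (key p hp).2) k w hw)
    (hT.isContactTorus_h hX hH) hp₀ hp₀e

end Vale.Agent.P292
end

section

/-! Part E: isolated tori. -/

namespace Vale.Agent.P292

open Module LieAlgebra

universe u

variable {g : Type u} [LieRing g] [LieAlgebra ℂ g] [FiniteDimensional ℂ g]

/-- The centraliser of `h`. -/
private def x9_Z (h : g) : LieSubalgebra ℂ g where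
  carrier := {z | ⁅h, z⁆ = 0}
  add_mem' := fun {x y} hx hy => by
    change ⁅h, x + y⁆ = 0
    rw [lie_add, show ⁅h, x⁆ = 0 from hx, show ⁅h, y⁆ = 0 from hy, add_zero]
  zero_mem' := lie_zero h
  smul_mem' := fun c x hx => by
    change ⁅h, c • x⁆ = 0
    rw [lie_smul, show ⁅h, x⁆ = 0 from hx, smul_zero]
  lie_mem' := fun {x y} hx hy => by
    change ⁅h, ⁅x, y⁆⁆ = 0
    rw [leibniz_lie, show ⁅h, x⁆ = 0 from hx, show ⁅h, y⁆ = 0 from hy, zero_lie, lie_zero,
      add_zero]

/-- The top eigenspace as a module over the centraliser. -/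
private def x9_V (h : g) (a : ℤ) : LieSubmodule ℂ (x9_Z h) g where
  toSubmodule := TopSp h a
  lie_mem := fun {z v} hv => by
    change ⁅(z : g), v⁆ ∈ TopSp h a
    have hz : ⁅h, (z : g)⁆ = 0 := z.2
    have hv' : ⁅h, v⁆ = (a : ℂ) • v := mem_TopSp.mp hv
    rw [mem_TopSp, leibniz_lie, hz, zero_lie, zero_add, hv', lie_smul]

/-- The centraliser of `h` has a common eigenvector in the top eigenspace, if the elements of
the centraliser fixed by `σ` have only one eigenvalue there. -/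
theorem exists_eigenvector_topSp (σ : g ≃ₗ⁅ℂ⁆ g) {p : ℕ} (hp : p.Prime)
    (hσp : ∀ x, (⇑σ)^[p] x = x) {h : g} (hσh : σ h = h) {a : ℤ} (ha : IsTop h a)
    (h1 : ∀ x : g, σ x = x → ⁅h, x⁆ = 0 → ∀ (l m : ℂ) (v w : g), v ≠ 0 → w ≠ 0 →
      v ∈ TopSp h a → w ∈ TopSp h a → ⁅x, v⁆ = l • v → ⁅x, w⁆ = m • w → l = m) :
    ∃ v₁ : g, v₁ ≠ 0 ∧ v₁ ∈ TopSp h a ∧ ∀ z : g, ⁅h, z⁆ = 0 → ∃ c : ℂ, ⁅z, v₁⁆ = c • v₁ := by
  have hσh' : σ.symm h = h := by rw [LieEquiv.symm_apply_eq, hσh]
  have hmap : (x9_Z h).map (σ : g →ₗ⁅ℂ⁆ g) = x9_Z h := by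
    ext z
    constructor
    · rintro ⟨x, hx, rfl⟩
      have hx' : ⁅h, x⁆ = 0 := hx
      change ⁅h, σ x⁆ = 0
      rw [← hσh, ← LieEquiv.map_lie, hx', map_zero]
    · intro hz
      have hz' : ⁅h, z⁆ = 0 := hz
      refine ⟨σ.symm z, ?_, σ.apply_symm_apply z⟩
      change ⁅h, σ.symm z⁆ = 0
      rw [← hσh', ← LieEquiv.map_lie, hz', map_zero]
  let σZ : x9_Z h ≃ₗ⁅ℂ⁆ x9_Z h := σ.ofSubalgebras (x9_Z h) (x9_Z h) hmap
  have hσZ : ∀ z : x9_Z h, ((σZ z : x9_Z h) : g) = σ z := fun z => rfl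
  have hmem : ∀ v ∈ TopSp h a, σ v ∈ TopSp h a := by
    intro v hv
    rw [mem_TopSp] at hv ⊢
    rw [← hσh, ← LieEquiv.map_lie, hv, map_smul]
  have hmem' : ∀ v ∈ TopSp h a, σ.symm v ∈ TopSp h a := by
    intro v hv
    rw [mem_TopSp] at hv ⊢
    rw [← hσh', ← LieEquiv.map_lie, hv, map_smul]
  let σV : x9_V h a ≃ₗ[ℂ] x9_V h a :=
    { toFun := fun v => ⟨σ v, hmem v v.2⟩
      invFun := fun v => ⟨σ.symm v, hmem' v v.2⟩
      map_add' := fun v w => Subtype.ext (map_add σ (v : g) (w : g))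
      map_smul' := fun c v => Subtype.ext (map_smul σ c (v : g))
      left_inv := fun v => Subtype.ext (σ.symm_apply_apply v)
      right_inv := fun v => Subtype.ext (σ.apply_symm_apply v) }
  have hσV : ∀ v : x9_V h a, ((σV v : x9_V h a) : g) = σ v := fun v => rfl
  have hiterZ : ∀ (n : ℕ) (z : x9_Z h), (((⇑σZ)^[n] z : x9_Z h) : g) = (⇑σ)^[n] (z : g) := by
    intro n
    induction n with
    | zero => intro z; rfl
    | succ n ih =>
      intro z
      rw [Function.iterate_succ_apply, ih, hσZ, Function.iterate_succ_apply]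
  have hiterV : ∀ (n : ℕ) (v : x9_V h a), (((⇑σV)^[n] v : x9_V h a) : g) = (⇑σ)^[n] (v : g) := by
    intro n
    induction n with
    | zero => intro z; rfl
    | succ n ih =>
      intro z
      rw [Function.iterate_succ_apply, ih, hσV, Function.iterate_succ_apply]
  obtain ⟨v₀, hv₀, hv₀m⟩ := ha.ne
  have : Nontrivial (x9_V h a) :=
    ⟨⟨⟨v₀, hv₀m⟩, 0, fun h => hv₀ (congrArg Subtype.val h)⟩⟩
  have : FiniteDimensional ℂ (x9_Z h) :=
    inferInstanceAs (FiniteDimensional ℂ (x9_Z h).toSubmodule)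
  have : FiniteDimensional ℂ (x9_V h a) :=
    inferInstanceAs (FiniteDimensional ℂ (x9_V h a).toSubmodule)
  obtain ⟨v, hv0, hv⟩ := exists_common_eigenvector (Z := x9_Z h) (V := x9_V h a) σZ σV
    (fun z v => Subtype.ext (LieEquiv.map_lie σ (z : g) (v : g))) hp
    (fun z => Subtype.ext ((hiterZ p z).trans (hσp z)))
    (fun v => Subtype.ext ((hiterV p v).trans (hσp v)))
    (fun z hz l m v w hv0 hw0 hv hw => h1 (z : g) (congrArg Subtype.val hz) z.2 l m (v : g)
      (w : g) (fun h => hv0 (Subtype.ext h)) (fun h => hw0 (Subtype.ext h)) v.2 w.2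
      (congrArg Subtype.val hv) (congrArg Subtype.val hw))
  refine ⟨(v : g), fun h => hv0 (Subtype.ext h), v.2, fun z hz => ?_⟩
  obtain ⟨c, hc⟩ := hv ⟨z, hz⟩
  exact ⟨c, congrArg Subtype.val hc⟩

/-- A `σ`-fixed torus with one-dimensional top eigenspace. -/
theorem exists_isolated [IsSimple ℂ g] (σ : g ≃ₗ⁅ℂ⁆ g) {p : ℕ} (hp : p.Prime)
    (hσp : ∀ x, (⇑σ)^[p] x = x) {h₀ : g} (hσh₀ : σ h₀ = h₀) (h₀0 : h₀ ≠ 0) (hh₀ : IsInt h₀) :
    ∃ h : g, h ≠ 0 ∧ IsInt h ∧ σ h = h ∧ ∃ (a : ℤ) (v₁ : g), IsTop h a ∧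
      ∀ v ∈ TopSp h a, ∃ c : ℂ, v = c • v₁ := by
  classical
  have : Nontrivial g := ⟨⟨h₀, 0, h₀0⟩⟩
  obtain ⟨a₀, ha₀⟩ := exists_isTop hh₀
  have hex : ∃ n : ℕ, ∃ (h : g) (a : ℤ), h ≠ 0 ∧ IsInt h ∧ σ h = h ∧ IsTop h a ∧
      finrank ℂ (TopSp h a) = n := ⟨_, h₀, a₀, h₀0, hh₀, hσh₀, ha₀, rfl⟩
  obtain ⟨h, a, h0, hh, hσh, ha, hn⟩ := Nat.find_spec hex
  have hmin : ∀ (h' : g) (a' : ℤ), h' ≠ 0 → IsInt h' → σ h' = h' → IsTop h' a' →
      finrank ℂ (TopSp h a) ≤ finrank ℂ (TopSp h' a') := by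
    intro h' a' h'0 hh' hσh' ha'
    rw [hn]
    exact Nat.find_min' hex ⟨h', a', h'0, hh', hσh', ha', rfl⟩
  obtain ⟨v₁, hv₁, h₁, hz⟩ := exists_eigenvector_topSp σ hp hσp hσh ha (by
    intro x hσx hhx l m v w hv hw hhv hhw hxv hxw
    by_contra hlm
    obtain ⟨u, hu, hσu, hhu, i, j, hij, huv, huw⟩ :=
      exists_isInt σ hσx hhx hlm hv hw hxv hxw
    obtain ⟨N, a', hne, hint, htop, hlt⟩ :=
      exists_refined hh h0 ha hu hhu hv hw hhv hhw hij huv huw
    have h2 := hmin _ a' hne hint (by rw [map_add, map_smul, hσh, hσu]) htop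
    omega)
  exact ⟨h, h0, hh, hσh, a, v₁, ha, topSp_eq_span hh ha hv₁ h₁ hz⟩

end Vale.Agent.P292
end

section

/-! Theorem E, section 5: (KEY), the functions `η`. See `PROOF.md`. -/

namespace Vale.Agent.P292

open Module Polynomial

universe u v

variable {R : Type u} [CommRing R] [Algebra ℂ R] {𝒜 : ℕ → Submodule ℂ R} [GradedAlgebra 𝒜]
  {P : R →ₗ[ℂ] R →ₗ[ℂ] R} {H : R} {a : ℤ} {n : ℕ}

/-- A derivation of the polynomial ring killing the image of `A₋` under a cell is zero. -/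
theorem CtxN.li5_W (C : CtxN 𝒜 P H a n) {y : R →ₐ[ℂ] ℂ} (hy : HasSlope 𝒜 P H y a)
    (f : Frame 𝒜 P H a n) (hΔ : y f.Δ ≠ 0)
    {K : Type v} [Field K] [Algebra ℂ K] (ι : MvPolynomial (Fin n) ℂ →ₐ[ℂ] K)
    (hι : Function.Injective ι) (W : MvPolynomial (Fin n) ℂ →ₗ[ℂ] K)
    (hW : ∀ p q, W (p * q) = ι p * W q + ι q * W p)
    (h0 : ∀ c ∈ Ap 𝒜 P (-H) a, W (C.half.ctx.cell f y c) = 0) : ∀ p, W p = 0 := by
  have hK : CharZero K := charZero_of_injective_algebraMap (algebraMap ℂ K).injective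
  have hpure := (C.half.ctx.hasSlope_iff_pure.1 hy).1
  have hΨ := C.half.isCell C.npos f y hpure hΔ
  have h1 : W 1 = 0 := by
    have := hW 1 1
    rw [mul_one, map_one ι, one_mul] at this
    exact (add_eq_left.1 this.symm)
  have hC : ∀ c : ℂ, W (algebraMap ℂ _ c) = 0 := fun c => by
    rw [Algebra.algebraMap_eq_smul_one, map_smul, h1, smul_zero]
  have hT : ∀ p ∈ Algebra.adjoin ℂ (C.half.ctx.cell f y '' (Ap 𝒜 P (-H) a : Set R)), W p = 0 := by
    intro p hp
    induction hp using Algebra.adjoin_induction with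
    | mem p hp =>
      obtain ⟨c, hc, rfl⟩ := hp
      exact h0 c hc
    | algebraMap c => exact hC c
    | add p q _ _ hp hq => rw [map_add, hp, hq, add_zero]
    | mul p q _ _ hp hq => rw [hW, hp, hq, mul_zero, mul_zero, add_zero]
  have hX : ∀ i, W (MvPolynomial.X i) = 0 := fun i =>
    derivation_eq_zero_of_isAlgebraic
      (A := Algebra.adjoin ℂ (C.half.ctx.cell f y '' (Ap 𝒜 P (-H) a : Set R)))
      (ι : MvPolynomial (Fin n) ℂ →+* K) hι W.toAddMonoidHom hW (fun x => hT x x.2)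
      Subtype.val_injective (hΨ.isAlgebraic C.half.ctx i)
  intro p
  induction p using MvPolynomial.induction_on with
  | C c => exact hC c
  | add p q hp hq => rw [map_add, hp, hq, add_zero]
  | mul_X p i hp => rw [hW, hp, hX, mul_zero, mul_zero, add_zero]

/-- The Jacobian determinant of the functions `γ_j` does not vanish. -/
theorem CtxN.li5_jac (C : CtxN 𝒜 P H a n) {y : R →ₐ[ℂ] ℂ} (hy : HasSlope 𝒜 P H y a)
    (f : Frame 𝒜 P H a n) (hΔ : y f.Δ ≠ 0) (f' : Frame 𝒜 P (-H) a n) (hΔ' : f'.Δ ≠ 0)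
    {K : Type v} [Field K] [Algebra ℂ K] (ι : MvPolynomial (Fin n) ℂ →ₐ[ℂ] K)
    (hι : Function.Injective ι) :
    (Matrix.of fun i j : Fin n =>
      ι (MvPolynomial.pderiv i (C.half.ctx.cell f y (f'.b j)))).det ≠ 0 := by
  intro hdet
  obtain ⟨v, hv, hv0⟩ := Matrix.exists_vecMul_eq_zero_iff.2 hdet
  let W : MvPolynomial (Fin n) ℂ →ₗ[ℂ] K := ∑ i, (LinearMap.mulLeft ℂ (v i)).comp
    (ι.toLinearMap.comp
      ((MvPolynomial.pderiv i : Derivation ℂ (MvPolynomial (Fin n) ℂ) _) :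
        MvPolynomial (Fin n) ℂ →ₗ[ℂ] MvPolynomial (Fin n) ℂ))
  have hWa : ∀ p, W p = ∑ i, v i * ι (MvPolynomial.pderiv i p) := fun p => by
    simp [W, LinearMap.sum_apply]
  have hW : ∀ p q, W (p * q) = ι p * W q + ι q * W p := by
    intro p q
    rw [hWa, hWa, hWa, Finset.mul_sum, Finset.mul_sum, ← Finset.sum_add_distrib]
    refine Finset.sum_congr rfl fun i _ => ?_
    rw [Derivation.leibniz, smul_eq_mul, smul_eq_mul, map_add, map_mul, map_mul]
    ring
  have h0 : ∀ c ∈ Ap 𝒜 P (-H) a, W (C.half.ctx.cell f y c) = 0 := by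
    refine C.neg_half.derivation_eq_zero f' hΔ' (ι.comp (C.half.ctx.cell f y)) ?_
      (W.comp (C.half.ctx.cell f y).toLinearMap) ?_ ?_
    · intro r hr h
      exact C.half.inj y f hy hΔ r hr (hι (by rw [map_zero]; exact h))
    · intro u _ v _
      change W (C.half.ctx.cell f y (u * v)) = _
      rw [map_mul, hW]
      rfl
    · intro j
      change W (C.half.ctx.cell f y (f'.b j)) = 0
      have := congrFun hv0 j
      rw [Matrix.vecMul, dotProduct] at this
      rw [hWa]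
      exact this
  have hW0 := C.li5_W hy f hΔ ι hι W hW h0
  apply hv
  funext i
  have h1 := hW0 (MvPolynomial.X i)
  rw [hWa, Finset.sum_eq_single i] at h1
  · simpa using h1
  · intro j _ hj
    rw [MvPolynomial.pderiv_X_of_ne hj.symm, map_zero, mul_zero]
  · simp

/-- A derivation as a homomorphism to the dual numbers. -/
theorem li5_dual {R K : Type*} [CommRing R] [Algebra ℂ R] [Field K] [Algebra ℂ K]
    (φ : R →ₐ[ℂ] K) (V : R →ₗ[ℂ] K) (hV : ∀ r s, V (r * s) = φ r * V s + φ s * V r) :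
    ∃ x : R →ₐ[ℂ] DualNumber K, ∀ r, (x r).fst = φ r ∧ (x r).snd = V r := by
  have h1 : V 1 = 0 := by
    have := hV 1 1
    rw [mul_one, map_one φ, one_mul] at this
    exact (add_eq_left.1 this.symm)
  refine ⟨AlgHom.ofLinearMap
    { toFun := fun r => (TrivSqZeroExt.inl (φ r) + TrivSqZeroExt.inr (V r) : DualNumber K)
      map_add' := fun r s => by ext <;> simp
      map_smul' := fun c r => by ext <;> simp } ?_ ?_, fun r => ?_⟩
  · ext <;> simp [h1]
  · intro r s
    ext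
    · simp
    · simp [hV, mul_comm]
  · constructor <;> simp

/-- The derivation of the polynomial ring induced by a homomorphism to the dual numbers. -/
theorem li5_desc {n : ℕ} {R K : Type*} [CommRing R] [Algebra ℂ R] [Field K] [Algebra ℂ K]
    (h : R →ₐ[ℂ] MvPolynomial (Fin n) ℂ) (ι : MvPolynomial (Fin n) ℂ →ₐ[ℂ] K) (S : Set R)
    (hS : ∀ i, (MvPolynomial.X i : MvPolynomial (Fin n) ℂ) ∈ Submodule.span ℂ (h '' S))
    (V : R →ₗ[ℂ] K) (x : R →ₐ[ℂ] DualNumber K)
    (hx : ∀ r, (x r).fst = ι (h r) ∧ (x r).snd = V r) (ξ : Fin n → DualNumber K)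
    (hξ : ∀ r, x r = MvPolynomial.aeval ξ (h r)) :
    ∃ W : MvPolynomial (Fin n) ℂ →ₗ[ℂ] K, (∀ p q, W (p * q) = ι p * W q + ι q * W p) ∧
      ∀ r, W (h r) = V r := by
  have h1 : (TrivSqZeroExt.fstHom ℂ K K).comp (MvPolynomial.aeval ξ) = ι := by
    ext i
    have h2 : Submodule.span ℂ (h '' S) ≤ LinearMap.eqLocus
        ((TrivSqZeroExt.fstHom ℂ K K).comp (MvPolynomial.aeval ξ)).toLinearMap ι.toLinearMap := by
      rw [Submodule.span_le]
      rintro _ ⟨r, _, rfl⟩
      change (MvPolynomial.aeval ξ (h r)).fst = ι (h r)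
      rw [← hξ, (hx r).1]
    exact h2 (hS i)
  have h3 : ∀ p, (MvPolynomial.aeval ξ p).fst = ι p := fun p => by rw [← h1]; rfl
  refine ⟨((TrivSqZeroExt.sndHom K K).restrictScalars ℂ).comp
    (MvPolynomial.aeval ξ : MvPolynomial (Fin n) ℂ →ₐ[ℂ] DualNumber K).toLinearMap, ?_, ?_⟩
  · intro p q
    change (MvPolynomial.aeval ξ (p * q)).snd =
      ι p * (MvPolynomial.aeval ξ q).snd + ι q * (MvPolynomial.aeval ξ p).snd
    rw [map_mul, TrivSqZeroExt.snd_mul, h3, h3]
    simp [mul_comm]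
  · intro r
    change (MvPolynomial.aeval ξ (h r)).snd = V r
    rw [← hξ, (hx r).2]
/-- The dual frame functions `η`. -/
theorem CtxN.exists_eta (C : CtxN 𝒜 P H a n) {y : R →ₐ[ℂ] ℂ} (hy : HasSlope 𝒜 P H y a)
    (f : Frame 𝒜 P H a n) (hΔ : y f.Δ ≠ 0) (f' : Frame 𝒜 P (-H) a n) (hΔ' : f'.Δ ≠ 0)
    {K : Type v} [Field K] [Algebra ℂ K] (ι : MvPolynomial (Fin n) ℂ →ₐ[ℂ] K)
    (hι : Function.Injective ι) :
    ∃ η : Fin n → K,
      (∀ (k : ℕ) (s : ℤ), ∀ r ∈ Wt 𝒜 P H k (a * s),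
        ((k + s : ℤ) : K) * ι (C.half.ctx.cell f y r) =
          ∑ j, η j * ι (C.half.ctx.cell f y (P (f'.b j) r))) ∧
      ∀ i, 2 * ι (MvPolynomial.pderiv i (C.half.ctx.cell f y H)) =
        (a : K) * ∑ j, η j * ι (MvPolynomial.pderiv i (C.half.ctx.cell f y (f'.b j))) := by
  have hX := C.half.ctx.hX
  have ha := C.half.ctx.pos
  have haC : (a : ℂ) ≠ 0 := by exact_mod_cast ha.ne'
  have hpure := (C.half.ctx.hasSlope_iff_pure.1 hy).1
  have hΨ := C.half.isCell C.npos f y hpure hΔ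
  have hdet := C.li5_jac hy f hΔ f' hΔ' ι hι
  set M : Matrix (Fin n) (Fin n) K := Matrix.of fun i j : Fin n =>
    ι (MvPolynomial.pderiv i (C.half.ctx.cell f y (f'.b j))) with hM
  -- the functions
  set η : Fin n → K := M⁻¹.mulVec fun i => -(algebraMap ℂ K (2 * (f.kb i : ℂ) * y (f.b i)))
    with hη
  have hMη : ∀ i, ∑ j, η j * ι (MvPolynomial.pderiv i (C.half.ctx.cell f y (f'.b j))) =
      -(algebraMap ℂ K (2 * (f.kb i : ℂ) * y (f.b i))) := by
    intro i
    have h1 : M.mulVec η = fun i => -(algebraMap ℂ K (2 * (f.kb i : ℂ) * y (f.b i))) := by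
      rw [hη, Matrix.mulVec_mulVec, Matrix.mul_nonsing_inv _ (isUnit_iff_ne_zero.2 hdet),
        Matrix.one_mulVec]
    have h2 := congrFun h1 i
    rw [Matrix.mulVec, dotProduct] at h2
    rw [← h2]
    refine Finset.sum_congr rfl fun j _ => ?_
    rw [hM, Matrix.of_apply, mul_comm]
  have hcellb : ∀ i, C.half.ctx.cell f y (f.b i) = MvPolynomial.C (y (f.b i)) := fun i =>
    C.half.ctx.cell_Ap f y (mem_Ap (f.hb i))
  -- the derivation
  let φ : R →ₐ[ℂ] K := ι.comp (C.half.ctx.cell f y)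
  have hφ : ∀ r, φ r = ι (C.half.ctx.cell f y r) := fun r => rfl
  let Ee : R →ₗ[ℂ] R := euler 𝒜 + ((a : ℂ)⁻¹) • P H
  have hEe : ∀ r, Ee r = euler 𝒜 r + (a : ℂ)⁻¹ • P H r := fun r => rfl
  have hEmul : ∀ r s, Ee (r * s) = Ee r * s + r * Ee s := by
    intro r s
    rw [hEe, hEe, hEe, euler_mul, hX.leibniz]
    simp only [smul_add, add_mul, mul_add, smul_mul_assoc, mul_smul_comm]
    abel
  let V : R →ₗ[ℂ] K := φ.toLinearMap.comp Ee -
    ∑ j, (LinearMap.mulLeft ℂ (η j)).comp (φ.toLinearMap.comp (P (f'.b j)))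
  have hVa : ∀ r, V r = φ (Ee r) - ∑ j, η j * φ (P (f'.b j) r) := fun r => by
    simp [V, LinearMap.sum_apply]
  have hVm : ∀ r s, V (r * s) = φ r * V s + φ s * V r := by
    intro r s
    rw [hVa, hVa, hVa, hEmul, mul_sub, mul_sub, Finset.mul_sum, Finset.mul_sum]
    have h1 : ∑ j, η j * φ (P (f'.b j) (r * s)) =
        ∑ j, φ r * (η j * φ (P (f'.b j) s)) + ∑ j, φ s * (η j * φ (P (f'.b j) r)) := by
      rw [← Finset.sum_add_distrib]
      refine Finset.sum_congr rfl fun j _ => ?_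
      rw [hX.leibniz, map_add, map_mul, map_mul]
      ring
    rw [h1, map_add, map_mul, map_mul]
    ring
  have hVW : ∀ (k : ℕ) (s : ℤ), ∀ r ∈ Wt 𝒜 P H k (a * s),
      V r = ((k + s : ℤ) : K) * φ r - ∑ j, η j * φ (P (f'.b j) r) := by
    intro k s r hr
    obtain ⟨hr1, hr2⟩ := mem_Wt.1 hr
    rw [hVa, hEe, euler_apply k r hr1, hr2, smul_smul, ← add_smul, map_smul]
    congr 1
    rw [Algebra.smul_def]
    congr 1
    have : (k : ℂ) + (a : ℂ)⁻¹ * ((a * s : ℤ) : ℂ) = ((k + s : ℤ) : ℂ) := by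
      push_cast
      rw [← mul_assoc, inv_mul_cancel₀ haC, one_mul]
    rw [this, map_intCast]
  -- `V` kills `1` and the `b i`
  have hV1 : ∀ c : ℂ, V (algebraMap ℂ R c) = 0 := by
    intro c
    have h1 : V 1 = 0 := by
      have := hVm 1 1
      rw [mul_one, map_one φ, one_mul] at this
      exact (add_eq_left.1 this.symm)
    rw [Algebra.algebraMap_eq_smul_one, map_smul, h1, smul_zero]
  have hVb : ∀ i, V (f.b i) = 0 := by
    intro i
    rw [hVW (f.kb i) (f.kb i) _ (f.hb i)]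
    have h1 : ∑ j, η j * φ (P (f'.b j) (f.b i)) =
        -∑ j, η j * ι (MvPolynomial.pderiv i (C.half.ctx.cell f y (f'.b j))) := by
      rw [← Finset.sum_neg_distrib]
      refine Finset.sum_congr rfl fun j _ => ?_
      rw [C.half.ctx.pderiv_cell, hX.skew (f'.b j), map_neg, hφ]
      ring
    rw [h1, hMη, hφ, hcellb, ← MvPolynomial.algebraMap_eq, AlgHom.commutes, map_mul, map_mul]
    push_cast
    simp only [map_ofNat]
    ring
  -- `V` kills `A₊`
  have hmemA : ∀ c ∈ Ap 𝒜 P H a, c ∈ ⨆ k : ℕ, Wt 𝒜 P H k (a * k - (0 : ℤ)) := by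
    refine C.half.ctx.Ap_induction ?_ ?_ ?_
    · intro k r hr
      exact Submodule.mem_iSup_of_mem k (by simpa using hr)
    · exact zero_mem _
    · intro r s hr hs
      exact add_mem hr hs
  have hAmem : ∀ c ∈ ⨆ k : ℕ, Wt 𝒜 P H k (a * k - (0 : ℤ)), c ∈ Ap 𝒜 P H a := by
    intro c hc
    have hle : ⨆ k : ℕ, Wt 𝒜 P H k (a * k - (0 : ℤ)) ≤ Subalgebra.toSubmodule (Ap 𝒜 P H a) :=
      iSup_le fun k r hr => mem_Ap (k := k) (by simpa using hr)
    exact hle hc
  have hVA : ∀ c ∈ Ap 𝒜 P H a, V c = 0 := by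
    intro c hc
    obtain ⟨γ, hγ⟩ := C.half.complete y f hy hΔ c hc
    have hVu : V ((c - algebraMap ℂ R (y c)) -
        ∑ i, γ i • (f.b i - algebraMap ℂ R (y (f.b i)))) = V c := by
      simp only [map_sub, map_sum, map_smul, hV1, hVb, sub_zero, smul_zero,
        Finset.sum_const_zero]
    rw [← hVu]
    have hmem := hmemA ((c - algebraMap ℂ R (y c)) -
        ∑ i, γ i • (f.b i - algebraMap ℂ R (y (f.b i))))
      (sub_mem (sub_mem hc (Subalgebra.algebraMap_mem _ _)) (sum_mem fun i _ =>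
        Subalgebra.smul_mem _ (sub_mem (mem_Ap (f.hb i)) (Subalgebra.algebraMap_mem _ _)) _))
    have h1 := C.half.ctx.ker_sq_graded hy hmem hγ
    refine Submodule.span_induction (p := fun x _ => V x = 0) ?_ (map_zero V)
      (fun x z _ _ hx hz => by rw [map_add, hx, hz, add_zero])
      (fun c x _ hx => by rw [map_smul, hx, smul_zero]) h1
    rintro _ ⟨δ₁, δ₂, h₁, h₂, h₁₂, u, hu, v, hv, hyu, hyv, rfl⟩
    obtain rfl : δ₁ = 0 := by omega
    obtain rfl : δ₂ = 0 := by omega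
    have hφ0 : ∀ w ∈ ⨆ k : ℕ, Wt 𝒜 P H k (a * k - (0 : ℤ)), y w = 0 → φ w = 0 := by
      intro w hw hyw
      rw [hφ, C.half.ctx.cell_Ap f y (hAmem w hw), hyw, map_zero, map_zero]
    rw [hVm, hφ0 u hu hyu, hφ0 v hv hyv, zero_mul, zero_mul, add_zero]
  -- weights not divisible by `a`
  have htw := C.half.ctx.typeW_cell f hpure
  have hφw : ∀ (l : ℕ) (m : ℤ), ¬ a ∣ m → ∀ s ∈ Wt 𝒜 P H l m, φ s = 0 := fun l m hm s hs => by
    rw [hφ, htw l m hm s hs, map_zero]
  have hbw : ∀ j, f'.b j ∈ Wt 𝒜 P H (f'.kb j) (-(a * f'.kb j)) := fun j => by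
    have := f'.hb j
    rwa [Wt_neg] at this
  have hVtw : ∀ (k : ℕ) (m : ℤ), ¬ a ∣ m → ∀ r ∈ Wt 𝒜 P H k m, V r = 0 := by
    intro k m hm r hr
    obtain ⟨hr1, hr2⟩ := mem_Wt.1 hr
    rw [hVa, hEe, euler_apply k r hr1, hr2, map_add, map_smul, map_smul, map_smul,
      hφw k m hm r hr, smul_zero, smul_zero, smul_zero, add_zero, zero_sub, neg_eq_zero]
    refine Finset.sum_eq_zero fun j _ => ?_
    have hkb := f'.kb_pos j
    have hP := Wt_P hX (j := f'.kb j + k - 1) (by omega) (hbw j) hr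
    rw [hφw _ _ ?_ _ hP, mul_zero]
    intro hd
    apply hm
    have h1 : a ∣ -(a * (f'.kb j : ℤ)) := (dvd_mul_right a _).neg_right
    exact (dvd_add_right h1).1 hd
  -- the derivation of the polynomial ring
  obtain ⟨x, hx⟩ := li5_dual φ V hVm
  have hxW : TypeW 𝒜 P H a x := by
    intro k m hm r hr
    ext
    · rw [(hx r).1, hφw k m hm r hr]
      rfl
    · rw [(hx r).2, hVtw k m hm r hr]
      rfl
  have hxA : ∀ c ∈ Ap 𝒜 P H a, x c = algebraMap ℂ (DualNumber K) (y c) := by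
    intro c hc
    ext
    · rw [(hx c).1, hφ, C.half.ctx.cell_Ap f y hc, ← MvPolynomial.algebraMap_eq,
        AlgHom.commutes]
      rfl
    · rw [(hx c).2, hVA c hc]
      rfl
  obtain ⟨ξ, hξ⟩ := C.half.ctx.cell_lemma hy f hΔ (C.half.complete y f hy hΔ) x hxW hxA
  obtain ⟨W, hWm, hW⟩ := li5_desc (C.half.ctx.cell f y) ι Set.univ (fun i => by
      have h1 := hΨ.lin i
      refine Submodule.span_mono ?_ h1
      rintro _ ⟨k, r, _, rfl⟩
      exact ⟨r, trivial, rfl⟩) V x hx ξ hξ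
  have hV0 : ∀ r, V r = 0 := by
    have h0 : ∀ c ∈ Ap 𝒜 P (-H) a, W (C.half.ctx.cell f y c) = 0 := by
      refine C.neg_half.ctx.Ap_induction ?_ ?_ ?_
      · intro k c hc
        have hc' : c ∈ Wt 𝒜 P H k (a * (-k : ℤ)) := by
          rw [Wt_neg] at hc
          rwa [mul_neg]
        rw [hW, hVW k (-k) c hc']
        have h1 : ∀ j, P (f'.b j) c = 0 := fun j =>
          C.neg_half.ctx.P_Ap (mem_Ap (f'.hb j)) (mem_Ap hc)
        simp [h1]
      · rw [map_zero, map_zero]
      · intro r s hr hs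
        rw [map_add, map_add, hr, hs, add_zero]
    have h1 := C.li5_W hy f hΔ ι hι W hWm h0
    intro r
    rw [← hW, h1]
  refine ⟨η, ?_, ?_⟩
  · intro k s r hr
    have h1 := hVW k s r hr
    rw [hV0, eq_comm, sub_eq_zero] at h1
    exact h1
  · intro i
    rw [hMη, C.half.ctx.pderiv_cell, hX.skew (f.b i), (mem_Wt.1 (f.hb i)).2, map_neg, map_smul,
      map_neg, map_smul, hcellb, ← MvPolynomial.algebraMap_eq, AlgHom.commutes,
      Algebra.smul_def]
    push_cast
    simp only [map_intCast, map_ofNat]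
    ring

end Vale.Agent.P292
end

section

/-! Theorem E, section 5: (KEY). See `PROOF.md`. -/

namespace Vale.Agent.P292

open Module Polynomial

universe u v

variable {R : Type u} [CommRing R] [Algebra ℂ R] {𝒜 : ℕ → Submodule ℂ R} [GradedAlgebra 𝒜]
  {P : R →ₗ[ℂ] R →ₗ[ℂ] R} {H : R} {a : ℤ} {n : ℕ}

/-- A derivation over a homomorphism from a polynomial algebra is determined by the values at
the variables. -/
theorem li6_chain {σ : Type*} [Fintype σ] {Ω : Type v} [Field Ω] [Algebra ℂ Ω]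
    (ψ : MvPolynomial σ ℂ →ₐ[ℂ] Ω) (V : MvPolynomial σ ℂ →ₗ[ℂ] Ω)
    (hV : ∀ p q, V (p * q) = ψ p * V q + ψ q * V p) (p : MvPolynomial σ ℂ) :
    V p = ∑ i, V (MvPolynomial.X i) * ψ (MvPolynomial.pderiv i p) := by
  classical
  have h1 : V 1 = 0 := by
    have := hV 1 1
    rw [mul_one, map_one ψ, one_mul] at this
    simpa using this
  induction p using MvPolynomial.induction_on with
  | C c =>
    have h3 : V (MvPolynomial.C c) = 0 := by
      rw [← mul_one (MvPolynomial.C c), ← MvPolynomial.smul_eq_C_mul, map_smul, h1, smul_zero]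
    rw [h3]
    symm
    refine Finset.sum_eq_zero fun i _ => ?_
    rw [MvPolynomial.pderiv_C, map_zero, mul_zero]
  | add p q hp hq =>
    rw [map_add, hp, hq, ← Finset.sum_add_distrib]
    refine Finset.sum_congr rfl fun i _ => ?_
    rw [map_add, map_add, mul_add]
  | mul_X p j hp =>
    rw [hV, hp, Finset.mul_sum]
    have h2 : ∀ i, V (MvPolynomial.X i) * ψ (MvPolynomial.pderiv i (p * MvPolynomial.X j)) =
        (if i = j then ψ p * V (MvPolynomial.X j) else 0) +
          ψ (MvPolynomial.X j) * (V (MvPolynomial.X i) * ψ (MvPolynomial.pderiv i p)) := by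
      intro i
      rw [Derivation.leibniz, MvPolynomial.pderiv_X, map_add, smul_eq_mul, smul_eq_mul, map_mul,
        map_mul]
      by_cases hij : i = j
      · subst hij
        rw [Pi.single_eq_same, map_one, if_pos rfl]
        ring
      · rw [Pi.single_eq_of_ne (Ne.symm hij), map_zero, if_neg hij]
        ring
    rw [Finset.sum_congr rfl fun i _ => h2 i, Finset.sum_add_distrib, Finset.sum_ite_eq',
      if_pos (Finset.mem_univ j)]

/-- (KEY) -/
theorem CtxN.key (C : CtxN 𝒜 P H a n) {y : R →ₐ[ℂ] ℂ} (hy : HasSlope 𝒜 P H y a)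
    (f : Frame 𝒜 P H a n) (hΔ : y f.Δ ≠ 0)
    {Ω : Type v} [Field Ω] [Algebra ℂ Ω] (ψ : MvPolynomial (Fin n) ℂ →ₐ[ℂ] Ω)
    (hψ : Function.Injective ψ) (V : MvPolynomial (Fin n) ℂ →ₗ[ℂ] Ω)
    (hV : ∀ p q, V (p * q) = ψ p * V q + ψ q * V p) {N : ℕ} (r : Fin N → R) (l : Fin N → ℕ)
    (hr : ∀ i, r i ∈ Wt 𝒜 P H (l i) (-(a * l i - a))) (θ : Fin N → Ω)
    (h : ∀ c ∈ Ap 𝒜 P (-H) a,
      V (C.half.ctx.cell f y c) = ∑ i, θ i * ψ (C.half.ctx.cell f y (P (r i) c))) :
    2 * V (C.half.ctx.cell f y H) = -(a : Ω) * ∑ i, θ i * ψ (C.half.ctx.cell f y (r i)) := by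
  obtain ⟨f', hΔ'⟩ := C.neg_half.exists_frame_ne
  obtain ⟨η, h1, h2⟩ := C.exists_eta hy f hΔ f' hΔ' ψ hψ
  have hη : ∀ i, ∑ j, η j * ψ (C.half.ctx.cell f y (P (f'.b j) (r i))) =
      ψ (C.half.ctx.cell f y (r i)) := by
    intro i
    have h3 : r i ∈ Wt 𝒜 P H (l i) (a * (1 - (l i : ℤ))) := by
      have h4 : -(a * (l i : ℤ) - a) = a * (1 - (l i : ℤ)) := by ring
      rw [← h4]
      exact hr i
    rw [← h1 (l i) (1 - (l i : ℤ)) (r i) h3]
    have h5 : ((l i : ℤ) + (1 - (l i : ℤ)) : ℤ) = 1 := by ring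
    rw [h5, Int.cast_one, one_mul]
  have hb : ∀ j, V (C.half.ctx.cell f y (f'.b j)) =
      -∑ i, θ i * ψ (C.half.ctx.cell f y (P (f'.b j) (r i))) := by
    intro j
    rw [h _ (mem_Ap (f'.hb j)), ← Finset.sum_neg_distrib]
    refine Finset.sum_congr rfl fun i _ => ?_
    rw [ce1_skew C.half.ctx, map_neg, map_neg, mul_neg]
  calc 2 * V (C.half.ctx.cell f y H)
      = ∑ i, V (MvPolynomial.X i) *
          (2 * ψ (MvPolynomial.pderiv i (C.half.ctx.cell f y H))) := by
        rw [li6_chain ψ V hV, Finset.mul_sum]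
        exact Finset.sum_congr rfl fun i _ => by ring
    _ = ∑ i, ∑ j, (a : Ω) * (η j * (V (MvPolynomial.X i) *
          ψ (MvPolynomial.pderiv i (C.half.ctx.cell f y (f'.b j))))) := by
        refine Finset.sum_congr rfl fun i _ => ?_
        rw [h2 i, Finset.mul_sum, Finset.mul_sum]
        exact Finset.sum_congr rfl fun j _ => by ring
    _ = ∑ j, (a : Ω) * (η j * V (C.half.ctx.cell f y (f'.b j))) := by
        rw [Finset.sum_comm]
        refine Finset.sum_congr rfl fun j _ => ?_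
        rw [li6_chain ψ V hV (C.half.ctx.cell f y (f'.b j)), Finset.mul_sum, Finset.mul_sum]
    _ = ∑ j, ∑ i, -(a : Ω) * (θ i *
          (η j * ψ (C.half.ctx.cell f y (P (f'.b j) (r i))))) := by
        refine Finset.sum_congr rfl fun j _ => ?_
        rw [hb j, ← Finset.sum_neg_distrib, Finset.mul_sum, Finset.mul_sum]
        exact Finset.sum_congr rfl fun i _ => by ring
    _ = -(a : Ω) * ∑ i, θ i * ψ (C.half.ctx.cell f y (r i)) := by
        rw [Finset.sum_comm, Finset.mul_sum]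
        refine Finset.sum_congr rfl fun i _ => ?_
        rw [← hη i, Finset.mul_sum, Finset.mul_sum]

end Vale.Agent.P292
end

section

/-! Theorem E, section 5: (LINE). See `PROOF.md`. -/

namespace Vale.Agent.P292

open Module Polynomial
open scoped TensorProduct

universe u v

/-! ### Derivations of the algebraic closure of the field of rational functions -/

theorem li9_ext {κ S Ω : Type*} [CommRing κ] [CommRing S] [CommRing Ω] [Algebra κ S]
    [Algebra S Ω] [Algebra κ Ω] [IsScalarTower κ S Ω] [Algebra.FormallyEtale S Ω]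
    (d : Derivation κ S S) :
    ∃ D : Derivation κ Ω Ω, ∀ s, D (algebraMap S Ω s) = algebraMap S Ω (d s) := by
  refine ⟨(((Algebra.linearMap S Ω ∘ₗ d.liftKaehlerDifferential).liftBaseChange Ω) ∘ₗ
    (KaehlerDifferential.tensorKaehlerEquivOfFormallyEtale κ S Ω).symm.toLinearMap).compDer
      (KaehlerDifferential.D κ Ω), fun s => ?_⟩
  rw [Derivation.coe_comp]
  change (LinearMap.liftBaseChange Ω (Algebra.linearMap S Ω ∘ₗ d.liftKaehlerDifferential))
    ((KaehlerDifferential.tensorKaehlerEquivOfFormallyEtale κ S Ω).symm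
      (KaehlerDifferential.D κ Ω (algebraMap S Ω s))) = _
  rw [KaehlerDifferential.tensorKaehlerEquivOfFormallyEtale_symm_D_algebraMap,
    LinearMap.liftBaseChange_tmul, one_smul, LinearMap.comp_apply,
    Derivation.liftKaehlerDifferential_comp_D]
  rfl

theorem li9_exists_Omega (κ : Type v) [Field κ] [CharZero κ] [Algebra ℂ κ] :
    ∃ (Ω : Type v) (_ : Field Ω) (_ : IsAlgClosed Ω) (_ : Algebra κ Ω) (_ : Algebra ℂ Ω)
      (_ : IsScalarTower ℂ κ Ω) (ι : MvPolynomial (Fin 2) κ →ₐ[κ] Ω)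
      (D : Fin 2 → Derivation κ Ω Ω), Function.Injective ι ∧
      (∀ j p, D j (ι p) = ι (MvPolynomial.pderiv j p)) ∧
      ∀ d : Derivation κ Ω Ω, (∀ i, d (ι (MvPolynomial.X i)) = 0) → ∀ f, d f = 0 := by
  let S := MvPolynomial (Fin 2) κ
  let K := FractionRing S
  let Ω := AlgebraicClosure K
  have h1 : Algebra.FormallyEtale S K :=
    Algebra.FormallyEtale.of_isLocalization (nonZeroDivisors S)
  have h2 : Algebra.FormallyEtale K Ω := Algebra.FormallyEtale.of_isSeparable K Ω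
  have h3 : Algebra.FormallyEtale S Ω := Algebra.FormallyEtale.comp S K Ω
  have hD : ∀ j : Fin 2, ∃ D : Derivation κ Ω Ω, ∀ s : S,
      D (algebraMap S Ω s) = algebraMap S Ω (MvPolynomial.pderiv j s) :=
    fun j => li9_ext (MvPolynomial.pderiv j)
  choose D hD using hD
  have hinj : Function.Injective (algebraMap S Ω) := by
    rw [IsScalarTower.algebraMap_eq S K Ω]
    exact (algebraMap K Ω).injective.comp (IsFractionRing.injective S K)
  refine ⟨Ω, inferInstance, inferInstance, inferInstance, inferInstance, inferInstance,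
    IsScalarTower.toAlgHom κ S Ω, D, hinj, hD, ?_⟩
  intro d hd f
  have hd' : ∀ s : S, d (algebraMap S Ω s) = 0 := by
    intro s
    have h0 : d.compAlgebraMap S = 0 := MvPolynomial.derivation_ext fun i => by
      rw [Derivation.zero_apply]
      exact hd i
    have := congrArg (fun e => e s) h0
    exact this
  have halg : IsAlgebraic S f :=
    (IsFractionRing.isAlgebraic_iff S K Ω).2 (Algebra.IsAlgebraic.isAlgebraic f)
  have hchar : CharZero Ω := inferInstance
  exact derivation_eq_zero_of_isAlgebraic (A := S) (RingHom.id Ω) Function.injective_id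
    (d : Ω →+ Ω) (fun p q => by
      change d (p * q) = p * d q + q * d p
      rw [Derivation.leibniz, smul_eq_mul, smul_eq_mul]) hd' hinj halg

/-! ### Integrality over different subrings -/

theorem li9_tower {k κ Ω : Type*} [CommRing k] [CommRing κ] [CommRing Ω] [Algebra k Ω]
    [Algebra κ Ω] (B : Subalgebra k Ω) (A : Subalgebra κ Ω) (h : ∀ z ∈ B, z ∈ A) {z : Ω}
    (hz : IsIntegral B z) : IsIntegral A z := by
  let g : B →+* A :=
    { toFun := fun z => ⟨z.1, h _ z.2⟩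
      map_one' := rfl
      map_mul' := fun _ _ => rfl
      map_zero' := rfl
      map_add' := fun _ _ => rfl }
  exact IsIntegral.map_of_comp_eq g (RingHom.id Ω) rfl hz

theorem li9_isIntegral_of_mem {κ Ω : Type*} [CommRing κ] [CommRing Ω] [Algebra κ Ω]
    (A : Subalgebra κ Ω) {z : Ω} (hz : z ∈ A) : IsIntegral A z :=
  (isIntegral_algebraMap : IsIntegral A (algebraMap A Ω ⟨z, hz⟩))

theorem li9_range {κ Ω : Type*} [Field κ] [Field Ω] [Algebra κ Ω]
    (ι : MvPolynomial (Fin 2) κ →ₐ[κ] Ω) (p : MvPolynomial (Fin 2) κ) :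
    ι p ∈ Algebra.adjoin κ (Set.range fun i => ι (MvPolynomial.X i)) := by
  have h1 : ι = MvPolynomial.aeval (fun i => ι (MvPolynomial.X i)) :=
    MvPolynomial.algHom_ext fun i => by rw [MvPolynomial.aeval_X]
  rw [Algebra.adjoin_range_eq_range_aeval]
  exact ⟨p, (DFunLike.congr_fun h1 p).symm⟩

variable {R : Type u} [CommRing R] [Algebra ℂ R] {𝒜 : ℕ → Submodule ℂ R} [GradedAlgebra 𝒜]
  {P : R →ₗ[ℂ] R →ₗ[ℂ] R} {H : R} {a : ℤ} {n : ℕ}

/-- Brackets of defect one elements with `A₊` lie in `A₊`. -/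
theorem li9_P_mem (C : Ctx 𝒜 P H a) {l : ℕ} {r : R} (hr : r ∈ Wt 𝒜 P H l (a * l - a)) :
    ∀ c ∈ Ap 𝒜 P H a, P r c ∈ Ap 𝒜 P H a := by
  refine C.Ap_induction (fun k c hc => ?_) ?_ ?_
  · rw [C.hX.skew]
    exact neg_mem (mem_Ap (C.P_defect_one hc hr))
  · rw [map_zero]
    exact zero_mem _
  · intro r s h1 h2
    rw [map_add]
    exact add_mem h1 h2

section root

variable {κ : Type v} [Field κ] [Algebra ℂ κ] {Ω : Type v} [Field Ω] [Algebra κ Ω]
  [Algebra ℂ Ω] [IsScalarTower ℂ κ Ω]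

/-- The key integrality. -/
theorem li9_int (C : CtxN 𝒜 P H a n) {y : R →ₐ[ℂ] ℂ} (hy : HasSlope 𝒜 P H y a)
    (f : Frame 𝒜 P H a n) (hΔ : y f.Δ ≠ 0) (μ : R →ₐ[ℂ] MvPolynomial (Fin 2) κ)
    (hinj : InjA 𝒜 P (-H) a μ) (ι : MvPolynomial (Fin 2) κ →ₐ[κ] Ω)
    (hι : Function.Injective ι) (D : Derivation κ Ω Ω)
    (d : Derivation κ (MvPolynomial (Fin 2) κ) (MvPolynomial (Fin 2) κ))
    (hD : ∀ p, D (ι p) = ι (d p)) (ψ : MvPolynomial (Fin n) ℂ →ₐ[ℂ] Ω)
    (hψ : Function.Injective ψ)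
    (hψc : ∀ c ∈ Ap 𝒜 P (-H) a, ψ (C.half.ctx.cell f y c) = ι (μ c))
    (f' : Frame 𝒜 P (-H) a n) (hΔ' : f'.Δ ≠ 0) :
    IsIntegral (Algebra.adjoin κ (Set.range fun i => ι (MvPolynomial.X i)))
      (ι (μ f'.Δ) * D (ψ (C.half.ctx.cell f y H) ^ 2)) := by
  set A := Algebra.adjoin κ (Set.range fun i => ι (MvPolynomial.X i)) with hA
  have hιA : ∀ p, ι p ∈ A := li9_range ι
  let x : R →ₐ[ℂ] Ω := (ι.restrictScalars ℂ).comp μ
  have hx : ∀ r, x r = ι (μ r) := fun r => rfl
  have hxi : InjA 𝒜 P (-H) a x := by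
    intro r hr h0
    refine hinj r hr (hι ?_)
    rw [map_zero]
    exact h0
  have hx0 : x f'.Δ ≠ 0 := fun h => hΔ' (hxi _ (Frame.Δ_mem C.neg_half.ctx f') h)
  let Dl : Ω →ₗ[ℂ] Ω := (D : Ω →ₗ[κ] Ω).restrictScalars ℂ
  have hDl : ∀ z, Dl z = D z := fun z => rfl
  have hDm : ∀ p q, D (p * q) = p * D q + q * D p := by
    intro p q
    rw [Derivation.leibniz, smul_eq_mul, smul_eq_mul]
  let δ : R →ₗ[ℂ] Ω := Dl ∘ₗ x.toLinearMap
  have hδ0 : ∀ r, δ r = D (x r) := fun r => rfl
  have hcr := C.neg_half.cramer f' hΔ' x hxi δ (fun u _ v _ => by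
    rw [hδ0, hδ0, hδ0, map_mul, hDm])
  set Θ : Fin n → Ω := fun l => -∑ i, x (f'.mat.adjugate l i) * δ (f'.b i) with hΘ
  have hΘA : ∀ l, Θ l ∈ A := by
    intro l
    refine neg_mem (sum_mem fun i _ => mul_mem ?_ ?_)
    · rw [hx]
      exact hιA _
    · rw [hδ0, hx, hD]
      exact hιA _
  let V : MvPolynomial (Fin n) ℂ →ₗ[ℂ] Ω := Dl ∘ₗ ψ.toLinearMap
  have hV0 : ∀ p, V p = D (ψ p) := fun p => rfl
  have hr' : ∀ i, f'.r i ∈ Wt 𝒜 P H (f'.kr i) (-(a * f'.kr i - a)) := by
    intro i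
    have := f'.hr i
    rwa [Wt_neg] at this
  have hkey := C.key hy f hΔ ψ hψ V (fun p q => by rw [hV0, hV0, hV0, map_mul, hDm]) f'.r f'.kr
    hr' (fun l => (x f'.Δ)⁻¹ * Θ l) (by
      intro c hc
      rw [hV0, hψc c hc, ← hx, ← hδ0]
      have h1 := hcr c hc
      have h2 : δ c = (x f'.Δ)⁻¹ * (x f'.Δ * δ c) := by
        rw [← mul_assoc, inv_mul_cancel₀ hx0, one_mul]
      rw [h2, h1, Finset.mul_sum]
      refine Finset.sum_congr rfl fun l _ => ?_
      rw [hψc _ (li9_P_mem C.neg_half.ctx (f'.hr l) c hc), ← hx, mul_assoc])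
  have hkey2 : x f'.Δ * (2 * V (C.half.ctx.cell f y H)) =
      -(a : Ω) * ∑ l, Θ l * ψ (C.half.ctx.cell f y (f'.r l)) := by
    rw [hkey, mul_left_comm, Finset.mul_sum]
    congr 1
    refine Finset.sum_congr rfl fun l _ => ?_
    rw [← mul_assoc, ← mul_assoc, mul_inv_cancel₀ hx0, one_mul]
  -- the value
  have hval : ι (μ f'.Δ) * D (ψ (C.half.ctx.cell f y H) ^ 2) =
      (a : Ω) * ∑ l, Θ l * (ψ.comp (C.half.ctx.cell f y)) (-H * f'.r l) := by
    have e1 : D (ψ (C.half.ctx.cell f y H) ^ 2) =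
        ψ (C.half.ctx.cell f y H) * (2 * V (C.half.ctx.cell f y H)) := by
      rw [pow_two, hDm, hV0]
      ring
    have e2 : ∀ l, Θ l * (ψ.comp (C.half.ctx.cell f y)) (-H * f'.r l) =
        -ψ (C.half.ctx.cell f y H) * (Θ l * ψ (C.half.ctx.cell f y (f'.r l))) := by
      intro l
      rw [AlgHom.comp_apply, map_mul, map_mul, map_neg, map_neg]
      ring
    rw [e1, ← hx, mul_left_comm, hkey2, Finset.sum_congr rfl fun l _ => e2 l,
      ← Finset.mul_sum]
    ring
  rw [hval]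
  have hsub : ∀ z ∈ Algebra.adjoin ℂ ((ψ.comp (C.half.ctx.cell f y)) ''
      ((Ap 𝒜 P (-H) a : Set R) ∪ (Ap 𝒜 P (-(-H)) a : Set R))), z ∈ A := by
    have h1 : Algebra.adjoin ℂ ((ψ.comp (C.half.ctx.cell f y)) ''
      ((Ap 𝒜 P (-H) a : Set R) ∪ (Ap 𝒜 P (-(-H)) a : Set R))) ≤ A.restrictScalars ℂ := by
      refine Algebra.adjoin_le ?_
      rintro _ ⟨c, hc | hc, rfl⟩
      · change ψ (C.half.ctx.cell f y c) ∈ A
        rw [hψc c hc]
        exact hιA _
      · change ψ (C.half.ctx.cell f y c) ∈ A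
        rw [neg_neg] at hc
        rw [C.half.ctx.cell_Ap f y hc]
        have h2 : ψ (MvPolynomial.C (y c)) = algebraMap ℂ Ω (y c) := ψ.commutes (y c)
        rw [h2, IsScalarTower.algebraMap_apply ℂ κ Ω]
        exact Subalgebra.algebraMap_mem A _
    exact fun z hz => h1 hz
  have hpure := (C.half.ctx.hasSlope_iff_pure.1 hy).1
  have hW : TypeW 𝒜 P (-H) a (ψ.comp (C.half.ctx.cell f y)) :=
    typeW_neg.2 ((C.half.ctx.typeW_cell f hpure).comp ψ)
  refine IsIntegral.mul (li9_isIntegral_of_mem A (by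
    have := Subalgebra.algebraMap_mem A (a : κ)
    rwa [map_intCast] at this)) ?_
  refine IsIntegral.sum _ fun l _ => ?_
  exact IsIntegral.mul (li9_isIntegral_of_mem A (hΘA l))
    (li9_tower _ A hsub (C.neg_half.ctx.isIntegral_defect_one _ hW (f'.hr l)))

/-- A root of `Q^μ` is a linear form. -/
theorem li9_root [IsAlgClosed κ] [IsAlgClosed Ω] (C : CtxN 𝒜 P H a n) {y : R →ₐ[ℂ] ℂ}
    (hy : HasSlope 𝒜 P H y a) (f : Frame 𝒜 P H a n) (hΔ : y f.Δ ≠ 0)
    {Q : (Ap 𝒜 P (-H) a)[X]} (hQ : IsMinPoly 𝒜 P H a (C.half.ctx.cell f y) Q)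
    (μ : R →ₐ[ℂ] MvPolynomial (Fin 2) κ) (hμ : IsLine 𝒜 P (-H) a μ)
    (ι : MvPolynomial (Fin 2) κ →ₐ[κ] Ω)
    (hι : Function.Injective ι) (D : Fin 2 → Derivation κ Ω Ω)
    (hD : ∀ j p, D j (ι p) = ι (MvPolynomial.pderiv j p))
    (huniq : ∀ d : Derivation κ Ω Ω, (∀ i, d (ι (MvPolynomial.X i)) = 0) → ∀ f, d f = 0)
    (ρ : Ω) (hρ : (mapQ Q ((ι.restrictScalars ℂ).comp μ)).eval ρ = 0) :
    ∃ q : MvPolynomial (Fin 2) κ, q.IsHomogeneous 1 ∧ ι q = ρ := by
  have hchar : CharZero Ω := charZero_of_injective_algebraMap (algebraMap ℂ Ω).injective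
  let u : Fin 2 → Ω := fun i => ι (MvPolynomial.X i)
  set A := Algebra.adjoin κ (Set.range u) with hA
  have hιA : ∀ p, ι p ∈ A := li9_range ι
  have hxi : InjA 𝒜 P (-H) a ((ι.restrictScalars ℂ).comp μ) := by
    intro r hr h0
    refine hμ.inj r hr (hι ?_)
    rw [map_zero]
    exact h0
  obtain ⟨ψ, hψ, hψc', hψρ⟩ := C.exists_psi hy f hΔ hQ _ hxi hρ
  have hψc : ∀ c ∈ Ap 𝒜 P (-H) a, ψ (C.half.ctx.cell f y c) = ι (μ c) := hψc'
  have h1 : ∀ j (f' : Frame 𝒜 P (-H) a n), IsIntegral A (ι (μ f'.Δ) * D j ρ) := by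
    intro j f'
    by_cases h0 : f'.Δ = 0
    · rw [h0, map_zero, map_zero, zero_mul]
      exact isIntegral_zero
    · rw [← hψρ]
      exact li9_int C hy f hΔ μ hμ.inj ι hι (D j) (MvPolynomial.pderiv j) (hD j) ψ hψ hψc f' h0
  obtain ⟨N, hN⟩ := C.neg_half.pow_mem_span μ hμ.nonvertex
  have h2 : ∀ j, ∀ g ∈ Ideal.span {g | ∃ f : Frame 𝒜 P (-H) a n, g = μ f.Δ},
      IsIntegral A (ι g * D j ρ) := by
    intro j g hg
    refine Submodule.span_induction (p := fun g _ => IsIntegral A (ι g * D j ρ)) ?_ ?_ ?_ ?_ hg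
    · rintro _ ⟨f', rfl⟩
      exact h1 j f'
    · rw [map_zero, zero_mul]
      exact isIntegral_zero
    · intro g g' _ _ h h'
      rw [map_add, add_mul]
      exact h.add h'
    · intro c g _ h
      rw [smul_eq_mul, map_mul, mul_assoc]
      exact (li9_isIntegral_of_mem A (hιA c)).mul h
  have h3 : ∀ i j, IsIntegral A (u i ^ N * D j ρ) := by
    intro i j
    have := h2 j _ (hN i)
    rwa [map_pow] at this
  have hu : AlgebraicIndependent κ u := by
    rw [algebraicIndependent_iff_injective_aeval]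
    have h1 : ι = MvPolynomial.aeval u :=
      MvPolynomial.algHom_ext fun i => by rw [MvPolynomial.aeval_X]
    rw [← h1]
    exact hι
  have h4 : ∀ j, IsIntegral A (D j ρ) := fun j =>
    isIntegral_of_pow_mul u hu (i := 0) (j := 1) (by decide) N (h3 0 j) (h3 1 j)
  -- the Euler derivation
  let E : Derivation κ Ω Ω := u 0 • D 0 + u 1 • D 1
  have hE : ∀ z, E z = u 0 * D 0 z + u 1 * D 1 z := fun z => rfl
  have hDu : ∀ i j, D j (u i) = if i = j then 1 else 0 := by
    intro i j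
    rw [hD, MvPolynomial.pderiv_X, Pi.single_apply]
    by_cases hij : i = j
    · rw [if_pos hij, if_pos hij, map_one]
    · rw [if_neg hij, if_neg hij, map_zero]
  have hEu : ∀ i, E (u i) = u i := by
    intro i
    rw [hE, hDu, hDu]
    fin_cases i <;> simp
  have hEι : ∀ (k : ℕ) (p : MvPolynomial (Fin 2) κ), p.IsHomogeneous k →
      E (ι p) = (k : Ω) * ι p := by
    intro k p hp
    have h5 := hp.sum_X_mul_pderiv
    rw [Fin.sum_univ_two] at h5
    have h6 := congrArg ι h5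
    rw [map_add, map_mul, map_mul, map_nsmul, nsmul_eq_mul] at h6
    rw [hE, hD, hD]
    exact h6
  have hcomm : ∀ j z, E (D j z) = D j (E z) - D j z := by
    intro j z
    have h5 := huniq (⁅E, D j⁆ + D j) (fun i => by
      change ⁅E, D j⁆ (u i) + D j (u i) = 0
      rw [Derivation.commutator_apply, hEu, hDu]
      by_cases hij : i = j
      · rw [if_pos hij, Derivation.map_one_eq_zero]
        ring
      · rw [if_neg hij, map_zero]
        ring) z
    have h6 : ⁅E, D j⁆ z + D j z = 0 := h5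
    rw [Derivation.commutator_apply] at h6
    linear_combination h6
  have hpure := (C.half.ctx.hasSlope_iff_pure.1 hy).1
  have hH : H ∈ Wt 𝒜 P H 1 (a * ((1 : ℕ) : ℤ) - a * ((1 : ℕ) : ℤ)) := by
    rw [mem_Wt]
    refine ⟨C.half.ctx.hH.mem, ?_⟩
    rw [sub_self, C.half.ctx.hX.alternating, Int.cast_zero, zero_smul]
  have hhom : (C.half.ctx.cell f y H ^ 2).IsHomogeneous 2 :=
    (C.half.ctx.cell_homog f hpure 1 1 H hH).pow 2
  have hEρ : E ρ = ρ := by
    have h5 := C.euler_psi hy f hΔ ψ hψ (E.restrictScalars ℂ) (1 / 2) (by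
      intro k c hc
      have hc' : c ∈ Wt 𝒜 P (-H) k (a * k) := by rwa [Wt_neg]
      rw [hψc c (mem_Ap hc')]
      change E (ι (μ c)) = _
      rw [hEι k _ (hμ.homog k c hc')]
      congr 1
      push_cast
      ring) 2 _ hhom
    rw [map_pow, hψρ] at h5
    change E ρ = _ at h5
    rw [h5]
    norm_num
  have h6 : ∀ j, ∃ c : κ, algebraMap κ Ω c = D j ρ := by
    intro j
    have h7 : IsAlgebraic κ (D j ρ) :=
      isAlgebraic_of_isIntegral_of_zero u E hEu (h4 j) (by rw [hcomm, hEρ, sub_self])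
    exact minpoly.mem_range_of_degree_eq_one κ _
      (IsAlgClosed.degree_eq_one_of_irreducible κ (minpoly.irreducible h7.isIntegral))
  choose c hc using h6
  refine ⟨MvPolynomial.C (c 0) * MvPolynomial.X 0 + MvPolynomial.C (c 1) * MvPolynomial.X 1,
    (MvPolynomial.isHomogeneous_C_mul_X _ _).add (MvPolynomial.isHomogeneous_C_mul_X _ _), ?_⟩
  rw [map_add, map_mul, map_mul, ← hEρ, hE, ← hc, ← hc]
  have h7 : ∀ c : κ, ι (MvPolynomial.C c) = algebraMap κ Ω c := fun c => ι.commutes c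
  rw [h7, h7]
  change algebraMap κ Ω (c 0) * u 0 + algebraMap κ Ω (c 1) * u 1 = _
  ring

end root

/-- (LINE) -/
theorem CtxN.line_splits (C : CtxN 𝒜 P H a n) {y : R →ₐ[ℂ] ℂ} (hy : HasSlope 𝒜 P H y a)
    (f : Frame 𝒜 P H a n) (hΔ : y f.Δ ≠ 0) {Q : (Ap 𝒜 P (-H) a)[X]}
    (hQ : IsMinPoly 𝒜 P H a (C.half.ctx.cell f y) Q) {κ : Type v} [Field κ] [IsAlgClosed κ]
    [Algebra ℂ κ] (μ : R →ₐ[ℂ] MvPolynomial (Fin 2) κ) (hμ : IsLine 𝒜 P (-H) a μ) :
    ∃ s : Multiset (MvPolynomial (Fin 2) κ), (∀ q ∈ s, q.IsHomogeneous 1) ∧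
      mapQ Q μ = (s.map fun q => Polynomial.X - Polynomial.C q).prod := by
  classical
  have hchar : CharZero κ := charZero_of_injective_algebraMap (algebraMap ℂ κ).injective
  obtain ⟨Ω, i1, i2, i3, i4, i5, ι, D, hι, hD, huniq⟩ := li9_exists_Omega κ
  have hroot := li9_root C hy f hΔ hQ μ hμ ι hι D hD huniq
  have hmap : mapQ Q ((ι.restrictScalars ℂ).comp μ) =
      (mapQ Q μ).map (ι : MvPolynomial (Fin 2) κ →+* Ω) := by
    unfold mapQ
    rw [Polynomial.map_map]
    rfl
  have hmon : (mapQ Q ((ι.restrictScalars ℂ).comp μ)).Monic := hQ.monic.map _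
  have hsplit := (IsAlgClosed.splits (mapQ Q ((ι.restrictScalars ℂ).comp μ))).eq_prod_roots_of_monic
    hmon
  have hroot' : ∀ ρ : Ω, ∃ q : MvPolynomial (Fin 2) κ,
      ρ ∈ (mapQ Q ((ι.restrictScalars ℂ).comp μ)).roots → q.IsHomogeneous 1 ∧ ι q = ρ := by
    intro ρ
    by_cases h : ρ ∈ (mapQ Q ((ι.restrictScalars ℂ).comp μ)).roots
    · obtain ⟨q, hq⟩ := hroot ρ ((Polynomial.mem_roots hmon.ne_zero).1 h)
      exact ⟨q, fun _ => hq⟩
    · exact ⟨0, fun h' => absurd h' h⟩
  choose g hg using hroot'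
  refine ⟨(mapQ Q ((ι.restrictScalars ℂ).comp μ)).roots.map g, ?_, ?_⟩
  · intro q hq
    obtain ⟨ρ, hρ, rfl⟩ := Multiset.mem_map.1 hq
    exact (hg ρ hρ).1
  · refine Polynomial.map_injective (ι : MvPolynomial (Fin 2) κ →+* Ω) hι ?_
    rw [← hmap, Polynomial.map_multiset_prod, Multiset.map_map, Multiset.map_map]
    conv_lhs => rw [hsplit]
    congr 1
    refine Multiset.map_congr rfl fun ρ hρ => ?_
    have h1 : ι (g ρ) = ρ := (hg ρ hρ).2
    simp [h1]

end Vale.Agent.P292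
end

section

/-! Theorem E, section 7 (7g): roots are affine along `B̂`. See `PROOF.md`. -/

set_option linter.all false

namespace Vale.Agent.P292

open Module Polynomial

universe u v

variable {R : Type u} [CommRing R] [Algebra ℂ R] {𝒜 : ℕ → Submodule ℂ R} [GradedAlgebra 𝒜]
  {P : R →ₗ[ℂ] R →ₗ[ℂ] R} {H : R} {a : ℤ} {n : ℕ}

/-- The points of a cell which restrict to the vertex of `A₋`. -/
def Bhat (𝒜 : ℕ → Submodule ℂ R) (P : R →ₗ[ℂ] R →ₗ[ℂ] R) (H : R) (a : ℤ) {κ : Type v} [Field κ]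
    [Algebra ℂ κ] (Ψ : R →ₐ[ℂ] MvPolynomial (Fin n) κ) : Set (Fin n → κ) :=
  {β | ∀ k : ℕ, 0 < k → ∀ c ∈ Wt 𝒜 P H k (-(a * k)), MvPolynomial.eval β (Ψ c) = 0}

theorem co1_exists_der {F : Type*} {Ω : Type*} [Field F] [Field Ω] [Algebra F Ω]
    (D : Derivation F Ω Ω) : ∃ 𝔇 : Derivation F (Polynomial Ω) (Polynomial Ω),
      ∀ p i, (𝔇 p).coeff i = (derivative p).coeff i - D (p.coeff i) := by
  refine ⟨(Polynomial.derivative' (R := Ω)).restrictScalars F -
    PolynomialModule.equivPolynomialSelf.compDer D.mapCoeffs, fun p i => ?_⟩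
  rw [Derivation.sub_apply, coeff_sub]
  congr 1

theorem co1_der_lin {F : Type*} {Ω : Type*} [Field F] [Field Ω] [Algebra F Ω]
    (D : Derivation F Ω Ω) (𝔇 : Derivation F (Polynomial Ω) (Polynomial Ω))
    (h𝔇 : ∀ p i, (𝔇 p).coeff i = (derivative p).coeff i - D (p.coeff i)) (u v : Ω) :
    𝔇 (C u + C v * X) = C (v - D u) - C (D v) * X := by
  ext i
  rw [h𝔇]
  rcases i with _ | _ | i
  · simp
  · simp [coeff_C, coeff_X]
  · simp [coeff_C, coeff_X]

theorem co1_lin {F : Type*} {Ω : Type*} [Field F] [Field Ω] [Algebra F Ω] [CharZero Ω] {n : ℕ}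
    (t : Fin n → Ω) (ht : AlgebraicIndependent F t) (β : Fin n → F) (D : Derivation F Ω Ω)
    (hD : ∀ i, D (t i) = algebraMap F Ω (β i)) (Q : (MvPolynomial (Fin n) F)[X]) (hQ : Q.Monic)
    (q₀ q₁ : Ω) (hq : Q.eval₂ (MvPolynomial.aeval (fun i => C (t i) + C (algebraMap F Ω (β i)) * X) :
      MvPolynomial (Fin n) F →ₐ[F] Polynomial Ω).toRingHom (C q₀ + C q₁ * X) = 0) :
    D (D q₀) = 0 := by
  obtain ⟨𝔇, h𝔇⟩ := co1_exists_der D
  set θ : MvPolynomial (Fin n) F →ₐ[F] Polynomial Ω :=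
    MvPolynomial.aeval (fun i => C (t i) + C (algebraMap F Ω (β i)) * X) with hθ
  have hθ0 : ∀ p, (θ p).eval 0 = MvPolynomial.aeval t p := by
    intro p
    have h1 : ((Polynomial.aeval (0 : Ω)).restrictScalars F).comp θ = MvPolynomial.aeval t := by
      ext i
      simp [hθ]
    have h2 := congrArg (fun g : MvPolynomial (Fin n) F →ₐ[F] Ω => g p) h1
    simpa [Polynomial.coe_aeval_eq_eval] using h2
  have hθi : Function.Injective θ := by
    intro p q hpq
    apply ht
    rw [← hθ0, ← hθ0, hpq]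
  have hkill : ∀ p, 𝔇 (θ p) = 0 := by
    intro p
    induction p using MvPolynomial.induction_on with
    | C c =>
      have h1 : θ (MvPolynomial.C c) = algebraMap F (Polynomial Ω) c := by
        rw [← MvPolynomial.algebraMap_eq, AlgHom.commutes]
      rw [h1, Derivation.map_algebraMap]
    | add p q hp hq => rw [map_add, map_add, hp, hq, add_zero]
    | mul_X p i hp =>
      have h1 : θ (MvPolynomial.X i) = C (t i) + C (algebraMap F Ω (β i)) * X := by
        rw [hθ, MvPolynomial.aeval_X]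
      rw [map_mul, Derivation.leibniz, hp, h1, co1_der_lin D 𝔇 h𝔇, hD, sub_self,
        Derivation.map_algebraMap]
      simp
  letI : Algebra (MvPolynomial (Fin n) F) (Polynomial Ω) := θ.toRingHom.toAlgebra
  have hfin := derivation_eq_zero_of_isAlgebraic (A := MvPolynomial (Fin n) F)
    (S := Polynomial Ω) (Ω := RatFunc Ω) (algebraMap (Polynomial Ω) (RatFunc Ω))
    (IsFractionRing.injective _ _)
    ((algebraMap (Polynomial Ω) (RatFunc Ω)).toAddMonoidHom.comp
      (𝔇 : Polynomial Ω →ₗ[F] Polynomial Ω).toAddMonoidHom)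
    (by
      intro p q
      have h1 : 𝔇 (p * q) = p * 𝔇 q + q * 𝔇 p := by
        rw [Derivation.leibniz, smul_eq_mul, smul_eq_mul]
      have h2 := congrArg (algebraMap (Polynomial Ω) (RatFunc Ω)) h1
      rw [(algebraMap (Polynomial Ω) (RatFunc Ω)).map_add,
        (algebraMap (Polynomial Ω) (RatFunc Ω)).map_mul p (𝔇 q),
        (algebraMap (Polynomial Ω) (RatFunc Ω)).map_mul q (𝔇 p)] at h2
      exact h2)
    (by
      intro p
      have h1 := congrArg (algebraMap (Polynomial Ω) (RatFunc Ω)) (hkill p)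
      rw [map_zero] at h1
      exact h1)
    hθi (f := C q₀ + C q₁ * X)
    (IsIntegral.isAlgebraic ⟨Q, hQ, hq⟩)
  have h3 : 𝔇 (C q₀ + C q₁ * X) = 0 := by
    apply IsFractionRing.injective (Polynomial Ω) (RatFunc Ω)
    rw [map_zero]
    exact hfin
  rw [co1_der_lin D 𝔇 h𝔇] at h3
  have h4 := congrArg (fun p => coeff p 0) h3
  have h5 := congrArg (fun p => coeff p 1) h3
  simp [coeff_C, coeff_X] at h4 h5
  rw [← sub_eq_zero.1 h4, h5]

/-- Along a direction `β ∈ B̂` every root of `Q^Ψ` is affine. -/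
theorem CtxN.affine_of_bhat (C : CtxN 𝒜 P H a n)
    {y : R →ₐ[ℂ] ℂ} (hy : HasSlope 𝒜 P H y a) (f : Frame 𝒜 P H a n) (hΔ : y f.Δ ≠ 0)
    {Q : (Ap 𝒜 P (-H) a)[X]} (hQ : IsMinPoly 𝒜 P H a (C.half.ctx.cell f y) Q)
    {F : Type v} [Field F] [IsAlgClosed F] [Algebra ℂ F]
    {Ψ : R →ₐ[ℂ] MvPolynomial (Fin n) F} (hΨ : IsCell 𝒜 P H a Ψ) (hi : InjA 𝒜 P (-H) a Ψ)
    {Ω : Type v} [Field Ω] [IsAlgClosed Ω] [Algebra F Ω] [Algebra ℂ Ω] [IsScalarTower ℂ F Ω]
    (t : Fin n → Ω)
    (ht : AlgebraicIndependent F t) {β : Fin n → F} (hβ : β ∈ Bhat 𝒜 P H a Ψ)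
    (D : Derivation F Ω Ω) (hD : ∀ i, D (t i) = algebraMap F Ω (β i)) {ρ : Ω}
    (hρ : ((mapQ Q Ψ).map (MvPolynomial.aeval t : MvPolynomial (Fin n) F →ₐ[F] Ω).toRingHom).eval
      ρ = 0) : D (D ρ) = 0 := by
  have hcΩ : CharZero Ω := charZero_of_injective_algebraMap (algebraMap ℂ Ω).injective
  by_cases hβ0 : β = 0
  · -- all constants
    have hAd : ∀ x ∈ Algebra.adjoin F (Set.range t), D x = 0 := by
      intro x hx
      induction hx using Algebra.adjoin_induction with
      | mem x hx =>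
        obtain ⟨i, rfl⟩ := hx
        rw [hD, hβ0]
        simp
      | algebraMap c => rw [Derivation.map_algebraMap]
      | add x y _ _ hx hy => rw [map_add, hx, hy, add_zero]
      | mul x y _ _ hx hy => rw [Derivation.leibniz, hx, hy, smul_zero, smul_zero, add_zero]
    have halg : IsAlgebraic (Algebra.adjoin F (Set.range t)) ρ := by
      apply IsIntegral.isAlgebraic
      refine ⟨(mapQ Q Ψ).map (ht.aevalEquiv : MvPolynomial (Fin n) F →+* _),
        (hQ.monic.map _).map _, ?_⟩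
      rw [eval₂_map]
      rw [eval_map] at hρ
      have h1 : (algebraMap (Algebra.adjoin F (Set.range t)) Ω).comp
          (ht.aevalEquiv : MvPolynomial (Fin n) F →+* _) =
          (MvPolynomial.aeval t : MvPolynomial (Fin n) F →ₐ[F] Ω).toRingHom :=
        RingHom.ext fun p => ht.algebraMap_aevalEquiv p
      rw [h1]
      exact hρ
    have h1 := derivation_eq_zero_of_isAlgebraic (A := Algebra.adjoin F (Set.range t))
      (S := Ω) (Ω := Ω) (RingHom.id Ω) Function.injective_id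
      ((D : Ω →ₗ[F] Ω).toAddMonoidHom)
      (fun p q => D.leibniz p q)
      (fun x => hAd _ x.2) Subtype.val_injective halg
    have h2 : D ρ = 0 := h1
    rw [h2, map_zero]
  · set Ψ' : R →ₐ[ℂ] MvPolynomial (Fin n) Ω :=
      (MvPolynomial.mapAlgHom (IsScalarTower.toAlgHom ℂ F Ω)).comp Ψ with hΨ'def
    have hΨ' : IsCell 𝒜 P H a Ψ' := hΨ.map _
    have hΨ'a : ∀ r, Ψ' r = MvPolynomial.map (algebraMap F Ω) (Ψ r) := fun r => rfl
    have heval : ∀ (v : Fin n → Ω) (r : R),
        MvPolynomial.eval v (Ψ' r) = MvPolynomial.aeval v (Ψ r) := by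
      intro v r
      rw [hΨ'a, MvPolynomial.eval_map, MvPolynomial.aeval_def]
    have hβ'0 : (fun i => algebraMap F Ω (β i)) ≠ 0 := by
      intro h
      apply hβ0
      funext i
      have h1 := congrFun h i
      exact (algebraMap F Ω).injective (by simpa using h1)
    have hβ' : ∀ k : ℕ, 0 < k → ∀ c ∈ Wt 𝒜 P H k (-(a * k)),
        MvPolynomial.eval (fun i => algebraMap F Ω (β i)) (Ψ' c) = 0 := by
      intro k hk c hc
      have h1 := hβ k hk c hc
      have h2 := MvPolynomial.aeval_algebraMap_apply Ω β (Ψ c)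
      have h3 : MvPolynomial.aeval β (Ψ c) = MvPolynomial.eval β (Ψ c) := rfl
      rw [h3, h1, map_zero] at h2
      rw [heval]
      exact h2
    have hξ : MvPolynomial.eval t (Ψ' H) ≠ 0 := by
      rw [heval]
      intro h
      exact hΨ.ne (ht (by rw [h, map_zero]))
    have hinj : ∀ c ∈ Ap 𝒜 P (-H) a, MvPolynomial.eval t (Ψ' c) = 0 → c = 0 := by
      intro c hc h
      rw [heval] at h
      exact hi c hc (ht (by rw [h, map_zero]))
    obtain ⟨μ, hμ, hμc⟩ := hΨ'.exists_line C.half.ctx hβ'0 hβ' hξ hinj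
    obtain ⟨s, hs, hsQ⟩ := C.line_splits hy f hΔ hQ μ hμ
    set e : MvPolynomial (Fin 2) Ω →ₐ[Ω] Polynomial Ω := MvPolynomial.aeval ![1, X] with he
    set θ : MvPolynomial (Fin n) F →ₐ[F] Polynomial Ω :=
      MvPolynomial.aeval (fun i => Polynomial.C (t i) + Polynomial.C (algebraMap F Ω (β i)) * X)
        with hθ
    have heθ : ∀ p : MvPolynomial (Fin n) F, e (MvPolynomial.aeval
        (fun i => MvPolynomial.C (t i) * MvPolynomial.X 0 +
          MvPolynomial.C (algebraMap F Ω (β i)) * MvPolynomial.X 1)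
        (MvPolynomial.map (algebraMap F Ω) p)) = θ p := by
      intro p
      induction p using MvPolynomial.induction_on with
      | C c =>
        simp [hθ, he, IsScalarTower.algebraMap_apply F Ω (Polynomial Ω)]
      | add p q hp hq => rw [map_add, map_add, map_add, map_add, hp, hq]
      | mul_X p i hp =>
        rw [map_mul, map_mul, map_mul, map_mul, hp]
        simp [hθ, he]
    have hag : ∀ c ∈ Ap 𝒜 P (-H) a, e (μ c) = θ (Ψ c) := by
      intro c hc
      induction hc using Algebra.adjoin_induction with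
      | mem c hc =>
        obtain ⟨k, hk⟩ := hc
        rw [Wt_neg] at hk
        have h1 := congrArg e (hμc k c hk)
        rw [hΨ'a, heθ, map_mul, map_pow] at h1
        rw [← h1]
        simp [he]
      | algebraMap z =>
        rw [AlgHom.commutes, AlgHom.commutes, IsScalarTower.algebraMap_apply ℂ Ω
          (MvPolynomial (Fin 2) Ω), AlgHom.commutes, IsScalarTower.algebraMap_apply ℂ F
          (MvPolynomial (Fin n) F), AlgHom.commutes, IsScalarTower.algebraMap_apply F Ω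
          (Polynomial Ω), ← IsScalarTower.algebraMap_apply ℂ F Ω]
      | add x y _ _ hx hy => rw [map_add, map_add, map_add, map_add, hx, hy]
      | mul x y _ _ hx hy => rw [map_mul, map_mul, map_mul, map_mul, hx, hy]
    have hQQ : (mapQ Q Ψ).map θ.toRingHom = (s.map fun q => X - Polynomial.C (e q)).prod := by
      have h1 : (mapQ Q Ψ).map θ.toRingHom = (mapQ Q μ).map e.toRingHom := by
        ext1 i
        rw [mapQ, mapQ, coeff_map, coeff_map, coeff_map, coeff_map]
        exact (hag _ (Q.coeff i).2).symm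
      rw [h1, hsQ, Polynomial.map_multiset_prod, Multiset.map_map]
      congr 1
      refine Multiset.map_congr rfl fun q _ => ?_
      simp
    -- `ρ` is one of the roots at `Y = 0`
    have hθ0 : ((Polynomial.aeval (0 : Ω)).restrictScalars F).comp θ = MvPolynomial.aeval t := by
      ext i
      simp [hθ]
    have hex : ∃ q ∈ s, ρ = (e q).eval 0 := by
      have h1 : ((mapQ Q Ψ).map θ.toRingHom).map (Polynomial.evalRingHom (0 : Ω)) =
          (mapQ Q Ψ).map (MvPolynomial.aeval t : MvPolynomial (Fin n) F →ₐ[F] Ω).toRingHom := by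
        rw [Polynomial.map_map, ← hθ0]
        congr 1
      rw [← h1, hQQ, Polynomial.map_multiset_prod, Polynomial.eval_multiset_prod,
        Multiset.map_map, Multiset.map_map, Multiset.prod_eq_zero_iff, Multiset.mem_map] at hρ
      obtain ⟨q, hq, hq0⟩ := hρ
      refine ⟨q, hq, ?_⟩
      simpa [sub_eq_zero] using hq0
    obtain ⟨q, hq, rfl⟩ := hex
    have hdeg : (e q).natDegree ≤ 1 :=
      MvPolynomial.aeval_natDegree_le (m := 1) (n := 1) q (hs q hq).totalDegree_le ![1, X]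
        (fun i => by fin_cases i <;> simp)
    have hlin := eq_X_add_C_of_natDegree_le_one hdeg
    have hq0 : (e q).eval 0 = (e q).coeff 0 := by
      rw [coeff_zero_eq_eval_zero]
    rw [hq0]
    apply co1_lin t ht β D hD (mapQ Q Ψ) (hQ.monic.map _) _ ((e q).coeff 1)
    rw [add_comm (Polynomial.C _), ← hlin, ← eval_map, ← hθ, hQQ, eval_multiset_prod,
      Multiset.map_map]
    apply Multiset.prod_eq_zero
    rw [Multiset.mem_map]
    exact ⟨q, hq, by simp⟩

end Vale.Agent.P292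
end

section

/-! Theorem E, section 7: the setup of (7a)-(7f). See `PROOF.md`. -/

namespace Vale.Agent.P292

open Module Polynomial

universe u v

variable {R : Type u} [CommRing R] [Algebra ℂ R] {𝒜 : ℕ → Submodule ℂ R} [GradedAlgebra 𝒜]
  {P : R →ₗ[ℂ] R →ₗ[ℂ] R} {H : R} {a : ℤ} {n : ℕ}

variable {κ : Type v} [Field κ] [IsAlgClosed κ] [Algebra ℂ κ]
  {F : Type v} [Field F] [IsAlgClosed F] [Algebra ℂ F] [Algebra κ F] [IsScalarTower ℂ κ F]
  {Ω : Type v} [Field Ω] [IsAlgClosed Ω] [Algebra ℂ Ω] [Algebra κ Ω] [Algebra F Ω]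
  [IsScalarTower ℂ κ Ω] [IsScalarTower ℂ F Ω] [IsScalarTower κ F Ω]

variable {C : CtxN 𝒜 P H a n} {μ : R →ₐ[ℂ] MvPolynomial (Fin 2) κ} {f : Frame 𝒜 P H a n}
    {u : Fin 2 → F} {t : Fin n → Ω}

/-- The pure point of `A₊` with values in `F`. -/
noncomputable def nuF (u : Fin 2 → F) (μ : R →ₐ[ℂ] MvPolynomial (Fin 2) κ) : R →ₐ[ℂ] F :=
  ((MvPolynomial.aeval u : MvPolynomial (Fin 2) κ →ₐ[κ] F).restrictScalars ℂ).comp μ

/-- The generic point of the cell. -/
noncomputable def phiΩ (t : Fin n → Ω) (Ψ : R →ₐ[ℂ] MvPolynomial (Fin n) F) : R →ₐ[ℂ] Ω :=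
  ((MvPolynomial.aeval t : MvPolynomial (Fin n) F →ₐ[F] Ω).restrictScalars ℂ).comp Ψ

/-- The algebraic closure in `Ω` of the field generated by `κ` and `A₋`. -/
noncomputable def kapOne (κ : Type v) [Field κ] [Algebra κ Ω] (𝒜 : ℕ → Submodule ℂ R)
    (P : R →ₗ[ℂ] R →ₗ[ℂ] R) (H : R) (a : ℤ) (φ : R →ₐ[ℂ] Ω) : IntermediateField κ Ω :=
  (algebraicClosure (IntermediateField.adjoin κ (φ '' (Ap 𝒜 P (-H) a : Set R))) Ω).restrictScalars κ

/-- The linear form `L_τ = ∑ τ i t i`. -/
noncomputable def Lform (t : Fin n → Ω) (τ : Fin n → F) : Ω := ∑ i, algebraMap F Ω (τ i) * t i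

/-- The vector in `F^n` of a derivation over `μ`. -/
noncomputable def vecF (f : Frame 𝒜 P H a n) (u : Fin 2 → F)
    (δ : R →ₗ[ℂ] MvPolynomial (Fin 2) κ) : Fin n → F :=
  fun i => MvPolynomial.aeval u (δ (f.b i))

/-- All the data of (7a)-(7f). -/
structure Setup (𝒜 : ℕ → Submodule ℂ R) [GradedAlgebra 𝒜] (P : R →ₗ[ℂ] R →ₗ[ℂ] R) (H : R)
    (a : ℤ) (C : CtxN 𝒜 P H a n) (μ : R →ₐ[ℂ] MvPolynomial (Fin 2) κ) (f : Frame 𝒜 P H a n)
    (u : Fin 2 → F) (t : Fin n → Ω) : Prop where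
  line : IsLine 𝒜 P H a μ
  Δ : f.Δ ≠ 0
  hu : AlgebraicIndependent κ u
  algF : Algebra.IsAlgebraic (IntermediateField.adjoin κ (Set.range u)) F
  ht : AlgebraicIndependent F t
  algΩ : Algebra.IsAlgebraic (IntermediateField.adjoin F (Set.range t)) Ω

/-- The cell `Ψ` over the line. -/
noncomputable def PsiF (C : CtxN 𝒜 P H a n) (μ : R →ₐ[ℂ] MvPolynomial (Fin 2) κ)
    (f : Frame 𝒜 P H a n) (u : Fin 2 → F) : R →ₐ[ℂ] MvPolynomial (Fin n) F :=
  C.half.ctx.cell f (nuF u μ)

/-- `c(τ) = L_E L_τ` -/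
noncomputable def ccF (μ : R →ₐ[ℂ] MvPolynomial (Fin 2) κ) (f : Frame 𝒜 P H a n)
    (u : Fin 2 → F) (t : Fin n → Ω) (τ : Fin n → F) : Ω :=
  Lform t (fun i => (f.kb i : F) * nuF u μ (f.b i)) * Lform t τ

theorem sp4_nuF_apply (u : Fin 2 → F) (μ : R →ₐ[ℂ] MvPolynomial (Fin 2) κ) (r : R) :
    nuF u μ r = MvPolynomial.aeval u (μ r) := rfl

theorem sp4_phiΩ_apply (t : Fin n → Ω) (Ψ : R →ₐ[ℂ] MvPolynomial (Fin n) F) (r : R) :
    phiΩ t Ψ r = MvPolynomial.aeval t (Ψ r) := rfl

theorem Setup.pure (S : Setup 𝒜 P H a C μ f u t) : PureA 𝒜 P H a (nuF u μ) := by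
  intro k m hm r hr
  rw [sp4_nuF_apply, S.line.pure k m hm r hr, map_zero]

theorem Setup.injA (S : Setup 𝒜 P H a C μ f u t) : InjA 𝒜 P H a (nuF u μ) := by
  intro r hr h
  rw [sp4_nuF_apply] at h
  exact S.line.inj r hr ((injective_iff_map_eq_zero _).1 S.hu _ h)

theorem Setup.isCell (S : Setup 𝒜 P H a C μ f u t) : IsCell 𝒜 P H a (PsiF C μ f u) :=
  C.half.isCell C.npos f (nuF u μ) S.pure
    fun h => S.Δ (S.injA _ (Frame.Δ_mem C.half.ctx f) h)

/-- `Ψ(H) = - a L_E` -/
theorem Setup.phi_H (S : Setup 𝒜 P H a C μ f u t) :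
    phiΩ t (PsiF C μ f u) H = -(a : Ω) * Lform t (fun i => (f.kb i : F) * nuF u μ (f.b i)) := by
  rw [sp4_phiΩ_apply, PsiF, C.half.ctx.cell_H f S.pure, map_sum, Lform, Finset.mul_sum]
  refine Finset.sum_congr rfl fun i _ => ?_
  rw [map_mul, MvPolynomial.aeval_C, MvPolynomial.aeval_X, Algebra.smul_def, map_mul, map_mul,
    ← IsScalarTower.algebraMap_apply ℂ F Ω]
  simp only [map_neg, map_intCast, map_natCast, Int.cast_mul, Int.cast_natCast, map_mul]
  ring

/-- `Ψ(r) = - L_{μ{r,·}}`, `r` of defect one. -/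
theorem Setup.phi_defect_one (S : Setup 𝒜 P H a C μ f u t) {k : ℕ} {r : R}
    (hr : r ∈ Wt 𝒜 P H k (a * k - a)) :
    phiΩ t (PsiF C μ f u) r = - Lform t (fun i => nuF u μ (P r (f.b i))) := by
  rw [sp4_phiΩ_apply, PsiF, C.half.ctx.cell_defect_one f S.pure hr, map_sum, Lform,
    ← Finset.sum_neg_distrib]
  refine Finset.sum_congr rfl fun i _ => ?_
  have hsk : P (f.b i) r = - P r (f.b i) := by
    have h := C.half.ctx.hX.alternating (f.b i + r)
    simp only [map_add, LinearMap.add_apply, C.half.ctx.hX.alternating, zero_add, add_zero] at h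
    exact eq_neg_of_add_eq_zero_left (by rw [add_comm]; exact h)
  rw [map_mul, MvPolynomial.aeval_C, MvPolynomial.aeval_X, hsk, map_neg, map_neg, neg_mul]

/-- A homogeneous basis of the module of derivations. -/
structure Setup.Basis (μ : R →ₐ[ℂ] MvPolynomial (Fin 2) κ)
    (e : Fin n → R →ₗ[ℂ] MvPolynomial (Fin 2) κ) (d : Fin n → ℤ) (i₁ i₂ : Fin n) : Prop where
  mem : ∀ i, e i ∈ DerM 𝒜 P H a μ (d i)
  le : ∀ i, -1 ≤ d i
  ne : i₁ ≠ i₂
  d₁ : d i₁ = -1
  d₂ : d i₂ = -1
  e₁ : ∀ r, e i₁ r = MvPolynomial.pderiv 0 (μ r)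
  e₂ : ∀ r, e i₂ r = MvPolynomial.pderiv 1 (μ r)
  indep : LinearIndependent (MvPolynomial (Fin 2) κ) e
  span : ∀ j, ∀ v ∈ DerM 𝒜 P H a μ j, ∃ p : Fin n → MvPolynomial (Fin 2) κ,
    (∀ i, ∃ c : ℕ, (p i).IsHomogeneous c ∧ (p i ≠ 0 → (c : ℤ) = j - d i)) ∧ v = ∑ i, p i • e i

end Vale.Agent.P292
end

section

/-! Theorem E, section 7: (7a). See `PROOF.md`. -/

namespace Vale.Agent.P292

open Module Polynomial

universe u v

variable {R : Type u} [CommRing R] [Algebra ℂ R] {𝒜 : ℕ → Submodule ℂ R} [GradedAlgebra 𝒜]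
  {P : R →ₗ[ℂ] R →ₗ[ℂ] R} {H : R} {a : ℤ} {n : ℕ}

variable {κ : Type v} [Field κ] [IsAlgClosed κ] [Algebra ℂ κ]
  {F : Type v} [Field F] [IsAlgClosed F] [Algebra ℂ F] [Algebra κ F] [IsScalarTower ℂ κ F]
  {Ω : Type v} [Field Ω] [IsAlgClosed Ω] [Algebra ℂ Ω] [Algebra κ Ω] [Algebra F Ω]
  [IsScalarTower ℂ κ Ω] [IsScalarTower ℂ F Ω] [IsScalarTower κ F Ω]

variable {C : CtxN 𝒜 P H a n} {μ : R →ₐ[ℂ] MvPolynomial (Fin 2) κ} {f : Frame 𝒜 P H a n}
    {u : Fin 2 → F} {t : Fin n → Ω}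

section aux

/-- Elements algebraic over elements of a relative algebraic closure. -/
theorem sp5_mem {E Ω : Type*} [Field E] [Field Ω] [Algebra E Ω] {R₁ A₁ : Type*} [CommRing R₁]
    [CommRing A₁] [Algebra R₁ A₁] (g : A₁ →+* Ω)
    (hinj : Function.Injective (g.comp (algebraMap R₁ A₁)))
    (h : ∀ r, g (algebraMap R₁ A₁ r) ∈ algebraicClosure E Ω) {w : A₁} (hw : IsAlgebraic R₁ w) :
    g w ∈ algebraicClosure E Ω := by
  obtain ⟨p, hp0, hp⟩ := hw
  let h' : R₁ →+* algebraicClosure E Ω := (g.comp (algebraMap R₁ A₁)).codRestrict _ h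
  have h1 : IsAlgebraic (algebraicClosure E Ω) (g w) := by
    refine ⟨p.map h', ?_, ?_⟩
    · rw [Ne, Polynomial.map_eq_zero_iff]
      · exact hp0
      · intro a b hab
        exact hinj (congrArg Subtype.val hab)
    · rw [Polynomial.aeval_def, Polynomial.eval₂_map]
      have e : (algebraMap (algebraicClosure E Ω) Ω).comp h' = g.comp (algebraMap R₁ A₁) := rfl
      rw [e, ← Polynomial.hom_eval₂, ← Polynomial.aeval_def, hp, map_zero]
  have h2 : g w ∈ algebraicClosure (algebraicClosure E Ω) Ω := mem_algebraicClosure_iff.2 h1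
  rw [algebraicClosure.algebraicClosure_eq_bot] at h2
  obtain ⟨z, hz⟩ := IntermediateField.mem_bot.1 h2
  rw [← hz]
  exact z.2

theorem sp5_base {κ Ω : Type*} [Field κ] [Field Ω] [Algebra κ Ω] {s : Set Ω} {z : Ω}
    (hz : z ∈ IntermediateField.adjoin κ s) :
    z ∈ algebraicClosure (IntermediateField.adjoin κ s) Ω :=
  (algebraicClosure (IntermediateField.adjoin κ s) Ω).algebraMap_mem ⟨z, hz⟩

theorem sp5_trdeg {k K : Type*} [Field k] [Field K] [Algebra k K] {m : ℕ} {x : Fin m → K}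
    (hx : AlgebraicIndependent k x)
    (h : Algebra.IsAlgebraic (IntermediateField.adjoin k (Set.range x)) K) :
    Algebra.trdeg k K = m := by
  have h1 := IntermediateField.isAlgebraic_adjoin_iff_top.1 h
  have hb : IsTranscendenceBasis k x := hx.isTranscendenceBasis_iff_isAlgebraic.2 h1
  have h2 := hb.lift_cardinalMk_eq_trdeg
  simpa using h2.symm

theorem sp5_restrict {κ L Ω ι : Type*} [Field κ] [Field L] [Field Ω] [Algebra κ Ω] [Algebra L Ω]
    (K : IntermediateField κ Ω) (D : IntermediateField L Ω) (h : ∀ z ∈ K, z ∈ D) {U : ι → Ω}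
    (hU : AlgebraicIndependent D U) : AlgebraicIndependent K U := by
  let f : K →+* D := (algebraMap K Ω).codRestrict _ fun z => h z z.2
  let : Algebra K D := f.toAlgebra
  have : IsScalarTower K D Ω := IsScalarTower.of_algebraMap_eq fun _ => rfl
  exact hU.restrictScalars (RingHom.injective _)

end aux

/-! ### Task SP3 : (7a) -/

theorem Setup.algebraicIndependent_u (S : Setup 𝒜 P H a C μ f u t) :
    AlgebraicIndependent (kapOne κ 𝒜 P H a (phiΩ t (PsiF C μ f u)))
      (fun i => algebraMap F Ω (u i)) := by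
  obtain ⟨φ, hφ⟩ : ∃ φ : R →ₐ[ℂ] Ω, φ = phiΩ t (PsiF C μ f u) := ⟨_, rfl⟩
  rw [← hφ]
  -- the image of `A₋`
  obtain ⟨B, hB⟩ : ∃ B : Subalgebra ℂ Ω, B = (Ap 𝒜 P (-H) a).map φ := ⟨_, rfl⟩
  have hmemB : ∀ c ∈ Ap 𝒜 P (-H) a, φ c ∈ B := fun c hc => hB ▸ ⟨c, hc, rfl⟩
  have hBtr : Algebra.trdeg ℂ B ≤ n := by
    let g : Ap 𝒜 P (-H) a →ₐ[ℂ] B :=
      (φ.comp (Ap 𝒜 P (-H) a).val).codRestrict B fun c => hmemB c c.2
    have hg : Function.Surjective g := by
      rintro ⟨b, hb⟩
      have hb' := hb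
      rw [hB] at hb'
      obtain ⟨c, hc, rfl⟩ := hb'
      exact ⟨⟨c, hc⟩, rfl⟩
    have h1 := lift_trdeg_le_of_surjective g hg
    rw [C.neg_half.trdeg] at h1
    simpa using h1
  have hfaith : FaithfulSMul ℂ B :=
    (faithfulSMul_iff_algebraMap_injective ℂ B).2 (RingHom.injective _)
  obtain ⟨s, hs⟩ := exists_isTranscendenceBasis ℂ B
  have hcard : Cardinal.mk s ≤ n := by
    rw [hs.cardinalMk_eq_trdeg]
    exact hBtr
  have hfin : Finite s := by
    rw [← Cardinal.mk_lt_aleph0_iff]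
    exact hcard.trans_lt (Cardinal.natCast_lt_aleph0)
  obtain ⟨β, hβ⟩ : ∃ β : s → Ω, β = fun b : s => ((b : B) : Ω) := ⟨_, rfl⟩
  obtain ⟨U, hU⟩ : ∃ U : Fin 2 → Ω, U = fun i => algebraMap F Ω (u i) := ⟨_, rfl⟩
  rw [← hU]
  have hκ : ∀ (X : Set Ω) (c : κ), algebraMap κ Ω c ∈
      algebraicClosure (IntermediateField.adjoin κ X) Ω := fun X c =>
    sp5_base ((IntermediateField.adjoin κ X).algebraMap_mem c)
  have hC : ∀ (X : Set Ω) (c : ℂ), algebraMap ℂ Ω c ∈
      algebraicClosure (IntermediateField.adjoin κ X) Ω := fun X c => by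
    rw [IsScalarTower.algebraMap_apply ℂ κ Ω]
    exact hκ X _
  -- `B` is algebraic over `β`
  have hBcl : ∀ X : Set Ω, Set.range β ⊆ X → ∀ b ∈ B,
      b ∈ algebraicClosure (IntermediateField.adjoin κ X) Ω := by
    intro X hX b hb
    have halg := hs.isAlgebraic
    refine sp5_mem (R₁ := Algebra.adjoin ℂ (Set.range (Subtype.val : s → B))) (A₁ := B)
      (B.val : B →+* Ω) ?_ ?_ (halg.isAlgebraic ⟨b, hb⟩)
    · intro x y hxy
      exact Subtype.val_injective (Subtype.val_injective hxy)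
    · rintro ⟨r, hr⟩
      show (r : Ω) ∈ _
      refine Algebra.adjoin_induction (p := fun (r : B) _ => (r : Ω) ∈
        algebraicClosure (IntermediateField.adjoin κ X) Ω) ?_ ?_ ?_ ?_ hr
      · rintro _ ⟨x, rfl⟩
        exact sp5_base (IntermediateField.subset_adjoin κ X (hX ⟨x, by rw [hβ]⟩))
      · intro c
        exact hC X c
      · intro x y _ _ hx hy
        exact add_mem hx hy
      · intro x y _ _ hx hy
        exact mul_mem hx hy
  -- the family `U, β`
  obtain ⟨x, hx⟩ : ∃ x : Fin 2 ⊕ s → Ω, x = Sum.elim U β := ⟨_, rfl⟩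
  obtain ⟨E, hE⟩ : ∃ E : Set Ω, E = Set.range x := ⟨_, rfl⟩
  have hβE : Set.range β ⊆ E := by
    rw [hE, hx]
    rintro _ ⟨b, rfl⟩
    exact ⟨Sum.inr b, rfl⟩
  have hUE : ∀ i, U i ∈ E := fun i => by
    rw [hE, hx]
    exact ⟨Sum.inl i, rfl⟩
  have hF : ∀ w : F, algebraMap F Ω w ∈ algebraicClosure (IntermediateField.adjoin κ E) Ω := by
    intro w
    refine sp5_mem (R₁ := IntermediateField.adjoin κ (Set.range u)) (algebraMap F Ω) ?_ ?_
      (S.algF.isAlgebraic w)
    · exact RingHom.injective _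
    · rintro ⟨r, hr⟩
      show algebraMap F Ω r ∈ _
      refine IntermediateField.adjoin_induction κ (p := fun r _ => algebraMap F Ω r ∈
        algebraicClosure (IntermediateField.adjoin κ E) Ω) ?_ ?_ ?_ ?_ ?_ hr
      · rintro _ ⟨i, rfl⟩
        have h1 : algebraMap F Ω (u i) = U i := by rw [hU]
        rw [h1]
        exact sp5_base (IntermediateField.subset_adjoin κ E (hUE i))
      · intro c
        rw [← IsScalarTower.algebraMap_apply κ F Ω]
        exact hκ E c
      · intro y z _ _ hy hz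
        rw [map_add]
        exact add_mem hy hz
      · intro y _ hy
        rw [map_inv₀]
        exact inv_mem hy
      · intro y z _ _ hy hz
        rw [map_mul]
        exact mul_mem hy hz
  have ht : ∀ i, t i ∈ algebraicClosure (IntermediateField.adjoin κ E) Ω := by
    intro i
    have h1 := IsCell.isAlgebraic C.half.ctx S.isCell i
    have h2 := sp5_mem (E := IntermediateField.adjoin κ E) (Ω := Ω)
      ((MvPolynomial.aeval t : MvPolynomial (Fin n) F →ₐ[F] Ω) : MvPolynomial (Fin n) F →+* Ω)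
      (by
        intro y z hyz
        exact Subtype.val_injective (S.ht hyz))
      (by
        rintro ⟨r, hr⟩
        show MvPolynomial.aeval t r ∈ _
        refine Algebra.adjoin_induction (p := fun r _ => MvPolynomial.aeval t r ∈
          algebraicClosure (IntermediateField.adjoin κ E) Ω) ?_ ?_ ?_ ?_ hr
        · rintro _ ⟨c, hc, rfl⟩
          have h3 : MvPolynomial.aeval t (PsiF C μ f u c) = φ c := by
            rw [hφ]
            rfl
          rw [h3]
          exact hBcl E hβE _ (hmemB c hc)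
        · intro c
          rw [AlgHom.commutes]
          exact hF c
        · intro y z _ _ hy hz
          rw [map_add]
          exact add_mem hy hz
        · intro y z _ _ hy hz
          rw [map_mul]
          exact mul_mem hy hz) h1
    have h3 : ((MvPolynomial.aeval t : MvPolynomial (Fin n) F →ₐ[F] Ω) :
        MvPolynomial (Fin n) F →+* Ω) (MvPolynomial.X i) = t i := MvPolynomial.aeval_X t i
    rwa [h3] at h2
  have hall : ∀ z : Ω, z ∈ algebraicClosure (IntermediateField.adjoin κ E) Ω := by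
    intro z
    refine sp5_mem (R₁ := IntermediateField.adjoin F (Set.range t)) (RingHom.id Ω) ?_ ?_
      (S.algΩ.isAlgebraic z)
    · exact RingHom.injective _
    · rintro ⟨r, hr⟩
      show r ∈ _
      refine IntermediateField.adjoin_induction F (p := fun r _ => r ∈
        algebraicClosure (IntermediateField.adjoin κ E) Ω) ?_ ?_ ?_ ?_ ?_ hr
      · rintro _ ⟨i, rfl⟩
        exact ht i
      · exact hF
      · intro y z _ _ hy hz
        exact add_mem hy hz
      · intro y _ hy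
        exact inv_mem hy
      · intro y z _ _ hy hz
        exact mul_mem hy hz
  have halg : Algebra.IsAlgebraic (Algebra.adjoin κ (Set.range x)) Ω := by
    rw [← hE]
    exact IntermediateField.isAlgebraic_adjoin_iff_top.1
      ⟨fun z => mem_algebraicClosure_iff.1 (hall z)⟩
  have htr : Algebra.trdeg κ Ω = 2 + n := by
    have h1 := trdeg_add_eq κ F (A := Ω)
    rw [sp5_trdeg S.hu S.algF, sp5_trdeg S.ht S.algΩ] at h1
    rw [← h1]
    simp
  have hbasis : IsTranscendenceBasis κ x := by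
    refine Algebra.IsAlgebraic.isTranscendenceBasis_of_le_trdeg_of_finite κ x ?_
    rw [htr, Cardinal.mk_sum]
    simpa using add_le_add_right hcard 2
  have hind := hbasis.1
  rw [hx, AlgebraicIndependent.sumElim_iff] at hind
  have hind2 := (IntermediateField.algebraicIndependent_adjoin_iff.2 hind.2).algebraicClosure
  -- restriction to `κ₁`
  obtain ⟨Y, hY⟩ : ∃ Y : Set Ω, Y = Set.range β := ⟨_, rfl⟩
  rw [← hY] at hind2
  have hsub : ∀ z ∈ kapOne κ 𝒜 P H a φ, z ∈ algebraicClosure (IntermediateField.adjoin κ Y) Ω := by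
    intro z hz
    have hz' : IsAlgebraic (IntermediateField.adjoin κ (φ '' (Ap 𝒜 P (-H) a : Set R))) z :=
      mem_algebraicClosure_iff.1 hz
    refine sp5_mem (R₁ := IntermediateField.adjoin κ (φ '' (Ap 𝒜 P (-H) a : Set R)))
      (RingHom.id Ω) ?_ ?_ hz'
    · exact RingHom.injective _
    · rintro ⟨r, hr⟩
      show r ∈ _
      refine IntermediateField.adjoin_induction κ (p := fun r _ => r ∈
        algebraicClosure (IntermediateField.adjoin κ Y) Ω) ?_ ?_ ?_ ?_ ?_ hr
      · rintro _ ⟨c, hc, rfl⟩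
        exact hBcl Y hY.ge _ (hmemB c hc)
      · exact hκ Y
      · intro y z _ _ hy hz
        exact add_mem hy hz
      · intro y _ hy
        exact inv_mem hy
      · intro y z _ _ hy hz
        exact mul_mem hy hz
  exact sp5_restrict _ _ hsub hind2

end Vale.Agent.P292
end

section

/-! Theorem E, section 7: (7b). See `PROOF.md`. -/

namespace Vale.Agent.P292

open Module Polynomial

universe u v

variable {R : Type u} [CommRing R] [Algebra ℂ R] {𝒜 : ℕ → Submodule ℂ R} [GradedAlgebra 𝒜]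
  {P : R →ₗ[ℂ] R →ₗ[ℂ] R} {H : R} {a : ℤ} {n : ℕ}

variable {κ : Type v} [Field κ] [IsAlgClosed κ] [Algebra ℂ κ]
  {F : Type v} [Field F] [IsAlgClosed F] [Algebra ℂ F] [Algebra κ F] [IsScalarTower ℂ κ F]
  {Ω : Type v} [Field Ω] [IsAlgClosed Ω] [Algebra ℂ Ω] [Algebra κ Ω] [Algebra F Ω]
  [IsScalarTower ℂ κ Ω] [IsScalarTower ℂ F Ω] [IsScalarTower κ F Ω]

variable {C : CtxN 𝒜 P H a n} {μ : R →ₐ[ℂ] MvPolynomial (Fin 2) κ} {f : Frame 𝒜 P H a n}
    {u : Fin 2 → F} {t : Fin n → Ω}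


/-! ### Derivations with prescribed values on a transcendence basis -/

/-- Extension of derivations from a domain to a field algebraic over it. -/
theorem sp6_ext {k : Type*} {A : Type*} {E : Type*} [CommRing k] [CommRing A] [IsDomain A]
    [Field E] [CharZero E] [Algebra k A] [Algebra A E] [Algebra k E] [IsScalarTower k A E]
    (hinj : Function.Injective (algebraMap A E)) (halg : Algebra.IsAlgebraic A E)
    (d : Derivation k A E) :
    ∃ D : Derivation k E E, ∀ x, D (algebraMap A E x) = d x := by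
  have : FaithfulSMul A E := (faithfulSMul_iff_algebraMap_injective A E).2 hinj
  let : Algebra (FractionRing A) E := FractionRing.liftAlgebra A E
  have : IsScalarTower A (FractionRing A) E := FractionRing.isScalarTower_liftAlgebra A E
  have : Algebra.IsAlgebraic (FractionRing A) E :=
    (IsFractionRing.comap_isAlgebraic_iff (A := A) (K := FractionRing A)).1 halg
  have : CharZero A := (algebraMap A E).charZero
  have : CharZero (FractionRing A) := IsFractionRing.charZero_of_isFractionRing A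
  have : Algebra.FormallyEtale A (FractionRing A) :=
    Algebra.FormallyEtale.of_isLocalization (nonZeroDivisors A)
  have : Algebra.FormallyEtale (FractionRing A) E :=
    Algebra.FormallyEtale.of_isSeparable (FractionRing A) E
  have : Algebra.FormallyEtale A E := Algebra.FormallyEtale.comp A (FractionRing A) E
  refine ⟨((LinearMap.liftBaseChange E d.liftKaehlerDifferential).comp
    (KaehlerDifferential.tensorKaehlerEquivOfFormallyEtale k A E).symm.toLinearMap).compDer
    (KaehlerDifferential.D k E), fun x => ?_⟩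
  rw [Derivation.coe_comp]
  change LinearMap.liftBaseChange E d.liftKaehlerDifferential
    ((KaehlerDifferential.tensorKaehlerEquivOfFormallyEtale k A E).symm
      (KaehlerDifferential.D k E (algebraMap A E x))) = d x
  rw [KaehlerDifferential.tensorKaehlerEquivOfFormallyEtale_symm_D_algebraMap,
    LinearMap.liftBaseChange_tmul, one_smul, Derivation.liftKaehlerDifferential_comp_D]

open IntermediateField.algebraAdjoinAdjoin in
theorem sp6_tb {K E ι : Type*} [Field K] [Field E] [Algebra K E] {x : ι → E}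
    (hx : AlgebraicIndependent K x)
    (h : Algebra.IsAlgebraic (IntermediateField.adjoin K (Set.range x)) E) :
    IsTranscendenceBasis K x := by
  rw [hx.isTranscendenceBasis_iff_isAlgebraic]
  exact (IsFractionRing.comap_isAlgebraic_iff (A := Algebra.adjoin K (Set.range x))
    (K := IntermediateField.adjoin K (Set.range x))).2 h

theorem sp6_der {K E ι : Type*} [Field K] [Field E] [CharZero E] [Algebra K E] {x : ι → E}
    (hx : IsTranscendenceBasis K x) (g : ι → E) :
    ∃ D : Derivation K E E, ∀ i, D (x i) = g i := by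
  let : Algebra (MvPolynomial ι K) E := (MvPolynomial.aeval x).toAlgebra
  have h1 : ∀ p : MvPolynomial ι K, algebraMap (MvPolynomial ι K) E p = MvPolynomial.aeval x p :=
    fun _ => rfl
  have : IsScalarTower K (MvPolynomial ι K) E := IsScalarTower.of_algebraMap_eq fun c => by
    rw [h1, MvPolynomial.algebraMap_eq, MvPolynomial.aeval_C]
  have hinj : Function.Injective (algebraMap (MvPolynomial ι K) E) := hx.1
  have halg : Algebra.IsAlgebraic (MvPolynomial ι K) E := by
    have h2 := hx.isAlgebraic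
    refine ⟨fun z => ?_⟩
    obtain ⟨q, hq, hz⟩ := h2.isAlgebraic z
    let e := hx.1.aevalEquiv
    refine ⟨q.map (e.symm : Algebra.adjoin K (Set.range x) →+* MvPolynomial ι K), ?_, ?_⟩
    · rw [Ne, Polynomial.map_eq_zero_iff e.symm.injective]
      exact hq
    · rw [Polynomial.aeval_def, Polynomial.eval₂_map]
      rw [Polynomial.aeval_def] at hz
      have h3 : (algebraMap (MvPolynomial ι K) E).comp
          (e.symm : Algebra.adjoin K (Set.range x) →+* MvPolynomial ι K) =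
          algebraMap (Algebra.adjoin K (Set.range x)) E := by
        ext c
        change MvPolynomial.aeval x (e.symm c) = (c : E)
        rw [← hx.1.algebraMap_aevalEquiv (e.symm c)]
        change ((e (e.symm c) : Algebra.adjoin K (Set.range x)) : E) = c
        rw [AlgEquiv.apply_symm_apply]
      rw [h3]
      exact hz
  obtain ⟨D, hD⟩ := sp6_ext hinj halg (MvPolynomial.mkDerivation K g)
  refine ⟨D, fun i => ?_⟩
  have h2 := hD (MvPolynomial.X i)
  rw [MvPolynomial.mkDerivation_X, h1, MvPolynomial.aeval_X] at h2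
  exact h2

/-- Monomials are eigenvectors. -/
theorem sp6_prod {K E ι : Type*} [Field K] [Field E] [Algebra K E] (D : Derivation K E E)
    {x : ι → E} {c : ι → E} (h : ∀ i, D (x i) = c i * x i) (α : ι →₀ ℕ) :
    D (α.prod fun i e => x i ^ e) =
      (α.sum fun i e => (e : E) * c i) * α.prod fun i e => x i ^ e := by
  classical
  induction α using Finsupp.induction_linear with
  | zero => simp
  | add α β hα hβ =>
    rw [Finsupp.prod_add_index' (fun i => pow_zero _) (fun i a b => pow_add _ _ _),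
      Finsupp.sum_add_index' (fun i => by simp) (fun i a b => by push_cast; ring),
      Derivation.leibniz, hα, hβ, smul_eq_mul, smul_eq_mul]
    ring
  | single i e =>
    rw [Finsupp.prod_single_index (h := fun i e => x i ^ e) (pow_zero _),
      Finsupp.sum_single_index (by simp), Derivation.leibniz_pow, h i]
    rcases e with _ | e
    · simp
    · simp only [Nat.add_sub_cancel, nsmul_eq_mul, smul_eq_mul]
      ring

/-- A monomial with a coefficient in an eigenspace. -/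
theorem sp6_aeval {K E ι : Type*} [Field K] [Field E] [Algebra K E] (D : Derivation K E E)
    {x : ι → E} (h : ∀ i, D (x i) = 1 * x i) {p : MvPolynomial ι K} {l : ℕ}
    (hp : p.IsHomogeneous l) : D (MvPolynomial.aeval x p) = (l : E) * MvPolynomial.aeval x p := by
  have h1 : ∀ α ∈ p.support, D (MvPolynomial.aeval x (MvPolynomial.monomial α (p.coeff α))) =
      (l : E) * MvPolynomial.aeval x (MvPolynomial.monomial α (p.coeff α)) := by
    intro α hα
    rw [MvPolynomial.aeval_monomial, ← Algebra.smul_def, Derivation.map_smul, sp6_prod D h]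
    have h2 : α.degree = l := (hp.degree_eq_sum_deg_support hα).symm
    have h3 : (α.sum fun i e => (e : E) * 1) = (l : E) := by
      rw [← h2, Finsupp.degree_apply, Nat.cast_sum]
      exact Finset.sum_congr rfl fun i _ => mul_one _
    rw [h3, mul_smul_comm]
  conv_lhs => rw [p.as_sum, map_sum, map_sum]
  conv_rhs => rw [p.as_sum, map_sum, Finset.mul_sum]
  exact Finset.sum_congr rfl h1

/-- The kernel of a derivation of a field contains the field generated by a subset, and its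
algebraic closure. -/
theorem sp6_ker {K E : Type*} [Field K] [Field E] [CharZero E] [Algebra K E]
    (D : Derivation K E E) {s : Set E} (hs : ∀ x ∈ s, D x = 0) {x : E}
    (hx : x ∈ algebraicClosure (IntermediateField.adjoin K s) E) : D x = 0 := by
  have h1 : ∀ y ∈ IntermediateField.adjoin K s, D y = 0 := by
    intro y hy
    induction hy using IntermediateField.adjoin_induction with
    | mem y hy => exact hs y hy
    | algebraMap c => exact D.map_algebraMap c
    | add y z _ _ hy hz => rw [map_add, hy, hz, add_zero]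
    | inv y _ hy => rw [Derivation.leibniz_inv, hy, smul_zero]
    | mul y z _ _ hy hz => rw [Derivation.leibniz, hy, hz, smul_zero, smul_zero, add_zero]
  rw [mem_algebraicClosure_iff] at hx
  exact derivation_eq_zero_of_isAlgebraic (A := IntermediateField.adjoin K s) (RingHom.id E)
    Function.injective_id (D : E →ₗ[K] E).toAddMonoidHom (fun p q => by
      change D (p * q) = p * D q + q * D p
      rw [Derivation.leibniz, smul_eq_mul, smul_eq_mul])
    (fun c => h1 c c.2) (FaithfulSMul.algebraMap_injective _ _) hx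

/-! ### Task SP4 : (7b) -/

/-- The Euler derivation over `κ`. -/
theorem Setup.sp6_exists (S : Setup 𝒜 P H a C μ f u t) :
    ∃ D : Derivation κ Ω Ω,
      (∀ i, D (algebraMap F Ω (u i)) = algebraMap F Ω (u i)) ∧
      ∀ i, D (t i) = ((1 / 2 - (f.kb i : ℚ) : ℚ) : Ω) * t i := by
  have : CharZero Ω := charZero_of_injective_algebraMap (algebraMap ℂ Ω).injective
  have h1 := sp6_tb S.hu S.algF
  have h2 := sp6_tb S.ht S.algΩ
  obtain ⟨D, hD⟩ := sp6_der (h1.sumElim_comp h2)
    (Sum.elim (fun i => ((1 / 2 - (f.kb i : ℚ) : ℚ) : Ω) * t i) fun i => algebraMap F Ω (u i))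
  exact ⟨D, fun i => hD (Sum.inr i), fun i => hD (Sum.inl i)⟩

omit [IsAlgClosed κ] [Algebra ℂ κ] [IsAlgClosed F] [Algebra ℂ F] [IsScalarTower ℂ κ F]
  [IsAlgClosed Ω] [Algebra ℂ Ω] [IsScalarTower ℂ κ Ω] [IsScalarTower ℂ F Ω] in
theorem sp6_nu (D : Derivation κ Ω Ω)
    (hu : ∀ i, D (algebraMap F Ω (u i)) = algebraMap F Ω (u i)) {p : MvPolynomial (Fin 2) κ}
    {l : ℕ} (hp : p.IsHomogeneous l) :
    D (algebraMap F Ω (MvPolynomial.aeval u p)) =
      (l : Ω) * algebraMap F Ω (MvPolynomial.aeval u p) := by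
  have h1 : algebraMap F Ω (MvPolynomial.aeval u p) =
      MvPolynomial.aeval (algebraMap F Ω ∘ u) p :=
    (MvPolynomial.aeval_algebraMap_apply Ω u p).symm
  rw [h1]
  exact sp6_aeval D (x := algebraMap F Ω ∘ u) (fun i => by
    rw [one_mul]
    exact hu i) hp

theorem Setup.sp6_kill (S : Setup 𝒜 P H a C μ f u t) (D : Derivation κ Ω Ω)
    (hu : ∀ i, D (algebraMap F Ω (u i)) = algebraMap F Ω (u i))
    (ht : ∀ i, D (t i) = ((1 / 2 - (f.kb i : ℚ) : ℚ) : Ω) * t i) {k : ℕ} {c : R}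
    (hc : c ∈ Wt 𝒜 P (-H) k (a * k)) : D (phiΩ t (PsiF C μ f u) c) = 0 := by
  have : CharZero Ω := charZero_of_injective_algebraMap (algebraMap ℂ Ω).injective
  rw [Wt_neg] at hc
  have hcoef : ∀ α : Fin n →₀ ℕ, D (MvPolynomial.aeval t (MvPolynomial.monomial α
      ((PsiF C μ f u c).coeff α))) = 0 := by
    intro α
    have h1 : (PsiF C μ f u c).coeff α =
        MvPolynomial.aeval u (μ ((C.half.ctx.exp f c).coeff α)) := by
      change MvPolynomial.coeff α (MvPolynomial.map _ (C.half.ctx.exp f c)) = _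
      rw [MvPolynomial.coeff_map]
      rfl
    have h2 := C.half.ctx.coeff_exp_mem f hc α
    set g := (C.half.ctx.exp f c).coeff α with hg
    set l := k + ∑ i, α i * (f.kb i - 1) with hl
    rw [h1]
    by_cases hm : -(a * (k : ℤ)) + a * ∑ i, (α i : ℤ) * f.kb i = a * (l : ℕ)
    · rw [hm] at h2
      have h3 := S.line.homog l g h2
      rw [MvPolynomial.aeval_monomial, Derivation.leibniz, sp6_prod D ht,
        sp6_nu D hu h3, smul_eq_mul, smul_eq_mul]
      have h4 : (l : Ω) + (α.sum fun i e => (e : Ω) * ((1 / 2 - (f.kb i : ℚ) : ℚ) : Ω)) = 0 := by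
        have h5 : (l : ℚ) + ∑ i, (α i : ℚ) * (1 / 2 - (f.kb i : ℚ)) = 0 := by
          have ha : (a : ℚ) ≠ 0 := by
            have := C.half.ctx.pos
            exact_mod_cast this.ne'
          have h6 : -((a : ℚ) * k) + a * ∑ i, (α i : ℚ) * f.kb i = a * l := by
            exact_mod_cast congrArg (Int.cast (R := ℚ)) hm
          have h7 : -(k : ℚ) + ∑ i, (α i : ℚ) * f.kb i = l := by
            apply mul_left_cancel₀ ha
            linarith
          have h8 : (l : ℚ) = k + ∑ i, (α i : ℚ) * (f.kb i - 1) := by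
            rw [hl]
            push_cast
            congr 1
            refine Finset.sum_congr rfl fun i _ => ?_
            rw [Nat.cast_sub (f.kb_pos i)]
            simp
          have h9 : ∑ i, (α i : ℚ) * ((f.kb i : ℚ) - 1) =
              ∑ i, (α i : ℚ) * f.kb i - ∑ i, (α i : ℚ) := by
            rw [← Finset.sum_sub_distrib]
            exact Finset.sum_congr rfl fun i _ => by ring
          have h10 : ∑ i, (α i : ℚ) * (1 / 2 - (f.kb i : ℚ)) =
              (1 / 2) * ∑ i, (α i : ℚ) - ∑ i, (α i : ℚ) * f.kb i := by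
            rw [Finset.mul_sum, ← Finset.sum_sub_distrib]
            exact Finset.sum_congr rfl fun i _ => by ring
          linarith
        have h6 : (α.sum fun i e => (e : Ω) * ((1 / 2 - (f.kb i : ℚ) : ℚ) : Ω)) =
            ((∑ i, (α i : ℚ) * (1 / 2 - (f.kb i : ℚ)) : ℚ) : Ω) := by
          rw [Finsupp.sum_fintype _ _ (fun i => by simp)]
          push_cast
          rfl
        rw [h6]
        exact_mod_cast congrArg (Rat.cast (K := Ω)) h5
      linear_combination (algebraMap F Ω (MvPolynomial.aeval u (μ g)) *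
        (α.prod fun i e => t i ^ e)) * h4
    · have h3 : μ g = 0 := S.line.pure l _ hm g h2
      rw [h3, map_zero, map_zero, map_zero, map_zero]
  have h2 : phiΩ t (PsiF C μ f u) c = MvPolynomial.aeval t (PsiF C μ f u c) := rfl
  rw [h2, (PsiF C μ f u c).as_sum, map_sum, map_sum]
  exact Finset.sum_eq_zero fun α _ => hcoef α


theorem Setup.exists_euler (S : Setup 𝒜 P H a C μ f u t) :
    ∃ E : Derivation (kapOne κ 𝒜 P H a (phiΩ t (PsiF C μ f u))) Ω Ω,
      (∀ i, E (algebraMap F Ω (u i)) = algebraMap F Ω (u i)) ∧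
      ∀ i, E (t i) = ((1 / 2 - (f.kb i : ℚ) : ℚ) : Ω) * t i := by
  have : CharZero Ω := charZero_of_injective_algebraMap (algebraMap ℂ Ω).injective
  obtain ⟨D, hDu, hDt⟩ := S.sp6_exists
  have h1 : ∀ x ∈ (phiΩ t (PsiF C μ f u)) '' (Ap 𝒜 P (-H) a : Set R), D x = 0 := by
    rintro _ ⟨r, hr, rfl⟩
    change r ∈ Algebra.adjoin ℂ _ at hr
    induction hr using Algebra.adjoin_induction with
    | mem r hr =>
      obtain ⟨k, hk⟩ := hr
      exact S.sp6_kill D hDu hDt hk
    | algebraMap c =>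
      rw [AlgHom.commutes, IsScalarTower.algebraMap_apply ℂ κ Ω]
      exact D.map_algebraMap _
    | add r s _ _ hr hs => rw [map_add, map_add, hr, hs, add_zero]
    | mul r s _ _ hr hs => rw [map_mul, Derivation.leibniz, hr, hs, smul_zero, smul_zero, add_zero]
  have h2 : ∀ c : kapOne κ 𝒜 P H a (phiΩ t (PsiF C μ f u)), D (c : Ω) = 0 :=
    fun c => sp6_ker D h1 c.2
  refine ⟨Derivation.mk' { toFun := D, map_add' := map_add D, map_smul' := fun c x => ?_ }
    fun x y => D.leibniz x y, hDu, hDt⟩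
  change D ((c : Ω) * x) = (c : Ω) * D x
  rw [Derivation.leibniz, h2, smul_zero, add_zero, smul_eq_mul]

end Vale.Agent.P292
end

section

/-! Theorem E, section 7: (7c), integrality. See `PROOF.md`. -/

namespace Vale.Agent.P292

open Module Polynomial

universe u v

variable {R : Type u} [CommRing R] [Algebra ℂ R] {𝒜 : ℕ → Submodule ℂ R} [GradedAlgebra 𝒜]
  {P : R →ₗ[ℂ] R →ₗ[ℂ] R} {H : R} {a : ℤ} {n : ℕ}

variable {κ : Type v} [Field κ] [IsAlgClosed κ] [Algebra ℂ κ]
  {F : Type v} [Field F] [IsAlgClosed F] [Algebra ℂ F] [Algebra κ F] [IsScalarTower ℂ κ F]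
  {Ω : Type v} [Field Ω] [IsAlgClosed Ω] [Algebra ℂ Ω] [Algebra κ Ω] [Algebra F Ω]
  [IsScalarTower ℂ κ Ω] [IsScalarTower ℂ F Ω] [IsScalarTower κ F Ω]

variable {C : CtxN 𝒜 P H a n} {μ : R →ₐ[ℂ] MvPolynomial (Fin 2) κ} {f : Frame 𝒜 P H a n}
    {u : Fin 2 → F} {t : Fin n → Ω}

lemma sp7_isIntegral_mono {k₁ k₂ E : Type*} [CommRing k₁] [CommRing k₂] [CommRing E]
    [Algebra k₁ E] [Algebra k₂ E] (A : Subalgebra k₁ E) (B : Subalgebra k₂ E)
    (h : ∀ y ∈ A, y ∈ B) {x : E} (hx : IsIntegral A x) : IsIntegral B x := by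
  obtain ⟨p, hp, hpx⟩ := hx
  let g : A →+* B :=
    { toFun := fun y => ⟨y.1, h y.1 y.2⟩
      map_one' := rfl
      map_mul' := fun _ _ => rfl
      map_zero' := rfl
      map_add' := fun _ _ => rfl }
  refine ⟨p.map g, hp.map g, ?_⟩
  rw [eval₂_map]
  exact hpx

lemma Setup.sp7_typeW (S : Setup 𝒜 P H a C μ f u t) :
    TypeW 𝒜 P H a (phiΩ t (PsiF C μ f u)) := by
  intro k m hm r hr
  have h := S.isCell.typeW k m hm r hr
  simp only [phiΩ, AlgHom.comp_apply, h, map_zero]

lemma sp7_mem_kapOne (φ : R →ₐ[ℂ] Ω) {c : R} (hc : c ∈ Ap 𝒜 P (-H) a) :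
    φ c ∈ kapOne κ 𝒜 P H a φ := by
  change φ c ∈ algebraicClosure (IntermediateField.adjoin κ (φ '' (Ap 𝒜 P (-H) a : Set R))) Ω
  exact (algebraicClosure (IntermediateField.adjoin κ (φ '' (Ap 𝒜 P (-H) a : Set R)))
    Ω).algebraMap_mem ⟨φ c, IntermediateField.subset_adjoin _ _ ⟨c, hc, rfl⟩⟩

lemma sp7_phi_Ap (C : CtxN 𝒜 P H a n) (μ : R →ₐ[ℂ] MvPolynomial (Fin 2) κ)
    (f : Frame 𝒜 P H a n) (u : Fin 2 → F) (t : Fin n → Ω) {c : R} (hc : c ∈ Ap 𝒜 P H a) :
    phiΩ t (PsiF C μ f u) c = algebraMap F Ω (nuF u μ c) := by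
  change MvPolynomial.aeval t (C.half.ctx.cell f (nuF u μ) c) = _
  rw [C.half.ctx.cell_Ap f (nuF u μ) hc, MvPolynomial.aeval_C]

lemma sp7_aeval (u : Fin 2 → F) (p : MvPolynomial (Fin 2) κ) :
    algebraMap F Ω (MvPolynomial.aeval u p) =
      MvPolynomial.aeval (fun i => algebraMap F Ω (u i)) p :=
  (MvPolynomial.aeval_algebraMap_apply Ω u p).symm

lemma sp7_aeval_mem (K : IntermediateField κ Ω) (w : Fin 2 → Ω) (p : MvPolynomial (Fin 2) κ) :
    MvPolynomial.aeval w p ∈ Algebra.adjoin K (Set.range w) := by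
  have h1 : MvPolynomial.aeval w p ∈ Algebra.adjoin κ (Set.range w) := by
    rw [Algebra.adjoin_range_eq_range_aeval]
    exact ⟨p, rfl⟩
  have h2 : Algebra.adjoin κ (Set.range w) ≤
      (Algebra.adjoin K (Set.range w)).restrictScalars κ :=
    Algebra.adjoin_le Algebra.subset_adjoin
  exact h2 h1

lemma Setup.sp7_integral (S : Setup 𝒜 P H a C μ f u t) {x : Ω}
    (hx : IsIntegral (Algebra.adjoin ℂ ((phiΩ t (PsiF C μ f u)) ''
      ((Ap 𝒜 P H a : Set R) ∪ (Ap 𝒜 P (-H) a : Set R)))) x) :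
    IsIntegral (Algebra.adjoin (kapOne κ 𝒜 P H a (phiΩ t (PsiF C μ f u)))
      (Set.range fun i => algebraMap F Ω (u i))) x := by
  set φ := phiΩ t (PsiF C μ f u) with hφ
  have hle : ∀ y ∈ Algebra.adjoin ℂ (φ '' ((Ap 𝒜 P H a : Set R) ∪ (Ap 𝒜 P (-H) a : Set R))),
      y ∈ Algebra.adjoin (kapOne κ 𝒜 P H a φ) (Set.range fun i => algebraMap F Ω (u i)) := by
    intro y hy
    induction hy using Algebra.adjoin_induction with
    | mem y hy =>
      obtain ⟨c, hc, rfl⟩ := hy
      rcases hc with hc | hc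
      · rw [hφ, sp7_phi_Ap C μ f u t hc]
        change algebraMap F Ω (MvPolynomial.aeval u (μ c)) ∈ _
        rw [sp7_aeval]
        exact sp7_aeval_mem _ _ _
      · exact (Algebra.adjoin (kapOne κ 𝒜 P H a φ)
          (Set.range fun i => algebraMap F Ω (u i))).algebraMap_mem ⟨φ c, sp7_mem_kapOne φ hc⟩
    | algebraMap r =>
      have : algebraMap ℂ Ω r = algebraMap κ Ω (algebraMap ℂ κ r) :=
        IsScalarTower.algebraMap_apply ℂ κ Ω r
      rw [this]
      exact (Algebra.adjoin (kapOne κ 𝒜 P H a φ)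
          (Set.range fun i => algebraMap F Ω (u i))).algebraMap_mem
            ⟨algebraMap κ Ω (algebraMap ℂ κ r), (kapOne κ 𝒜 P H a φ).algebraMap_mem _⟩
    | add x y _ _ hx hy => exact add_mem hx hy
    | mul x y _ _ hx hy => exact mul_mem hx hy
  exact sp7_isIntegral_mono _ _ hle hx

lemma sp7_Lform_sum {ι : Type*} (s : Finset ι) (t : Fin n → Ω) (θ : ι → F) (w : ι → Fin n → F) :
    Lform t (fun i => ∑ l ∈ s, θ l * w l i) = ∑ l ∈ s, algebraMap F Ω (θ l) * Lform t (w l) := by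
  simp only [Lform, map_sum, map_mul, Finset.sum_mul, Finset.mul_sum]
  rw [Finset.sum_comm]
  exact Finset.sum_congr rfl fun _ _ => Finset.sum_congr rfl fun _ _ => by ring

lemma sp7_Lform_mul (t : Fin n → Ω) (c : F) (w : Fin n → F) :
    Lform t (fun i => c * w i) = algebraMap F Ω c * Lform t w := by
  simp only [Lform, map_mul, Finset.mul_sum]
  exact Finset.sum_congr rfl fun _ _ => by ring

/-- The main step: `ν(Δ_g) c(δ)` is integral for every frame `g`. -/
lemma Setup.sp7_frame (S : Setup 𝒜 P H a C μ f u t) {j : ℤ}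
    {δ : R →ₗ[ℂ] MvPolynomial (Fin 2) κ} (hδ : δ ∈ DerM 𝒜 P H a μ j)
    (g : Frame 𝒜 P H a n) :
    IsIntegral (Algebra.adjoin (kapOne κ 𝒜 P H a (phiΩ t (PsiF C μ f u)))
      (Set.range fun i => algebraMap F Ω (u i)))
      (MvPolynomial.aeval (fun i => algebraMap F Ω (u i)) (μ g.Δ) *
        ccF μ f u t (vecF f u δ)) := by
  by_cases hg : g.Δ = 0
  · rw [hg, map_zero, map_zero, zero_mul]
    exact isIntegral_zero
  set φ := phiΩ t (PsiF C μ f u) with hφ
  set δ' : R →ₗ[ℂ] F :=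
    ((MvPolynomial.aeval u : MvPolynomial (Fin 2) κ →ₐ[κ] F).restrictScalars ℂ).toLinearMap.comp δ
    with hδ'
  have hder : ∀ x ∈ Ap 𝒜 P H a, ∀ y ∈ Ap 𝒜 P H a,
      δ' (x * y) = nuF u μ x * δ' y + nuF u μ y * δ' x := by
    intro x hx y hy
    have h := hδ.1 x hx y hy
    change MvPolynomial.aeval u (δ (x * y)) = MvPolynomial.aeval u (μ x) *
      MvPolynomial.aeval u (δ y) + MvPolynomial.aeval u (μ y) * MvPolynomial.aeval u (δ x)
    rw [h, map_add, map_mul, map_mul]
  have hcr := C.half.cramer g hg (nuF u μ) S.injA δ' hder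
  set θ : Fin n → F := fun l => -∑ i, nuF u μ (g.mat.adjugate l i) * δ' (g.b i) with hθ
  have h1 : ∀ i, nuF u μ g.Δ * vecF f u δ i = ∑ l, θ l * nuF u μ (P (g.r l) (f.b i)) :=
    fun i => hcr (f.b i) (mem_Ap (f.hb i))
  have h2 : algebraMap F Ω (nuF u μ g.Δ) * Lform t (vecF f u δ) =
      -∑ l, algebraMap F Ω (θ l) * φ (g.r l) := by
    rw [← sp7_Lform_mul]
    rw [show (fun i => nuF u μ g.Δ * vecF f u δ i) =
      fun i => ∑ l, θ l * nuF u μ (P (g.r l) (f.b i)) from funext h1]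
    rw [sp7_Lform_sum Finset.univ t θ (fun l i => nuF u μ (P (g.r l) (f.b i))),
      ← Finset.sum_neg_distrib]
    refine Finset.sum_congr rfl fun l _ => ?_
    rw [hφ, S.phi_defect_one (g.hr l)]
    ring
  have h3 := S.phi_H
  have ha : (a : Ω) ≠ 0 := by
    have : CharZero Ω := charZero_of_injective_algebraMap (algebraMap ℂ Ω).injective
    exact_mod_cast C.half.ctx.pos.ne'
  have h4 : Lform t (fun i => (f.kb i : F) * nuF u μ (f.b i)) = -((a : Ω)⁻¹ * φ H) := by
    rw [hφ, h3]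
    field_simp
  have h5 : MvPolynomial.aeval (fun i => algebraMap F Ω (u i)) (μ g.Δ) *
        ccF μ f u t (vecF f u δ) = (a : Ω)⁻¹ * ∑ l, algebraMap F Ω (θ l) * φ (H * g.r l) := by
    rw [← sp7_aeval]
    change algebraMap F Ω (nuF u μ g.Δ) *
      (Lform t (fun i => (f.kb i : F) * nuF u μ (f.b i)) * Lform t (vecF f u δ)) = _
    rw [h4, mul_left_comm, h2, Finset.mul_sum]
    simp only [map_mul, Finset.sum_neg_distrib, neg_mul, mul_neg, neg_neg, Finset.mul_sum]
    exact Finset.sum_congr rfl fun _ _ => by ring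
  rw [h5]
  have hmem : ∀ y ∈ Algebra.adjoin (kapOne κ 𝒜 P H a φ)
      (Set.range fun i => algebraMap F Ω (u i)),
      IsIntegral (Algebra.adjoin (kapOne κ 𝒜 P H a φ)
      (Set.range fun i => algebraMap F Ω (u i))) y := by
    intro y hy
    exact isIntegral_algebraMap (R := Algebra.adjoin (kapOne κ 𝒜 P H a φ)
      (Set.range fun i => algebraMap F Ω (u i))) (x := ⟨y, hy⟩)
  refine IsIntegral.mul ?_ ?_
  · apply hmem
    have := (Algebra.adjoin (kapOne κ 𝒜 P H a φ)
      (Set.range fun i => algebraMap F Ω (u i))).algebraMap_mem ((a : kapOne κ 𝒜 P H a φ)⁻¹)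
    rwa [map_inv₀, map_intCast] at this
  · refine IsIntegral.sum _ fun l _ => IsIntegral.mul ?_ ?_
    · apply hmem
      have : θ l = MvPolynomial.aeval u (-∑ i, μ (g.mat.adjugate l i) * δ (g.b i)) := by
        rw [map_neg, map_sum]
        simp only [map_mul]
        rfl
      rw [this, sp7_aeval]
      exact sp7_aeval_mem _ _ _
    · exact S.sp7_integral (C.half.ctx.isIntegral_defect_one φ S.sp7_typeW (g.hr l))

theorem Setup.isIntegral_cc (S : Setup 𝒜 P H a C μ f u t) {j : ℤ}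
    {δ : R →ₗ[ℂ] MvPolynomial (Fin 2) κ} (hδ : δ ∈ DerM 𝒜 P H a μ j) :
    IsIntegral (Algebra.adjoin (kapOne κ 𝒜 P H a (phiΩ t (PsiF C μ f u)))
      (Set.range fun i => algebraMap F Ω (u i))) (ccF μ f u t (vecF f u δ)) := by
  obtain ⟨N, hN⟩ := C.half.pow_mem_span μ S.line.nonvertex
  have key : ∀ p ∈ Ideal.span {g | ∃ f : Frame 𝒜 P H a n, g = μ f.Δ},
      IsIntegral (Algebra.adjoin (kapOne κ 𝒜 P H a (phiΩ t (PsiF C μ f u)))
      (Set.range fun i => algebraMap F Ω (u i)))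
      (MvPolynomial.aeval (fun i => algebraMap F Ω (u i)) p * ccF μ f u t (vecF f u δ)) := by
    intro p hp
    induction hp using Submodule.span_induction with
    | mem p hp =>
      obtain ⟨g, rfl⟩ := hp
      exact S.sp7_frame hδ g
    | zero => rw [map_zero, zero_mul]; exact isIntegral_zero
    | add p q _ _ hp hq => rw [map_add, add_mul]; exact hp.add hq
    | smul c p _ hp =>
      rw [smul_eq_mul, map_mul, mul_assoc]
      refine IsIntegral.mul ?_ hp
      exact isIntegral_algebraMap (R := Algebra.adjoin (kapOne κ 𝒜 P H a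
        (phiΩ t (PsiF C μ f u))) (Set.range fun i => algebraMap F Ω (u i)))
        (x := ⟨_, sp7_aeval_mem _ _ c⟩)
  have h2 : ∀ i, IsIntegral (Algebra.adjoin (kapOne κ 𝒜 P H a (phiΩ t (PsiF C μ f u)))
      (Set.range fun i => algebraMap F Ω (u i)))
      (algebraMap F Ω (u i) ^ N * ccF μ f u t (vecF f u δ)) := by
    intro i
    have := key _ (hN i)
    rwa [map_pow, MvPolynomial.aeval_X] at this
  exact isIntegral_of_pow_mul (fun i => algebraMap F Ω (u i)) S.algebraicIndependent_u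
    (i := 0) (j := 1) (by decide) N (h2 0) (h2 1)

end Vale.Agent.P292
end

section

/-! Theorem E, section 7: (7c), degrees. See `PROOF.md`. -/

namespace Vale.Agent.P292

open Module Polynomial

universe u v

variable {R : Type u} [CommRing R] [Algebra ℂ R] {𝒜 : ℕ → Submodule ℂ R} [GradedAlgebra 𝒜]
  {P : R →ₗ[ℂ] R →ₗ[ℂ] R} {H : R} {a : ℤ} {n : ℕ}

variable {κ : Type v} [Field κ] [IsAlgClosed κ] [Algebra ℂ κ]
  {F : Type v} [Field F] [IsAlgClosed F] [Algebra ℂ F] [Algebra κ F] [IsScalarTower ℂ κ F]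
  {Ω : Type v} [Field Ω] [IsAlgClosed Ω] [Algebra ℂ Ω] [Algebra κ Ω] [Algebra F Ω]
  [IsScalarTower ℂ κ Ω] [IsScalarTower ℂ F Ω] [IsScalarTower κ F Ω]

variable {C : CtxN 𝒜 P H a n} {μ : R →ₐ[ℂ] MvPolynomial (Fin 2) κ} {f : Frame 𝒜 P H a n}
    {u : Fin 2 → F} {t : Fin n → Ω}

/-- Euler's identity for a derivation with `E (w i) = w i`. -/
lemma sp8_euler {K : IntermediateField κ Ω} (E : Derivation K Ω Ω) {w : Fin 2 → Ω}
    (hE : ∀ i, E (w i) = w i) {p : MvPolynomial (Fin 2) κ} {d : ℕ} (hp : p.IsHomogeneous d) :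
    E (MvPolynomial.aeval w p) = (d : Ω) * MvPolynomial.aeval w p := by
  have hc : ∀ c : κ, E (algebraMap κ Ω c) = 0 := fun c =>
    E.map_algebraMap (⟨algebraMap κ Ω c, K.algebraMap_mem c⟩ : K)
  have hmon : ∀ s : Fin 2 →₀ ℕ, E (∏ i, w i ^ s i) = ((∑ i, s i : ℕ) : Ω) * ∏ i, w i ^ s i := by
    intro s
    rw [Fin.prod_univ_two, Fin.sum_univ_two, E.leibniz, E.leibniz_pow, E.leibniz_pow, hE, hE]
    simp only [smul_eq_mul, nsmul_eq_mul, Nat.cast_add]
    rcases Nat.eq_zero_or_pos (s 0) with h0 | h0 <;> rcases Nat.eq_zero_or_pos (s 1) with h1 | h1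
    · simp [h0, h1]
    · have : w 1 ^ s 1 = w 1 ^ (s 1 - 1) * w 1 := by rw [← pow_succ, Nat.sub_add_cancel h1]
      rw [h0, this]; simp
    · have : w 0 ^ s 0 = w 0 ^ (s 0 - 1) * w 0 := by rw [← pow_succ, Nat.sub_add_cancel h0]
      rw [h1, this]; simp
    · have e0 : w 0 ^ s 0 = w 0 ^ (s 0 - 1) * w 0 := by rw [← pow_succ, Nat.sub_add_cancel h0]
      have e1 : w 1 ^ s 1 = w 1 ^ (s 1 - 1) * w 1 := by rw [← pow_succ, Nat.sub_add_cancel h1]
      rw [e0, e1]; ring
  have hsum : MvPolynomial.aeval w p =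
      ∑ s ∈ p.support, algebraMap κ Ω (p.coeff s) * ∏ i, w i ^ s i := by
    rw [MvPolynomial.aeval_def, MvPolynomial.eval₂_eq']
  rw [hsum, map_sum, Finset.mul_sum]
  refine Finset.sum_congr rfl fun s hs => ?_
  have hdeg : (∑ i, s i : ℕ) = d := by
    have := hp (MvPolynomial.mem_support_iff.mp hs)
    rw [← this]
    simp [Finsupp.weight_apply, Finsupp.sum_fintype, Fin.sum_univ_two]
  rw [E.leibniz, hc, smul_zero, add_zero, hmon, hdeg, smul_eq_mul]
  ring

lemma sp8_Lform_eq_zero {t : Fin n → Ω} (ht : AlgebraicIndependent F t) {w : Fin n → F}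
    (h : Lform t w = 0) : w = 0 := by
  have h1 : MvPolynomial.aeval t (∑ i, MvPolynomial.C (w i) * MvPolynomial.X i :
      MvPolynomial (Fin n) F) = 0 := by
    rw [← h, map_sum]
    exact Finset.sum_congr rfl fun i _ => by rw [map_mul, MvPolynomial.aeval_C,
      MvPolynomial.aeval_X]
  have h2 := (injective_iff_map_eq_zero _).mp ht _ h1
  funext i
  have h3 := congrArg (MvPolynomial.coeff (Finsupp.single i 1)) h2
  rw [MvPolynomial.coeff_sum, Finset.sum_eq_single i] at h3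
  · simpa [MvPolynomial.coeff_C_mul, MvPolynomial.coeff_X] using h3
  · intro j _ hj
    rw [MvPolynomial.coeff_C_mul, MvPolynomial.coeff_X, if_neg, mul_zero]
    intro h
    exact hj ((Finsupp.single_left_inj one_ne_zero).mp h)
  · exact fun h => absurd (Finset.mem_univ i) h

lemma sp8_E_Lform {K : IntermediateField κ Ω} (E : Derivation K Ω Ω) {kb : Fin n → ℕ}
    {t : Fin n → Ω} (hE : ∀ i, E (t i) = ((1 / 2 - (kb i : ℚ) : ℚ) : Ω) * t i)
    {w : Fin n → F} (q : ℚ) (hw : ∀ i, E (algebraMap F Ω (w i)) =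
      (((kb i : ℚ) + q : ℚ) : Ω) * algebraMap F Ω (w i)) :
    E (Lform t w) = ((1 / 2 + q : ℚ) : Ω) * Lform t w := by
  have : CharZero Ω := charZero_of_injective_algebraMap (algebraMap ℂ Ω).injective
  rw [Lform, map_sum, Finset.mul_sum]
  refine Finset.sum_congr rfl fun i _ => ?_
  rw [E.leibniz, hE, hw]
  simp only [smul_eq_mul]
  push_cast
  ring

lemma Setup.sp8_L_ne (S : Setup 𝒜 P H a C μ f u t) :
    Lform t (fun i => (f.kb i : F) * nuF u μ (f.b i)) ≠ 0 := by
  intro h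
  have h1 := S.phi_H
  rw [h, mul_zero] at h1
  exact S.isCell.ne ((injective_iff_map_eq_zero _).mp S.ht _ h1)

lemma Setup.sp8_E_cc (S : Setup 𝒜 P H a C μ f u t) {j : ℤ}
    {δ : R →ₗ[ℂ] MvPolynomial (Fin 2) κ} (hδ : δ ∈ DerM 𝒜 P H a μ j)
    (E : Derivation (kapOne κ 𝒜 P H a (phiΩ t (PsiF C μ f u))) Ω Ω)
    (hEu : ∀ i, E (algebraMap F Ω (u i)) = algebraMap F Ω (u i))
    (hEt : ∀ i, E (t i) = ((1 / 2 - (f.kb i : ℚ) : ℚ) : Ω) * t i) :
    E (ccF μ f u t (vecF f u δ)) = ((1 + j : ℚ) : Ω) * ccF μ f u t (vecF f u δ) := by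
  have : CharZero Ω := charZero_of_injective_algebraMap (algebraMap ℂ Ω).injective
  have h1 : E (Lform t (fun i => (f.kb i : F) * nuF u μ (f.b i))) =
      ((1 / 2 + 0 : ℚ) : Ω) * Lform t (fun i => (f.kb i : F) * nuF u μ (f.b i)) := by
    refine sp8_E_Lform E hEt 0 fun i => ?_
    have e1 : algebraMap F Ω ((f.kb i : F) * nuF u μ (f.b i)) =
        (f.kb i : Ω) * MvPolynomial.aeval (fun i => algebraMap F Ω (u i)) (μ (f.b i)) := by
      rw [map_mul, map_natCast, ← sp7_aeval]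
      rfl
    rw [e1, E.leibniz, sp8_euler E hEu (S.line.homog _ _ (f.hb i))]
    simp only [smul_eq_mul, Derivation.map_natCast, mul_zero, add_zero]
    push_cast
    ring
  have h2 : E (Lform t (vecF f u δ)) = ((1 / 2 + j : ℚ) : Ω) * Lform t (vecF f u δ) := by
    refine sp8_E_Lform E hEt j fun i => ?_
    have e1 : algebraMap F Ω (vecF f u δ i) =
        MvPolynomial.aeval (fun i => algebraMap F Ω (u i)) (δ (f.b i)) := by
      rw [← sp7_aeval]
      rfl
    rw [e1]
    rcases hδ.2.2 (f.kb i) (f.b i) (f.hb i) with h | ⟨d, hd, hh⟩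
    · rw [h, map_zero, map_zero, mul_zero]
    · rw [sp8_euler E hEu hh]
      congr 1
      have : ((d : ℤ) : Ω) = ((f.kb i + j : ℤ) : Ω) := by rw [hd]
      push_cast at this ⊢
      exact this
  rw [ccF, E.leibniz, h1, h2]
  simp only [smul_eq_mul]
  push_cast
  ring

theorem Setup.DerM_eq_bot (S : Setup 𝒜 P H a C μ f u t) {j : ℤ} (hj : j < -1) :
    DerM 𝒜 P H a μ j = ⊥ := by
  have : CharZero Ω := charZero_of_injective_algebraMap (algebraMap ℂ Ω).injective
  rw [Submodule.eq_bot_iff]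
  intro δ hδ
  obtain ⟨E, hEu, hEt⟩ := S.exists_euler
  have h0 : ccF μ f u t (vecF f u δ) = 0 := by
    refine eq_zero_of_isIntegral_of_neg (fun i => algebraMap F Ω (u i)) E hEu
      (S.isIntegral_cc hδ) (q := 1 + j) ?_ (S.sp8_E_cc hδ E hEu hEt)
    have : (j : ℚ) < -1 := by exact_mod_cast hj
    linarith
  have h1 : vecF f u δ = 0 := by
    rcases mul_eq_zero.mp h0 with h | h
    · exact absurd h S.sp8_L_ne
    · exact sp8_Lform_eq_zero S.ht h
  set δ' : R →ₗ[ℂ] F :=
    ((MvPolynomial.aeval u : MvPolynomial (Fin 2) κ →ₐ[κ] F).restrictScalars ℂ).toLinearMap.comp δ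
    with hδ'
  have hder : ∀ x ∈ Ap 𝒜 P H a, ∀ y ∈ Ap 𝒜 P H a,
      δ' (x * y) = nuF u μ x * δ' y + nuF u μ y * δ' x := by
    intro x hx y hy
    have h := hδ.1 x hx y hy
    change MvPolynomial.aeval u (δ (x * y)) = MvPolynomial.aeval u (μ x) *
      MvPolynomial.aeval u (δ y) + MvPolynomial.aeval u (μ y) * MvPolynomial.aeval u (δ x)
    rw [h, map_add, map_mul, map_mul]
  have h2 := C.half.derivation_eq_zero f S.Δ (nuF u μ) S.injA δ' hder (fun i => congrFun h1 i)
  refine C.half.ctx.ext_Wt δ 0 fun k m r hr => ?_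
  by_cases hm : m = a * k
  · subst hm
    exact (injective_iff_map_eq_zero _).mp S.hu _ (h2 r (mem_Ap hr))
  · exact hδ.2.1 k m hm r hr

theorem Setup.cc_mem (S : Setup 𝒜 P H a C μ f u t)
    {δ : R →ₗ[ℂ] MvPolynomial (Fin 2) κ} (hδ : δ ∈ DerM 𝒜 P H a μ (-1)) :
    ccF μ f u t (vecF f u δ) ∈ kapOne κ 𝒜 P H a (phiΩ t (PsiF C μ f u)) := by
  have : CharZero Ω := charZero_of_injective_algebraMap (algebraMap ℂ Ω).injective
  obtain ⟨E, hEu, hEt⟩ := S.exists_euler
  have h0 : E (ccF μ f u t (vecF f u δ)) = 0 := by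
    rw [S.sp8_E_cc hδ E hEu hEt]
    norm_num
  have h1 := isAlgebraic_of_isIntegral_of_zero (fun i => algebraMap F Ω (u i)) E hEu
    (S.isIntegral_cc hδ) h0
  set φ := phiΩ t (PsiF C μ f u)
  change _ ∈ algebraicClosure (IntermediateField.adjoin κ (φ '' (Ap 𝒜 P (-H) a : Set R))) Ω
  have h2 : IsAlgebraic
      (algebraicClosure (IntermediateField.adjoin κ (φ '' (Ap 𝒜 P (-H) a : Set R))) Ω)
      (ccF μ f u t (vecF f u δ)) := h1
  rw [mem_algebraicClosure_iff]
  exact h2.restrictScalars _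

end Vale.Agent.P292
end

section

/-! Theorem E, section 7: (7d), vectors. See `PROOF.md`. -/

namespace Vale.Agent.P292

open Module Polynomial

universe u v

variable {R : Type u} [CommRing R] [Algebra ℂ R] {𝒜 : ℕ → Submodule ℂ R} [GradedAlgebra 𝒜]
  {P : R →ₗ[ℂ] R →ₗ[ℂ] R} {H : R} {a : ℤ} {n : ℕ}

/-- A linear map which kills all weight vectors vanishes. -/
theorem sp10_ext {M : Type*} [AddCommGroup M] [Module ℂ M] (hH : IsContactTorus 𝒜 P H)
    (φ : R →ₗ[ℂ] M) (h : ∀ (k : ℕ) (m : ℤ), ∀ r ∈ Wt 𝒜 P H k m, φ r = 0) : φ = 0 := by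
  refine LinearMap.ext fun r => ?_
  rw [LinearMap.zero_apply]
  induction r using DirectSum.Decomposition.inductionOn 𝒜 with
  | zero => exact map_zero _
  | homogeneous m => exact hH.forall_of_Wt φ _ (h _) _ m.2
  | add x y hx hy => rw [map_add, hx, hy, add_zero]

variable {κ : Type v} [Field κ] [IsAlgClosed κ] [Algebra ℂ κ]
  {F : Type v} [Field F] [IsAlgClosed F] [Algebra ℂ F] [Algebra κ F] [IsScalarTower ℂ κ F]
  {Ω : Type v} [Field Ω] [IsAlgClosed Ω] [Algebra ℂ Ω] [Algebra κ Ω] [Algebra F Ω]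
  [IsScalarTower ℂ κ Ω] [IsScalarTower ℂ F Ω] [IsScalarTower κ F Ω]

variable {C : CtxN 𝒜 P H a n} {μ : R →ₐ[ℂ] MvPolynomial (Fin 2) κ} {f : Frame 𝒜 P H a n}
    {u : Fin 2 → F} {t : Fin n → Ω}

/-- The matrix of a basis is nonsingular over `κ[u₀, u₁]`. -/
theorem Setup.sp10_det (S : Setup 𝒜 P H a C μ f u t)
    {e : Fin n → R →ₗ[ℂ] MvPolynomial (Fin 2) κ} {d : Fin n → ℤ} {i₁ i₂ : Fin n}
    (hB : Setup.Basis (𝒜 := 𝒜) (P := P) (H := H) (a := a) μ e d i₁ i₂) :
    (Matrix.of fun i l => e i (f.b l)).det ≠ 0 := by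
  intro hdet
  obtain ⟨p, hp0, hp⟩ := Matrix.exists_vecMul_eq_zero_iff.2 hdet
  have hinj : Function.Injective (MvPolynomial.aeval u : MvPolynomial (Fin 2) κ →ₐ[κ] F) := S.hu
  -- the relation is a derivation `δ`
  obtain ⟨δ, hδdef⟩ : ∃ δ : R →ₗ[ℂ] MvPolynomial (Fin 2) κ, δ = ∑ i, p i • e i := ⟨_, rfl⟩
  have hδ : ∀ r : R, δ r = ∑ i, p i * e i r := by
    intro r
    rw [hδdef, LinearMap.sum_apply]
    exact Finset.sum_congr rfl fun i _ => rfl
  have hb : ∀ l, δ (f.b l) = 0 := by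
    intro l
    rw [hδ]
    exact congrFun hp l
  have hleib : ∀ x ∈ Ap 𝒜 P H a, ∀ y ∈ Ap 𝒜 P H a, δ (x * y) = μ x * δ y + μ y * δ x := by
    intro x hx y hy
    simp only [hδ, Finset.mul_sum]
    rw [← Finset.sum_add_distrib]
    refine Finset.sum_congr rfl fun i _ => ?_
    rw [(hB.mem i).1 x hx y hy]
    ring
  have hA : ∀ c ∈ Ap 𝒜 P H a, δ c = 0 := by
    intro c hc
    have h1 := C.half.derivation_eq_zero f S.Δ (nuF u μ) S.injA
      (((MvPolynomial.aeval u : MvPolynomial (Fin 2) κ →ₐ[κ] F).restrictScalars ℂ).toLinearMap ∘ₗ δ)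
      (fun x hx y hy => ?_) (fun i => ?_) c hc
    · exact hinj (h1.trans (map_zero _).symm)
    · show MvPolynomial.aeval u (δ (x * y)) = MvPolynomial.aeval u (μ x) * MvPolynomial.aeval u (δ y)
        + MvPolynomial.aeval u (μ y) * MvPolynomial.aeval u (δ x)
      rw [hleib x hx y hy, map_add, map_mul, map_mul]
    · show MvPolynomial.aeval u (δ (f.b i)) = 0
      rw [hb, map_zero]
  have hδ0 : δ = 0 := by
    refine sp10_ext C.half.ctx.hH δ fun k m r hr => ?_
    by_cases hm : m = a * k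
    · subst hm
      exact hA r (Algebra.subset_adjoin ⟨k, hr⟩)
    · rw [hδ]
      refine Finset.sum_eq_zero fun i _ => ?_
      rw [(hB.mem i).2.1 k m hm r hr, mul_zero]
  refine hp0 (funext fun i => ?_)
  exact Fintype.linearIndependent_iff.1 hB.indep p (hδdef.symm.trans hδ0) i

/-- The vectors of a basis are a basis of `F^n`. -/
theorem Setup.linearIndependent_vec (S : Setup 𝒜 P H a C μ f u t)
    {e : Fin n → R →ₗ[ℂ] MvPolynomial (Fin 2) κ} {d : Fin n → ℤ} {i₁ i₂ : Fin n}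
    (hB : Setup.Basis (𝒜 := 𝒜) (P := P) (H := H) (a := a) μ e d i₁ i₂) :
    LinearIndependent F (fun i => vecF f u (e i)) := by
  have hinj : Function.Injective (MvPolynomial.aeval u : MvPolynomial (Fin 2) κ →ₐ[κ] F) := S.hu
  have h1 : ((Matrix.of fun i l => e i (f.b l)).map
      (MvPolynomial.aeval u : MvPolynomial (Fin 2) κ →ₐ[κ] F)).det ≠ 0 := by
    have h2 := (MvPolynomial.aeval u : MvPolynomial (Fin 2) κ →ₐ[κ] F).map_det
      (Matrix.of fun i l => e i (f.b l))
    rw [AlgHom.mapMatrix_apply] at h2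
    rw [← h2]
    exact fun h => S.sp10_det hB (hinj (h.trans (map_zero _).symm))
  exact Matrix.linearIndependent_rows_of_det_ne_zero h1

/-- Euler relation: `E = u₀ ∂₀μ + u₁ ∂₁μ`. -/
theorem Setup.euler_vec (S : Setup 𝒜 P H a C μ f u t)
    {e : Fin n → R →ₗ[ℂ] MvPolynomial (Fin 2) κ} {d : Fin n → ℤ} {i₁ i₂ : Fin n}
    (hB : Setup.Basis (𝒜 := 𝒜) (P := P) (H := H) (a := a) μ e d i₁ i₂) (i : Fin n) :
    (f.kb i : F) * nuF u μ (f.b i) = u 0 * vecF f u (e i₁) i + u 1 * vecF f u (e i₂) i := by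
  have h1 := (S.line.homog (f.kb i) _ (f.hb i)).sum_X_mul_pderiv
  rw [Fin.sum_univ_two, ← hB.e₁, ← hB.e₂] at h1
  have h2 := congrArg (MvPolynomial.aeval u : MvPolynomial (Fin 2) κ →ₐ[κ] F) h1
  rw [map_add, map_mul, map_mul, MvPolynomial.aeval_X, MvPolynomial.aeval_X, map_nsmul,
    nsmul_eq_mul] at h2
  exact h2.symm

end Vale.Agent.P292
end

section

/-! Theorem E, section 7: (7d), algebraic independence. See `PROOF.md`. -/

namespace Vale.Agent.P292

open Module Polynomial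

universe u v

/-- A linear substitution by an invertible matrix keeps algebraic independence. -/
theorem sp11_lin {F : Type*} [Field F] {Ω : Type*} [Field Ω] [Algebra F Ω] {n : ℕ}
    {t : Fin n → Ω} (ht : AlgebraicIndependent F t) {v : Fin n → Fin n → F}
    (hv : LinearIndependent F v) :
    AlgebraicIndependent F (fun j => ∑ i, algebraMap F Ω (v j i) * t i) := by
  have hM : IsUnit (Matrix.of v) := Matrix.linearIndependent_rows_iff_isUnit.1 hv
  obtain ⟨N, hN, -⟩ := isUnit_iff_exists.1 hM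
  set ψ : Matrix (Fin n) (Fin n) F → (MvPolynomial (Fin n) F →ₐ[F] MvPolynomial (Fin n) F) :=
    fun M => MvPolynomial.aeval fun j => ∑ i, MvPolynomial.C (M j i) * MvPolynomial.X i with hψ
  have hcomp : (ψ N).comp (ψ (Matrix.of v)) = AlgHom.id F _ := by
    refine MvPolynomial.algHom_ext fun j => ?_
    simp only [hψ, AlgHom.comp_apply, MvPolynomial.aeval_X, map_sum, map_mul, AlgHom.id_apply,
      MvPolynomial.algHom_C, MvPolynomial.algebraMap_eq]
    have h1 : ∀ k, (Matrix.of v * N) j k = if j = k then 1 else 0 := by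
      intro k
      rw [hN, Matrix.one_apply]
    calc ∑ i, MvPolynomial.C (Matrix.of v j i) * ∑ k, MvPolynomial.C (N i k) * MvPolynomial.X k
        = ∑ k, MvPolynomial.C ((Matrix.of v * N) j k) * MvPolynomial.X k := by
          simp only [Matrix.mul_apply, map_sum, map_mul, Finset.mul_sum, Finset.sum_mul]
          rw [Finset.sum_comm]
          refine Finset.sum_congr rfl fun k _ => Finset.sum_congr rfl fun i _ => ?_
          ring
      _ = MvPolynomial.X j := by
          simp only [h1]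
          rw [Finset.sum_eq_single j]
          · simp
          · intro k _ hk
            simp [Ne.symm hk]
          · intro h
            exact absurd (Finset.mem_univ _) h
  have hinj : Function.Injective (ψ (Matrix.of v)) := by
    intro p p' h
    have h1 := congrArg (ψ N) h
    rw [← AlgHom.comp_apply, ← AlgHom.comp_apply, hcomp] at h1
    exact h1
  have he : (MvPolynomial.aeval fun j => ∑ i, algebraMap F Ω (v j i) * t i :
      MvPolynomial (Fin n) F →ₐ[F] Ω) = (MvPolynomial.aeval t).comp (ψ (Matrix.of v)) := by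
    refine MvPolynomial.algHom_ext fun j => ?_
    simp [hψ, Matrix.of_apply]
  show Function.Injective (MvPolynomial.aeval fun j => ∑ i, algebraMap F Ω (v j i) * t i :
      MvPolynomial (Fin n) F →ₐ[F] Ω)
  rw [he, AlgHom.coe_comp]
  exact Function.Injective.comp ht hinj

theorem sp11_hom {F : Type*} [Field F] {J : Type*} [Fintype J] (l : MvPolynomial J F) {d : ℕ}
    {p : MvPolynomial J F} (hp : p.IsHomogeneous d) :
    MvPolynomial.aeval (fun j => l * MvPolynomial.X j) p = l ^ d * p := by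
  conv_rhs => rw [← MvPolynomial.aeval_X_left_apply p]
  rw [MvPolynomial.aeval_def, MvPolynomial.aeval_def, MvPolynomial.eval₂_eq',
    MvPolynomial.eval₂_eq', Finset.mul_sum]
  refine Finset.sum_congr rfl fun m hm => ?_
  have h1 : ∏ i, (l * MvPolynomial.X i) ^ m i = l ^ d * ∏ i, (MvPolynomial.X i) ^ m i := by
    simp only [mul_pow, Finset.prod_mul_distrib]
    congr 1
    rw [Finset.prod_pow_eq_pow_sum]
    congr 1
    have h2 := hp (MvPolynomial.mem_support_iff.1 hm)
    rw [← h2, Finsupp.weight_apply, Finsupp.sum_fintype _ _ (by simp)]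
    simp
  rw [h1]
  ring

/-- Multiplication of the variables by a nonzero linear form. -/
theorem sp11_scale {F : Type*} [Field F] {J : Type*} [Fintype J] {l : MvPolynomial J F}
    (hl : l ≠ 0) (hl1 : l.IsHomogeneous 1) :
    Function.Injective (MvPolynomial.aeval (fun j => l * MvPolynomial.X j) :
      MvPolynomial J F →ₐ[F] MvPolynomial J F) := by
  rw [injective_iff_map_eq_zero]
  intro p hp
  rw [← MvPolynomial.sum_homogeneousComponent p]
  refine Finset.sum_eq_zero fun e he => ?_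
  rw [← MvPolynomial.sum_homogeneousComponent p, map_sum] at hp
  have h1 : ∀ d, MvPolynomial.aeval (fun j => l * MvPolynomial.X j)
      (MvPolynomial.homogeneousComponent d p) = l ^ d * MvPolynomial.homogeneousComponent d p :=
    fun d => sp11_hom l (MvPolynomial.homogeneousComponent_isHomogeneous d p)
  simp only [h1] at hp
  have h2 := congrArg (MvPolynomial.homogeneousComponent (2 * e)) hp
  rw [map_sum, map_zero] at h2
  have h3 : ∀ d, MvPolynomial.homogeneousComponent (2 * e)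
      (l ^ d * MvPolynomial.homogeneousComponent d p) =
      if 2 * e = 2 * d then l ^ d * MvPolynomial.homogeneousComponent d p else 0 := by
    intro d
    refine MvPolynomial.homogeneousComponent_of_mem ?_
    have h4 := (hl1.pow d).mul (MvPolynomial.homogeneousComponent_isHomogeneous d p)
    have h5 : 1 * d + d = 2 * d := by ring
    rw [h5] at h4
    exact h4
  simp only [h3] at h2
  rw [Finset.sum_eq_single e] at h2
  · rw [if_pos rfl] at h2
    exact (mul_eq_zero.1 h2).resolve_left (pow_ne_zero _ hl)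
  · intro d _ hd
    rw [if_neg (by omega)]
  · intro h
    exact absurd he h

variable {R : Type u} [CommRing R] [Algebra ℂ R] {𝒜 : ℕ → Submodule ℂ R} [GradedAlgebra 𝒜]
  {P : R →ₗ[ℂ] R →ₗ[ℂ] R} {H : R} {a : ℤ} {n : ℕ}

variable {κ : Type v} [Field κ] [IsAlgClosed κ] [Algebra ℂ κ]
  {F : Type v} [Field F] [IsAlgClosed F] [Algebra ℂ F] [Algebra κ F] [IsScalarTower ℂ κ F]
  {Ω : Type v} [Field Ω] [IsAlgClosed Ω] [Algebra ℂ Ω] [Algebra κ Ω] [Algebra F Ω]
  [IsScalarTower ℂ κ Ω] [IsScalarTower ℂ F Ω] [IsScalarTower κ F Ω]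

variable {C : CtxN 𝒜 P H a n} {μ : R →ₐ[ℂ] MvPolynomial (Fin 2) κ} {f : Frame 𝒜 P H a n}
    {u : Fin 2 → F} {t : Fin n → Ω}

/-- The `c(e_j)`, `d j = -1`, are algebraically independent over `κ`. -/
theorem Setup.algebraicIndependent_cc (S : Setup 𝒜 P H a C μ f u t)
    {e : Fin n → R →ₗ[ℂ] MvPolynomial (Fin 2) κ} {d : Fin n → ℤ} {i₁ i₂ : Fin n}
    (hB : Setup.Basis (𝒜 := 𝒜) (P := P) (H := H) (a := a) μ e d i₁ i₂) :
    AlgebraicIndependent κ (fun i : {i : Fin n // d i = -1} => ccF μ f u t (vecF f u (e i))) := by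
  classical
  have hLn := sp11_lin S.ht (S.linearIndependent_vec hB)
  set j₁ : {i : Fin n // d i = -1} := ⟨i₁, hB.d₁⟩ with hj₁
  set j₂ : {i : Fin n // d i = -1} := ⟨i₂, hB.d₂⟩ with hj₂
  have hjne : j₁ ≠ j₂ := fun h => hB.ne (congrArg Subtype.val h)
  set L : {i : Fin n // d i = -1} → Ω := fun i => Lform t (vecF f u (e i)) with hL
  have hLJ : AlgebraicIndependent F L := hLn.comp (Subtype.val) Subtype.val_injective
  have hu0 : u 0 ≠ 0 := S.hu.ne_zero 0
  set l : MvPolynomial {i : Fin n // d i = -1} F :=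
    MvPolynomial.C (u 0) * MvPolynomial.X j₁ + MvPolynomial.C (u 1) * MvPolynomial.X j₂ with hl
  have hl1 : l.IsHomogeneous 1 := by
    have h1 := (MvPolynomial.isHomogeneous_C {i : Fin n // d i = -1} (u 0)).mul
      (MvPolynomial.isHomogeneous_X F j₁)
    have h2 := (MvPolynomial.isHomogeneous_C {i : Fin n // d i = -1} (u 1)).mul
      (MvPolynomial.isHomogeneous_X F j₂)
    rw [zero_add] at h1 h2
    exact h1.add h2
  have hl0 : l ≠ 0 := by
    intro h
    have h1 := congrArg (MvPolynomial.coeff (Finsupp.single j₁ 1)) h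
    rw [hl, MvPolynomial.coeff_add, MvPolynomial.coeff_C_mul, MvPolynomial.coeff_C_mul,
      MvPolynomial.coeff_X, MvPolynomial.coeff_X, if_pos rfl, if_neg, mul_one, mul_zero,
      add_zero, MvPolynomial.coeff_zero] at h1
    · exact hu0 h1
    · intro h2
      exact hjne (Finsupp.single_left_injective one_ne_zero h2).symm
  have hE : ∀ i, (f.kb i : F) * nuF u μ (f.b i) =
      u 0 * vecF f u (e i₁) i + u 1 * vecF f u (e i₂) i := fun i => S.euler_vec hB i
  have hLE : MvPolynomial.aeval L l = Lform t (fun i => (f.kb i : F) * nuF u μ (f.b i)) := by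
    simp only [hE]
    rw [hl]
    simp only [map_add, map_mul, MvPolynomial.aeval_X, MvPolynomial.algHom_C, hL, hj₁, hj₂]
    unfold Lform
    rw [Finset.mul_sum, Finset.mul_sum, ← Finset.sum_add_distrib]
    refine Finset.sum_congr rfl fun i _ => ?_
    rw [map_add, map_mul, map_mul]
    ring
  have hcc : (MvPolynomial.aeval fun i : {i : Fin n // d i = -1} =>
      ccF μ f u t (vecF f u (e i)) : MvPolynomial {i : Fin n // d i = -1} F →ₐ[F] Ω) =
      (MvPolynomial.aeval L).comp (MvPolynomial.aeval (fun j => l * MvPolynomial.X j)) := by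
    refine MvPolynomial.algHom_ext fun j => ?_
    rw [AlgHom.comp_apply, MvPolynomial.aeval_X, MvPolynomial.aeval_X, map_mul, hLE,
      MvPolynomial.aeval_X]
    rfl
  have hF : AlgebraicIndependent F
      (fun i : {i : Fin n // d i = -1} => ccF μ f u t (vecF f u (e i))) := by
    show Function.Injective (MvPolynomial.aeval fun i : {i : Fin n // d i = -1} =>
      ccF μ f u t (vecF f u (e i)) : MvPolynomial {i : Fin n // d i = -1} F →ₐ[F] Ω)
    rw [hcc, AlgHom.coe_comp]
    exact Function.Injective.comp hLJ (sp11_scale hl0 hl1)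
  exact hF.restrictScalars (algebraMap κ F).injective

end Vale.Agent.P292
end

section

/-! Theorem E, section 7: (7f), the place. See `PROOF.md`. -/

namespace Vale.Agent.P292

open Module Polynomial

universe u v

section place

variable {κ F Ω : Type v} [Field κ] [Field F] [Field Ω] [Algebra κ F] [Algebra κ Ω] [Algebra F Ω]
  [IsScalarTower κ F Ω]

/-- A place of `Ω` sending the coordinates `u i` to given elements `w i` of the constant field. -/
theorem sp15_place (K1 : IntermediateField κ Ω) (u : Fin 2 → F)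
    (hu : AlgebraicIndependent K1 (fun i => algebraMap F Ω (u i)))
    (halg : Algebra.IsAlgebraic (IntermediateField.adjoin κ (Set.range u)) F)
    (w : Fin 2 → K1) (hw : ∀ p : MvPolynomial (Fin 2) κ, p ≠ 0 → MvPolynomial.aeval w p ≠ 0) :
    ∃ B : ValuationSubring Ω, (∀ x : K1, (x : Ω) ∈ B) ∧
      (∀ i, algebraMap F Ω (u i) - w i ∈ B.nonunits) ∧ (∀ z : F, algebraMap F Ω z ∈ B) ∧
      ∀ x : Ω, IsIntegral (Algebra.adjoin K1 (Set.range fun i => algebraMap F Ω (u i))) x →
        x ∈ B := by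
  set uΩ : Fin 2 → Ω := fun i => algebraMap F Ω (u i) with huΩ
  set A := Algebra.adjoin K1 (Set.range uΩ) with hA
  let e : MvPolynomial (Fin 2) K1 ≃ₐ[K1] A := hu.aevalEquiv
  let ε : A →ₐ[K1] K1 := (MvPolynomial.aeval w).comp e.symm.toAlgHom
  have hε : ∀ (p : MvPolynomial (Fin 2) K1) (h : MvPolynomial.aeval uΩ p ∈ A),
      ε ⟨MvPolynomial.aeval uΩ p, h⟩ = MvPolynomial.aeval w p := by
    intro p h
    have h1 : e.symm ⟨MvPolynomial.aeval uΩ p, h⟩ = p := by
      rw [AlgEquiv.symm_apply_eq]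
      exact Subtype.ext (hu.algebraMap_aevalEquiv p).symm
    change MvPolynomial.aeval w (e.symm _) = _
    rw [h1]
  let I : Ideal A.toSubring := RingHom.ker (ε : A →+* K1)
  have hI : I ≠ ⊤ := RingHom.ker_ne_top (ε : A →+* K1)
  obtain ⟨B, hAB, hIB⟩ := Ideal.image_subset_nonunits_valuationSubring (A := A.toSubring) I hI
  have hIB' : ∀ (x : Ω) (hx : x ∈ A), x - (ε ⟨x, hx⟩ : Ω) ∈ B.nonunits := by
    intro x hx
    have h1 : x - (ε ⟨x, hx⟩ : Ω) ∈ A := sub_mem hx (A.algebraMap_mem _)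
    refine hIB ⟨⟨_, h1⟩, ?_, rfl⟩
    change ε ⟨x - (ε ⟨x, hx⟩ : Ω), h1⟩ = 0
    have h2 : (⟨x - (ε ⟨x, hx⟩ : Ω), h1⟩ : A) = ⟨x, hx⟩ - algebraMap K1 A (ε ⟨x, hx⟩) :=
      Subtype.ext rfl
    rw [h2, map_sub, AlgHom.commutes]
    exact sub_self _
  have hK : ∀ x : K1, (x : Ω) ∈ B := fun x => hAB (A.algebraMap_mem x)
  have huA : ∀ i, uΩ i ∈ A := fun i => Algebra.subset_adjoin ⟨i, rfl⟩
  have hu' : ∀ i, uΩ i - w i ∈ B.nonunits := by
    intro i
    have h1 := hIB' (uΩ i) (huA i)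
    have h2 : ε ⟨uΩ i, huA i⟩ = w i := by
      have h3 := hε (MvPolynomial.X i) (by rw [MvPolynomial.aeval_X]; exact huA i)
      simpa only [MvPolynomial.aeval_X] using h3
    rwa [h2] at h1
  -- units
  have hunit : ∀ x : K1, x ≠ 0 → (x : Ω) ∉ B.nonunits := by
    intro x hx h
    rcases (B.mem_nonunits_iff_or).1 h with h1 | h1
    · exact hx (Subtype.ext h1)
    · exact h1 (hK x⁻¹)
  have hinv : ∀ (x : Ω) (hx : x ∈ A), ε ⟨x, hx⟩ ≠ 0 → x⁻¹ ∈ B := by
    intro x hx h
    by_contra hcon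
    have h1 : x ∈ B.nonunits := (B.mem_nonunits_iff_or).2 (Or.inr hcon)
    have h2 := sub_mem h1 (hIB' x hx)
    rw [sub_sub_cancel] at h2
    exact hunit _ h h2
  have hpoly : ∀ p : MvPolynomial (Fin 2) κ, algebraMap F Ω (MvPolynomial.aeval u p) =
      MvPolynomial.aeval uΩ (MvPolynomial.map (algebraMap κ K1) p) := by
    intro p
    rw [MvPolynomial.aeval_map_algebraMap]
    exact (MvPolynomial.aeval_algebraMap_apply (B := Ω) u p).symm
  have hpA : ∀ p : MvPolynomial (Fin 2) κ, algebraMap F Ω (MvPolynomial.aeval u p) ∈ A := by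
    intro p
    rw [hpoly, hA, Algebra.adjoin_range_eq_range_aeval]
    exact ⟨_, rfl⟩
  have hpε : ∀ p : MvPolynomial (Fin 2) κ, ε ⟨_, hpA p⟩ = MvPolynomial.aeval w p := by
    intro p
    have h1 := hpoly p
    have h2 : (⟨_, hpA p⟩ : A) = ⟨MvPolynomial.aeval uΩ (MvPolynomial.map (algebraMap κ K1) p),
        h1 ▸ hpA p⟩ := Subtype.ext h1
    rw [h2, hε, MvPolynomial.aeval_map_algebraMap]
  have hadj : ∀ y ∈ IntermediateField.adjoin κ (Set.range u), algebraMap F Ω y ∈ B := by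
    intro y hy
    rw [IntermediateField.mem_adjoin_range_iff] at hy
    obtain ⟨p, q, rfl⟩ := hy
    rw [map_div₀, div_eq_mul_inv]
    by_cases hq : q = 0
    · rw [hq, map_zero, map_zero, inv_zero, mul_zero]; exact B.zero_mem
    · refine B.mul_mem _ _ (hAB (hpA p)) (hinv _ (hpA q) ?_)
      rw [hpε]
      exact hw q hq
  have hint : ∀ x : Ω, IsIntegral B x → x ∈ B := by
    intro x hx
    obtain ⟨y, hy⟩ := (IsIntegrallyClosed.isIntegral_iff (R := B) (K := Ω)).1 hx
    rw [← hy]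
    exact y.2
  refine ⟨B, hK, hu', fun z => ?_, fun x hx => ?_⟩
  · apply hint
    have hz : IsIntegral (IntermediateField.adjoin κ (Set.range u)) z := (halg.isAlgebraic z).isIntegral
    obtain ⟨p, hp, hpz⟩ := hz
    let φ : IntermediateField.adjoin κ (Set.range u) →+* B :=
      ((algebraMap F Ω).comp (algebraMap (IntermediateField.adjoin κ (Set.range u)) F)).codRestrict
        B (fun y => hadj _ y.2)
    refine ⟨p.map φ, hp.map φ, ?_⟩
    rw [eval₂_map]
    have h1 : (algebraMap B Ω).comp φ =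
      (algebraMap F Ω).comp (algebraMap (IntermediateField.adjoin κ (Set.range u)) F) := rfl
    rw [h1, ← Polynomial.hom_eval₂, hpz, map_zero]
  · apply hint
    obtain ⟨p, hp, hpx⟩ := hx
    let φ : A →+* B := (algebraMap A Ω).codRestrict B (fun y => hAB y.2)
    refine ⟨p.map φ, hp.map φ, ?_⟩
    rw [eval₂_map]
    exact hpx

end place

section aux

variable {F Ω : Type v} [Field F] [Field Ω] [Algebra F Ω] {n : ℕ}

/-- Substituting multiples into a homogeneous polynomial. -/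
theorem sp15_homog {σ : Type*} {k K : Type*} [CommRing k] [CommRing K] [Algebra k K]
    {p : MvPolynomial σ k} {d : ℕ} (hp : p.IsHomogeneous d) (c : K) (t : σ → K) :
    MvPolynomial.aeval (fun i => c * t i) p = c ^ d * MvPolynomial.aeval t p := by
  rw [MvPolynomial.aeval_def, MvPolynomial.aeval_def, MvPolynomial.eval₂_eq, MvPolynomial.eval₂_eq,
    Finset.mul_sum]
  refine Finset.sum_congr rfl fun m hm => ?_
  have h1 := hp (MvPolynomial.mem_support_iff.1 hm)
  have h2 : ∑ i ∈ m.support, m i = d := by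
    simpa [Finsupp.weight_apply, Finsupp.sum] using h1
  simp only [mul_pow, Finset.prod_mul_distrib, Finset.prod_pow_eq_pow_sum]
  rw [h2]
  ring

theorem sp15_Lform_add (t : Fin n → Ω) (τ τ' : Fin n → F) :
    Lform t (fun i => τ i + τ' i) = Lform t τ + Lform t τ' := by
  simp only [Lform, map_add, add_mul, Finset.sum_add_distrib]

theorem sp15_Lform_smul (t : Fin n → Ω) (c : F) (τ : Fin n → F) :
    Lform t (fun i => c * τ i) = algebraMap F Ω c * Lform t τ := by
  simp only [Lform, map_mul, Finset.mul_sum, mul_assoc]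

theorem sp15_Lform_sum {ι : Type*} (s : Finset ι) (t : Fin n → Ω) (g : ι → F)
    (τ : ι → Fin n → F) :
    Lform t (fun i => ∑ j ∈ s, g j * τ j i) = ∑ j ∈ s, algebraMap F Ω (g j) * Lform t (τ j) := by
  simp only [Lform, map_sum, map_mul, Finset.sum_mul, Finset.mul_sum]
  rw [Finset.sum_comm]
  refine Finset.sum_congr rfl fun j _ => Finset.sum_congr rfl fun i _ => ?_
  ring

theorem sp15_aux_indep {κ : Type*} {K : Type*} [Field κ] [Field K] [Algebra κ K] {c₁ c₂ : K}
    (h : AlgebraicIndependent κ ![c₂, c₁]) (p : MvPolynomial (Fin 2) κ) (hp : p ≠ 0) :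
    MvPolynomial.aeval ![c₂, -c₁] p ≠ 0 := by
  let σ : MvPolynomial (Fin 2) κ →ₐ[κ] MvPolynomial (Fin 2) κ :=
    MvPolynomial.aeval ![MvPolynomial.X 0, -MvPolynomial.X 1]
  have h1 : σ.comp σ = AlgHom.id κ _ := by
    apply MvPolynomial.algHom_ext
    intro i
    fin_cases i <;> simp [σ]
  have h2 : (MvPolynomial.aeval ![c₂, c₁] : MvPolynomial (Fin 2) κ →ₐ[κ] K).comp σ =
      MvPolynomial.aeval ![c₂, -c₁] := by
    apply MvPolynomial.algHom_ext
    intro i
    fin_cases i <;> simp [σ]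
  rw [← h2]
  intro h3
  have h4 : σ p = 0 := (algebraicIndependent_iff_injective_aeval.1 h)
    (by rw [map_zero]; exact h3)
  have h5 : σ (σ p) = p := by
    have := congrArg (fun F : MvPolynomial (Fin 2) κ →ₐ[κ] MvPolynomial (Fin 2) κ => F p) h1
    exact this
  rw [h4, map_zero] at h5
  exact hp h5.symm

end aux

variable {R : Type u} [CommRing R] [Algebra ℂ R] {𝒜 : ℕ → Submodule ℂ R} [GradedAlgebra 𝒜]
  {P : R →ₗ[ℂ] R →ₗ[ℂ] R} {H : R} {a : ℤ} {n : ℕ}

variable {κ : Type v} [Field κ] [IsAlgClosed κ] [Algebra ℂ κ]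
  {F : Type v} [Field F] [IsAlgClosed F] [Algebra ℂ F] [Algebra κ F] [IsScalarTower ℂ κ F]
  {Ω : Type v} [Field Ω] [IsAlgClosed Ω] [Algebra ℂ Ω] [Algebra κ Ω] [Algebra F Ω]
  [IsScalarTower ℂ κ Ω] [IsScalarTower ℂ F Ω] [IsScalarTower κ F Ω]

variable {C : CtxN 𝒜 P H a n} {μ : R →ₐ[ℂ] MvPolynomial (Fin 2) κ} {f : Frame 𝒜 P H a n}
    {u : Fin 2 → F} {t : Fin n → Ω}

/-- The residue point at infinity: if a linear form vanishes on `B̂` then its coefficients on the
`e_j` of degree `-1` satisfy a linear relation in some field extension. -/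
theorem Setup.exists_place (S : Setup 𝒜 P H a C μ f u t)
    {e : Fin n → R →ₗ[ℂ] MvPolynomial (Fin 2) κ} {d : Fin n → ℤ} {i₁ i₂ : Fin n}
    (hB : Setup.Basis (𝒜 := 𝒜) (P := P) (H := H) (a := a) μ e d i₁ i₂) :
    ∃ (k : Type v) (_ : Field k) (_ : Algebra κ k) (π : F →ₐ[κ] k)
      (ι : kapOne κ 𝒜 P H a (phiΩ t (PsiF C μ f u)) →ₐ[κ] k),
      π (u 0) = ι ⟨ccF μ f u t (vecF f u (e i₂)), S.cc_mem (by
        have := hB.mem i₂; rwa [hB.d₂] at this)⟩ ∧
      π (u 1) = - ι ⟨ccF μ f u t (vecF f u (e i₁)), S.cc_mem (by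
        have := hB.mem i₁; rwa [hB.d₁] at this)⟩ ∧
      ∀ g : Fin n → F, (∀ β ∈ Bhat 𝒜 P H a (PsiF C μ f u),
          ∑ j, g j * ∑ i, β i * vecF f u (e j) i = 0) → (∀ j, d j ≠ -1 → g j = 0) →
        ∑ j : {j : Fin n // d j = -1}, π (g j) * ι ⟨ccF μ f u t (vecF f u (e j)), S.cc_mem (by
          have := hB.mem j; rwa [j.2] at this)⟩ = 0 := by
  classical
  set K1 := kapOne κ 𝒜 P H a (phiΩ t (PsiF C μ f u)) with hK1
  set uΩ : Fin 2 → Ω := fun i => algebraMap F Ω (u i) with huΩ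
  have hm : ∀ j, d j = -1 → ccF μ f u t (vecF f u (e j)) ∈ K1 := fun j hj => S.cc_mem (by
    have := hB.mem j; rwa [hj] at this)
  set c₁ : K1 := ⟨ccF μ f u t (vecF f u (e i₁)), hm i₁ hB.d₁⟩ with hc₁
  set c₂ : K1 := ⟨ccF μ f u t (vecF f u (e i₂)), hm i₂ hB.d₂⟩ with hc₂
  let w : Fin 2 → K1 := ![c₂, -c₁]
  have hindep : AlgebraicIndependent κ ![c₂, c₁] := by
    have h1 := S.algebraicIndependent_cc hB
    have h2 := h1.comp (![⟨i₂, hB.d₂⟩, ⟨i₁, hB.d₁⟩] : Fin 2 → {i : Fin n // d i = -1}) (by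
      intro x y hxy
      fin_cases x <;> fin_cases y
      · rfl
      · exact absurd (congrArg Subtype.val hxy).symm hB.ne
      · exact absurd (congrArg Subtype.val hxy) hB.ne
      · rfl)
    have h3 : ((fun i : {i : Fin n // d i = -1} => ccF μ f u t (vecF f u (e i))) ∘
        (![⟨i₂, hB.d₂⟩, ⟨i₁, hB.d₁⟩] : Fin 2 → {i : Fin n // d i = -1})) = K1.val ∘ ![c₂, c₁] := by
      funext x
      fin_cases x <;> rfl
    rw [h3] at h2
    exact h2.of_comp K1.val
  obtain ⟨B, hK, hu', hF, hint⟩ := sp15_place K1 u S.algebraicIndependent_u S.algF w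
    (fun p hp => sp15_aux_indep hindep p hp)
  let ιB : K1 →+* B := (algebraMap K1 Ω).codRestrict B hK
  let πB : F →+* B := (algebraMap F Ω).codRestrict B hF
  let res : B →+* IsLocalRing.ResidueField B := IsLocalRing.residue B
  have hres : ∀ x : B, (x : Ω) ∈ B.nonunits → res x = 0 := by
    intro x hx
    rw [IsLocalRing.residue_eq_zero_iff]
    exact (B.coe_mem_nonunits_iff).1 hx
  let _ : Algebra κ (IsLocalRing.ResidueField B) := ((res.comp ιB).comp (algebraMap κ K1)).toAlgebra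
  let ι : K1 →ₐ[κ] IsLocalRing.ResidueField B := { res.comp ιB with commutes' := fun _ => rfl }
  let π : F →ₐ[κ] IsLocalRing.ResidueField B :=
    { res.comp πB with
      commutes' := fun c => by
        change res (πB (algebraMap κ F c)) = res (ιB (algebraMap κ K1 c))
        congr 1
        exact Subtype.ext (IsScalarTower.algebraMap_apply κ F Ω c).symm }
  have hπ : ∀ i, π (u i) = ι (w i) := by
    intro i
    change res (πB (u i)) = res (ιB (w i))
    rw [← sub_eq_zero, ← map_sub]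
    exact hres _ (hu' i)
  -- the elements `c j`
  set LE : Ω := Lform t (fun i => (f.kb i : F) * nuF u μ (f.b i)) with hLE
  have hcB : ∀ j, ccF μ f u t (vecF f u (e j)) ∈ B := fun j => hint _ (S.isIntegral_cc (hB.mem j))
  have hc : ∀ τ, ccF μ f u t τ = LE * Lform t τ := fun _ => rfl
  have hLE2 : LE * LE = uΩ 0 * c₁ + uΩ 1 * c₂ := by
    have h1 : LE = uΩ 0 * Lform t (vecF f u (e i₁)) + uΩ 1 * Lform t (vecF f u (e i₂)) := by
      rw [hLE, ← sp15_Lform_smul, ← sp15_Lform_smul, ← sp15_Lform_add]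
      congr 1
      funext i
      exact S.euler_vec hB i
    nth_rewrite 2 [h1]
    change _ = uΩ 0 * (LE * Lform t (vecF f u (e i₁))) + uΩ 1 * (LE * Lform t (vecF f u (e i₂)))
    ring
  set bL : B := πB (u 0) * ιB c₁ + πB (u 1) * ιB c₂ with hbL
  have hbL1 : (bL : Ω) = LE * LE := hLE2.symm
  have hbL2 : res bL = 0 := by
    rw [hbL, map_add, map_mul, map_mul]
    change π (u 0) * ι c₁ + π (u 1) * ι c₂ = 0
    rw [hπ 0, hπ 1]
    change ι c₂ * ι c₁ + ι (-c₁) * ι c₂ = 0
    rw [map_neg]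
    ring
  refine ⟨IsLocalRing.ResidueField B, inferInstance, inferInstance, π, ι, hπ 0, ?_, ?_⟩
  · have h1 := hπ 1
    change π (u 1) = ι (-c₁) at h1
    rw [h1, map_neg]
  intro g hg hg0
  -- the residue point
  have htB : ∀ i, LE * t i ∈ B := by
    intro i
    have h1 := (S.linearIndependent_vec hB).span_eq_top_of_card_eq_finrank' (by simp)
    have h2 : (Pi.single i 1 : Fin n → F) ∈ Submodule.span F (Set.range fun j => vecF f u (e j)) := by
      rw [h1]; exact Submodule.mem_top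
    obtain ⟨h, hh⟩ := (Submodule.mem_span_range_iff_exists_fun F).1 h2
    have h3 : t i = Lform t (Pi.single i 1 : Fin n → F) := by
      rw [Lform, Finset.sum_eq_single i]
      · simp
      · intro j _ hj; simp [hj]
      · simp
    have h4 : (Pi.single i 1 : Fin n → F) = fun l => ∑ j, h j * vecF f u (e j) l := by
      rw [← hh]
      funext l
      simp only [Finset.sum_apply, Pi.smul_apply, smul_eq_mul]
    rw [h3, h4, sp15_Lform_sum, Finset.mul_sum]
    refine sum_mem fun j _ => ?_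
    have h5 : LE * (algebraMap F Ω (h j) * Lform t (vecF f u (e j))) =
        algebraMap F Ω (h j) * ccF μ f u t (vecF f u (e j)) := by rw [hc]; ring
    rw [h5]
    exact mul_mem (hF _) (hcB j)
  let Φ : MvPolynomial (Fin n) F →+* B :=
    MvPolynomial.eval₂Hom πB (fun i => (⟨LE * t i, htB i⟩ : B))
  have hΦ : ∀ p, (Φ p : Ω) = MvPolynomial.aeval (fun i => LE * t i) p := by
    intro p
    have h1 : (algebraMap B Ω).comp Φ =
        ((MvPolynomial.aeval (fun i => LE * t i) : MvPolynomial (Fin n) F →ₐ[F] Ω) :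
          MvPolynomial (Fin n) F →+* Ω) := by
      apply MvPolynomial.ringHom_ext
      · intro c
        change algebraMap B Ω (MvPolynomial.eval₂Hom πB _ (MvPolynomial.C c)) =
          MvPolynomial.aeval _ (MvPolynomial.C c)
        rw [MvPolynomial.eval₂Hom_C, MvPolynomial.aeval_C]
        rfl
      · intro i
        change algebraMap B Ω (MvPolynomial.eval₂Hom πB _ (MvPolynomial.X i)) =
          MvPolynomial.aeval _ (MvPolynomial.X i)
        rw [MvPolynomial.eval₂Hom_X', MvPolynomial.aeval_X]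
        rfl
    exact congrArg (fun F : MvPolynomial (Fin n) F →+* Ω => F p) h1
  have hΨ : ∀ k : ℕ, 0 < k → ∀ c ∈ Wt 𝒜 P H k (-(a * k)), res (Φ (PsiF C μ f u c)) = 0 := by
    intro k hk c hcW
    have h1 : phiΩ t (PsiF C μ f u) c ∈ K1 := by
      have h2 : phiΩ t (PsiF C μ f u) c ∈
          IntermediateField.adjoin κ (phiΩ t (PsiF C μ f u) '' (Ap 𝒜 P (-H) a : Set R)) := by
        apply IntermediateField.subset_adjoin
        refine ⟨c, Algebra.subset_adjoin ⟨k, ?_⟩, rfl⟩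
        rw [Wt_neg]
        exact hcW
      exact (algebraicClosure (IntermediateField.adjoin κ
        (phiΩ t (PsiF C μ f u) '' (Ap 𝒜 P (-H) a : Set R))) Ω).algebraMap_mem ⟨_, h2⟩
    have h2 : (PsiF C μ f u c).IsHomogeneous (2 * k) := by
      apply S.isCell.homog k
      have h3 : a * (k : ℤ) - a * ((2 * k : ℕ) : ℤ) = -(a * k) := by push_cast; ring
      rw [h3]
      exact hcW
    have h3 : Φ (PsiF C μ f u c) = bL ^ k * ιB ⟨_, h1⟩ := by
      apply Subtype.ext
      rw [hΦ, sp15_homog h2]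
      change _ = (bL : Ω) ^ k * phiΩ t (PsiF C μ f u) c
      rw [hbL1, pow_mul, sq]
      rfl
    rw [h3, map_mul, map_pow, hbL2, zero_pow hk.ne', zero_mul]
  -- Nullstellensatz
  let I : Ideal (MvPolynomial (Fin n) F) := Ideal.span {p | ∃ k : ℕ, 0 < k ∧
    ∃ c ∈ Wt 𝒜 P H k (-(a * k)), p = PsiF C μ f u c}
  let ℓ : MvPolynomial (Fin n) F :=
    ∑ i, MvPolynomial.C (∑ j, g j * vecF f u (e j) i) * MvPolynomial.X i
  have hℓ : ℓ ∈ MvPolynomial.vanishingIdeal F (MvPolynomial.zeroLocus F I) := by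
    rw [MvPolynomial.mem_vanishingIdeal_iff]
    intro β hβ
    have hβ' : β ∈ Bhat 𝒜 P H a (PsiF C μ f u) := by
      intro k hk c hcW
      have := hβ _ (Ideal.subset_span ⟨k, hk, c, hcW, rfl⟩)
      rw [← MvPolynomial.coe_aeval_eq_eval]
      exact this
    have h1 := hg β hβ'
    rw [map_sum]
    simp only [map_mul, MvPolynomial.aeval_C, MvPolynomial.aeval_X, Algebra.algebraMap_self,
      RingHom.id_apply]
    rw [← h1]
    simp only [Finset.mul_sum, Finset.sum_mul]
    rw [Finset.sum_comm]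
    refine Finset.sum_congr rfl fun j _ => Finset.sum_congr rfl fun i _ => ?_
    ring
  rw [MvPolynomial.vanishingIdeal_zeroLocus_eq_radical] at hℓ
  obtain ⟨N, hN⟩ := hℓ
  have hI : I ≤ RingHom.ker (res.comp Φ) := by
    rw [Ideal.span_le]
    rintro _ ⟨k, hk, c, hcW, rfl⟩
    exact hΨ k hk c hcW
  have hℓ0 : res (Φ ℓ) = 0 := by
    have h1 : (res.comp Φ) (ℓ ^ N) = 0 := hI hN
    rw [map_pow] at h1
    exact eq_zero_of_pow_eq_zero h1
  have hℓ1 : Φ ℓ = ∑ j, πB (g j) * (⟨_, hcB j⟩ : B) := by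
    apply Subtype.ext
    have h1 : ((∑ j, πB (g j) * (⟨_, hcB j⟩ : B) : B) : Ω) =
        ∑ j, algebraMap F Ω (g j) * ccF μ f u t (vecF f u (e j)) := by
      change algebraMap B Ω _ = _
      rw [map_sum]
      rfl
    rw [h1, hΦ, map_sum]
    simp only [map_mul, MvPolynomial.aeval_C, MvPolynomial.aeval_X]
    have h2 := sp15_Lform_sum Finset.univ t g (fun j => vecF f u (e j))
    have h3 : ∑ i, algebraMap F Ω (∑ j, g j * vecF f u (e j) i) * (LE * t i) =
        LE * Lform t (fun i => ∑ j, g j * vecF f u (e j) i) := by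
      rw [Lform, Finset.mul_sum]
      refine Finset.sum_congr rfl fun i _ => ?_
      ring
    rw [h3, h2, Finset.mul_sum]
    refine Finset.sum_congr rfl fun j _ => ?_
    rw [hc]
    ring
  rw [hℓ1, map_sum] at hℓ0
  have h1 : ∀ j, j ∉ Finset.univ.filter (fun j => d j = -1) →
      res (πB (g j) * (⟨_, hcB j⟩ : B)) = 0 := by
    intro j hj
    have h2 : d j ≠ -1 := fun h => hj (by simp [h])
    rw [hg0 j h2, map_zero, zero_mul, map_zero]
  rw [← Finset.sum_subset (Finset.subset_univ (Finset.univ.filter (fun j => d j = -1)))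
    (fun j _ hj => h1 j hj)] at hℓ0
  rw [Finset.sum_subtype (p := fun j => d j = -1) _ (by intro x; simp)] at hℓ0
  rw [← hℓ0]
  refine Finset.sum_congr rfl fun j _ => ?_
  rw [map_mul]
  rfl

end Vale.Agent.P292
end

section

/-! Theorem E, general algebra: (SPLIT). See `PROOF.md`. -/

namespace Vale.Agent.P292

open Module Polynomial

universe u v w

namespace Split

variable {κ : Type u} [Field κ]

/-- Homogeneous of integral degree `z`. -/
def HZ (z : ℤ) (p : MvPolynomial (Fin 2) κ) : Prop :=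
  ∀ m, MvPolynomial.coeff m p ≠ 0 → (m.degree : ℤ) = z

theorem HZ.zero (z : ℤ) : HZ z (0 : MvPolynomial (Fin 2) κ) := fun _ hm => absurd rfl hm

theorem HZ.of_isHom {c : ℕ} {p : MvPolynomial (Fin 2) κ} (h : p.IsHomogeneous c) :
    HZ (c : ℤ) p := by
  intro m hm
  have h1 := h hm
  have e : Finsupp.weight 1 m = m.degree := by rw [Finsupp.degree_eq_weight_one]; rfl
  rw [e] at h1
  exact_mod_cast h1

theorem HZ.isHom {z : ℤ} {p : MvPolynomial (Fin 2) κ} (h : HZ z p) :
    p.IsHomogeneous z.toNat := by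
  intro m hm
  have h1 := h m hm
  have e : Finsupp.weight 1 m = m.degree := by rw [Finsupp.degree_eq_weight_one]; rfl
  rw [e]
  omega

theorem HZ.eq_zero {z : ℤ} {p : MvPolynomial (Fin 2) κ} (h : HZ z p) (hz : z < 0) : p = 0 := by
  ext m
  by_contra hm
  have := h m hm
  omega

theorem HZ.add {z : ℤ} {p q : MvPolynomial (Fin 2) κ} (hp : HZ z p) (hq : HZ z q) :
    HZ z (p + q) := by
  intro m hm
  by_cases h : MvPolynomial.coeff m p = 0
  · refine hq m fun h' => hm ?_
    rw [MvPolynomial.coeff_add, h, h', add_zero]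
  · exact hp m h

theorem HZ.neg {z : ℤ} {p : MvPolynomial (Fin 2) κ} (hp : HZ z p) : HZ z (-p) := by
  intro m hm
  refine hp m fun h' => hm ?_
  rw [MvPolynomial.coeff_neg, h', neg_zero]

theorem HZ.sub {z : ℤ} {p q : MvPolynomial (Fin 2) κ} (hp : HZ z p) (hq : HZ z q) :
    HZ z (p - q) := by
  rw [sub_eq_add_neg]
  exact hp.add hq.neg

theorem HZ.C_mul {z : ℤ} {p : MvPolynomial (Fin 2) κ} (hp : HZ z p) (c : κ) :
    HZ z (MvPolynomial.C c * p) := by
  intro m hm
  refine hp m fun h' => hm ?_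
  rw [MvPolynomial.coeff_C_mul, h', mul_zero]

theorem HZ.X_mul {z : ℤ} {p : MvPolynomial (Fin 2) κ} (hp : HZ z p) (i : Fin 2) :
    HZ (z + 1) (MvPolynomial.X i * p) := by
  rcases lt_or_ge z 0 with hz | hz
  · rw [hp.eq_zero hz, mul_zero]
    exact HZ.zero _
  · have h := HZ.of_isHom ((MvPolynomial.isHomogeneous_X κ i).mul hp.isHom)
    have e : ((1 + z.toNat : ℕ) : ℤ) = z + 1 := by omega
    rwa [e] at h

theorem HZ.X_pow (s : ℕ) : HZ (s : ℤ) (MvPolynomial.X 1 ^ s : MvPolynomial (Fin 2) κ) := by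
  have h := HZ.of_isHom ((MvPolynomial.isHomogeneous_X κ (1 : Fin 2)).pow s)
  rwa [one_mul] at h

theorem HZ.of_X_mul {z : ℤ} {p : MvPolynomial (Fin 2) κ}
    (hp : HZ z (MvPolynomial.X 0 * p)) : HZ (z - 1) p := by
  intro m hm
  have h := hp (Finsupp.single 0 1 + m) (by rwa [MvPolynomial.coeff_X_mul])
  rw [map_add, Finsupp.degree_single] at h
  push_cast at h
  omega

/-- Division with remainder by the first variable. -/
theorem HZ.div {z : ℤ} {p : MvPolynomial (Fin 2) κ} (hp : HZ z p) :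
    ∃ (c : κ) (q : MvPolynomial (Fin 2) κ), HZ (z - 1) q ∧
      p = MvPolynomial.X 0 * q + MvPolynomial.C c * MvPolynomial.X 1 ^ z.toNat ∧
      (z < 0 → c = 0) := by
  refine ⟨MvPolynomial.coeff (Finsupp.single 1 z.toNat) p,
    MvPolynomial.divMonomial p (Finsupp.single 0 1), ?_, ?_, ?_⟩
  · intro m hm
    rw [MvPolynomial.coeff_divMonomial] at hm
    have h := hp _ hm
    rw [map_add, Finsupp.degree_single] at h
    push_cast at h
    omega
  · conv_lhs => rw [← MvPolynomial.divMonomial_add_modMonomial_single p 0]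
    congr 1
    ext m
    rw [MvPolynomial.coeff_C_mul, MvPolynomial.coeff_X_pow]
    by_cases h0 : Finsupp.single 0 1 ≤ m
    · rw [MvPolynomial.coeff_modMonomial_of_le _ h0, if_neg, mul_zero]
      rintro rfl
      have := h0 0
      simp at this
    · rw [MvPolynomial.coeff_modMonomial_of_not_le _ h0]
      have hm0 : m 0 = 0 := by
        by_contra hne
        exact h0 (Finsupp.single_le_iff.2 (Nat.one_le_iff_ne_zero.2 hne))
      have hm1 : m = Finsupp.single 1 (m 1) := by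
        ext i
        fin_cases i
        · simpa using hm0
        · simp
      by_cases h1 : Finsupp.single 1 z.toNat = m
      · rw [if_pos h1, mul_one, h1]
      · rw [if_neg h1, mul_zero]
        by_contra hne
        have h2 := hp m hne
        rw [hm1, Finsupp.degree_single] at h2
        apply h1
        rw [hm1]
        congr 1
        omega
  · intro hz
    rw [hp.eq_zero hz, MvPolynomial.coeff_zero]

theorem HZ.exists_nat {z : ℤ} {p : MvPolynomial (Fin 2) κ} (hp : HZ z p) :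
    ∃ c : ℕ, p.IsHomogeneous c ∧ (p ≠ 0 → (c : ℤ) = z) := by
  refine ⟨z.toNat, hp.isHom, fun h => ?_⟩
  by_contra hc
  exact h (hp.eq_zero (by omega))

variable {V : Type v} [AddCommGroup V] [Module κ V] [Module (MvPolynomial (Fin 2) κ) V]

/-- `v` is a homogeneous combination of the family `e`. -/
def Rep {N : ℕ} (e : Fin N → V) (d : Fin N → ℤ) (j : ℤ) (v : V) : Prop :=
  ∃ p : Fin N → MvPolynomial (Fin 2) κ, (∀ i, HZ (j - d i) (p i)) ∧ v = ∑ i, p i • e i

/-- Good families. -/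
structure Good (M : ℤ → Submodule κ V) {N : ℕ} (e : Fin N → V) (d : Fin N → ℤ) : Prop where
  mem : ∀ i, e i ∈ M (d i)
  low : ∀ i, ∀ j < d i, ∀ v ∈ M j, Rep (κ := κ) e d j v
  star : ∀ (J : ℤ) (p : Fin N → MvPolynomial (Fin 2) κ) (m : V), (∀ i, HZ (J - d i) (p i)) →
    m ∈ M (J - 1) → ∑ i, p i • e i = (MvPolynomial.X 0 : MvPolynomial (Fin 2) κ) • m →
    ∀ i, MvPolynomial.X 0 ∣ p i

omit [Module κ V] in
theorem Rep.snoc {N : ℕ} {e : Fin N → V} {d : Fin N → ℤ} {j : ℤ} {v : V}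
    (h : Rep (κ := κ) e d j v) (w : V) (k : ℤ) :
    Rep (κ := κ) (Fin.snoc e w : Fin (N + 1) → V) (Fin.snoc d k : Fin (N + 1) → ℤ) j v := by
  obtain ⟨p, hp, rfl⟩ := h
  refine ⟨(Fin.snoc p 0 : Fin (N + 1) → MvPolynomial (Fin 2) κ), fun i => ?_, ?_⟩
  · refine Fin.lastCases ?_ (fun i => ?_) i
    · rw [Fin.snoc_last, Fin.snoc_last]
      exact HZ.zero _
    · rw [Fin.snoc_castSucc, Fin.snoc_castSucc]
      exact hp i
  · rw [Fin.sum_univ_castSucc]
    simp

section
variable {M : ℤ → Submodule κ V}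
  (hmul : ∀ (d : ℕ) (j : ℤ) (p : MvPolynomial (Fin 2) κ) (v : V), p.IsHomogeneous d →
    v ∈ M j → p • v ∈ M (j + d))

include hmul in
theorem smul_mem {z j : ℤ} {p : MvPolynomial (Fin 2) κ} (hp : HZ z p) {v : V} (hv : v ∈ M j) :
    p • v ∈ M (j + z) := by
  rcases lt_or_ge z 0 with hz | hz
  · rw [hp.eq_zero hz, zero_smul]
    exact zero_mem _
  · have h := hmul _ j p v hp.isHom hv
    rwa [Int.toNat_of_nonneg hz] at h

variable (hsat : ∀ (j : ℤ) (v m : V), v ∈ M j → m ∈ M j →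
    (MvPolynomial.X 1 : MvPolynomial (Fin 2) κ) • v
      = (MvPolynomial.X 0 : MvPolynomial (Fin 2) κ) • m →
    ∃ m' ∈ M (j - 1), v = (MvPolynomial.X 0 : MvPolynomial (Fin 2) κ) • m')

include hmul hsat in
theorem sat_pow (s : ℕ) : ∀ (j : ℤ) (v m : V), v ∈ M j → m ∈ M (j + s - 1) →
    (MvPolynomial.X 1 ^ s : MvPolynomial (Fin 2) κ) • v
      = (MvPolynomial.X 0 : MvPolynomial (Fin 2) κ) • m →
    ∃ m' ∈ M (j - 1), v = (MvPolynomial.X 0 : MvPolynomial (Fin 2) κ) • m' := by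
  induction s with
  | zero =>
    intro j v m _ hm h
    rw [pow_zero, one_smul] at h
    exact ⟨m, by simpa using hm, h⟩
  | succ s ih =>
    intro j v m hv hm h
    rw [pow_succ', mul_smul] at h
    have e : j + ((s + 1 : ℕ) : ℤ) - 1 = j + s := by push_cast; ring
    rw [e] at hm
    obtain ⟨m', hm', h'⟩ := hsat (j + s) _ m (smul_mem hmul (HZ.X_pow s) hv) hm h
    exact ih j v m' hv hm' h'

include hmul hsat in
theorem Good.snoc [IsScalarTower κ (MvPolynomial (Fin 2) κ) V] {N : ℕ} {e : Fin N → V}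
    {d : Fin N → ℤ} (G : Good M e d) {j : ℤ} {v : V}
    (hv : v ∈ M j) (hrep : ¬ Rep (κ := κ) e d j v)
    (hlow : ∀ j' < j, ∀ v' ∈ M j', Rep (κ := κ) e d j' v') :
    Good M (Fin.snoc e v : Fin (N + 1) → V) (Fin.snoc d j : Fin (N + 1) → ℤ) := by
  have hd : ∀ i, d i ≤ j := fun i => by
    by_contra h
    exact hrep (G.low i j (not_le.1 h) v hv)
  refine ⟨fun i => ?_, fun i => ?_, ?_⟩
  · refine Fin.lastCases ?_ (fun i => ?_) i
    · rwa [Fin.snoc_last, Fin.snoc_last]
    · rw [Fin.snoc_castSucc, Fin.snoc_castSucc]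
      exact G.mem i
  · refine Fin.lastCases ?_ (fun i => ?_) i
    · intro j' hj' v' hv'
      rw [Fin.snoc_last] at hj'
      exact (hlow j' hj' v' hv').snoc _ _
    · intro j' hj' v' hv'
      rw [Fin.snoc_castSucc] at hj'
      exact (G.low i j' hj' v' hv').snoc _ _
  · intro J p m hp hm heq
    have hpl : HZ (J - j) (p (Fin.last N)) := by
      have := hp (Fin.last N)
      rwa [Fin.snoc_last] at this
    have hpc : ∀ i : Fin N, HZ (J - d i) (p i.castSucc) := fun i => by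
      have := hp i.castSucc
      rwa [Fin.snoc_castSucc] at this
    rw [Fin.sum_univ_castSucc] at heq
    simp only [Fin.snoc_castSucc, Fin.snoc_last] at heq
    obtain ⟨c, q, hq, hqe, hc0⟩ := hpl.div
    have key : c = 0 := by
      by_contra hc
      have hJ : 0 ≤ J - j := by
        by_contra h
        exact hc (hc0 (not_le.1 h))
      choose ci qi hqi hqei hci0 using fun i => (hpc i).div
      set s := (J - j).toNat with hs
      have hsi : ∀ i, (J - d i).toNat = s + (j - d i).toNat := fun i => by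
        have := hd i
        omega
      set v' := ∑ i, (MvPolynomial.C (ci i) * MvPolynomial.X 1 ^ (j - d i).toNat :
        MvPolynomial (Fin 2) κ) • e i + (MvPolynomial.C c : MvPolynomial (Fin 2) κ) • v with hv'
      have hterm : ∀ i, HZ (j - d i) (MvPolynomial.C (ci i) * MvPolynomial.X 1 ^ (j - d i).toNat :
          MvPolynomial (Fin 2) κ) := fun i => by
        have h := HZ.C_mul (HZ.X_pow (κ := κ) (j - d i).toNat) (ci i)
        rwa [Int.toNat_of_nonneg (by have := hd i; omega)] at h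
      have hv'M : v' ∈ M j := by
        refine add_mem (sum_mem fun i _ => ?_) ?_
        · have h := smul_mem hmul (hterm i) (G.mem i)
          rwa [add_sub_cancel] at h
        · have h0 : HZ (0 : ℤ) (MvPolynomial.C c : MvPolynomial (Fin 2) κ) := by
            have := HZ.of_isHom (MvPolynomial.isHomogeneous_C (Fin 2) c)
            exact_mod_cast this
          have h := smul_mem hmul h0 hv
          rwa [add_zero] at h
      have hm' : m - (∑ i, qi i • e i + q • v) ∈ M (j + s - 1) := by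
        have e1 : j + (s : ℤ) - 1 = J - 1 := by omega
        rw [e1]
        refine sub_mem hm (add_mem (sum_mem fun i _ => ?_) ?_)
        · have h := smul_mem hmul (hqi i) (G.mem i)
          have e2 : d i + (J - d i - 1) = J - 1 := by ring
          rwa [e2] at h
        · have h := smul_mem hmul hq hv
          have e2 : j + (J - j - 1) = J - 1 := by ring
          rwa [e2] at h
      have h1 : (MvPolynomial.X 1 ^ s : MvPolynomial (Fin 2) κ) • v'
          = (MvPolynomial.X 0 : MvPolynomial (Fin 2) κ) • (m - (∑ i, qi i • e i + q • v)) := by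
        rw [smul_sub, ← heq, hv', smul_add, smul_add, Finset.smul_sum, Finset.smul_sum, hqe]
        simp only [smul_smul]
        have h2 : ∀ i, p i.castSucc • e i
            = (MvPolynomial.X 0 * qi i : MvPolynomial (Fin 2) κ) • e i
            + (MvPolynomial.X 1 ^ s * (MvPolynomial.C (ci i) *
              MvPolynomial.X 1 ^ (j - d i).toNat) : MvPolynomial (Fin 2) κ) • e i := fun i => by
          rw [← add_smul]
          congr 1
          rw [hqei i, hsi i, pow_add]
          ring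
        simp only [h2]
        rw [Finset.sum_add_distrib, add_smul, mul_comm (MvPolynomial.C c)]
        abel
      obtain ⟨m', hm'M, hm'e⟩ := sat_pow hmul hsat s j v' _ hv'M hm' h1
      obtain ⟨p', hp', rfl⟩ := hlow (j - 1) (by omega) m' hm'M
      apply hrep
      refine ⟨fun i => MvPolynomial.C c⁻¹ * (MvPolynomial.X 0 * p' i
        - MvPolynomial.C (ci i) * MvPolynomial.X 1 ^ (j - d i).toNat), fun i => ?_, ?_⟩
      · refine HZ.C_mul (HZ.sub ?_ (hterm i)) _
        have h := (hp' i).X_mul 0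
        have e2 : j - 1 - d i + 1 = j - d i := by ring
        rwa [e2] at h
      · have h3 : (MvPolynomial.C c : MvPolynomial (Fin 2) κ) • v
            = ∑ i, (MvPolynomial.X 0 * p' i
              - MvPolynomial.C (ci i) * MvPolynomial.X 1 ^ (j - d i).toNat) • e i := by
          simp only [sub_smul, mul_smul (MvPolynomial.X 0 : MvPolynomial (Fin 2) κ)]
          rw [Finset.sum_sub_distrib, ← Finset.smul_sum, ← hm'e, hv']
          abel
        simp only [mul_smul (MvPolynomial.C c⁻¹ : MvPolynomial (Fin 2) κ)]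
        rw [← Finset.smul_sum, ← h3, smul_smul, ← MvPolynomial.C_mul, inv_mul_cancel₀ hc,
          MvPolynomial.C_1, one_smul]
    rw [key, MvPolynomial.C_0, zero_mul, add_zero] at hqe
    intro i
    refine Fin.lastCases ?_ (fun i => ?_) i
    · exact ⟨q, hqe⟩
    · refine G.star J (fun i => p i.castSucc) (m - q • v) hpc (sub_mem hm ?_) ?_ i
      · have h := smul_mem hmul hq hv
        have e2 : j + (J - j - 1) = J - 1 := by ring
        rwa [e2] at h
      · rw [smul_sub, ← heq, hqe, smul_smul, add_sub_cancel_right]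

theorem Good.empty : Good M (Fin.elim0 : Fin 0 → V) Fin.elim0 :=
  ⟨fun i => i.elim0, fun i => i.elim0, fun _ _ _ _ _ _ i => i.elim0⟩

variable (htf : ∀ (p : MvPolynomial (Fin 2) κ) (v : V), p • v = 0 → p = 0 ∨ v = 0)

include htf in
theorem Good.homog_zero {N : ℕ} {e : Fin N → V} {d : Fin N → ℤ} (G : Good M e d) (t : ℕ) :
    ∀ (J : ℤ) (p : Fin N → MvPolynomial (Fin 2) κ), (∀ i, J - d i < t) →
      (∀ i, HZ (J - d i) (p i)) → ∑ i, p i • e i = 0 → ∀ i, p i = 0 := by
  induction t with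
  | zero =>
    intro J p ht hp _ i
    exact (hp i).eq_zero (by exact_mod_cast ht i)
  | succ t ih =>
    intro J p ht hp h0
    have h1 := G.star J p 0 hp (zero_mem _) (by rw [h0, smul_zero])
    choose q hq using h1
    have h2 : ∀ i, q i = 0 := by
      refine ih (J - 1) q (fun i => ?_) (fun i => ?_) ?_
      · have := ht i
        push_cast at this
        linarith
      · have h := hp i
        rw [hq i] at h
        have e2 : J - 1 - d i = J - d i - 1 := by ring
        rw [e2]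
        exact h.of_X_mul
      · have h3 : (MvPolynomial.X 0 : MvPolynomial (Fin 2) κ) • ∑ i, q i • e i = 0 := by
          rw [Finset.smul_sum, ← h0]
          refine Finset.sum_congr rfl fun i _ => ?_
          rw [smul_smul, ← hq i]
        exact (htf _ _ h3).resolve_left (MvPolynomial.X_ne_zero 0)
    intro i
    rw [hq i, h2 i, mul_zero]

/-- The component of `p` of integral degree `z`. -/
noncomputable def comp (z : ℤ) (p : MvPolynomial (Fin 2) κ) : MvPolynomial (Fin 2) κ :=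
  if 0 ≤ z then MvPolynomial.homogeneousComponent z.toNat p else 0

theorem coeff_comp (z : ℤ) (p : MvPolynomial (Fin 2) κ) (m : Fin 2 →₀ ℕ) :
    MvPolynomial.coeff m (comp z p) = if (m.degree : ℤ) = z then MvPolynomial.coeff m p else 0 := by
  unfold comp
  split_ifs with h1 h2 h2
  · rw [MvPolynomial.coeff_homogeneousComponent, if_pos (by omega)]
  · rw [MvPolynomial.coeff_homogeneousComponent, if_neg (by omega)]
  · omega
  · exact MvPolynomial.coeff_zero _

theorem HZ.comp (z : ℤ) (p : MvPolynomial (Fin 2) κ) : HZ z (comp z p) := by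
  intro m hm
  rw [coeff_comp] at hm
  by_contra h
  exact hm (if_neg h)

include hmul htf in
theorem Good.linearIndependent (hindep : iSupIndep M) {N : ℕ} {e : Fin N → V} {d : Fin N → ℤ}
    (G : Good M e d) : LinearIndependent (MvPolynomial (Fin 2) κ) e := by
  rw [Fintype.linearIndependent_iff]
  intro g hg
  classical
  let T : Finset ℤ := Finset.univ.biUnion fun i => (g i).support.image fun m => d i + (m.degree : ℤ)
  have hsum : ∀ i, ∑ J ∈ T, Split.comp (J - d i) (g i) = g i := by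
    intro i
    ext m
    rw [MvPolynomial.coeff_sum]
    simp only [coeff_comp]
    by_cases hm : MvPolynomial.coeff m (g i) = 0
    · simp [hm]
    · rw [Finset.sum_eq_single (d i + (m.degree : ℤ))]
      · rw [if_pos (by ring)]
      · intro J _ hJ
        rw [if_neg]
        intro h
        apply hJ
        rw [h]
        ring
      · intro h
        exfalso
        apply h
        rw [Finset.mem_biUnion]
        exact ⟨i, Finset.mem_univ i, Finset.mem_image.2
          ⟨m, MvPolynomial.mem_support_iff.2 hm, rfl⟩⟩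
  have h1 : ∑ J ∈ T, ∑ i, Split.comp (J - d i) (g i) • e i = 0 := by
    rw [Finset.sum_comm, ← hg]
    refine Finset.sum_congr rfl fun i _ => ?_
    rw [← Finset.sum_smul, hsum i]
  have h2 := (iSupIndep_iff_finsetSum_eq_zero_imp_eq_zero M).1 hindep T
    (fun J => ∑ i, Split.comp (J - d i) (g i) • e i) (fun J _ => sum_mem fun i _ => by
      have h := smul_mem hmul (HZ.comp (J - d i) (g i)) (G.mem i)
      rwa [add_sub_cancel] at h) h1
  have h3 : ∀ J ∈ T, ∀ i, Split.comp (J - d i) (g i) = 0 := by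
    intro J hJ
    obtain ⟨B, hB⟩ : ∃ B : ℕ, ∀ i, J - d i < B := by
      obtain ⟨B, hB⟩ := (Set.finite_range fun i => J - d i).bddAbove
      refine ⟨B.toNat + 1, fun i => ?_⟩
      have := hB (Set.mem_range_self i)
      have h' : J - d i ≤ B := this
      push_cast
      omega
    exact G.homog_zero htf B J _ hB (fun i => HZ.comp _ _) (h2 J hJ)
  intro i
  rw [← hsum i]
  exact Finset.sum_eq_zero fun J hJ => h3 J hJ i

end

end Split

open Split in
/-- (SPLIT) A saturated graded module over `κ[u₀, u₁]` is free, with homogeneous basis.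
`M j` = elements of degree `j`; `M j = 0` for `j < j₀`; `hsat`: if `w • v ∈ ℓ M` for independent
linear forms `ℓ, w` then `v ∈ ℓ M`. Two given `κ`-linearly independent elements of lowest
degree are part of the basis. -/
theorem exists_homogeneous_basis {κ : Type u} [Field κ] [IsAlgClosed κ] {V : Type v}
    [AddCommGroup V] [Module κ V] [Module (MvPolynomial (Fin 2) κ) V]
    [IsScalarTower κ (MvPolynomial (Fin 2) κ) V]
    (htf : ∀ (p : MvPolynomial (Fin 2) κ) (v : V), p • v = 0 → p = 0 ∨ v = 0)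
    (M : ℤ → Submodule κ V) (j₀ : ℤ) (hlow : ∀ j < j₀, M j = ⊥)
    (hindep : iSupIndep M)
    (hmul : ∀ (d : ℕ) (j : ℤ) (p : MvPolynomial (Fin 2) κ) (v : V), p.IsHomogeneous d →
      v ∈ M j → p • v ∈ M (j + d))
    (hsat : ∀ (j : ℤ) (l w : MvPolynomial (Fin 2) κ) (v m : V), l.IsHomogeneous 1 →
      w.IsHomogeneous 1 → LinearIndependent κ ![l, w] → v ∈ M j → m ∈ M j → w • v = l • m →
      ∃ m' ∈ M (j - 1), v = l • m')
    (n : ℕ) (hrank : ∀ (v : Fin (n + 1) → V) (j : Fin (n + 1) → ℤ), (∀ i, v i ∈ M (j i)) →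
      ¬ LinearIndependent (MvPolynomial (Fin 2) κ) v)
    (v₁ v₂ : V) (h₁ : v₁ ∈ M j₀) (h₂ : v₂ ∈ M j₀) (h₁₂ : LinearIndependent κ ![v₁, v₂]) :
    ∃ (N : ℕ) (e : Fin (N + 2) → V) (d : Fin (N + 2) → ℤ), N + 2 ≤ n ∧ e 0 = v₁ ∧ e 1 = v₂ ∧
      d 0 = j₀ ∧ d 1 = j₀ ∧ (∀ i, e i ∈ M (d i)) ∧ (∀ i, j₀ ≤ d i) ∧
      LinearIndependent (MvPolynomial (Fin 2) κ) e ∧
      ∀ j, ∀ v ∈ M j, ∃ p : Fin (N + 2) → MvPolynomial (Fin 2) κ,
        (∀ i, ∃ c : ℕ, (p i).IsHomogeneous c ∧ (p i ≠ 0 → (c : ℤ) = j - d i)) ∧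
        v = ∑ i, p i • e i := by
  have hX : LinearIndependent κ ![(MvPolynomial.X 0 : MvPolynomial (Fin 2) κ),
      MvPolynomial.X 1] := by
    rw [LinearIndependent.pair_iff]
    intro s t h
    constructor
    · have := congrArg (MvPolynomial.coeff (Finsupp.single 0 1)) h
      simpa [MvPolynomial.coeff_X, Finsupp.single_left_inj] using this
    · have := congrArg (MvPolynomial.coeff (Finsupp.single 1 1)) h
      simpa [MvPolynomial.coeff_X, Finsupp.single_left_inj] using this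
  have hsat' : ∀ (j : ℤ) (v m : V), v ∈ M j → m ∈ M j →
      (MvPolynomial.X 1 : MvPolynomial (Fin 2) κ) • v
        = (MvPolynomial.X 0 : MvPolynomial (Fin 2) κ) • m →
      ∃ m' ∈ M (j - 1), v = (MvPolynomial.X 0 : MvPolynomial (Fin 2) κ) • m' :=
    fun j v m hv hm h => hsat j _ _ v m (MvPolynomial.isHomogeneous_X κ 0)
      (MvPolynomial.isHomogeneous_X κ 1) hX hv hm h
  have hzero : ∀ {N : ℕ} (e : Fin N → V) (d : Fin N → ℤ) (j : ℤ), j < j₀ → ∀ v ∈ M j,
      Rep (κ := κ) e d j v := by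
    intro N e d j hj v hv
    rw [hlow j hj, Submodule.mem_bot] at hv
    exact ⟨fun _ => 0, fun _ => HZ.zero _, by simp [hv]⟩
  -- families starting with `v₁, v₂`
  let Q : ℕ → Prop := fun N => ∃ (e : Fin (N + 2) → V) (d : Fin (N + 2) → ℤ),
    Good M e d ∧ e 0 = v₁ ∧ e 1 = v₂ ∧ d 0 = j₀ ∧ d 1 = j₀
  have hQ0 : Q 0 := by
    have hv1 : v₁ ≠ 0 := by
      have := h₁₂.ne_zero 0
      simpa using this
    have G1 := (Good.empty (M := M)).snoc hmul hsat' h₁ (by
      rintro ⟨p, -, h⟩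
      exact hv1 (by simpa using h)) (hzero _ _)
    have G2 := G1.snoc hmul hsat' h₂ (by
      rintro ⟨p, hp, h⟩
      have hp0 := hp 0
      have e0 : (Fin.snoc (Fin.elim0 : Fin 0 → ℤ) j₀ : Fin 1 → ℤ) 0 = j₀ := rfl
      rw [e0, sub_self] at hp0
      obtain ⟨c, q, hq, hqe, -⟩ := hp0.div
      have h9 : q = 0 := hq.eq_zero (by norm_num)
      have hqe' : p 0 = MvPolynomial.C c := by simpa [h9] using hqe
      have e1 : (Fin.snoc (Fin.elim0 : Fin 0 → V) v₁ : Fin 1 → V) 0 = v₁ := rfl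
      have h : v₂ = p 0 • (Fin.snoc (Fin.elim0 : Fin 0 → V) v₁ : Fin 1 → V) 0 := by
        rw [h]
        exact Fin.sum_univ_one _
      rw [e1, hqe'] at h
      have h3 : v₂ = c • v₁ := by
        rw [h, ← MvPolynomial.algebraMap_eq, algebraMap_smul]
      rw [LinearIndependent.pair_iff] at h₁₂
      have := (h₁₂ c (-1) (by rw [h3]; simp)).2
      norm_num at this) (hzero _ _)
    exact ⟨_, _, G2, rfl, rfl, rfl, rfl⟩
  have hQb : ∀ N, Q N → N + 2 ≤ n := by
    rintro N ⟨e, d, G, -⟩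
    by_contra hN
    have hle : n + 1 ≤ N + 2 := by omega
    refine hrank (fun i => e (Fin.castLE hle i)) (fun i => d (Fin.castLE hle i))
      (fun i => G.mem _) ?_
    exact (G.linearIndependent hmul htf hindep).comp _ (Fin.castLE_injective hle)
  obtain ⟨N, hN, hN'⟩ : ∃ N, Q N ∧ ¬ Q (N + 1) := by
    by_contra h
    push Not at h
    have hall : ∀ N, Q N := fun N => by
      induction N with
      | zero => exact hQ0
      | succ N ih => exact h N ih
    have := hQb n (hall n)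
    omega
  obtain ⟨e, d, G, he0, he1, hd0, hd1⟩ := hN
  have hli := G.linearIndependent hmul htf hindep
  have hspan : ∀ j, ∀ v ∈ M j, Rep (κ := κ) e d j v := by
    by_contra hcon
    push Not at hcon
    obtain ⟨j, ⟨v, hv, hrep⟩, hmin⟩ := Int.exists_least_of_bdd
      (P := fun j => ∃ v ∈ M j, ¬ Rep (κ := κ) e d j v) ⟨j₀, by
        rintro j ⟨v, hv, hrep⟩
        by_contra hj
        exact hrep (hzero e d j (not_le.1 hj) v hv)⟩ hcon
    have hlow' : ∀ j' < j, ∀ v' ∈ M j', Rep (κ := κ) e d j' v' := by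
      intro j' hj' v' hv'
      by_contra hr
      exact absurd (hmin j' ⟨v', hv', hr⟩) (not_le.2 hj')
    apply hN'
    refine ⟨_, _, G.snoc hmul hsat' hv hrep hlow', ?_, ?_, ?_, ?_⟩
    · rw [← he0]
      exact Fin.snoc_castSucc (α := fun _ => V) v e 0
    · rw [← he1]
      exact Fin.snoc_castSucc (α := fun _ => V) v e 1
    · rw [← hd0]
      exact Fin.snoc_castSucc (α := fun _ => ℤ) j d 0
    · rw [← hd1]
      exact Fin.snoc_castSucc (α := fun _ => ℤ) j d 1
  refine ⟨N, e, d, hQb N ⟨e, d, G, he0, he1, hd0, hd1⟩, he0, he1, hd0, hd1, G.mem,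
    fun i => ?_, hli, fun j v hv => ?_⟩
  · by_contra hi
    have h := G.mem i
    rw [hlow _ (not_le.1 hi), Submodule.mem_bot] at h
    exact hli.ne_zero i h
  · obtain ⟨p, hp, rfl⟩ := hspan j v hv
    exact ⟨p, fun i => (hp i).exists_nat, rfl⟩

end Vale.Agent.P292
end

section

/-! Theorem E, section 7: (7d), the basis. See `PROOF.md`. -/

namespace Vale.Agent.P292

open Module Polynomial

universe u v

variable {R : Type u} [CommRing R] [Algebra ℂ R] {𝒜 : ℕ → Submodule ℂ R} [GradedAlgebra 𝒜]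
  {P : R →ₗ[ℂ] R →ₗ[ℂ] R} {H : R} {a : ℤ} {n : ℕ}

variable {κ : Type v} [Field κ] [IsAlgClosed κ] [Algebra ℂ κ]
  {F : Type v} [Field F] [IsAlgClosed F] [Algebra ℂ F] [Algebra κ F] [IsScalarTower ℂ κ F]
  {Ω : Type v} [Field Ω] [IsAlgClosed Ω] [Algebra ℂ Ω] [Algebra κ Ω] [Algebra F Ω]
  [IsScalarTower ℂ κ Ω] [IsScalarTower ℂ F Ω] [IsScalarTower κ F Ω]

variable {C : CtxN 𝒜 P H a n} {μ : R →ₐ[ℂ] MvPolynomial (Fin 2) κ} {f : Frame 𝒜 P H a n}
    {u : Fin 2 → F} {t : Fin n → Ω}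

omit [IsAlgClosed κ] in
theorem sp9_tf (p : MvPolynomial (Fin 2) κ) (v : R →ₗ[ℂ] MvPolynomial (Fin 2) κ)
    (h : p • v = 0) : p = 0 ∨ v = 0 := by
  by_cases hp : p = 0
  · exact Or.inl hp
  · refine Or.inr (LinearMap.ext fun r => ?_)
    have h1 := LinearMap.congr_fun h r
    rw [LinearMap.smul_apply, smul_eq_mul, LinearMap.zero_apply] at h1
    exact (mul_eq_zero.1 h1).resolve_left hp

omit [IsAlgClosed κ] in
/-- linear independence of the derivations of a frame -/
theorem sp9_indep (C : Ctx 𝒜 P H a) (hμ : IsLine 𝒜 P H a μ) (f : Frame 𝒜 P H a n)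
    (hΔ : f.Δ ≠ 0) (δ : Fin n → R →ₗ[ℂ] MvPolynomial (Fin 2) κ)
    (hδ : ∀ l, ∀ c ∈ Ap 𝒜 P H a, δ l c = μ (P (f.r l) c)) :
    LinearIndependent (MvPolynomial (Fin 2) κ) δ := by
  rw [Fintype.linearIndependent_iff]
  intro g hg
  set A : Matrix (Fin n) (Fin n) (MvPolynomial (Fin 2) κ) := f.mat.map μ with hA
  have hdet : A.det ≠ 0 := by
    have h1 : A.det = μ f.Δ := by
      rw [hA, Frame.Δ]
      exact (AlgHom.map_det μ f.mat).symm
    rw [h1]
    exact fun h => hΔ (hμ.inj _ (Frame.Δ_mem C f) h)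
  have hmul : A.mulVec g = 0 := by
    ext1 i
    have h1 := LinearMap.congr_fun hg (f.b i)
    simp only [LinearMap.sum_apply, LinearMap.smul_apply, LinearMap.zero_apply,
      smul_eq_mul] at h1
    have h2 : ∀ l, δ l (f.b i) = - A i l := by
      intro l
      rw [hδ l _ (mem_Ap (f.hb i)), C.hX.skew, map_neg]
      rfl
    have h3 : ∑ l, A i l * g l = - ∑ l, g l * δ l (f.b i) := by
      rw [← Finset.sum_neg_distrib]
      exact Finset.sum_congr rfl fun l _ => by rw [h2 l]; ring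
    show ∑ l, A i l * g l = 0
    rw [h3, h1, neg_zero]
  have h4 := Matrix.eq_zero_of_mulVec_eq_zero hdet hmul
  exact fun i => congrFun h4 i

theorem Setup.exists_basis (S : Setup 𝒜 P H a C μ f u t) :
    ∃ (e : Fin n → R →ₗ[ℂ] MvPolynomial (Fin 2) κ) (d : Fin n → ℤ) (i₁ i₂ : Fin n),
      Setup.Basis (𝒜 := 𝒜) (P := P) (H := H) (a := a) μ e d i₁ i₂ := by
  have hμ := S.line
  have hctx := C.half.ctx
  obtain ⟨v₁, hv₁, hv₁'⟩ := hctx.pderiv_mem_DerM hμ 0
  obtain ⟨v₂, hv₂, hv₂'⟩ := hctx.pderiv_mem_DerM hμ 1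
  have hli : LinearIndependent κ ![v₁, v₂] := by
    refine C.half.linearIndependent_pderiv C.npos hμ ![v₁, v₂] ?_
    intro i r
    fin_cases i
    · exact hv₁' r
    · exact hv₂' r
  obtain ⟨N, e, d, hN, he0, he1, hd0, hd1, hmem, hle, hind, hspan⟩ :=
    exists_homogeneous_basis (κ := κ) (V := R →ₗ[ℂ] MvPolynomial (Fin 2) κ) sp9_tf
      (DerM 𝒜 P H a μ) (-1) (fun j hj => S.DerM_eq_bot hj) (hctx.DerM_indep hμ)
      (fun d j p v hp hv => DerM_mul hp hv)
      (fun j l w v m hl hw hlw hv hm h => DerM_sat j l w v m hl hw hlw hv hm h)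
      n (fun v j hv => C.half.DerM_rank hμ v j hv) v₁ v₂ hv₁ hv₂ hli
  choose δ hδ hδ' using fun l => hctx.P_mem_DerM hμ (f.hr l)
  have hnN : n ≤ N + 2 := by
    have h1 := sp9_indep hctx hμ f S.Δ δ hδ'
    have h2 : Set.range δ ≤ Submodule.span (MvPolynomial (Fin 2) κ) (Set.range e) := by
      rintro _ ⟨l, rfl⟩
      obtain ⟨p, -, hp⟩ := hspan _ _ (hδ l)
      rw [hp]
      exact Submodule.sum_mem _ fun i _ =>
        Submodule.smul_mem _ _ (Submodule.subset_span ⟨i, rfl⟩)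
    classical
    have h3 := linearIndependent_le_span' δ h1 (Set.range e) h2
    have h4 : Fintype.card (Set.range e) ≤ Fintype.card (Fin (N + 2)) :=
      Fintype.card_le_of_surjective (Set.rangeFactorization e) Set.rangeFactorization_surjective
    rw [Cardinal.mk_fin, Nat.cast_le] at h3
    rw [Fintype.card_fin] at h4
    exact h3.trans h4
  have hEq : n = N + 2 := le_antisymm hnN hN
  subst hEq
  exact ⟨e, d, 0, 1, ⟨hmem, hle, Fin.zero_ne_one, hd0, hd1,
    fun r => by rw [he0]; exact hv₁' r, fun r => by rw [he1]; exact hv₂' r, hind, hspan⟩⟩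

end Vale.Agent.P292
end

section

/-! Theorem E, the case `n = 1`. See `PROOF.md`. -/

namespace Vale.Agent.P292

open Module Polynomial

universe u v

variable {R : Type u} [CommRing R] [Algebra ℂ R] {𝒜 : ℕ → Submodule ℂ R} [GradedAlgebra 𝒜]
  {P : R →ₗ[ℂ] R →ₗ[ℂ] R} {H : R} {a : ℤ} {n : ℕ}

/-- Homogeneous elements of positive degree are transcendental over the constants. -/
theorem fi4_transcendental (hX : IsContactFano 𝒜 P) {k : ℕ} (hk : 0 < k) {c : R} (hc : c ∈ 𝒜 k)
    (hc0 : c ≠ 0) : Transcendental ℂ c := by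
  have := hX.domain
  intro hal
  obtain ⟨q, hq, hqc⟩ := hal
  have h1 : q = Polynomial.C q.leadingCoeff * (q.roots.map fun α => X - Polynomial.C α).prod :=
    (IsAlgClosed.splits q).eq_prod_roots
  rw [h1, map_mul, aeval_C, map_multiset_prod, Multiset.map_map] at hqc
  rcases mul_eq_zero.1 hqc with h2 | h2
  · rw [map_eq_zero_iff _ (algebraMap ℂ R).injective] at h2
    exact leadingCoeff_ne_zero.2 hq h2
  · rw [Multiset.prod_eq_zero_iff, Multiset.mem_map] at h2
    obtain ⟨α, -, hα⟩ := h2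
    have h3 : c = algebraMap ℂ R α := by
      have : c - algebraMap ℂ R α = 0 := by simpa using hα
      exact sub_eq_zero.1 this
    have h4 : c ∈ 𝒜 0 := by
      rw [h3, Algebra.algebraMap_eq_smul_one]
      exact (𝒜 0).smul_mem _ SetLike.GradedOne.one_mem
    exact hk.ne (DirectSum.degree_eq_of_mem_mem 𝒜 h4 hc hc0)

end Vale.Agent.P292
end

section

/-! The case `n = 1` without factoriality: the source is a point and avoids the base locus. -/

namespace Vale.Agent.P292

open Module Polynomial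

universe u v

variable {R : Type u} [CommRing R] [Algebra ℂ R] {𝒜 : ℕ → Submodule ℂ R} [GradedAlgebra 𝒜]
  {P : R →ₗ[ℂ] R →ₗ[ℂ] R} {H : R} {a : ℤ} {n : ℕ}

/-- Over an algebra `A₊` of transcendence degree one, a homogeneous element divides a nonzero
polynomial in any other. -/
theorem n1_dvd (C : CtxN 𝒜 P H a 1) {k₀ k : ℕ} {e c : R} (he0 : e ≠ 0)
    (hek : e ∈ Wt 𝒜 P H k₀ (a * k₀)) (hk : 0 < k)
    (hc : c ∈ Wt 𝒜 P H k (a * k)) (hc0 : c ≠ 0) : ∃ q : ℂ[X], q ≠ 0 ∧ e ∣ aeval c q := by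
  have hX := C.half.ctx.hX
  have := hX.domain
  have := C.half.ctx.isDomain_Ap
  set c' : Ap 𝒜 P H a := ⟨c, mem_Ap hc⟩ with hc'
  set e' : Ap 𝒜 P H a := ⟨e, mem_Ap hek⟩ with he'
  have htr : Transcendental ℂ c' := by
    intro hal
    refine fi4_transcendental hX hk (mem_Wt.1 hc).1 hc0 ?_
    exact IsAlgebraic.algHom (Ap 𝒜 P H a).val hal
  have hind : AlgebraicIndependent ℂ (fun _ : Unit => c') :=
    algebraicIndependent_unique_type_iff.2 htr
  have hbas : IsTranscendenceBasis ℂ (fun _ : Unit => c') := by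
    refine hind.isTranscendenceBasis_of_lift_trdeg_le_of_finite ?_
    rw [C.half.trdeg]
    simp
  have halg := hbas.isAlgebraic
  have he0' : e' ≠ 0 := fun h => he0 (congrArg Subtype.val h)
  obtain ⟨r, hr0, hr⟩ :=
    (halg.isAlgebraic e').exists_nonzero_dvd (mem_nonZeroDivisors_of_ne_zero he0')
  obtain ⟨r, hrm⟩ := r
  have hrange : Set.range (fun _ : Unit => c') = {c'} := by simp
  rw [hrange] at hrm
  obtain ⟨q, rfl⟩ := (Algebra.adjoin_singleton_eq_range_aeval ℂ c' ▸ hrm :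
    r ∈ (aeval (R := ℂ) c').range)
  have hq : q ≠ 0 := by
    rintro rfl
    exact hr0 (Subtype.ext (map_zero _))
  refine ⟨q, hq, ?_⟩
  have h2 := map_dvd (Ap 𝒜 P H a).val hr
  have h3 : (Ap 𝒜 P H a).val (aeval c' q) = aeval c q := by
    rw [← aeval_algHom_apply]
    rfl
  rw [← h3]
  exact h2

/-- Homogeneous elements of `A₊` of the same positive degree are proportional. -/
theorem n1_proportional (C : CtxN 𝒜 P H a 1) {N : ℕ} (hN : 0 < N) {u v : R}
    (hu : u ∈ Wt 𝒜 P H N (a * N)) (hv : v ∈ Wt 𝒜 P H N (a * N)) (y : R →ₐ[ℂ] ℂ)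
    (hyv : y v ≠ 0) : y v • u = y u • v := by
  have hX := C.half.ctx.hX
  have := hX.domain
  have hv0 : v ≠ 0 := by
    rintro rfl
    exact hyv (map_zero y)
  rw [← sub_eq_zero]
  by_contra he0
  have he : y v • u - y u • v ∈ Wt 𝒜 P H N (a * N) :=
    sub_mem (Submodule.smul_mem _ _ hu) (Submodule.smul_mem _ _ hv)
  have hye : y (y v • u - y u • v) = 0 := by
    rw [map_sub, map_smul, map_smul, smul_eq_mul, smul_eq_mul, mul_comm, sub_self]
  obtain ⟨q, hq, w, hw⟩ := n1_dvd C he0 he hN hv hv0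
  apply hq
  refine Polynomial.funext fun z => ?_
  obtain ⟨t, ht⟩ := IsAlgClosed.exists_pow_nat_eq (z / y v) hN
  obtain ⟨p, hp⟩ := IsContactFano.exists_rescale (𝒜 := 𝒜) y t
  have h1 : p (y v • u - y u • v) = 0 := by
    rw [hp N _ (mem_Wt.1 he).1, hye, mul_zero]
  have h2 : p v = z := by
    rw [hp N _ (mem_Wt.1 hv).1, ht, div_mul_cancel₀ _ hyv]
  have h3 := congrArg p hw
  rw [map_mul, h1, zero_mul, ← aeval_algHom_apply, h2] at h3
  rw [eval_zero, ← h3, coe_aeval_eq_eval]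

/-- A nonzero homogeneous element of `A₊` vanishes nowhere on the source. -/
theorem n1_ne_zero (C : CtxN 𝒜 P H a 1) {N : ℕ} {v : R}
    (hv : v ∈ Wt 𝒜 P H N (a * N)) (hv0 : v ≠ 0) {p : R →ₐ[ℂ] ℂ} (hp : HasSlope 𝒜 P H p a) :
    p v ≠ 0 := by
  have hC := C.half.ctx
  have hX := hC.hX
  have := hX.domain
  rcases Nat.eq_zero_or_pos N with rfl | hN
  · obtain ⟨c, rfl⟩ := hX.connected v (mem_Wt.mp hv).1
    intro h
    rw [AlgHom.commutes] at h
    have h' : c = 0 := h
    rw [h', map_zero] at hv0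
    exact hv0 rfl
  intro hpv
  obtain ⟨k, hk, w, hw, hpw⟩ := torus3_exists_weight hC.hH hp
  obtain ⟨y, -, hyv⟩ := hC.hmax.exists_point hX hC.hH hN hv hv0
  have h1 : v ^ k ∈ Wt 𝒜 P H (N * k) (a * (N * k : ℕ)) := by
    have := Wt_pow hX hv k
    convert this using 2
    · ring
    · push_cast; ring
  have h2 : w ^ N ∈ Wt 𝒜 P H (N * k) (a * (N * k : ℕ)) := by
    have := Wt_pow hX hw N
    convert this using 2
    push_cast; ring
  have h3 := n1_proportional C (Nat.mul_pos hN hk) h2 h1 y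
    (by rw [map_pow]; exact pow_ne_zero k hyv)
  have h4 := congrArg p h3
  rw [map_smul, map_smul, map_pow, map_pow, map_pow, map_pow, hpv, zero_pow hk.ne', smul_zero,
    smul_eq_mul, mul_eq_zero] at h4
  rcases h4 with h5 | h5
  · exact pow_ne_zero k hyv h5
  · exact pow_ne_zero N hpw h5

/-- If `n = 1` the source is a point. -/
theorem CtxN.isolatedSource_one (C : CtxN 𝒜 P H a 1) : HasIsolatedSource 𝒜 P H := by
  classical
  have hC := C.half.ctx
  have hX := hC.hX
  have hH := hC.hH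
  have := hX.domain
  intro y q hy hq
  rw [hC.hmax.isSource_iff hH] at hy hq
  -- the semigroup of degrees
  let S : AddSubmonoid ℕ :=
    { carrier := {k | ∃ s ∈ Wt 𝒜 P H k (a * k), y s = 1}
      zero_mem' := by
        refine ⟨1, ?_, map_one y⟩
        rw [mem_Wt]
        exact ⟨SetLike.GradedOne.one_mem, by simp [hX.P_one_right]⟩
      add_mem' := by
        rintro k l ⟨s, hs, hs1⟩ ⟨t, ht, ht1⟩
        refine ⟨s * t, ?_, by rw [map_mul, hs1, ht1, mul_one]⟩
        have := Wt_mul hX hs ht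
        convert this using 2
        push_cast; ring }
  have hgcd : Nat.setGcd (S : Set ℕ) = 1 := by
    refine hX.lineBundle y hy.1 _ fun k r hr h => ?_
    exact Nat.setGcd_dvd_of_mem (isoSource1_exists hH hy k r hr h)
  obtain ⟨n, hn⟩ := Nat.exists_mem_closure_of_ge (S : Set ℕ)
  have hS : ∀ m ≥ n, m ∈ S := by
    intro m hm
    have := hn m hm (by rw [hgcd]; exact one_dvd m)
    rwa [AddSubmonoid.closure_eq] at this
  obtain ⟨s, hs, hs1⟩ : (n + 1) ∈ S := hS _ (by omega)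
  obtain ⟨t, ht, ht1⟩ : (n + 2) ∈ S := hS _ (by omega)
  have hs0 : s ≠ 0 := by rintro rfl; simp at hs1
  have hqs : q s ≠ 0 := n1_ne_zero C hs hs0 hq
  refine ⟨q t / q s, fun k r hr => ?_⟩
  -- reduce to weight vectors of maximal slope
  have hlin : ∀ m : ℤ, ∀ r ∈ Wt 𝒜 P H k m, q r = (q t / q s) ^ k * y r := by
    intro m r hr
    by_cases hm : m = a * k
    · subst hm
      rcases Nat.eq_zero_or_pos k with rfl | hk
      · obtain ⟨c, rfl⟩ := hX.connected r (mem_Wt.mp hr).1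
        rw [AlgHom.commutes, AlgHom.commutes, pow_zero, one_mul]
      have h1 : r * s ^ k ∈ Wt 𝒜 P H (k * (n + 2)) (a * (k * (n + 2) : ℕ)) := by
        have := Wt_mul hX hr (Wt_pow hX hs k)
        convert this using 2
        · ring
        · push_cast; ring
      have h2 : t ^ k ∈ Wt 𝒜 P H (k * (n + 2)) (a * (k * (n + 2) : ℕ)) := by
        have := Wt_pow hX ht k
        convert this using 2
        push_cast; ring
      have h3 := n1_proportional C (Nat.mul_pos hk (by omega)) h1 h2 y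
        (by rw [map_pow, ht1, one_pow]; exact one_ne_zero)
      have h4 := congrArg q h3
      rw [map_smul, map_smul, map_mul, map_mul, map_pow, map_pow, map_pow, map_pow, ht1, hs1,
        one_pow, one_smul, mul_one, smul_eq_mul] at h4
      rw [div_pow, div_mul_eq_mul_div, eq_div_iff (pow_ne_zero k hqs), h4, mul_comm]
    · rw [((hasSlope_iff hH q a).1 hq).2 k m r hr hm, ((hasSlope_iff hH y a).1 hy).2 k m r hr hm,
        mul_zero]
  have h5 := hH.forall_of_Wt (q.toLinearMap - ((q t / q s) ^ k) • y.toLinearMap) k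
    (fun m r hr => by
      have := hlin m r hr
      rw [LinearMap.sub_apply, LinearMap.smul_apply, smul_eq_mul, sub_eq_zero]
      exact this) r hr
  rw [LinearMap.sub_apply, LinearMap.smul_apply, smul_eq_mul, sub_eq_zero] at h5
  exact h5

/-- If `n = 1` the source avoids the base locus. -/
theorem CtxN.isSourceFree_one (C : CtxN 𝒜 P H a 1) : IsSourceFree 𝒜 P H := by
  have hC := C.half.ctx
  obtain ⟨e, y, he, hy, hye, -⟩ :=
    exists_source_generator hC.hX hC.hH hC.hmax C.isolatedSource_one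
  intro p hp
  rw [hC.hmax.isSource_iff hC.hH] at hp
  refine ⟨e, (mem_Wt.1 he).1, n1_ne_zero C (N := 1) (by simpa using he) ?_ hp⟩
  rintro rfl
  simp at hye

end Vale.Agent.P292
end
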