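import Vale.Agent.P292.MathlibUsed
import Vale.Agent.P292.Bdl.B3
import Vale.Agent.P292.Bdl.B4
import Vale.Agent.P292.Bdl.B1
import Vale.Agent.P292.Bdl.B2

set_option linter.all false

section

/-! # Elimination of (SC): the minimal polynomial `Q` is homogeneous. -/

namespace Vale.Agent.P292

open Module Polynomial

universe u v

lemma homq_component_mul {σ κ : Type*} [CommRing κ] {N d : ℕ} {p q : MvPolynomial σ κ}
    (hq : q.IsHomogeneous d) :
    MvPolynomial.homogeneousComponent (N + d) (p * q) =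
      MvPolynomial.homogeneousComponent N p * q := by
  let inst := MvPolynomial.gradedAlgebra (σ := σ) (R := κ)
  have h := DirectSum.coe_decompose_mul_add_of_right_mem (MvPolynomial.homogeneousSubmodule σ κ)
    (i := N) (b := q) hq (a := p)
  have h1 : ∀ (φ : MvPolynomial σ κ) (i : ℕ),
      ((DirectSum.decompose (MvPolynomial.homogeneousSubmodule σ κ) φ i :
        MvPolynomial.homogeneousSubmodule σ κ i) : MvPolynomial σ κ) =
      MvPolynomial.homogeneousComponent i φ := fun φ i =>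
    MvPolynomial.decomposition.decompose'_apply φ i
  rw [h1, h1] at h
  exact h

/-- Uniqueness of monic irreducible polynomials with a given root over a normal domain. -/
theorem homq_unique {A B : Type*} [CommRing A] [CommRing B] [IsDomain A] [IsDomain B]
    [IsIntegrallyClosed A] (ψ : A →+* B) (hψ : Function.Injective ψ) {x : B} {Q Q' : A[X]}
    (hm : Q.Monic) (hirr : Irreducible Q) (hQ : Q.eval₂ ψ x = 0) (hm' : Q'.Monic)
    (hdeg : Q'.natDegree ≤ Q.natDegree) (hQ' : Q'.eval₂ ψ x = 0) : Q' = Q := by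
  let : Algebra A B := ψ.toAlgebra
  have : FaithfulSMul A B := (faithfulSMul_iff_algebraMap_injective A B).2 hψ
  have hint : IsIntegral A x := ⟨Q, hm, hQ⟩
  have h1 : minpoly A x ∣ Q := minpoly.isIntegrallyClosed_dvd hint hQ
  have h2 : minpoly A x ∣ Q' := minpoly.isIntegrallyClosed_dvd hint hQ'
  have h3 : Q = minpoly A x := by
    obtain ⟨g, hg⟩ := h1
    rcases hirr.isUnit_or_isUnit hg with h | h
    · exact absurd h (minpoly.not_isUnit A x)
    · refine eq_of_monic_of_dvd_of_natDegree_le (minpoly.monic hint) hm ⟨g, hg⟩ ?_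
      have hg0 : g.natDegree = 0 := natDegree_eq_zero_of_isUnit h
      rw [hg]
      refine (natDegree_mul_le).trans ?_
      rw [hg0, add_zero]
  exact eq_of_monic_of_dvd_of_natDegree_le hm hm' (h3 ▸ h2) hdeg

variable {R : Type u} [CommRing R] [Algebra ℂ R] {𝒜 : ℕ → Submodule ℂ R} [GradedAlgebra 𝒜]
  {P : R →ₗ[ℂ] R →ₗ[ℂ] R} {H : R} {a : ℤ} {n : ℕ}

/-- Homogeneous elements of `A₋` of degree `k` give homogeneous elements of degree `2k`. -/
theorem homq_homog {κ : Type v} [Field κ] [Algebra ℂ κ]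
    {Ψ : R →ₐ[ℂ] MvPolynomial (Fin n) κ} (hΨ : IsCell 𝒜 P H a Ψ) {k : ℕ} {c : R}
    (hc : c ∈ Wt 𝒜 P (-H) k (a * k)) : (Ψ c).IsHomogeneous (2 * k) := by
  refine hΨ.homog k (2 * k) c ?_
  rw [Wt_neg] at hc
  convert hc using 2
  push_cast
  ring

theorem homq_component (C : Ctx 𝒜 P H a) {κ : Type v} [Field κ] [Algebra ℂ κ]
    {Ψ : R →ₐ[ℂ] MvPolynomial (Fin n) κ} (hΨ : IsCell 𝒜 P H a Ψ) {c : R}
    (hc : c ∈ Ap 𝒜 P (-H) a) (k : ℕ) :
    MvPolynomial.homogeneousComponent (2 * k) (Ψ c) =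
      Ψ ((DirectSum.decompose 𝒜 c k : 𝒜 k) : R) := by
  classical
  conv_lhs => rw [← DirectSum.sum_support_decompose 𝒜 c]
  rw [map_sum, map_sum]
  have h1 : ∀ l : ℕ, MvPolynomial.homogeneousComponent (2 * k)
      (Ψ ((DirectSum.decompose 𝒜 c l : 𝒜 l) : R)) =
      if l = k then Ψ ((DirectSum.decompose 𝒜 c k : 𝒜 k) : R) else 0 := by
    intro l
    have h2 : (Ψ ((DirectSum.decompose 𝒜 c l : 𝒜 l) : R)).IsHomogeneous (2 * l) :=
      homq_homog hΨ (C.neg.mem_Ap_iff.1 hc l)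
    rw [MvPolynomial.homogeneousComponent_of_mem h2]
    by_cases hl : l = k
    · subst hl; rw [if_pos rfl, if_pos rfl]
    · rw [if_neg (by omega), if_neg hl]
  rw [Finset.sum_congr rfl fun l _ => h1 l, Finset.sum_ite_eq']
  by_cases hk : k ∈ DFinsupp.support (DirectSum.decompose 𝒜 c)
  · rw [if_pos hk]
  · rw [if_neg hk]
    rw [DFinsupp.notMem_support_iff] at hk
    rw [hk]
    simp

/-- (HOMQ) The coefficient of `X ^ (m - j)` in `Q` is homogeneous of degree `j`. -/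
theorem IsMinPoly.coeff_mem (C : CtxN 𝒜 P H a n) {y : R →ₐ[ℂ] ℂ} (hy : HasSlope 𝒜 P H y a)
    {f : Frame 𝒜 P H a n} (hΔ : y f.Δ ≠ 0) {Q : (Ap 𝒜 P (-H) a)[X]}
    (hQ : IsMinPoly 𝒜 P H a (C.half.ctx.cell f y) Q) (i : ℕ) :
    (Q.coeff i : R) ∈ Wt 𝒜 P (-H) (Q.natDegree - i) (a * (Q.natDegree - i : ℕ)) := by
  classical
  have hC := C.half.ctx
  have := hC.hX.domain
  have := hC.neg.isDomain_Ap
  have := hC.neg.isIntegrallyClosed_Ap
  set Ψ := hC.cell f y with hΨ
  have hcell : IsCell 𝒜 P H a Ψ := hC.isCell_of_complete hy f hΔ (C.half.complete y f hy hΔ)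
  set m := Q.natDegree with hm
  set ψ : Ap 𝒜 P (-H) a →+* MvPolynomial (Fin n) ℂ :=
    ((Ψ.comp (Ap 𝒜 P (-H) a).val : Ap 𝒜 P (-H) a →ₐ[ℂ] MvPolynomial (Fin n) ℂ) :
      Ap 𝒜 P (-H) a →+* MvPolynomial (Fin n) ℂ) with hψ
  have hψinj : Function.Injective ψ := by
    rw [injective_iff_map_eq_zero]
    intro c hc
    exact Subtype.ext (C.half.inj y f hy hΔ c c.2 hc)
  have hmem : ∀ j : ℕ, ((DirectSum.decompose 𝒜 (Q.coeff j : R) (m - j) : 𝒜 (m - j)) : R) ∈
      Wt 𝒜 P (-H) (m - j) (a * (m - j : ℕ)) := fun j => hC.neg.mem_Ap_iff.1 (Q.coeff j).2 (m - j)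
  let q : ℕ → Ap 𝒜 P (-H) a := fun j =>
    ⟨((DirectSum.decompose 𝒜 (Q.coeff j : R) (m - j) : 𝒜 (m - j)) : R), mem_Ap (hmem j)⟩
  have hqm : q m = 1 := by
    apply Subtype.ext
    change ((DirectSum.decompose 𝒜 (Q.coeff m : R) (m - m) : 𝒜 (m - m)) : R) = 1
    rw [hm, hQ.monic.coeff_natDegree, Nat.sub_self]
    exact DirectSum.decompose_of_mem_same 𝒜 SetLike.GradedOne.one_mem
  let Q' : (Ap 𝒜 P (-H) a)[X] := ∑ j ∈ Finset.range (m + 1), Polynomial.C (q j) * X ^ j
  have hcoeff : ∀ j, Q'.coeff j = if j < m + 1 then q j else 0 := by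
    intro j
    simp only [Q', finsetSum_coeff, coeff_C_mul, coeff_X_pow, mul_ite, mul_one, mul_zero]
    rw [Finset.sum_ite_eq]
    simp [Finset.mem_range]
  have hdeg : Q'.natDegree ≤ m := by
    refine natDegree_le_iff_coeff_eq_zero.2 fun j hj => ?_
    rw [hcoeff, if_neg (by omega)]
  have hmonic : Q'.Monic := by
    refine monic_of_natDegree_le_of_coeff_eq_one m hdeg ?_
    rw [hcoeff, if_pos (Nat.lt_succ_self m), hqm]
  have hh : (Ψ H ^ 2).IsHomogeneous 2 := by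
    have h1 : (Ψ H).IsHomogeneous 1 := by
      refine hcell.homog 1 1 H ?_
      have : H ∈ Wt 𝒜 P H 1 0 := by
        rw [mem_Wt]
        refine ⟨hC.hH.mem, ?_⟩
        rw [hC.hX.alternating]; simp
      convert this using 2
      push_cast; ring
    have h2 := h1.pow 2
    rwa [one_mul] at h2
  have hroot : Q'.eval₂ ψ (Ψ H ^ 2) = 0 := by
    have h1 : MvPolynomial.homogeneousComponent (2 * m) (Q.eval₂ ψ (Ψ H ^ 2)) = 0 := by
      rw [hQ.root, map_zero]
    rw [eval₂_eq_sum_range, map_sum] at h1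
    rw [← h1]
    simp only [Q', eval₂_finsetSum, eval₂_mul, eval₂_C, eval₂_X_pow]
    refine Finset.sum_congr rfl fun j hj => ?_
    have hj' : j ≤ m := Nat.lt_succ_iff.1 (Finset.mem_range.1 hj)
    have h2 : 2 * m = 2 * (m - j) + 2 * j := by omega
    have h3 : ((Ψ H ^ 2) ^ j).IsHomogeneous (2 * j) := hh.pow j
    rw [h2, homq_component_mul h3]
    congr 1
    exact (homq_component hC hcell (Q.coeff j).2 (m - j)).symm
  have hEq : Q' = Q := homq_unique ψ hψinj hQ.monic hQ.irreducible hQ.root hmonic hdeg hroot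
  by_cases hi : i < m + 1
  · have h1 : Q.coeff i = q i := by
      rw [← hEq, hcoeff, if_pos hi]
    rw [h1]
    exact hmem i
  · have h1 : Q.coeff i = 0 := by
      rw [← hEq, hcoeff, if_neg hi]
    rw [h1]
    exact zero_mem _

end Vale.Agent.P292
end

section

/-! # Elimination of (SC): Galois theory of the integral closure. -/

namespace Vale.Agent.P292

open Module Polynomial

universe u v

section

variable {R : Type u} {M : Type v} [CommRing R] [IsDomain R] [Field M] [Algebra R M]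
  [Algebra (FractionRing R) M] [IsScalarTower R (FractionRing R) M]
  [FiniteDimensional (FractionRing R) M]

/-- The automorphism group of the integral closure is finite. -/
theorem finite_aut_integralClosure :
    Finite (integralClosure R M ≃ₐ[R] integralClosure R M) :=
  Finite.of_equiv _ (galRestrict R (FractionRing R) M (integralClosure R M)).toEquiv

/-- The invariants of the automorphism group are the elements of `R`. -/
theorem exists_of_invariant [IsIntegrallyClosed R] [IsGalois (FractionRing R) M]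
    (s : integralClosure R M)
    (hs : ∀ σ : integralClosure R M ≃ₐ[R] integralClosure R M, σ s = s) :
    ∃ r, algebraMap R (integralClosure R M) r = s := by
  have h1 : ∀ τ : M ≃ₐ[FractionRing R] M, τ (s : M) = s := by
    intro τ
    have h2 := algebraMap_galRestrict_apply R (K := FractionRing R) (L := M) τ s
    rw [hs] at h2
    exact h2.symm
  have h2 : (s : M) ∈ (⊥ : IntermediateField (FractionRing R) M) :=
    (IsGalois.mem_bot_iff_fixed _).2 h1
  obtain ⟨c, hc⟩ := IntermediateField.mem_bot.1 h2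
  have h3 : IsIntegral R (algebraMap (FractionRing R) M c) := by
    rw [hc]
    exact s.2
  have h4 : IsIntegral R c :=
    (isIntegral_algHom_iff (IsScalarTower.toAlgHom R (FractionRing R) M)
      (algebraMap (FractionRing R) M).injective).1 h3
  obtain ⟨r, hr⟩ := IsIntegrallyClosed.isIntegral_iff.1 h4
  refine ⟨r, Subtype.ext ?_⟩
  rw [← hc, ← hr, ← IsScalarTower.algebraMap_apply]
  rfl

end

end Vale.Agent.P292
end

section

/-! Theorem E without (SC), group U: the reduction to the local ring `𝒪`.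
See `E/PROOF_SC.md`, (B0). -/

namespace Vale.Agent.P292

open Module Polynomial

universe u v

variable {R : Type u} [CommRing R]

/-- The reduction with all the algebra structures given. -/
theorem u3_aux [IsDomain R] [IsIntegrallyClosed R] {ϖ : R} (hϖ : ϖ ≠ 0)
    {FR : Type u} [Field FR] [Algebra R FR] [IsFractionRing R FR]
    {M : Type u} [Field M] [Algebra FR M] [Algebra R M] [IsScalarTower R FR M] {X₀ : Set M}
    (hX₀ : ∀ x ∈ X₀, IsIntegral R x)
    (htop : IntermediateField.adjoin FR X₀ = ⊤)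
    (𝒪 : Type u) [CommRing 𝒪] [IsDomain 𝒪] [IsIntegrallyClosed 𝒪] [Algebra R 𝒪]
    (K : Type u) [Field K] [CharZero K] [Algebra 𝒪 K] [IsFractionRing 𝒪 K]
    (hinj : Function.Injective (algebraMap R 𝒪))
    (hred : ∀ x : 𝒪, algebraMap R 𝒪 ϖ ∣ x ^ 2 → algebraMap R 𝒪 ϖ ∣ x)
    (hdvd : ∀ (r : R) (i : ℕ), algebraMap R 𝒪 ϖ ^ i ∣ algebraMap R 𝒪 r → ϖ ^ i ∣ r)
    (Ω : Type u) [Field Ω] [IsAlgClosed Ω] [Algebra K Ω] [Algebra 𝒪 Ω] [IsScalarTower 𝒪 K Ω]
    [Algebra R K] [IsScalarTower R 𝒪 K] [Algebra R Ω] [IsScalarTower R 𝒪 Ω]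
    [Algebra FR K] [IsScalarTower R FR K] [Algebra FR Ω] [IsScalarTower R FR Ω]
    [IsScalarTower FR K Ω]
    (hconj : ∀ x ∈ X₀, ∃ Q : R[X], Q.Monic ∧ aeval x Q = 0 ∧ ∀ ρ : Ω, aeval ρ Q = 0 →
      ρ ∈ IntermediateField.adjoin K (EtGen 𝒪 Ω))
    {s : M} (hs : IsIntegral R (s ^ 2 / algebraMap R M ϖ)) :
    IsIntegral R (s / algebraMap R M ϖ) := by
  have hinjFR : Function.Injective (algebraMap R FR) := IsFractionRing.injective R FR
  have hϖFR : algebraMap R FR ϖ ≠ 0 := by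
    rw [Ne, map_eq_zero_iff _ hinjFR]
    exact hϖ
  have hϖ𝒪 : algebraMap R 𝒪 ϖ ≠ 0 := by
    rw [Ne, map_eq_zero_iff _ hinj]
    exact hϖ
  have hϖM : algebraMap R M ϖ ≠ 0 := by
    rw [IsScalarTower.algebraMap_apply R FR M, Ne, map_eq_zero_iff _ (algebraMap FR M).injective]
    exact hϖFR
  have hS : ∀ z ∈ X₀, IsIntegral FR z ∧ ((minpoly FR z).map (algebraMap FR Ω)).Splits :=
    fun z hz => ⟨(hX₀ z hz).tower_top, IsAlgClosed.splits _⟩
  obtain ⟨t, ht⟩ : ∃ t, t = s / algebraMap R M ϖ := ⟨_, rfl⟩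
  have hst : s = algebraMap R M ϖ * t := by
    rw [ht, mul_div_cancel₀ _ hϖM]
  have hsint : IsIntegral R s := by
    refine IsIntegral.of_pow two_pos ?_
    rw [show s ^ 2 = algebraMap R M ϖ * (s ^ 2 / algebraMap R M ϖ) from
      (mul_div_cancel₀ _ hϖM).symm]
    exact isIntegral_algebraMap.mul hs
  have htsplit : ((minpoly FR t).map (algebraMap FR Ω)).Splits := IsAlgClosed.splits _
  have htFR : IsIntegral FR t := by
    have h1 : t = (algebraMap FR M (algebraMap R FR ϖ)⁻¹) * s := by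
      rw [ht, map_inv₀, ← IsScalarTower.algebraMap_apply, div_eq_inv_mul]
    rw [h1]
    exact isIntegral_algebraMap.mul hsint.tower_top
  -- the conjugates
  have hconj2 : ∀ τ : Ω, ((minpoly FR t).map (algebraMap FR Ω)).IsRoot τ →
      ∃ φ : M →ₐ[FR] Ω, φ t = τ := by
    intro τ hτ
    refine IntermediateField.exists_algHom_of_adjoin_splits_of_aeval hS htop ?_
    rw [IsRoot, eval_map_algebraMap] at hτ
    exact hτ
  have hφϖ : ∀ φ : M →ₐ[FR] Ω, φ (algebraMap R M ϖ) = algebraMap R Ω ϖ := by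
    intro φ
    rw [IsScalarTower.algebraMap_apply R FR M, φ.commutes, ← IsScalarTower.algebraMap_apply]
  have hφmem : ∀ (φ : M →ₐ[FR] Ω) (m : M), φ m ∈ IntermediateField.adjoin K (EtGen 𝒪 Ω) := by
    intro φ m
    have hm : m ∈ IntermediateField.adjoin FR X₀ := by
      rw [htop]
      exact IntermediateField.mem_top
    refine IntermediateField.adjoin_induction FR
      (p := fun m _ => φ m ∈ IntermediateField.adjoin K (EtGen 𝒪 Ω)) ?_ ?_ ?_ ?_ ?_ hm
    · intro x hx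
      obtain ⟨Q, -, hQx, hQ⟩ := hconj x hx
      refine hQ _ ?_
      have h1 : aeval ((φ.restrictScalars R) x) Q = (φ.restrictScalars R) (aeval x Q) :=
        aeval_algHom_apply _ _ _
      rw [hQx, map_zero] at h1
      exact h1
    · intro x
      rw [φ.commutes, IsScalarTower.algebraMap_apply FR K Ω]
      exact IntermediateField.algebraMap_mem _ _
    · intro x y _ _ hx hy
      rw [map_add]
      exact add_mem hx hy
    · intro x _ hx
      rw [map_inv₀]
      exact inv_mem hx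
    · intro x y _ _ hx hy
      rw [map_mul]
      exact mul_mem hx hy
  have hconjint : ∀ φ : M →ₐ[FR] Ω, IsIntegral 𝒪 (φ t) := by
    intro φ
    have h1 : IsIntegral R (φ (s ^ 2 / algebraMap R M ϖ)) :=
      hs.map (φ.restrictScalars R)
    have h2 : IsIntegral 𝒪 ((φ s) ^ 2 / algebraMap 𝒪 Ω (algebraMap R 𝒪 ϖ)) := by
      rw [← IsScalarTower.algebraMap_apply R 𝒪 Ω, ← hφϖ φ, ← map_pow, ← map_div₀]
      exact h1.tower_top
    have h3 := red_tower (K := K) hϖ𝒪 hred (hφmem φ s) h2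
    rw [ht, map_div₀, hφϖ, IsScalarTower.algebraMap_apply R 𝒪 Ω]
    exact h3
  have hcoeff : ∀ i, IsIntegral 𝒪 (((minpoly FR t).map (algebraMap FR Ω)).coeff i) := by
    intro i
    refine Polynomial.isIntegral_coeff_of_factors _ ?_ htsplit ?_ i
    · rw [((minpoly.monic htFR).map _).leadingCoeff]
      exact isIntegral_one
    · intro τ hτ
      obtain ⟨φ, rfl⟩ := hconj2 τ hτ
      exact hconjint φ
  have hcoeff2 : ∀ i, ∃ o : 𝒪, algebraMap 𝒪 K o = algebraMap FR K ((minpoly FR t).coeff i) := by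
    intro i
    have h1 := hcoeff i
    rw [coeff_map, IsScalarTower.algebraMap_apply FR K Ω] at h1
    have h2 : IsIntegral 𝒪 (algebraMap FR K ((minpoly FR t).coeff i)) :=
      (isIntegral_algebraMap_iff (algebraMap K Ω).injective).1 h1
    exact IsIntegrallyClosed.isIntegral_iff.1 h2
  -- the scaled polynomial
  obtain ⟨p, hp⟩ : ∃ p : FR[X], p = (minpoly FR t).scaleRoots (algebraMap R FR ϖ) := ⟨_, rfl⟩
  have hps : minpoly FR s = p := by
    have h1 : s = algebraMap R FR ϖ • t := by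
      rw [hst, Algebra.smul_def, ← IsScalarTower.algebraMap_apply]
    rw [h1, hp]
    exact IsIntegrallyClosed.minpoly_smul hϖFR htFR
  have hcoeff3 : ∀ i, ∃ c : R, algebraMap R FR c = (minpoly FR t).coeff i *
      algebraMap R FR ϖ ^ ((minpoly FR t).natDegree - i) := by
    intro i
    have h1 : minpoly FR s = (minpoly R s).map (algebraMap R FR) :=
      minpoly.isIntegrallyClosed_eq_field_fractions' FR hsint
    refine ⟨(minpoly R s).coeff i, ?_⟩
    rw [← coeff_map, ← h1, hps, hp, coeff_scaleRoots]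
  have hcoeff4 : ∀ i, ∃ e : R, algebraMap R FR e = (minpoly FR t).coeff i := by
    intro i
    obtain ⟨o, ho⟩ := hcoeff2 i
    obtain ⟨c, hc⟩ := hcoeff3 i
    have h1 : algebraMap R 𝒪 c =
        o * algebraMap R 𝒪 ϖ ^ ((minpoly FR t).natDegree - i) := by
      refine IsFractionRing.injective 𝒪 K ?_
      rw [map_mul, map_pow, ho, ← IsScalarTower.algebraMap_apply R 𝒪 K,
        ← IsScalarTower.algebraMap_apply R 𝒪 K, IsScalarTower.algebraMap_apply R FR K, hc,
        map_mul, map_pow, ← IsScalarTower.algebraMap_apply R FR K]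
    obtain ⟨e, he⟩ := hdvd c _ (Dvd.intro_left _ h1.symm)
    refine ⟨e, ?_⟩
    have h2 : (algebraMap R FR ϖ ^ ((minpoly FR t).natDegree - i)) * algebraMap R FR e =
        (algebraMap R FR ϖ ^ ((minpoly FR t).natDegree - i)) * (minpoly FR t).coeff i := by
      rw [← map_pow, ← map_mul, ← he, hc, map_pow, mul_comm]
    exact mul_left_cancel₀ (pow_ne_zero _ hϖFR) h2
  have hlift : minpoly FR t ∈ Polynomial.lifts (algebraMap R FR) := by
    rw [Polynomial.lifts_iff_coeff_lifts]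
    intro i
    exact hcoeff4 i
  obtain ⟨g, hg, -, hgm⟩ := Polynomial.lifts_and_natDegree_eq_and_monic hlift
    (minpoly.monic htFR)
  rw [← ht]
  refine ⟨g, hgm, ?_⟩
  rw [← aeval_def, ← aeval_map_algebraMap FR, hg, minpoly.aeval]

/-- Let `M ⊇ Frac R` be generated by elements `x ∈ X₀` all of whose conjugates lie in the field
generated over `K = Frac 𝒪` by roots of separable monic polynomials over `𝒪`, where
`𝒪 ⊇ R` is normal and `(ϖ)` is radical in `𝒪`, `ϖ^i 𝒪 ∩ R = ϖ^i R`. Then squares divisible by `ϖ`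
are divisible by `ϖ²` among the elements of `M` integral over `R`. -/
theorem div_isIntegral_of_etGen [IsDomain R] [IsIntegrallyClosed R] {ϖ : R} (hϖ : ϖ ≠ 0)
    {FR : Type u} [Field FR] [Algebra R FR] [IsFractionRing R FR]
    {M : Type u} [Field M] [Algebra FR M] [Algebra R M] [IsScalarTower R FR M] {X₀ : Set M}
    (hX₀ : ∀ x ∈ X₀, IsIntegral R x)
    (htop : IntermediateField.adjoin FR X₀ = ⊤)
    (𝒪 : Type u) [CommRing 𝒪] [IsDomain 𝒪] [IsIntegrallyClosed 𝒪] [Algebra R 𝒪]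
    (K : Type u) [Field K] [CharZero K] [Algebra 𝒪 K] [IsFractionRing 𝒪 K]
    (hinj : Function.Injective (algebraMap R 𝒪))
    (hred : ∀ x : 𝒪, algebraMap R 𝒪 ϖ ∣ x ^ 2 → algebraMap R 𝒪 ϖ ∣ x)
    (hdvd : ∀ (r : R) (i : ℕ), algebraMap R 𝒪 ϖ ^ i ∣ algebraMap R 𝒪 r → ϖ ^ i ∣ r)
    (Ω : Type u) [Field Ω] [IsAlgClosed Ω] [Algebra K Ω] [Algebra 𝒪 Ω] [IsScalarTower 𝒪 K Ω]
    (hconj : ∀ x ∈ X₀, ∃ Q : R[X], Q.Monic ∧ aeval x Q = 0 ∧ ∀ ρ : Ω,
      (Q.map ((algebraMap 𝒪 Ω).comp (algebraMap R 𝒪))).eval ρ = 0 →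
      ρ ∈ IntermediateField.adjoin K (EtGen 𝒪 Ω))
    {s : M} (hs : IsIntegral R (s ^ 2 / algebraMap R M ϖ)) :
    IsIntegral R (s / algebraMap R M ϖ) := by
  let _ : Algebra R K := ((algebraMap 𝒪 K).comp (algebraMap R 𝒪)).toAlgebra
  have _ : IsScalarTower R 𝒪 K := IsScalarTower.of_algebraMap_eq (fun _ => rfl)
  let _ : Algebra R Ω := ((algebraMap 𝒪 Ω).comp (algebraMap R 𝒪)).toAlgebra
  have _ : IsScalarTower R 𝒪 Ω := IsScalarTower.of_algebraMap_eq (fun _ => rfl)
  have hinjK : Function.Injective (algebraMap R K) :=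
    (IsFractionRing.injective 𝒪 K).comp hinj
  let _ : Algebra FR K := (IsFractionRing.lift hinjK).toAlgebra
  have _ : IsScalarTower R FR K := IsScalarTower.of_algebraMap_eq (fun r =>
    (IsFractionRing.lift_algebraMap hinjK r).symm)
  let _ : Algebra FR Ω := ((algebraMap K Ω).comp (algebraMap FR K)).toAlgebra
  have _ : IsScalarTower FR K Ω := IsScalarTower.of_algebraMap_eq (fun _ => rfl)
  have _ : IsScalarTower R FR Ω := IsScalarTower.of_algebraMap_eq (fun r => by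
    rw [IsScalarTower.algebraMap_apply FR K Ω, ← IsScalarTower.algebraMap_apply R FR K,
      IsScalarTower.algebraMap_apply R 𝒪 Ω, IsScalarTower.algebraMap_apply R 𝒪 K,
      ← IsScalarTower.algebraMap_apply 𝒪 K Ω])
  refine u3_aux hϖ hX₀ htop 𝒪 K hinj hred hdvd Ω ?_ hs
  intro x hx
  obtain ⟨Q, hQ, hQx, hQρ⟩ := hconj x hx
  refine ⟨Q, hQ, hQx, fun ρ hρ => hQρ ρ ?_⟩
  rw [← hρ, eval_map, aeval_def]
  rfl

end Vale.Agent.P292
end

section

/-! Theorem E, section 8: zeros of primes. See `PROOF.md`. -/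

set_option linter.all false

namespace Vale.Agent.P292

open Module Polynomial

universe u v

variable {R : Type u} [CommRing R] [Algebra ℂ R] {𝒜 : ℕ → Submodule ℂ R} [GradedAlgebra 𝒜]
  {P : R →ₗ[ℂ] R →ₗ[ℂ] R} {H : R} {a : ℤ} {n : ℕ}

end Vale.Agent.P292
end

section

/-! Theorem E, section 8: good frames. See `PROOF.md`. -/

namespace Vale.Agent.P292

open Module Polynomial

universe u v

variable {R : Type u} [CommRing R] [Algebra ℂ R] {𝒜 : ℕ → Submodule ℂ R} [GradedAlgebra 𝒜]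
  {P : R →ₗ[ℂ] R →ₗ[ℂ] R} {H : R} {a : ℤ} {n : ℕ}

end Vale.Agent.P292
end

section

/-! Theorem E without (SC) and without factoriality, group U: good frames.
See `E/PROOF_SC.md`, (B0). -/

namespace Vale.Agent.P292

open Module

universe u v

variable {R : Type u} [CommRing R] [Algebra ℂ R] {𝒜 : ℕ → Submodule ℂ R} [GradedAlgebra 𝒜]
  {P : R →ₗ[ℂ] R →ₗ[ℂ] R} {H : R} {a : ℤ} {n : ℕ}

/-- If the reduction of the pure point `x` modulo the prime `ϖ` is not the vertex, then for some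
frame the cell over `x` is injective modulo `ϖ` on `A₋`. -/
theorem Half.exists_good_frame' (C : Half 𝒜 P H a n) {V : Type v} [CommRing V] [IsDomain V]
    [Algebra ℂ V] (x : R →ₐ[ℂ] V) (hx : PureA 𝒜 P H a x) {ϖ : V} (hϖ : Prime ϖ)
    (hu : ∃ k : ℕ, 0 < k ∧ ∃ c ∈ Wt 𝒜 P H k (a * k), ¬ ϖ ∣ x c) :
    ∃ f : Frame 𝒜 P H a n, f.Δ ≠ 0 ∧ ∀ b ∈ Ap 𝒜 P (-H) a, b ≠ 0 →
      ¬ MvPolynomial.C ϖ ∣ C.ctx.cell f x b := by
  obtain ⟨k, hk, c, hc, hϖc⟩ := hu
  have hprime : (Ideal.span {ϖ}).IsPrime := (Ideal.span_singleton_prime hϖ.ne_zero).2 hϖ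
  have hdom : IsDomain (V ⧸ Ideal.span {ϖ}) := Ideal.Quotient.isDomain _
  let q : V →ₐ[ℂ] V ⧸ Ideal.span {ϖ} := Ideal.Quotient.mkₐ ℂ (Ideal.span {ϖ})
  have hq : ∀ v : V, q v = 0 ↔ ϖ ∣ v := fun v => by
    rw [← Ideal.mem_span_singleton]
    exact Ideal.Quotient.eq_zero_iff_mem
  obtain ⟨z, hz0, hzc⟩ := exists_closed C.ctx.hX (q.comp x) c (by
    rw [AlgHom.comp_apply]
    exact fun h => hϖc ((hq _).1 h))
  have hzp : PureA 𝒜 P H a z := fun k' m hm r hr => hz0 r (hx.comp q k' m hm r hr)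
  have hzs : HasSlope 𝒜 P H z a := C.ctx.hasSlope_iff_pure.2 ⟨hzp, k, hk, c, hc, hzc⟩
  obtain ⟨f, hf⟩ := C.exists_frame z hzs
  refine ⟨f, fun h => hf (by rw [h, map_zero]), fun b hb hb0 hdvd => hb0 ?_⟩
  refine C.inj z f hzs hf b hb ?_
  ext α
  rw [C.ctx.ex3_coeff_cell, MvPolynomial.coeff_zero]
  refine hz0 _ ?_
  rw [AlgHom.comp_apply, hq, ← C.ctx.ex3_coeff_cell f x b α]
  exact (MvPolynomial.C_dvd_iff_dvd_coeff _ _).1 hdvd α

end Vale.Agent.P292
end

section

/-! Theorem E, section 4: (GENCELL). See `PROOF.md`. -/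

namespace Vale.Agent.P292

open Module

universe u v

variable {R : Type u} [CommRing R] [Algebra ℂ R] {𝒜 : ℕ → Submodule ℂ R} [GradedAlgebra 𝒜]
  {P : R →ₗ[ℂ] R →ₗ[ℂ] R} {H : R} {a : ℤ} {n : ℕ}

/-- The element of `R` which vanishes at the points of a cell. -/
noncomputable def di5_g (Q : MvPolynomial (Fin n) R) (r Δ : R) (ρ : Fin n → R) : R :=
  Δ ^ Q.totalDegree * r - ∑ α ∈ Q.support,
    Q.coeff α * (∏ i, ρ i ^ α i) * Δ ^ (Q.totalDegree - ∑ i, α i)

omit [Algebra ℂ R] in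
theorem di5_g_apply (Q : MvPolynomial (Fin n) R) (r Δ : R) (ρ : Fin n → R) {B : Type*}
    [CommRing B] (φ : R →+* B) (ξ : Fin n → B) (h : ∀ i, φ (ρ i) = φ Δ * ξ i) :
    φ (di5_g Q r Δ ρ) = φ Δ ^ Q.totalDegree * (φ r - MvPolynomial.eval₂ φ ξ Q) := by
  unfold di5_g
  rw [map_sub, map_mul, map_pow, map_sum, MvPolynomial.eval₂_eq', mul_sub, Finset.mul_sum]
  congr 1
  refine Finset.sum_congr rfl fun α hα => ?_
  have hle : ∑ i, α i ≤ Q.totalDegree := by
    have h1 := MvPolynomial.le_totalDegree hα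
    rwa [Finsupp.sum_fintype _ _ (fun _ => rfl)] at h1
  have h2 : φ Δ ^ Q.totalDegree = φ Δ ^ (∑ i, α i) * φ Δ ^ (Q.totalDegree - ∑ i, α i) := by
    rw [← pow_add, Nat.add_sub_cancel' hle]
  rw [map_mul, map_mul, map_pow, map_prod, h2, ← Finset.prod_pow_eq_pow_sum]
  have h3 : ∏ i, φ (ρ i ^ α i) = (∏ i, φ Δ ^ α i) * ∏ i, ξ i ^ α i := by
    rw [← Finset.prod_mul_distrib]
    refine Finset.prod_congr rfl fun i _ => ?_
    rw [map_pow, h, mul_pow]
  rw [h3]
  ring

omit [GradedAlgebra 𝒜] in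
/-- The rule of Cramer. -/
theorem di5_cramer (f : Frame 𝒜 P H a n) {B : Type*} [CommRing B] (φ : R →+* B) (ξ : Fin n → B)
    (h : ∀ j, φ (f.r j) = ∑ i, φ (P (f.b i) (f.r j)) * ξ i) (i : Fin n) :
    φ (∑ j, f.r j * f.mat.adjugate j i) = φ f.Δ * ξ i := by
  rw [map_sum]
  have h1 : ∀ j, φ (f.r j * f.mat.adjugate j i) =
      ∑ l, φ (f.mat l j * f.mat.adjugate j i) * ξ l := by
    intro j
    rw [map_mul, h j, Finset.sum_mul]
    refine Finset.sum_congr rfl fun l _ => ?_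
    have : f.mat l j = P (f.b l) (f.r j) := rfl
    rw [this, map_mul]
    ring
  simp only [h1]
  rw [Finset.sum_comm]
  have h2 : ∀ l, ∑ j, φ (f.mat l j * f.mat.adjugate j i) * ξ l =
      φ ((f.mat * f.mat.adjugate) l i) * ξ l := by
    intro l
    rw [← Finset.sum_mul, ← map_sum, Matrix.mul_apply]
  simp only [h2]
  rw [Matrix.mul_adjugate, Finset.sum_eq_single i]
  · rw [Matrix.smul_apply, Matrix.one_apply_eq, smul_eq_mul, mul_one]
    rfl
  · intro l _ hl
    rw [Matrix.smul_apply, Matrix.one_apply_ne hl, smul_zero, map_zero, zero_mul]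
  · intro hi
    exact absurd (Finset.mem_univ i) hi

/-- (GENCELL) -/
theorem Half.gen_cell (C : Half 𝒜 P H a n) (hn : 0 < n) (f : Frame 𝒜 P H a n)
    {K : Type v} [Field K] [Algebra ℂ K]
    (x : R →ₐ[ℂ] K) (hW : TypeW 𝒜 P H a x) (hΔ : x f.Δ ≠ 0) :
    ∃ ν : R →ₐ[ℂ] K, PureA 𝒜 P H a ν ∧ (∀ c ∈ Ap 𝒜 P H a, ν c = x c) ∧
      ∃ ξ : Fin n → K, ∀ r, x r = MvPolynomial.aeval ξ (C.ctx.cell f ν r) := by
  obtain ⟨pr, hpr, hprA, -⟩ := C.ctx.exists_pr
  have hDA := Frame.Δ_mem C.ctx f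
  set ρ : Fin n → R := fun i => ∑ j, f.r j * f.mat.adjugate j i with hρ
  refine ⟨x.comp pr, hpr.comp x, fun c hc => by rw [AlgHom.comp_apply, hprA c hc],
    fun i => x (ρ i) / x f.Δ, fun r => ?_⟩
  set ξ : Fin n → K := fun i => x (ρ i) / x f.Δ with hξ
  set Q := C.ctx.cell f pr r with hQ
  rw [C.ctx.cell_comp f pr x r, MvPolynomial.aeval_def, MvPolynomial.eval₂_map,
    Algebra.algebraMap_self, RingHom.id_comp, ← hQ]
  by_contra hne
  have hρξ : ∀ i, (x : R →+* K) (ρ i) = (x : R →+* K) f.Δ * ξ i := fun i => by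
    simp only [hξ, RingHom.coe_coe]
    rw [mul_div_cancel₀ _ hΔ]
  have hg := di5_g_apply Q r f.Δ ρ (x : R →+* K) ξ hρξ
  have hg0 : x (di5_g Q r f.Δ ρ * f.Δ) ≠ 0 := by
    rw [map_mul]
    refine mul_ne_zero ?_ hΔ
    intro h0
    rw [RingHom.coe_coe, h0] at hg
    rcases mul_eq_zero.1 hg.symm with h1 | h1
    · exact pow_ne_zero _ hΔ h1
    · exact hne (sub_eq_zero.1 h1)
  have := C.ctx.hX.finiteType
  obtain ⟨x', hker, hx'⟩ := exists_closed_point x _ hg0
  rw [map_mul] at hx'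
  have hx'g := left_ne_zero_of_mul hx'
  have hx'Δ := right_ne_zero_of_mul hx'
  have hW' : TypeW 𝒜 P H a x' := fun k m hm s hs => hker s (hW k m hm s hs)
  set y' : R →ₐ[ℂ] ℂ := x'.comp pr with hy'
  have hy'pure : PureA 𝒜 P H a y' := hpr.comp x'
  have hy'A : ∀ c ∈ Ap 𝒜 P H a, y' c = x' c := fun c hc => by
    rw [hy', AlgHom.comp_apply, hprA c hc]
  have hy'Δ : y' f.Δ ≠ 0 := by rw [hy'A _ hDA]; exact hx'Δ
  have hslope : HasSlope 𝒜 P H y' a :=
    C.ctx.hasSlope_iff_pure.2 ⟨hy'pure, Frame.nv C.ctx hn f y' hy'Δ⟩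
  obtain ⟨ξ', hξ'⟩ := C.ctx.cell_lemma hslope f hy'Δ (C.complete y' f hslope hy'Δ) x' hW'
    (fun c hc => by rw [Algebra.algebraMap_self, RingHom.id_apply, hy'A c hc])
  have hev : ∀ s, x' s = MvPolynomial.eval₂ (x' : R →+* ℂ) ξ' (C.ctx.cell f pr s) := by
    intro s
    rw [hξ' s, hy', C.ctx.cell_comp f pr x' s, MvPolynomial.aeval_def, MvPolynomial.eval₂_map,
      Algebra.algebraMap_self, RingHom.id_comp]
  have hcr : ∀ j, (x' : R →+* ℂ) (f.r j) =
      ∑ i, (x' : R →+* ℂ) (P (f.b i) (f.r j)) * ξ' i := by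
    intro j
    rw [RingHom.coe_coe, hξ' (f.r j), C.ctx.cell_defect_one f hy'pure (f.hr j), map_sum]
    refine Finset.sum_congr rfl fun i _ => ?_
    rw [map_mul, MvPolynomial.aeval_C, MvPolynomial.aeval_X, Algebra.algebraMap_self,
      RingHom.id_apply, hy'A _ (mem_Ap (C.ctx.P_defect_one (f.hb i) (f.hr j)))]
  have hg' := di5_g_apply Q r f.Δ ρ (x' : R →+* ℂ) ξ' (fun i => di5_cramer f _ ξ' hcr i)
  apply hx'g
  rw [RingHom.coe_coe] at hg'
  rw [hg', hQ, ← hev r, sub_self, mul_zero]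

end Vale.Agent.P292
end

section

/-! Theorem E, general algebra: integral coefficients. See `PROOF.md`. -/

namespace Vale.Agent.P292

open Module Polynomial

universe u v w

attribute [local instance] MvPolynomial.algebraMvPolynomial in
/-- A polynomial with coefficients in `F` integral over a subring has coefficients integral. -/
theorem al7_aux {A : Type u} {F : Type v} [CommRing A] [Field F]
    [Algebra A F] {n : ℕ} (p : MvPolynomial (Fin n) F)
    (hp : ∃ q : (MvPolynomial (Fin n) A)[X], q.Monic ∧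
      q.eval₂ (MvPolynomial.map (algebraMap A F)) p = 0) (α : Fin n →₀ ℕ) :
    IsIntegral A (MvPolynomial.coeff α p) :=
  MvPolynomial.isIntegral_iff_isIntegral_coeff.1
    (show IsIntegral (MvPolynomial (Fin n) A) p from hp) α

/-- A polynomial with coefficients in `F` integral over a subring has coefficients integral. -/
theorem isIntegral_coeff_of_isIntegral {A : Type u} {F : Type v} [CommRing A] [Field F]
    [Algebra A F] {n : ℕ} (p : MvPolynomial (Fin n) F)
    (hp : ∃ q : (MvPolynomial (Fin n) A)[X], q.Monic ∧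
      q.eval₂ (MvPolynomial.map (algebraMap A F)) p = 0) (α : Fin n →₀ ℕ) :
    IsIntegral A (MvPolynomial.coeff α p) :=
  al7_aux p hp α

end Vale.Agent.P292
end

section

/-! Theorem E, section 8: the splitting field for primes of `A₋`. See `PROOF.md`. -/

namespace Vale.Agent.P292

open Module Polynomial

universe u v w

theorem un5_root {S : Type*} [CommRing S] {q : S} {s : Multiset S} (hq : q ∈ s) :
    (s.map fun q => X - C q).prod.eval q = 0 := by
  obtain ⟨t, rfl⟩ := Multiset.exists_cons_of_mem hq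
  simp

/-- The local ring of the prime `ϖ` in the polynomial ring. -/
theorem un5_loc {R : Type u} [CommRing R] [IsDomain R] [UniqueFactorizationMonoid R] (n : ℕ)
    {ϖ : R} (hϖ : Prime ϖ) :
    ∃ (𝒪 : Type u) (_ : CommRing 𝒪) (_ : IsDomain 𝒪) (_ : IsIntegrallyClosed 𝒪)
      (γ : MvPolynomial (Fin n) R →+* 𝒪),
      Function.Injective γ ∧ Prime (γ (MvPolynomial.C ϖ)) ∧
      (∀ x : 𝒪, ¬ γ (MvPolynomial.C ϖ) ∣ x → IsUnit x) ∧
      (∀ (r : R) (i : ℕ), γ (MvPolynomial.C ϖ) ^ i ∣ γ (MvPolynomial.C r) → ϖ ^ i ∣ r) ∧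
      ∀ p, ¬ MvPolynomial.C ϖ ∣ p → IsUnit (γ p) := by
  set π : MvPolynomial (Fin n) R := MvPolynomial.C ϖ with hπ
  have hπp : Prime π := (MvPolynomial.prime_C_iff (Fin n)).2 hϖ
  have hI : (Ideal.span {π}).IsPrime := (Ideal.span_singleton_prime hπp.ne_zero).2 hπp
  have hle : (Ideal.span {π}).primeCompl ≤ nonZeroDivisors (MvPolynomial (Fin n) R) :=
    (Ideal.span {π}).primeCompl_le_nonZeroDivisors
  have hinj : Function.Injective (algebraMap (MvPolynomial (Fin n) R)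
      (Localization.AtPrime (Ideal.span {π}))) :=
    IsLocalization.injective _ hle
  have hdom : IsDomain (Localization.AtPrime (Ideal.span {π})) :=
    IsLocalization.isDomain_localization hle
  have hic : IsIntegrallyClosed (Localization.AtPrime (Ideal.span {π})) :=
    isIntegrallyClosed_of_isLocalization (Localization.AtPrime (Ideal.span {π}))
      (Ideal.span {π}).primeCompl hle
  have hmax : IsLocalRing.maximalIdeal (Localization.AtPrime (Ideal.span {π})) =
      Ideal.span {algebraMap _ _ π} := by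
    rw [← Localization.AtPrime.map_eq_maximalIdeal, Ideal.map_span, Set.image_singleton]
  have hne : algebraMap (MvPolynomial (Fin n) R) (Localization.AtPrime (Ideal.span {π})) π ≠ 0 := by
    intro h
    exact hπp.ne_zero (hinj (h.trans (map_zero _).symm))
  have hunit : ∀ p : MvPolynomial (Fin n) R, ¬ π ∣ p →
      IsUnit (algebraMap _ (Localization.AtPrime (Ideal.span {π})) p) := by
    intro p hp
    exact IsLocalization.map_units (Localization.AtPrime (Ideal.span {π}))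
      (⟨p, fun h => hp (Ideal.mem_span_singleton.1 h)⟩ : (Ideal.span {π}).primeCompl)
  refine ⟨Localization.AtPrime (Ideal.span {π}), inferInstance, hdom, hic,
    algebraMap _ _, hinj, ?_, ?_, ?_, hunit⟩
  · rw [← Ideal.span_singleton_prime hne, ← hmax]
    exact (IsLocalRing.maximalIdeal.isMaximal _).isPrime
  · intro x hx
    by_contra hu
    apply hx
    rw [← Ideal.mem_span_singleton, ← hmax]
    exact hu
  · intro r i h
    obtain ⟨z, hz⟩ := h
    obtain ⟨⟨p, t⟩, hpt⟩ := IsLocalization.surj (Ideal.span {π}).primeCompl z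
    have h1 : MvPolynomial.C r * (t : MvPolynomial (Fin n) R) = π ^ i * p := by
      apply hinj
      rw [map_mul, map_mul, hz, map_pow, mul_assoc, hpt]
    have ht : ¬ π ∣ (t : MvPolynomial (Fin n) R) := fun h =>
      t.2 (Ideal.mem_span_singleton.2 h)
    have h2 : π ^ i ∣ MvPolynomial.C r :=
      hπp.pow_dvd_of_dvd_mul_right i ht ⟨p, h1⟩
    rw [hπ, ← map_pow] at h2
    exact MvPolynomial.C_dvd_iff_dvd_coeff _ _ |>.1 h2 0 |>.trans (by simp)

variable {R : Type u} [CommRing R] [Algebra ℂ R] {𝒜 : ℕ → Submodule ℂ R} [GradedAlgebra 𝒜]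
  {P : R →ₗ[ℂ] R →ₗ[ℂ] R} {H : R} {a : ℤ} {n : ℕ}

/-- `Q^{cell ν}` splits over `F[T]` for some injective point `ν` of `A₊` in an algebraically
closed field `F`. -/
def Splits (C : CtxN 𝒜 P H a n) (Q : (Ap 𝒜 P (-H) a)[X]) : Prop :=
  ∃ (F : Type) (_ : Field F) (_ : IsAlgClosed F) (_ : Algebra ℂ F) (ν : R →ₐ[ℂ] F)
    (f : Frame 𝒜 P H a n), f.Δ ≠ 0 ∧ PureA 𝒜 P H a ν ∧ InjA 𝒜 P H a ν ∧
    ∃ s : Multiset (MvPolynomial (Fin n) F), mapQ Q (C.half.ctx.cell f ν) =
      (s.map fun q => Polynomial.X - Polynomial.C q).prod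

/-- Cells factor through the cell over the projection to `A₊`. -/
theorem un5_cell (C : Ctx 𝒜 P H a) (f : Frame 𝒜 P H a n) {pr : R →ₐ[ℂ] R}
    (hpr : PureA 𝒜 P H a pr) (hprA : ∀ c ∈ Ap 𝒜 P H a, pr c = c)
    (hprm : ∀ r, pr r ∈ Ap 𝒜 P H a) {B : Type v} [CommRing B] [Algebra ℂ B]
    (μ : R →ₐ[ℂ] B) (hμ : PureA 𝒜 P H a μ) (r : R) :
    C.cell f μ r = MvPolynomial.map
      ((μ.comp (Ap 𝒜 P H a).val : Ap 𝒜 P H a →ₐ[ℂ] B) : Ap 𝒜 P H a →+* B)
      (C.cell f (pr.codRestrict _ hprm) r) := by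
  rw [← C.cell_comp]
  have h : μ = (μ.comp (Ap 𝒜 P H a).val).comp (pr.codRestrict _ hprm) := by
    refine PureA.ext C hμ ?_ ?_
    · intro k m hm r hr
      show μ (pr r) = 0
      rw [hpr k m hm r hr, map_zero]
    · intro c hc
      show μ c = μ (pr c)
      rw [hprA c hc]
  rw [← h]

end Vale.Agent.P292
end

section

/-! Theorem E without (SC), group U: splitting over the field generated by étale elements.
See `E/PROOF_SC.md`, (B0). -/

namespace Vale.Agent.P292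

open Module Polynomial

universe u v w

/-- A finite extension inside an algebraically closed field. -/
theorem un5_lift {K₀ : Type w} [Field K₀] [CharZero K₀] {F : Type v} [Field F] [Algebra K₀ F]
    (E : Set F) [Finite E] (hE : ∀ c ∈ E, IsIntegral K₀ c) {Ω : Type u} [Field Ω] [IsAlgClosed Ω]
    [Algebra K₀ Ω] :
    ∃ (L₀ : IntermediateField K₀ F) (g : L₀ →+* Ω), E ⊆ L₀ ∧
      (∀ c : K₀, g (algebraMap K₀ L₀ c) = algebraMap K₀ Ω c) ∧
      ∀ z : L₀, ∃ p : K₀[X], p.Monic ∧ p.Separable ∧ p.eval₂ (algebraMap K₀ Ω) (g z) = 0 := by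
  have hfin : FiniteDimensional K₀ (IntermediateField.adjoin K₀ E) :=
    IntermediateField.finiteDimensional_adjoin hE
  let g : IntermediateField.adjoin K₀ E →ₐ[K₀] Ω := IsAlgClosed.lift
  refine ⟨IntermediateField.adjoin K₀ E, g, IntermediateField.subset_adjoin K₀ E,
    fun c => g.commutes c, fun z => ⟨minpoly K₀ z, minpoly.monic (Algebra.IsIntegral.isIntegral z),
      Algebra.IsSeparable.isSeparable K₀ z, ?_⟩⟩
  rw [← aeval_def]
  show aeval (g z) (minpoly K₀ z) = 0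
  rw [aeval_algHom_apply, minpoly.aeval, map_zero]

/-- The roots of `Q`, transported. -/
theorem un5_split' {A : Type w} [CommRing A] [IsDomain A] {n : ℕ}
    (Q : (MvPolynomial (Fin n) A)[X]) (hQ : Q.Monic) {F : Type v} [Field F] (ι : A →+* F)
    (hι : Function.Injective ι) (s : Multiset (MvPolynomial (Fin n) F))
    (hs : Q.map (MvPolynomial.map ι) = (s.map fun q => X - C q).prod)
    {𝒪 : Type u} [CommRing 𝒪] {K : Type u} [Field K] [CharZero K] [Algebra 𝒪 K]
    (j : A →+* 𝒪) (hj : ∀ a, a ≠ 0 → IsUnit (j a)) (ξ : Fin n → K)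
    {Ω : Type u} [Field Ω] [IsAlgClosed Ω] [Algebra K Ω] [Algebra 𝒪 Ω] [IsScalarTower 𝒪 K Ω]
    {ρ : Ω} (hρ : (Q.map ((algebraMap K Ω).comp
      (MvPolynomial.eval₂Hom ((algebraMap 𝒪 K).comp j) ξ))).eval ρ = 0) :
    ρ ∈ IntermediateField.adjoin K (EtGen 𝒪 Ω) := by
  classical
  let _ : Algebra A F := ι.toAlgebra
  have : FaithfulSMul A F := (faithfulSMul_iff_algebraMap_injective A F).2 hι
  let _ : Algebra (FractionRing A) F := FractionRing.liftAlgebra A F
  have : IsScalarTower A (FractionRing A) F := FractionRing.isScalarTower_liftAlgebra A F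
  let j₀ : FractionRing A →+* 𝒪 := IsLocalization.lift (M := nonZeroDivisors A) (g := j)
    (fun y => hj y (nonZeroDivisors.ne_zero y.2))
  have hj₀ : ∀ a, j₀ (algebraMap A (FractionRing A) a) = j a := fun a =>
    IsLocalization.lift_eq _ a
  let _ : Algebra (FractionRing A) K := ((algebraMap 𝒪 K).comp j₀).toAlgebra
  have hK : algebraMap (FractionRing A) K = (algebraMap 𝒪 K).comp j₀ := rfl
  have : CharZero (FractionRing A) := (algebraMap (FractionRing A) K).charZero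
  let _ : Algebra (FractionRing A) Ω := ((algebraMap 𝒪 Ω).comp j₀).toAlgebra
  have hΩ : algebraMap (FractionRing A) Ω = (algebraMap 𝒪 Ω).comp j₀ := rfl
  have hKΩ : ∀ c : FractionRing A, algebraMap (FractionRing A) Ω c =
      algebraMap K Ω (algebraMap (FractionRing A) K c) := fun c => by
    rw [hΩ, hK, RingHom.comp_apply, RingHom.comp_apply, ← IsScalarTower.algebraMap_apply 𝒪 K Ω]
  -- the coefficients
  set E : Finset F := s.toFinset.biUnion fun q => q.coeffs with hE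
  have hint : ∀ c ∈ (E : Set F), IsIntegral (FractionRing A) c := by
    intro c hc
    rw [hE, Finset.mem_coe, Finset.mem_biUnion] at hc
    obtain ⟨q, hq, hcq⟩ := hc
    rw [Multiset.mem_toFinset] at hq
    obtain ⟨α, -, rfl⟩ := MvPolynomial.mem_coeffs_iff.1 hcq
    have h1 : IsIntegral A (MvPolynomial.coeff α q) := by
      refine isIntegral_coeff_of_isIntegral q ⟨Q, hQ, ?_⟩ α
      rw [← Polynomial.eval_map]
      have : Q.map (MvPolynomial.map (algebraMap A F)) = (s.map fun q => X - C q).prod := hs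
      rw [this]
      exact un5_root hq
    exact h1.tower_top
  obtain ⟨L₀, g, hEL, hg', hgE'⟩ := un5_lift (E : Set F) hint (Ω := Ω)
  have hg : ∀ c, g (algebraMap (FractionRing A) L₀ c) =
      algebraMap K Ω (algebraMap (FractionRing A) K c) := fun c => by
    rw [hg', hKΩ]
  have hgE : ∀ z : L₀, g z ∈ EtGen 𝒪 Ω := by
    intro z
    obtain ⟨p, hp1, hp2, hp3⟩ := hgE' z
    refine ⟨p.map j₀, hp1.map _, hp2.map, ?_⟩
    rw [aeval_def, eval₂_map, ← hΩ]
    exact hp3
  -- splitting over `L₀`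
  have h0 : (Q.map (MvPolynomial.map ((algebraMap (FractionRing A) L₀).comp
      (algebraMap A (FractionRing A))))).map (MvPolynomial.map (algebraMap L₀ F)) =
      (s.map fun q => X - C q).prod := by
    rw [← hs, Polynomial.map_map]
    congr 1
    apply MvPolynomial.ringHom_ext
    · intro a
      simp only [RingHom.comp_apply, MvPolynomial.map_C]
      rw [← IsScalarTower.algebraMap_apply (FractionRing A) L₀ F,
        ← IsScalarTower.algebraMap_apply A (FractionRing A) F]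
      rfl
    · intro i
      simp
  have hqL : ∀ q ∈ s, ∃ p : MvPolynomial (Fin n) L₀, MvPolynomial.map (algebraMap L₀ F) p = q := by
    intro q hq
    refine MvPolynomial.mem_range_map_iff_coeffs_subset.2 fun c hc => ?_
    have hcE : c ∈ (E : Set F) := by
      rw [hE, Finset.mem_coe, Finset.mem_biUnion]
      exact ⟨q, Multiset.mem_toFinset.2 hq, hc⟩
    exact ⟨⟨c, hEL hcE⟩, rfl⟩
  choose! pp hpp using hqL
  have h1 : Q.map (MvPolynomial.map ((algebraMap (FractionRing A) L₀).comp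
      (algebraMap A (FractionRing A)))) = (s.map fun q => X - C (pp q)).prod := by
    refine Polynomial.map_injective (MvPolynomial.map (algebraMap L₀ F))
      (MvPolynomial.map_injective _ (algebraMap L₀ F).injective) ?_
    rw [h0, Polynomial.map_multiset_prod, Multiset.map_map]
    congr 1
    refine Multiset.map_congr rfl fun q hq => ?_
    rw [Function.comp_apply, Polynomial.map_sub, Polynomial.map_X, Polynomial.map_C, hpp q hq]
  set ψ : MvPolynomial (Fin n) L₀ →+* Ω :=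
    MvPolynomial.eval₂Hom g fun i => algebraMap K Ω (ξ i) with hψ
  have h3 : (algebraMap K Ω).comp (MvPolynomial.eval₂Hom ((algebraMap 𝒪 K).comp j) ξ) =
      ψ.comp (MvPolynomial.map ((algebraMap (FractionRing A) L₀).comp
        (algebraMap A (FractionRing A)))) := by
    apply MvPolynomial.ringHom_ext
    · intro a
      simp only [hψ, RingHom.comp_apply, MvPolynomial.eval₂Hom_C, MvPolynomial.map_C]
      have := hg (algebraMap A (FractionRing A) a)
      rw [hK, RingHom.comp_apply, hj₀] at this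
      exact this.symm
    · intro i
      simp [hψ]
  rw [h3, ← Polynomial.map_map, h1, Polynomial.map_multiset_prod, Polynomial.eval_multiset_prod,
    Multiset.prod_eq_zero_iff, Multiset.mem_map] at hρ
  obtain ⟨f, hf, hfρ⟩ := hρ
  rw [Multiset.mem_map] at hf
  obtain ⟨f', hf', rfl⟩ := hf
  rw [Multiset.mem_map] at hf'
  obtain ⟨q, hq, rfl⟩ := hf'
  rw [Polynomial.map_sub, Polynomial.map_X, Polynomial.map_C, Polynomial.eval_sub,
    Polynomial.eval_X, Polynomial.eval_C, sub_eq_zero] at hfρ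
  rw [hfρ, hψ, MvPolynomial.coe_eval₂Hom, MvPolynomial.eval₂_eq]
  refine sum_mem fun d _ => mul_mem ?_ (prod_mem fun i _ => pow_mem ?_ _)
  · exact IntermediateField.subset_adjoin K _ (hgE _)
  · exact IntermediateField.algebraMap_mem _ (ξ i)

end Vale.Agent.P292
end

section

/-! Theorem E without (SC) and without factoriality, group U: the roots of the `Q` are in the field
generated by étale elements. See `E/PROOF_SC.md`, (B0). -/

set_option linter.all false

namespace Vale.Agent.P292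

open Module Polynomial

universe u v w

variable {R : Type u} [CommRing R] [Algebra ℂ R] {𝒜 : ℕ → Submodule ℂ R} [GradedAlgebra 𝒜]
  {P : R →ₗ[ℂ] R →ₗ[ℂ] R} {H : R} {a : ℤ} {n : ℕ}

/-- The coefficient of `X^i` of `Q` is homogeneous of degree `deg Q - i`. -/
def IsHomogQ (𝒜 : ℕ → Submodule ℂ R) (P : R →ₗ[ℂ] R →ₗ[ℂ] R) (H : R) (a : ℤ)
    (Q : (Ap 𝒜 P (-H) a)[X]) : Prop :=
  ∀ i ≤ Q.natDegree, ((Q.coeff i : Ap 𝒜 P (-H) a) : R) ∈
    Wt 𝒜 P (-H) (Q.natDegree - i) (a * ((Q.natDegree - i : ℕ) : ℤ))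

/-- Let `R ⊆ V`, `V` a discrete valuation ring with uniformizer `ϖ`, and let `𝒪` be a ring
containing `V[T₁, ..., Tₙ]` in which everything not divisible by `ϖ` becomes a unit. Then the roots
of `Q` are in the field generated by roots of separable monic polynomials over `𝒪`. -/
theorem CtxN.root_mem_etGen (C : CtxN 𝒜 P H a n) {V : Type u} [CommRing V] [IsDomain V]
    [IsDiscreteValuationRing V] [Algebra R V] (hRV : Function.Injective (algebraMap R V)) {ϖ : V}
    (hϖ : Irreducible ϖ) {𝒪 : Type u} [CommRing 𝒪] [IsDomain 𝒪] [Algebra V 𝒪]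
    (γ : MvPolynomial (Fin n) V →+* 𝒪) (hγ : Function.Injective γ)
    (hγC : ∀ v : V, γ (MvPolynomial.C v) = algebraMap V 𝒪 v)
    (hγu : ∀ p, ¬ MvPolynomial.C ϖ ∣ p → IsUnit (γ p))
    {K : Type u} [Field K] [CharZero K] [Algebra 𝒪 K] [IsFractionRing 𝒪 K]
    {Ω : Type u} [Field Ω] [IsAlgClosed Ω] [Algebra K Ω] [Algebra 𝒪 Ω] [IsScalarTower 𝒪 K Ω]
    {Q : (Ap 𝒜 P (-H) a)[X]} (hQ : Q.Monic) (hQh : IsHomogQ 𝒜 P H a Q) (hs : Splits C Q) {ρ : Ω}
    (hρ : (Q.map ((((algebraMap 𝒪 Ω).comp (algebraMap V 𝒪)).comp (algebraMap R V)).comp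
      (Ap 𝒜 P (-H) a).val.toRingHom)).eval ρ = 0) :
    ρ ∈ IntermediateField.adjoin K (EtGen 𝒪 Ω) := by
  obtain ⟨F, _, _, _, ν, f, hΔ, hν, hνi, s, hs⟩ := hs
  have : IsDomain R := C.half.ctx.hX.domain
  have : IsDomain (Ap 𝒜 P H a) := C.half.ctx.isDomain_Ap
  obtain ⟨pr, hpr, hprA, hprm⟩ := C.half.ctx.exists_pr
  let iCV : Algebra ℂ V := ((algebraMap R V).comp (algebraMap ℂ R)).toAlgebra
  let φ : R →ₐ[ℂ] V := { toRingHom := algebraMap R V, commutes' := fun c => rfl }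
  have hφ : ∀ r, φ r = algebraMap R V r := fun r => rfl
  have hφNV : NV 𝒜 P (-H) a φ := by
    obtain ⟨f₁, hf₁⟩ := C.neg_half.exists_frame_ne
    obtain ⟨k, hk, r, hr, hr0⟩ := Frame.nv C.neg_half.ctx C.npos f₁ (AlgHom.id ℂ R) hf₁
    refine ⟨k, hk, r, hr, fun h => hr0 (hRV ?_)⟩
    rw [AlgHom.id_apply, ← hφ, h, map_zero]
  obtain ⟨θ, x', hθ0, hx', hx'φ, k₀, hk₀, c₀, hc₀, hc₀u⟩ :=
    C.neg_half.ctx.exists_scaled_point φ hφNV (FractionRing V)
  obtain ⟨f', -, hdiv⟩ := C.neg_half.exists_good_frame' x' hx' hϖ.prime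
    ⟨k₀, hk₀, c₀, hc₀, fun h => hϖ.not_isUnit (isUnit_of_dvd_unit h hc₀u)⟩
  have hKi : Function.Injective (algebraMap 𝒪 K) := IsFractionRing.injective 𝒪 K
  have hVi : Function.Injective (algebraMap V 𝒪) := by
    intro v w hvw
    rw [← hγC, ← hγC] at hvw
    exact MvPolynomial.C_injective _ _ (hγ hvw)
  let iC : Algebra ℂ K := (((algebraMap 𝒪 K).comp (algebraMap V 𝒪)).comp
    ((algebraMap R V).comp (algebraMap ℂ R))).toAlgebra
  have hiC : ∀ c : ℂ, algebraMap ℂ K c =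
    algebraMap 𝒪 K (algebraMap V 𝒪 (algebraMap ℂ V c)) := fun c => rfl
  -- the point `x`
  set X' := C.neg_half.ctx.cell f' x' with hX'
  let x : R →ₐ[ℂ] K :=
    { toRingHom := (algebraMap 𝒪 K).comp (γ.comp (X' : R →+* MvPolynomial (Fin n) V))
      commutes' := fun c => by
        show algebraMap 𝒪 K (γ (X' (algebraMap ℂ R c))) = _
        rw [AlgHom.commutes, hiC, ← hγC]
        rfl }
  have hx : ∀ r, x r = algebraMap 𝒪 K (γ (X' r)) := fun r => rfl
  have hW : TypeW 𝒜 P H a x := by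
    intro k m hkm r hr
    have h1 : TypeW 𝒜 P H a X' := typeW_neg.1 (C.neg_half.ctx.typeW_cell f' hx')
    rw [hx, h1 k m hkm r hr, map_zero, map_zero]
  have hbne : ∀ b ∈ Ap 𝒜 P H a, b ≠ 0 → ¬ MvPolynomial.C ϖ ∣ X' b := by
    intro b hb hb0
    refine hdiv b ?_ hb0
    rwa [neg_neg]
  have hxΔ : x f.Δ ≠ 0 := by
    rw [hx]
    intro h
    have h1 : X' f.Δ = 0 := hγ (hKi (by rw [h, map_zero, map_zero]))
    exact hbne _ (Frame.Δ_mem C.half.ctx f) hΔ (h1 ▸ dvd_zero _)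
  obtain ⟨ν', hν', hν'x, ξ, hξ⟩ := C.half.gen_cell C.npos f x hW hxΔ
  -- the cell over `A₊`
  let prA : R →ₐ[ℂ] Ap 𝒜 P H a := pr.codRestrict _ hprm
  let W : R →ₐ[ℂ] MvPolynomial (Fin n) (Ap 𝒜 P H a) := C.half.ctx.cell f prA
  -- the polynomial over `A₊[T]`
  set Q' : (MvPolynomial (Fin n) (Ap 𝒜 P H a))[X] := mapQ Q W with hQ'
  set ι : Ap 𝒜 P H a →+* F := ((ν.comp (Ap 𝒜 P H a).val : Ap 𝒜 P H a →ₐ[ℂ] F) : Ap 𝒜 P H a →+* F)
    with hι
  have hιi : Function.Injective ι := by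
    rw [injective_iff_map_eq_zero]
    intro b hb
    exact Subtype.ext (hνi b b.2 hb)
  have hs' : Q'.map (MvPolynomial.map ι) = (s.map fun q => Polynomial.X - Polynomial.C q).prod := by
    rw [← hs, hQ', mapQ, mapQ, Polynomial.map_map]
    congr 1
    apply RingHom.ext
    intro c
    exact (un5_cell C.half.ctx f hpr hprA hprm ν hν (c : R)).symm
  set j : Ap 𝒜 P H a →+* 𝒪 := γ.comp ((X'.comp (Ap 𝒜 P H a).val : Ap 𝒜 P H a →ₐ[ℂ] _) :
    Ap 𝒜 P H a →+* MvPolynomial (Fin n) V) with hj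
  have hju : ∀ b : Ap 𝒜 P H a, b ≠ 0 → IsUnit (j b) := by
    intro b hb
    exact hγu _ (hbne b b.2 fun h => hb (Subtype.ext h))
  -- the scaling factor
  have hinj : Function.Injective ((algebraMap 𝒪 K).comp (algebraMap V 𝒪)) := hKi.comp hVi
  set g : FractionRing V →+* K := IsFractionRing.lift hinj with hg
  have hgv : ∀ v, g (algebraMap V (FractionRing V) v) = algebraMap 𝒪 K (algebraMap V 𝒪 v) := by
    intro v
    rw [hg, IsFractionRing.lift_algebraMap]
    rfl
  set Θ : Ω := algebraMap K Ω (g θ) with hΘ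
  have hΘ0 : Θ ≠ 0 := by
    rw [hΘ]
    exact (_root_.map_ne_zero _).2 ((_root_.map_ne_zero _).2 hθ0)
  have hxc : ∀ k : ℕ, ∀ c ∈ Wt 𝒜 P (-H) k (a * k), algebraMap K Ω (x c) =
      Θ ^ k * algebraMap 𝒪 Ω (algebraMap V 𝒪 (algebraMap R V c)) := by
    intro k c hc
    have h1 : x c = g θ ^ k * algebraMap 𝒪 K (algebraMap V 𝒪 (algebraMap R V c)) := by
      rw [hx, hX', C.neg_half.ctx.cell_Ap f' x' (mem_Ap hc), hγC, ← hgv, hx'φ k c hc, map_mul,
        map_pow, hφ, hgv]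
    rw [h1, map_mul, map_pow, ← IsScalarTower.algebraMap_apply 𝒪 K Ω]
  -- the value of the coefficients
  have hval : ∀ c : Ap 𝒜 P (-H) a, MvPolynomial.eval₂Hom ((algebraMap 𝒪 K).comp j) ξ (W (c : R)) =
      x (c : R) := by
    intro c
    rw [hξ, un5_cell C.half.ctx f hpr hprA hprm ν' hν', MvPolynomial.aeval_def,
      MvPolynomial.eval₂_map, MvPolynomial.coe_eval₂Hom]
    congr 1
    apply RingHom.ext
    intro b
    exact (hν'x b b.2).symm
  have hroot : (Q'.map ((algebraMap K Ω).comp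
      (MvPolynomial.eval₂Hom ((algebraMap 𝒪 K).comp j) ξ))).eval (Θ * ρ) = 0 := by
    rw [hQ', mapQ, Polynomial.map_map, eval_map, eval₂_eq_sum_range]
    rw [eval_map, eval₂_eq_sum_range] at hρ
    have h1 := congrArg (fun z => Θ ^ Q.natDegree * z) hρ
    simp only [mul_zero, Finset.mul_sum] at h1
    rw [← h1]
    refine Finset.sum_congr rfl fun i hi => ?_
    have hi' : i ≤ Q.natDegree := Nat.lt_succ_iff.1 (Finset.mem_range.1 hi)
    have h2 : (((algebraMap K Ω).comp (MvPolynomial.eval₂Hom ((algebraMap 𝒪 K).comp j) ξ)).comp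
        ((W.comp (Ap 𝒜 P (-H) a).val : Ap 𝒜 P (-H) a →ₐ[ℂ] _) : Ap 𝒜 P (-H) a →+* _))
          (Q.coeff i) = algebraMap K Ω (x (Q.coeff i : R)) := by
      rw [← hval]
      rfl
    rw [h2, hxc _ _ (hQh i hi'), mul_pow]
    have h3 : Θ ^ Q.natDegree = Θ ^ (Q.natDegree - i) * Θ ^ i := by
      rw [← pow_add, Nat.sub_add_cancel hi']
    rw [h3]
    have h4 : ((((algebraMap 𝒪 Ω).comp (algebraMap V 𝒪)).comp (algebraMap R V)).comp
        (Ap 𝒜 P (-H) a).val.toRingHom) (Q.coeff i) =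
        algebraMap 𝒪 Ω (algebraMap V 𝒪 (algebraMap R V (Q.coeff i : R))) := rfl
    rw [h4]
    ring
  have hmem := un5_split' Q' (hQ.map _) ι hιi s hs' (K := K) (Ω := Ω) j hju ξ hroot
  have h1 : ρ = Θ⁻¹ * (Θ * ρ) := by
    rw [← mul_assoc, inv_mul_cancel₀ hΘ0, one_mul]
  rw [h1]
  refine mul_mem (inv_mem ?_) hmem
  rw [hΘ]
  exact IntermediateField.algebraMap_mem _ _

end Vale.Agent.P292
end

section

/-! Theorem E without (SC) and without factoriality: the coefficients of `Q` are homogeneous.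
See `E/PROOF_SC.md`, (B0), (B3). -/

namespace Vale.Agent.P292

open Module Polynomial

universe u v w

variable {R : Type u} [CommRing R] [Algebra ℂ R] {𝒜 : ℕ → Submodule ℂ R} [GradedAlgebra 𝒜]
  {P : R →ₗ[ℂ] R →ₗ[ℂ] R} {H : R} {a : ℤ} {n : ℕ}

/-- (HOMQ) -/
theorem CtxN.isHomogQ (C : CtxN 𝒜 P H a n) {y : R →ₐ[ℂ] ℂ} (hy : HasSlope 𝒜 P H y a)
    (f : Frame 𝒜 P H a n) (hΔ : y f.Δ ≠ 0) {Q : (Ap 𝒜 P (-H) a)[X]}
    (hQ : IsMinPoly 𝒜 P H a (C.half.ctx.cell f y) Q) : IsHomogQ 𝒜 P H a Q :=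
  fun i _ => hQ.coeff_mem C hy hΔ i

end Vale.Agent.P292
end

section

/-! Theorem E, section 6: (fin), valuations. See `PROOF.md`. -/

namespace Vale.Agent.P292

open Module Polynomial

universe u v

variable {R : Type u} [CommRing R] [Algebra ℂ R] {𝒜 : ℕ → Submodule ℂ R} [GradedAlgebra 𝒜]
  {P : R →ₗ[ℂ] R →ₗ[ℂ] R} {H : R} {a : ℤ} {n : ℕ}

omit [GradedAlgebra 𝒜] in
/-- A `ℂ`-point of the polynomial ring which kills the values of the cell at the elements of
defect one kills the coordinates. -/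
theorem ct1_aux_span {n : ℕ} {Ψ : R →ₐ[ℂ] MvPolynomial (Fin n) ℂ} (hΨ : IsCell 𝒜 P H a Ψ)
    {B : Type v} [CommRing B] [Algebra ℂ B] (g : MvPolynomial (Fin n) ℂ →ₐ[ℂ] B)
    (h : ∀ (k : ℕ), ∀ r ∈ Wt 𝒜 P H k (a * k - a), g (Ψ r) = 0) (i : Fin n) :
    g (MvPolynomial.X i) = 0 := by
  have h1 := hΨ.lin i
  have h2 : Submodule.span ℂ {p | ∃ (k : ℕ), ∃ r ∈ Wt 𝒜 P H k (a * k - a), p = Ψ r} ≤
      LinearMap.ker g.toLinearMap := by
    rw [Submodule.span_le]
    rintro p ⟨k, r, hr, rfl⟩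
    exact h k r hr
  exact h2 h1

/-- Scaling of homogeneous polynomials. -/
theorem ct1_aux_scale {n : ℕ} {Ω : Type v} [Field Ω] [Algebra ℂ Ω]
    (ψ : MvPolynomial (Fin n) ℂ →ₐ[ℂ] Ω) (θ : Ω) {j : ℕ} {p : MvPolynomial (Fin n) ℂ}
    (hp : p.IsHomogeneous j) :
    MvPolynomial.aeval (fun i => θ * ψ (MvPolynomial.X i)) p = θ ^ j * ψ p := by
  have h1 : ψ = MvPolynomial.aeval (fun i => ψ (MvPolynomial.X i)) :=
    MvPolynomial.aeval_unique ψ
  conv_rhs => rw [h1]
  rw [MvPolynomial.aeval_def, MvPolynomial.aeval_def, MvPolynomial.eval₂_eq',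
    MvPolynomial.eval₂_eq', Finset.mul_sum]
  refine Finset.sum_congr rfl fun d hd => ?_
  have h2 : ∑ i, d i = j := by
    have h3 := hp (MvPolynomial.mem_support_iff.mp hd)
    rw [Finsupp.weight_apply, Finsupp.sum_fintype _ _ (fun i => by simp)] at h3
    simpa using h3
  have h4 : ∏ i, (θ * ψ (MvPolynomial.X i)) ^ d i =
      θ ^ j * ∏ i, ψ (MvPolynomial.X i) ^ d i := by
    simp_rw [mul_pow]
    rw [Finset.prod_mul_distrib, Finset.prod_pow_eq_pow_sum, h2]
  rw [h4]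
  ring

/-- Valuation form of (fin): without lines, a valuation ring containing `A₋` contains the
coordinates of the cell. -/
theorem CtxN.mem_of_noLine (C : CtxN 𝒜 P H a n) (hno : ¬ HasLine 𝒜 P H a) {y : R →ₐ[ℂ] ℂ}
    (hy : HasSlope 𝒜 P H y a) (f : Frame 𝒜 P H a n) (hΔ : y f.Δ ≠ 0) {Ω : Type v} [Field Ω]
    [IsAlgClosed Ω] [Algebra ℂ Ω] (ψ : MvPolynomial (Fin n) ℂ →ₐ[ℂ] Ω)
    (𝒪 : ValuationSubring Ω) (h : ∀ c ∈ Ap 𝒜 P (-H) a, ψ (C.half.ctx.cell f y c) ∈ 𝒪)
    (p : MvPolynomial (Fin n) ℂ) : ψ p ∈ 𝒪 := by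
  classical
  have hC : ∀ z : ℂ, algebraMap ℂ Ω z ∈ 𝒪 := by
    intro z
    have := h (algebraMap ℂ R z) (Subalgebra.algebraMap_mem _ z)
    rwa [AlgHom.commutes, AlgHom.commutes] at this
  by_contra hp
  -- some coordinate is not in `𝒪`
  have hex : ∃ i : Fin n, ψ (MvPolynomial.X i) ∉ 𝒪 := by
    by_contra hcon
    push Not at hcon
    apply hp
    induction p using MvPolynomial.induction_on with
    | C z =>
      have : ψ (MvPolynomial.C z) = algebraMap ℂ Ω z := ψ.commutes z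
      rw [this]; exact hC z
    | add p q hp' hq' =>
      rw [map_add]
      by_cases h1 : ψ p ∈ 𝒪
      · by_cases h2 : ψ q ∈ 𝒪
        · exact add_mem h1 h2
        · exact absurd (hq' h2) h2
      · exact absurd (hp' h1) h1
    | mul_X p i hp' =>
      rw [map_mul]
      by_cases h1 : ψ p ∈ 𝒪
      · exact mul_mem h1 (hcon i)
      · exact absurd (hp' h1) h1
  obtain ⟨i₁, hi₁⟩ := hex
  obtain ⟨i₀, -, hmax⟩ := Finset.exists_max_image (Finset.univ : Finset (Fin n))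
    (fun i => 𝒪.valuation (ψ (MvPolynomial.X i))) ⟨i₁, Finset.mem_univ _⟩
  have hi₀ : 1 < 𝒪.valuation (ψ (MvPolynomial.X i₀)) := by
    refine lt_of_lt_of_le ?_ (hmax i₁ (Finset.mem_univ _))
    rw [← not_le]
    exact fun h1 => hi₁ ((𝒪.valuation_le_one_iff _).mp h1)
  have hX0 : ψ (MvPolynomial.X i₀) ≠ 0 := by
    intro h0
    rw [h0, map_zero] at hi₀
    exact absurd hi₀ (not_lt.mpr zero_le_one)
  set θ : Ω := (ψ (MvPolynomial.X i₀))⁻¹ with hθ
  have hvX0 : 𝒪.valuation (ψ (MvPolynomial.X i₀)) ≠ 0 := fun h0 =>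
    hX0 ((Valuation.zero_iff _).mp h0)
  have hvθ : 𝒪.valuation θ < 1 := by
    rw [hθ, map_inv₀]
    exact inv_lt_one_of_one_lt₀ hi₀
  have hmem : ∀ i, θ * ψ (MvPolynomial.X i) ∈ 𝒪 := by
    intro i
    rw [← 𝒪.valuation_le_one_iff, map_mul, hθ, map_inv₀]
    rw [inv_mul_le_iff₀ (zero_lt_iff.mpr hvX0), mul_one]
    exact hmax i (Finset.mem_univ _)
  let alg : Algebra ℂ 𝒪 := RingHom.toAlgebra ((algebraMap ℂ Ω).codRestrict 𝒪.toSubring hC)
  have hval : ∀ z : ℂ, ((algebraMap ℂ 𝒪 z : 𝒪) : Ω) = algebraMap ℂ Ω z := fun z => rfl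
  let ι : 𝒪 →ₐ[ℂ] Ω := { 𝒪.subtype with commutes' := fun z => hval z }
  have hι : ∀ o : 𝒪, ι o = (o : Ω) := fun o => rfl
  let ψ' : MvPolynomial (Fin n) ℂ →ₐ[ℂ] 𝒪 :=
    MvPolynomial.aeval fun i => ⟨θ * ψ (MvPolynomial.X i), hmem i⟩
  have hψ' : ∀ (j : ℕ) (q : MvPolynomial (Fin n) ℂ), q.IsHomogeneous j →
      ((ψ' q : 𝒪) : Ω) = θ ^ j * ψ q := by
    intro j q hq
    rw [← ct1_aux_scale ψ θ hq, ← hι, ← AlgHom.comp_apply]
    have e : ι.comp ψ' = MvPolynomial.aeval (fun i => θ * ψ (MvPolynomial.X i)) := by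
      apply MvPolynomial.algHom_ext
      intro i
      rw [AlgHom.comp_apply, MvPolynomial.aeval_X, MvPolynomial.aeval_X]
      rfl
    rw [e]
  let κ := IsLocalRing.ResidueField 𝒪
  let res : 𝒪 →ₐ[ℂ] κ := IsScalarTower.toAlgHom ℂ 𝒪 κ
  have hres : ∀ o : 𝒪, 𝒪.valuation (o : Ω) < 1 → res o = 0 := by
    intro o ho
    change IsLocalRing.residue 𝒪 o = 0
    rw [IsLocalRing.residue_eq_zero_iff, 𝒪.valuation_lt_one_iff]
    exact ho
  have hpure := (C.half.ctx.hasSlope_iff_pure).mp hy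
  have hcell : IsCell 𝒜 P H a (C.half.ctx.cell f y) := C.half.isCell C.npos f y hpure.1 hΔ
  set h' := C.half.ctx.cell f y with hh'
  let x₀ : R →ₐ[ℂ] κ := (res.comp ψ').comp h'
  have hx₀ : ∀ r, x₀ r = res (ψ' (h' r)) := fun r => rfl
  apply hno
  refine C.half.ctx.hasLine_of_point x₀ ?_ ?_ ?_ ?_
  · exact TypeW.comp hcell.typeW (res.comp ψ')
  · obtain ⟨k, hk, r, hr, hyr⟩ := hpure.2
    refine ⟨k, hk, r, hr, ?_⟩
    have h1 : h' r = MvPolynomial.C (y r) := C.half.ctx.cell_Ap f y (mem_Ap hr)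
    rw [hx₀, h1]
    have h2 : (MvPolynomial.C (y r) : MvPolynomial (Fin n) ℂ) = algebraMap ℂ _ (y r) := rfl
    rw [h2, AlgHom.commutes, AlgHom.commutes]
    exact (_root_.map_ne_zero (algebraMap ℂ κ)).mpr hyr
  · rintro ⟨k, hk, r, hr, hxr⟩
    apply hxr
    rw [hx₀]
    apply hres
    have hr' : r ∈ Wt 𝒜 P H k (a * k - a * ((2 * k : ℕ) : ℤ)) := by
      rw [Wt_neg] at hr
      have e : a * (k : ℤ) - a * ((2 * k : ℕ) : ℤ) = -(a * k) := by push_cast; ring
      rw [e]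
      exact hr
    rw [hψ' (2 * k) (h' r) (hcell.homog k (2 * k) r hr'), map_mul, map_pow]
    have h1 : 𝒪.valuation (ψ (h' r)) ≤ 1 := (𝒪.valuation_le_one_iff _).mpr (h r (mem_Ap hr))
    have h2 : 𝒪.valuation θ ^ (2 * k) < 1 := pow_lt_one₀ zero_le hvθ (by omega)
    calc 𝒪.valuation θ ^ (2 * k) * 𝒪.valuation (ψ (h' r))
        ≤ 𝒪.valuation θ ^ (2 * k) * 1 := by gcongr
      _ < 1 := by rwa [mul_one]
  · by_contra hcon
    push Not at hcon
    have h1 : (res.comp ψ') (MvPolynomial.X i₀) = 0 := by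
      refine ct1_aux_span hcell (res.comp ψ') (fun k r hr => ?_) i₀
      refine hcon k (a * k - a) ?_ r hr
      have := C.half.ctx.pos
      omega
    have h2 : (ψ' (MvPolynomial.X i₀) : 𝒪) = 1 := by
      apply Subtype.ext
      change ((MvPolynomial.aeval (fun i => (⟨θ * ψ (MvPolynomial.X i), hmem i⟩ : 𝒪))
        (MvPolynomial.X i₀) : 𝒪) : Ω) = 1
      rw [MvPolynomial.aeval_X]
      exact inv_mul_cancel₀ hX0
    rw [AlgHom.comp_apply, h2, map_one] at h1
    exact one_ne_zero h1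

end Vale.Agent.P292
end

section

/-! Theorem E, section 7: (REG). See `PROOF.md`. -/

namespace Vale.Agent.P292

open Module Polynomial

universe u v

variable {R : Type u} [CommRing R] [Algebra ℂ R] {𝒜 : ℕ → Submodule ℂ R} [GradedAlgebra 𝒜]
  {P : R →ₗ[ℂ] R →ₗ[ℂ] R} {H : R} {a : ℤ} {n : ℕ}

/-- A closed nonvertex point of type W killing the elements of defect one is pure. -/
theorem sp12_pure (C : Half 𝒜 P H a n) (x : R →ₐ[ℂ] ℂ) (hW : TypeW 𝒜 P H a x)
    (hNV : NV 𝒜 P H a x) (h1 : ∀ k : ℕ, ∀ r ∈ Wt 𝒜 P H k (a * k - a), x r = 0) :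
    PureA 𝒜 P H a x := by
  obtain ⟨y, hyp, hyA⟩ := C.ctx.exists_pure x
  have hyNV : NV 𝒜 P H a y := by
    obtain ⟨k, hk, c, hc, hxc⟩ := hNV
    exact ⟨k, hk, c, hc, by rw [hyA c (mem_Ap hc)]; exact hxc⟩
  have hy : HasSlope 𝒜 P H y a := C.ctx.hasSlope_iff_pure.2 ⟨hyp, hyNV⟩
  obtain ⟨f, hΔ⟩ := C.exists_frame y hy
  obtain ⟨ξ, hξ⟩ := C.ctx.cell_lemma hy f hΔ (C.complete y f hy hΔ) x hW
    (fun c hc => by rw [hyA c hc]; rfl)
  have hξ0 : ξ = 0 := by
    have hdet : (f.mat.map (y : R →+* ℂ)).det ≠ 0 := by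
      have h2 : y f.Δ = (f.mat.map (y : R →+* ℂ)).det := by
        rw [Frame.Δ]
        exact RingHom.map_det (y : R →+* ℂ) f.mat
      rw [← h2]
      exact hΔ
    refine Matrix.eq_zero_of_vecMul_eq_zero hdet ?_
    funext j
    have h3 := hξ (f.r j)
    rw [h1 _ _ (f.hr j), C.ctx.cell_defect_one f hyp (f.hr j), map_sum] at h3
    simp only [map_mul, MvPolynomial.aeval_X, MvPolynomial.aeval_C, Algebra.algebraMap_self,
      RingHom.id_apply] at h3
    simp only [Matrix.vecMul, dotProduct, Pi.zero_apply, Matrix.map_apply, Frame.mat,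
      Matrix.of_apply]
    rw [h3]
    exact Finset.sum_congr rfl fun i _ => mul_comm _ _
  have hxy : ∀ r, x r = y r := by
    intro r
    rw [hξ r, hξ0]
    have h4 : ∀ p : MvPolynomial (Fin n) ℂ,
        MvPolynomial.aeval (0 : Fin n → ℂ) p = MvPolynomial.constantCoeff p := by
      intro p
      rw [MvPolynomial.aeval_zero]
      rfl
    rw [h4, C.ctx.constantCoeff_cell f y r]
  intro k m hm r hr
  rw [hxy r]
  exact hyp k m hm r hr

/-- The exponent of the rescaling. -/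
theorem sp12_exp (a : ℤ) (ha : 0 < a) {k l : ℕ} {m n : ℤ} (hm : a ∣ m) (hn : a ∣ n)
    (hmk : m ≤ a * k) (hnl : n ≤ a * l) :
    ((a * ((k + l : ℕ) : ℤ) - (m + n)) / a).toNat =
      ((a * k - m) / a).toNat + ((a * l - n) / a).toNat := by
  obtain ⟨m', rfl⟩ := hm
  obtain ⟨n', rfl⟩ := hn
  have e1 : (a * ((k + l : ℕ) : ℤ) - (a * m' + a * n')) / a = k + l - (m' + n') := by
    have : a * ((k + l : ℕ) : ℤ) - (a * m' + a * n') = a * (k + l - (m' + n')) := by
      push_cast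
      ring
    rw [this, Int.mul_ediv_cancel_left _ ha.ne']
  have e2 : (a * (k : ℤ) - a * m') / a = k - m' := by
    have : a * (k : ℤ) - a * m' = a * (k - m') := by ring
    rw [this, Int.mul_ediv_cancel_left _ ha.ne']
  have e3 : (a * (l : ℤ) - a * n') / a = l - n' := by
    have : a * (l : ℤ) - a * n' = a * (l - n') := by ring
    rw [this, Int.mul_ediv_cancel_left _ ha.ne']
  have h1 : m' ≤ k := le_of_mul_le_mul_left hmk ha
  have h2 : n' ≤ l := le_of_mul_le_mul_left hnl ha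
  rw [e1, e2, e3]
  omega

/-- The rescaled homomorphism. -/
theorem sp12_scale (C : Ctx 𝒜 P H a) {𝔽 : Type v} [Field 𝔽] [Algebra ℂ 𝔽] (x : R →ₐ[ℂ] 𝔽)
    (hW : TypeW 𝒜 P H a x) (θ : 𝔽) :
    ∃ x1 : R →ₐ[ℂ] 𝔽, ∀ (k : ℕ) (m : ℤ), ∀ r ∈ Wt 𝒜 P H k m,
      x1 r = θ ^ ((a * k - m) / a).toNat * x r := by
  have hle : ∀ {k : ℕ} {m : ℤ} {r : R}, r ∈ Wt 𝒜 P H k m → x r ≠ 0 → a ∣ m ∧ m ≤ a * k := by
    intro k m r hr hx
    refine ⟨?_, ?_⟩
    · by_contra h
      exact hx (hW k m h r hr)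
    · have h0 : r ≠ 0 := by
        rintro rfl
        exact hx (map_zero x)
      exact (le_abs_self m).trans (C.abs_le hr h0)
  obtain ⟨x1, hx1⟩ := C.exists_hom
    (fun k m => (LinearMap.mulLeft ℂ (θ ^ ((a * k - m) / a).toNat)) ∘ₗ x.toLinearMap)
    (by simp) (by
      intro k l m n r hr s hs
      simp only [LinearMap.comp_apply, AlgHom.toLinearMap_apply, LinearMap.mulLeft_apply,
        map_mul]
      by_cases hr0 : x r = 0
      · simp [hr0]
      by_cases hs0 : x s = 0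
      · simp [hs0]
      obtain ⟨h1, h2⟩ := hle hr hr0
      obtain ⟨h3, h4⟩ := hle hs hs0
      rw [sp12_exp a C.pos h1 h3 h2 h4, pow_add]
      ring)
  exact ⟨x1, fun k m r hr => by rw [hx1 k m r hr]; rfl⟩

/-- Closed specialisation of a homomorphism to a valuation ring. -/
theorem sp12_spec [Algebra.FiniteType ℂ R] {𝔽 : Type v} [Field 𝔽] [Algebra ℂ 𝔽]
    (𝒪 : ValuationSubring 𝔽) (x : R →ₐ[ℂ] 𝔽) (h : ∀ r, x r ∈ 𝒪) (g : R)
    (hg : 𝒪.valuation (x g) = 1) :
    ∃ x' : R →ₐ[ℂ] ℂ, (∀ r, 𝒪.valuation (x r) < 1 → x' r = 0) ∧ x' g ≠ 0 := by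
  let x1 : R →+* 𝒪 := (x : R →+* 𝔽).codRestrict 𝒪.toSubring h
  let _ : Algebra ℂ (IsLocalRing.ResidueField 𝒪) :=
    ((IsLocalRing.residue 𝒪).comp (x1.comp (algebraMap ℂ R))).toAlgebra
  let x0 : R →ₐ[ℂ] IsLocalRing.ResidueField 𝒪 :=
    { (IsLocalRing.residue 𝒪).comp x1 with commutes' := fun z => rfl }
  have hx0 : ∀ r, x0 r = 0 ↔ 𝒪.valuation (x r) < 1 := by
    intro r
    have h1 : x0 r = IsLocalRing.residue 𝒪 (x1 r) := rfl
    rw [h1, IsLocalRing.residue_eq_zero_iff, 𝒪.valuation_lt_one_iff]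
    rfl
  have hg0 : x0 g ≠ 0 := by
    intro h0
    have := (hx0 g).1 h0
    rw [hg] at this
    exact lt_irrefl _ this
  obtain ⟨x', hx', hx'g⟩ := exists_closed_point x0 g hg0
  exact ⟨x', fun r hr => hx' r ((hx0 r).2 hr), hx'g⟩

/-- (REG) -/
theorem CtxN.mem_of_defect_one (C : CtxN 𝒜 P H a n) {𝔽 : Type v} [Field 𝔽] [IsAlgClosed 𝔽]
    [Algebra ℂ 𝔽] (𝒪 : ValuationSubring 𝔽) (x : R →ₐ[ℂ] 𝔽) (hW : TypeW 𝒜 P H a x)
    (hp : ∀ c ∈ Ap 𝒜 P H a, x c ∈ 𝒪)
    (hnv : ∃ k : ℕ, 0 < k ∧ ∃ c ∈ Wt 𝒜 P H k (a * k), 𝒪.valuation (x c) = 1)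
    (h1 : ∀ k : ℕ, ∀ r ∈ Wt 𝒜 P H k (a * k - a), x r ∈ 𝒪) (r : R) : x r ∈ 𝒪 := by
  classical
  have hctx : Ctx 𝒜 P H a := C.half.ctx
  have _ft : Algebra.FiniteType ℂ R := hctx.hX.finiteType
  have ha := hctx.pos
  by_contra hcon
  obtain ⟨N, g, kk, mm, hg, htop⟩ := hctx.exists_generators
  have hgen : ∀ (y : R →ₐ[ℂ] 𝔽), (∀ i, y (g i) ∈ 𝒪) → (∀ z : ℂ, algebraMap ℂ 𝔽 z ∈ 𝒪) →
      ∀ s, y s ∈ 𝒪 := by
    intro y hy hz s
    have hs : s ∈ Algebra.adjoin ℂ (Set.range g) := by rw [htop]; trivial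
    induction hs using Algebra.adjoin_induction with
    | mem s hs =>
      obtain ⟨i, rfl⟩ := hs
      exact hy i
    | algebraMap z => rw [y.commutes]; exact hz z
    | add s t _ _ hs ht => rw [map_add]; exact 𝒪.add_mem _ _ hs ht
    | mul s t _ _ hs ht => rw [map_mul]; exact 𝒪.mul_mem _ _ hs ht
  have hℂ : ∀ z : ℂ, algebraMap ℂ 𝔽 z ∈ 𝒪 := by
    intro z
    rw [← x.commutes]
    exact hp _ (Subalgebra.algebraMap_mem _ z)
  -- the bad generators
  set S : Finset (Fin N) := Finset.univ.filter fun i => x (g i) ∉ 𝒪 with hS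
  have hSne : S.Nonempty := by
    by_contra hne
    rw [Finset.not_nonempty_iff_eq_empty] at hne
    refine hcon (hgen x (fun i => ?_) hℂ r)
    by_contra hi
    have : i ∈ S := by rw [hS]; exact Finset.mem_filter.2 ⟨Finset.mem_univ _, hi⟩
    rw [hne] at this
    exact absurd this (Finset.notMem_empty i)
  have hSx : ∀ i ∈ S, x (g i) ∉ 𝒪 := fun i hi => by
    rw [hS] at hi
    exact (Finset.mem_filter.1 hi).2
  have hS0 : ∀ i ∈ S, x (g i) ≠ 0 := by
    intro i hi h0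
    apply hSx i hi
    rw [h0]
    exact 𝒪.zero_mem
  set e : Fin N → ℕ := fun i => ((a * kk i - mm i) / a).toNat with he
  have hSe : ∀ i ∈ S, mm i = a * kk i - a * e i := by
    intro i hi
    have hdvd : a ∣ mm i := by
      by_contra h
      exact hS0 i hi (hW _ _ h _ (hg i).2)
    have hle : mm i ≤ a * kk i := by
      have h0 : g i ≠ 0 := by
        intro h0
        exact hS0 i hi (by rw [h0, map_zero])
      exact (le_abs_self _).trans (hctx.abs_le (hg i).2 h0)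
    obtain ⟨m', hm'⟩ := hdvd
    have e2 : (a * (kk i : ℤ) - mm i) / a = kk i - m' := by
      have : a * (kk i : ℤ) - mm i = a * (kk i - m') := by rw [hm']; ring
      rw [this, Int.mul_ediv_cancel_left _ ha.ne']
    have h2 : m' ≤ kk i := by
      rw [hm'] at hle
      exact le_of_mul_le_mul_left hle ha
    have h3 : ((e i : ℕ) : ℤ) = kk i - m' := by
      rw [he]
      simp only
      rw [e2, Int.toNat_of_nonneg (by omega)]
    rw [h3, hm']
    ring
  have hSe2 : ∀ i ∈ S, e i ≠ 0 := by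
    intro i hi h0
    have h2 := hSe i hi
    rw [h0, Nat.cast_zero, mul_zero, sub_zero] at h2
    have h3 := (hg i).2
    rw [h2] at h3
    exact hSx i hi (hp _ (mem_Ap h3))
  have hSv : ∀ i ∈ S, 1 < 𝒪.valuation (x (g i)) := by
    intro i hi
    rw [← not_le, 𝒪.valuation_le_one_iff]
    exact hSx i hi
  -- the roots
  have hroot : ∀ i, ∃ χ : 𝔽, i ∈ S → χ ^ e i = (x (g i))⁻¹ := by
    intro i
    by_cases hi : i ∈ S
    · obtain ⟨χ, hχ⟩ := IsAlgClosed.exists_pow_nat_eq (x (g i))⁻¹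
        (Nat.pos_of_ne_zero (hSe2 i hi))
      exact ⟨χ, fun _ => hχ⟩
    · exact ⟨0, fun h => absurd h hi⟩
  choose χ hχ using hroot
  obtain ⟨i₀, hi₀, hmin⟩ := S.exists_min_image (fun i => 𝒪.valuation (χ i)) hSne
  set θ : 𝔽 := χ i₀ with hθ
  have hvχ : ∀ i ∈ S, 𝒪.valuation (χ i) ^ e i * 𝒪.valuation (x (g i)) = 1 := by
    intro i hi
    rw [← map_pow, ← map_mul, hχ i hi, inv_mul_cancel₀ (hS0 i hi), map_one]
  have hθlt : 𝒪.valuation θ < 1 := by
    by_contra h
    rw [not_lt] at h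
    have h2 := hvχ i₀ hi₀
    have h3 : 1 ≤ 𝒪.valuation (χ i₀) ^ e i₀ := one_le_pow₀ h
    have h4 : 1 < 𝒪.valuation (χ i₀) ^ e i₀ * 𝒪.valuation (x (g i₀)) :=
      lt_of_lt_of_le (hSv i₀ hi₀) (le_mul_of_one_le_left' h3)
    rw [h2] at h4
    exact lt_irrefl _ h4
  obtain ⟨x1, hx1⟩ := sp12_scale hctx x hW θ
  have hx1g : ∀ i, x1 (g i) ∈ 𝒪 := by
    intro i
    rw [hx1 _ _ _ (hg i).2, ← 𝒪.valuation_le_one_iff, map_mul, map_pow]
    by_cases hi : i ∈ S
    · rw [← hvχ i hi]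
      exact mul_le_mul_left (pow_le_pow_left₀ zero_le (hmin i hi) _) _
    · have h2 : x (g i) ∈ 𝒪 := by
        by_contra h
        exact hi (by rw [hS]; exact Finset.mem_filter.2 ⟨Finset.mem_univ _, h⟩)
      exact mul_le_one' (pow_le_one₀ zero_le hθlt.le) ((𝒪.valuation_le_one_iff _).2 h2)
  have hx1m : ∀ s, x1 s ∈ 𝒪 := hgen x1 hx1g hℂ
  -- values
  have hx10 : ∀ (k : ℕ), ∀ c ∈ Wt 𝒜 P H k (a * k), x1 c = x c := by
    intro k c hc
    rw [hx1 k _ c hc, sub_self, Int.zero_ediv, Int.toNat_zero, pow_zero, one_mul]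
  have hx11 : ∀ (k : ℕ), ∀ c ∈ Wt 𝒜 P H k (a * k - a), 𝒪.valuation (x1 c) < 1 := by
    intro k c hc
    rw [hx1 k _ c hc, sub_sub_cancel, Int.ediv_self ha.ne', Int.toNat_one, pow_one, map_mul]
    have h2 : 𝒪.valuation (x c) ≤ 1 := (𝒪.valuation_le_one_iff _).2 (h1 k c hc)
    refine lt_of_le_of_lt (mul_le_mul_right h2 _) ?_
    rw [mul_one]
    exact hθlt
  have hx12 : 𝒪.valuation (x1 (g i₀)) = 1 := by
    rw [hx1 _ _ _ (hg i₀).2, map_mul, map_pow]
    exact hvχ i₀ hi₀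
  obtain ⟨k, hk, c, hc, hvc⟩ := hnv
  have hvcg : 𝒪.valuation (x1 (c * g i₀)) = 1 := by
    rw [map_mul, map_mul, hx12, hx10 k c hc, hvc, one_mul]
  obtain ⟨x', hx', hx'g⟩ := sp12_spec 𝒪 x1 hx1m (c * g i₀) hvcg
  rw [map_mul] at hx'g
  have hW' : TypeW 𝒜 P H a x' := by
    intro k m hm s hs
    refine hx' s ?_
    rw [hx1 k m s hs, hW k m hm s hs, mul_zero, map_zero]
    exact zero_lt_one
  have hpure := sp12_pure C.half x' hW' ⟨k, hk, c, hc, left_ne_zero_of_mul hx'g⟩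
    (fun k s hs => hx' s (hx11 k s hs))
  refine right_ne_zero_of_mul hx'g (hpure _ _ ?_ _ (hg i₀).2)
  rw [hSe i₀ hi₀]
  intro h
  have h2 : a * (e i₀ : ℤ) = 0 := by linarith
  rcases mul_eq_zero.1 h2 with h3 | h3
  · exact ha.ne' h3
  · exact hSe2 i₀ hi₀ (by exact_mod_cast h3)

end Vale.Agent.P292
end

section

/-! Theorem E, section 5: (SWAP). See `PROOF.md`. -/

namespace Vale.Agent.P292

open Module Polynomial

universe u v

variable {R : Type u} [CommRing R] [Algebra ℂ R] {𝒜 : ℕ → Submodule ℂ R} [GradedAlgebra 𝒜]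
  {P : R →ₗ[ℂ] R →ₗ[ℂ] R} {H : R} {a : ℤ} {n : ℕ}

/-- A line gives a closed cell with a point `β ≠ 0` where `A₋` is the vertex. -/
theorem CtxN.exists_beta (C : CtxN 𝒜 P H a n) (h : HasLine 𝒜 P H a) :
    ∃ (y : R →ₐ[ℂ] ℂ) (f : Frame 𝒜 P H a n) (β : Fin n → ℂ), HasSlope 𝒜 P H y a ∧ y f.Δ ≠ 0 ∧
      β ≠ 0 ∧ ∀ k : ℕ, 0 < k → ∀ c ∈ Wt 𝒜 P H k (-(a * k)),
        MvPolynomial.eval β (C.half.ctx.cell f y c) = 0 := by
  obtain ⟨x, hW, ⟨k₁, hk₁, r₁, hr₁, hx₁⟩, hm, k₀, m₀, hm₀, r₀, hr₀, hx₀⟩ := h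
  obtain ⟨y, hy, hyx⟩ := C.half.ctx.exists_pure x
  have hslope : HasSlope 𝒜 P H y a := (C.half.ctx.hasSlope_iff_pure).2
    ⟨hy, k₁, hk₁, r₁, hr₁, by rw [hyx r₁ (mem_Ap hr₁)]; exact hx₁⟩
  obtain ⟨f, hf⟩ := C.half.exists_frame y hslope
  obtain ⟨β, hβ⟩ := C.half.ctx.cell_lemma hslope f hf (C.half.complete y f hslope hf) x hW
    (fun c hc => (hyx c hc).symm)
  refine ⟨y, f, β, hslope, hf, ?_, ?_⟩
  · rintro rfl
    have h1 := hβ r₀
    rw [MvPolynomial.aeval_zero, C.half.ctx.constantCoeff_cell, hy k₀ m₀ hm₀ r₀ hr₀, map_zero] at h1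
    exact hx₀ h1
  · intro k hk c hc
    have h1 := not_NV_iff.1 hm k hk c (by rw [Wt_neg]; exact hc)
    rw [hβ c, MvPolynomial.aeval_eq_eval] at h1
    exact h1

/-- Top coefficients give homomorphisms. -/
theorem li4_exists_hom (C : Ctx 𝒜 P H a) (τ : R →ₐ[ℂ] ℂ[X]) (hW : TypeW 𝒜 P H a τ)
    (e : ℕ → ℤ → ℕ) (h0 : e 0 0 = 0)
    (he : ∀ (k : ℕ) (s : ℤ) (r : R), r ∈ Wt 𝒜 P H k (a * s) → r ≠ 0 →
      (τ r).natDegree ≤ e k (a * s))
    (hadd : ∀ (k l : ℕ) (s t : ℤ), |s| ≤ k → |t| ≤ l →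
      e (k + l) (a * (s + t)) = e k (a * s) + e l (a * t)) :
    ∃ x : R →ₐ[ℂ] ℂ, TypeW 𝒜 P H a x ∧
      ∀ (k : ℕ) (m : ℤ), ∀ r ∈ Wt 𝒜 P H k m, x r = (τ r).coeff (e k m) := by
  have hab : ∀ (k : ℕ) (s : ℤ) (r : R), r ∈ Wt 𝒜 P H k (a * s) → r ≠ 0 → |s| ≤ k := by
    intro k s r hr hr0
    have h1 := C.abs_le hr hr0
    rw [abs_mul, abs_of_pos C.pos] at h1
    exact le_of_mul_le_mul_left h1 C.pos
  obtain ⟨x, hx⟩ := C.exists_hom (B := ℂ)
    (fun k m => (Polynomial.lcoeff ℂ (e k m)) ∘ₗ τ.toLinearMap) (by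
      change (τ 1).coeff (e 0 0) = 1
      rw [h0, map_one, Polynomial.coeff_one_zero]) (by
      intro k l m n r hr s hs
      change (τ (r * s)).coeff (e (k + l) (m + n)) = (τ r).coeff (e k m) * (τ s).coeff (e l n)
      rw [map_mul]
      by_cases hr0 : r = 0
      · simp [hr0]
      by_cases hs0 : s = 0
      · simp [hs0]
      by_cases hm : a ∣ m
      · by_cases hn : a ∣ n
        · obtain ⟨m', rfl⟩ := hm
          obtain ⟨n', rfl⟩ := hn
          rw [← mul_add, hadd k l m' n' (hab k m' r hr hr0) (hab l n' s hs hs0)]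
          exact Polynomial.coeff_mul_add_eq_of_natDegree_le (he k m' r hr hr0) (he l n' s hs hs0)
        · simp [hW l n hn s hs]
      · simp [hW k m hm r hr])
  refine ⟨x, fun k m hm r hr => ?_, fun k m r hr => hx k m r hr⟩
  rw [hx k m r hr]
  change (τ r).coeff (e k m) = 0
  rw [hW k m hm r hr, Polynomial.coeff_zero]

/-- The linear coefficient of a linear form on a parametrised line. -/
theorem li4_coeff_one (c ξ β : Fin n → ℂ) :
    (MvPolynomial.aeval (fun i => Polynomial.C (ξ i) + Polynomial.C (β i) *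
      Polynomial.X) (∑ i, MvPolynomial.C (c i) * MvPolynomial.X i :
        MvPolynomial (Fin n) ℂ)).coeff 1 =
      MvPolynomial.eval β (∑ i, MvPolynomial.C (c i) * MvPolynomial.X i) := by
  rw [map_sum, map_sum, Polynomial.finsetSum_coeff]
  refine Finset.sum_congr rfl fun i _ => ?_
  rw [map_mul, map_mul, MvPolynomial.aeval_C, MvPolynomial.aeval_X, MvPolynomial.eval_C,
    MvPolynomial.eval_X]
  change (Polynomial.C (c i) * (Polynomial.C (ξ i) + Polynomial.C (β i) *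
      Polynomial.X)).coeff 1 = _
  rw [Polynomial.coeff_C_mul, Polynomial.coeff_add, Polynomial.coeff_C_mul,
    Polynomial.coeff_X_one, mul_one, Polynomial.coeff_C_succ, zero_add]

/-- (SWAP) -/
theorem CtxN.hasLine_neg (C : CtxN 𝒜 P H a n) (h : HasLine 𝒜 P H a) : HasLine 𝒜 P (-H) a := by
  obtain ⟨y, f, β, hy, hΔ, hβ0, hβ⟩ := C.exists_beta h
  have hpos := C.half.ctx.pos
  have hpure := ((C.half.ctx.hasSlope_iff_pure).1 hy).1
  have hΨ := C.half.ctx.isCell_of_complete hy f hΔ (C.half.complete y f hy hΔ)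
  obtain ⟨ξ, hξ⟩ : ∃ ξ : Fin n → ℂ, MvPolynomial.eval ξ (C.half.ctx.cell f y H) ≠ 0 := by
    by_contra hc
    push Not at hc
    exact hΨ.ne (MvPolynomial.funext fun ξ => by rw [hc ξ, map_zero])
  let L : Fin n → ℂ[X] := fun i => Polynomial.C (ξ i) + Polynomial.C (β i) * Polynomial.X
  let τ : R →ₐ[ℂ] ℂ[X] := (MvPolynomial.aeval L).comp (C.half.ctx.cell f y)
  have hτ : ∀ r, τ r = MvPolynomial.aeval (fun i => Polynomial.C (ξ i) + Polynomial.C (β i) *
      Polynomial.X) (C.half.ctx.cell f y r) := fun r => rfl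
  have hτW : TypeW 𝒜 P H a τ := hΨ.typeW.comp _
  obtain ⟨hLI, k₁, hk₁, c₁, hc₁, hne₁⟩ :=
    hΨ.natDegree_le C.half.ctx hβ0 hβ hξ τ hτ
  have hdeg := hΨ.natDegree_le' C.half.ctx hβ0 hβ hξ τ hτ
  -- the homomorphism `x₁`
  obtain ⟨x₁, hx₁W, hx₁⟩ := li4_exists_hom C.half.ctx τ hτW (fun k _ => k) rfl (by
    intro k s r hr hr0
    have h1 := hdeg k s r hr hr0
    have h2 := neg_abs_le s
    show (τ r).natDegree ≤ k
    omega) (fun k l s t _ _ => rfl)
  -- the homomorphism `x₂`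
  have hdiv : ∀ s : ℤ, a * s / a = s := fun s => Int.mul_ediv_cancel_left s hpos.ne'
  obtain ⟨x₂, hx₂W, hx₂⟩ := li4_exists_hom C.half.ctx τ hτW
    (fun k m => ((k : ℤ) - m / a).toNat) (by simp) (by
    intro k s r hr hr0
    have h1 := hdeg k s r hr hr0
    have h2 := neg_abs_le s
    have h3 := le_abs_self s
    show (τ r).natDegree ≤ ((k : ℤ) - a * s / a).toNat
    rw [hdiv]
    omega) (by
    intro k l s t hs ht
    have h1 := le_abs_self s
    have h2 := le_abs_self t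
    show (((k + l : ℕ) : ℤ) - a * (s + t) / a).toNat =
      ((k : ℤ) - a * s / a).toNat + ((l : ℤ) - a * t / a).toNat
    rw [hdiv, hdiv, hdiv]
    push_cast
    omega)
  -- `x₂` is not zero on some element of degree zero
  have hne₂ : ∃ k : ℕ, 0 < k ∧ ∃ r ∈ Wt 𝒜 P H k 0, x₂ r ≠ 0 := by
    by_contra hcon
    push Not at hcon
    have hnv : ¬ NV 𝒜 P (-H) a x₂ := by
      rw [not_NV_iff]
      intro k hk r hr
      rw [Wt_neg] at hr
      rw [hx₂ k _ r hr]
      have h1 := hLI k r hr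
      have h2 : -(a * (k : ℤ)) / a = -k := by
        rw [← mul_neg, hdiv]
      refine Polynomial.coeff_eq_zero_of_natDegree_lt ?_
      rw [h2]
      omega
    have hkill : ∀ k : ℕ, ∀ r ∈ Wt 𝒜 P H k (a * k - a), x₂ r = 0 := by
      intro k r hr
      refine C.neg.half.ctx.kill_mid x₂ (typeW_neg.2 hx₂W) hnv (fun l hl s hs => ?_) k
        (-(a * k - a)) (by linarith) r (by rw [Wt_neg, neg_neg]; exact hr)
      rw [Wt_neg, neg_zero] at hs
      exact hcon l hl s hs
    apply hβ0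
    funext i
    have hsp : ∀ p ∈ Submodule.span ℂ {p | ∃ (k : ℕ), ∃ r ∈ Wt 𝒜 P H k (a * k - a),
        p = C.half.ctx.cell f y r}, MvPolynomial.eval β p = 0 := by
      intro p hp
      induction hp using Submodule.span_induction with
      | zero => rw [map_zero]
      | add p q _ _ hp hq => rw [map_add, hp, hq, add_zero]
      | smul c p _ hp => rw [MvPolynomial.smul_eval, hp, mul_zero]
      | mem p hp =>
        obtain ⟨k, r, hr, rfl⟩ := hp
        have h1 := hkill k r hr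
        rw [hx₂ k _ r hr] at h1
        have h2 : ((k : ℤ) - (a * (k : ℤ) - a) / a).toNat = 1 := by
          have h3 : a * (k : ℤ) - a = a * ((k : ℤ) - 1) := by ring
          rw [h3, hdiv]
          omega
        rw [h2, hτ r, C.half.ctx.cell_defect_one f hpure hr] at h1
        rw [C.half.ctx.cell_defect_one f hpure hr, ← li4_coeff_one _ ξ β]
        exact h1
    have h4 := hsp _ (hΨ.lin i)
    rwa [MvPolynomial.eval_X] at h4
  obtain ⟨k, hk, r, hr, hr2⟩ := hne₂
  refine ⟨x₁, typeW_neg.2 hx₁W, ⟨k₁, hk₁, c₁, by rw [Wt_neg]; exact hc₁, ?_⟩, ?_, k, 0, ?_, r,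
    by rw [Wt_neg, neg_zero]; exact hr, ?_⟩
  · rw [hx₁ k₁ _ c₁ hc₁]
    exact hne₁
  · rw [neg_neg, not_NV_iff]
    intro l hl s hs
    rw [hx₁ l _ s hs]
    by_cases hs0 : s = 0
    · simp [hs0]
    have h1 := hdeg l l s hs hs0
    have h2 := le_abs_self (l : ℤ)
    refine Polynomial.coeff_eq_zero_of_natDegree_lt ?_
    show (τ s).natDegree < l
    omega
  · have h1 : 0 < a * (k : ℤ) := mul_pos hpos (by exact_mod_cast hk)
    exact h1.ne
  · rw [hx₁ k 0 r hr]
    rw [hx₂ k 0 r hr] at hr2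
    simpa using hr2

end Vale.Agent.P292
end

section

/-! Theorem E, section 7: the generic line. See `PROOF.md`. -/

namespace Vale.Agent.P292

open Module Polynomial

universe u v

variable {R : Type u} [CommRing R] [Algebra ℂ R] {𝒜 : ℕ → Submodule ℂ R} [GradedAlgebra 𝒜]
  {P : R →ₗ[ℂ] R →ₗ[ℂ] R} {H : R} {a : ℤ} {n : ℕ}

/-! ### Task SP1 : the generic line -/

theorem CtxN.exists_generic_line (C : CtxN 𝒜 P H a n) (h : HasLine 𝒜 P H a) :
    ∃ (κ : Type) (_ : Field κ) (_ : IsAlgClosed κ) (_ : Algebra ℂ κ)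
      (μ : R →ₐ[ℂ] MvPolynomial (Fin 2) κ), IsLine 𝒜 P (-H) a μ := by
  obtain ⟨y, f, β, hy, hΔ, hβ0, hβ⟩ := C.exists_beta h
  have hpure := (C.half.ctx.hasSlope_iff_pure).1 hy
  have hΨ : IsCell 𝒜 P H a (C.half.ctx.cell f y) := C.half.isCell C.npos f y hpure.1 hΔ
  set Ψ := C.half.ctx.cell f y with hΨdef
  let S := MvPolynomial (Fin n) ℂ
  let κ := AlgebraicClosure (FractionRing S)
  have hinjS : Function.Injective (algebraMap S κ) := by
    rw [IsScalarTower.algebraMap_eq S (FractionRing S) κ]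
    exact (algebraMap (FractionRing S) κ).injective.comp (IsFractionRing.injective S _)
  let g : ℂ →ₐ[ℂ] κ := Algebra.ofId ℂ κ
  have hΨ' := hΨ.map g
  let ξ : Fin n → κ := fun i => algebraMap S κ (MvPolynomial.X i)
  let β' : Fin n → κ := fun i => algebraMap ℂ κ (β i)
  have hmap : ∀ (z : Fin n → κ) (p : MvPolynomial (Fin n) ℂ),
      MvPolynomial.eval z (MvPolynomial.mapAlgHom g p) = MvPolynomial.aeval z p := by
    intro z p
    rw [MvPolynomial.mapAlgHom_apply, MvPolynomial.eval_map]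
    rfl
  have hev : ∀ p : S, MvPolynomial.eval ξ (MvPolynomial.mapAlgHom g p) = algebraMap S κ p := by
    intro p
    rw [hmap]
    have : (MvPolynomial.aeval ξ : S →ₐ[ℂ] κ) = IsScalarTower.toAlgHom ℂ S κ := by
      ext i
      simp [ξ]
      rfl
    rw [this]
    rfl
  have hβev : ∀ p : S, MvPolynomial.eval β' (MvPolynomial.mapAlgHom g p) =
      algebraMap ℂ κ (MvPolynomial.eval β p) := by
    intro p
    rw [hmap]
    have : (MvPolynomial.aeval β' : S →ₐ[ℂ] κ) = g.comp (MvPolynomial.aeval β) := by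
      ext i
      simp [β', g, Algebra.ofId_apply]
    rw [this]
    rfl
  obtain ⟨μ, hμ, -⟩ := hΨ'.exists_line C.half.ctx (β := β') (ξ := ξ)
    (by
      intro h0
      apply hβ0
      funext i
      have := congrFun h0 i
      simpa [β'] using this)
    (by
      intro k hk c hc
      rw [AlgHom.comp_apply, hβev, hβ k hk c hc, map_zero])
    (by
      rw [AlgHom.comp_apply, hev]
      intro h0
      exact hΨ.ne (hinjS (by rw [h0, map_zero])))
    (by
      intro c hc h0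
      rw [AlgHom.comp_apply, hev] at h0
      exact C.half.inj y f hy hΔ c hc (hinjS (by rw [← hΨdef, h0, map_zero])))
  exact ⟨κ, inferInstance, inferInstance, inferInstance, μ, hμ⟩

end Vale.Agent.P292
end

section

/-! Theorem E, section 4: (FRAME). See `PROOF.md`. -/

namespace Vale.Agent.P292

open Module

universe u v

variable {R : Type u} [CommRing R] [Algebra ℂ R] {𝒜 : ℕ → Submodule ℂ R} [GradedAlgebra 𝒜]
  {P : R →ₗ[ℂ] R →ₗ[ℂ] R} {H : R} {a : ℤ} {n : ℕ}

/-- The quotient map `R → R / (ker y)²` is linear with finite dimensional image of `ker y`. -/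
theorem ce3_finite (C : Ctx 𝒜 P H a) (y : R →ₐ[ℂ] ℂ) (S : Set (R ⧸ RingHom.ker y ^ 2))
    (hS : ∀ s ∈ S, ∃ r ∈ RingHom.ker y, Ideal.Quotient.mk (RingHom.ker y ^ 2) r = s) :
    Module.Finite ℂ (Submodule.span ℂ S) := by
  have := C.hX.finiteType
  have : IsNoetherianRing R := Algebra.FiniteType.isNoetherianRing ℂ R
  obtain ⟨G, hG⟩ := (isNoetherianRing_iff_ideal_fg R).mp this (RingHom.ker y)
  have hfin : FiniteDimensional ℂ (Submodule.span ℂ
      ((fun r => Ideal.Quotient.mk (RingHom.ker y ^ 2) r) '' (G : Set R))) :=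
    FiniteDimensional.span_of_finite ℂ (G.finite_toSet.image _)
  refine Submodule.finiteDimensional_of_le (S₂ := Submodule.span ℂ
    ((fun r => Ideal.Quotient.mk (RingHom.ker y ^ 2) r) '' (G : Set R))) ?_
  rw [Submodule.span_le]
  intro s hs
  obtain ⟨r, hr, rfl⟩ := hS s hs
  rw [← hG] at hr
  change Ideal.Quotient.mk (RingHom.ker y ^ 2) r ∈ _
  refine Submodule.span_induction (p := fun r _ => Ideal.Quotient.mk (RingHom.ker y ^ 2) r ∈
    Submodule.span ℂ ((fun r => Ideal.Quotient.mk (RingHom.ker y ^ 2) r) '' (G : Set R)))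
    ?_ ?_ ?_ ?_ hr
  · intro x hx
    exact Submodule.subset_span ⟨x, hx, rfl⟩
  · simp
  · intro x z _ _ hx hz
    rw [map_add]
    exact add_mem hx hz
  · intro t x hx hx'
    have hxm : x ∈ RingHom.ker y := by rw [← hG]; exact hx
    have h1 : Ideal.Quotient.mk (RingHom.ker y ^ 2) (t • x) =
        y t • Ideal.Quotient.mk (RingHom.ker y ^ 2) x := by
      have h2 : y t • Ideal.Quotient.mk (RingHom.ker y ^ 2) x =
          Ideal.Quotient.mk (RingHom.ker y ^ 2) (algebraMap ℂ R (y t) * x) := by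
        rw [Algebra.smul_def, map_mul]
        rfl
      rw [h2, smul_eq_mul, Ideal.Quotient.eq, ← sub_mul, pow_two]
      refine Ideal.mul_mem_mul ?_ hxm
      rw [RingHom.mem_ker, map_sub, AlgHom.commutes]
      simp
    rw [h1]
    exact Submodule.smul_mem _ _ hx'

/-- (FRAME) Complete frames exist at every point of the source. -/
theorem Ctx.exists_frame (C : Ctx 𝒜 P H a) {y : R →ₐ[ℂ] ℂ} (hy : HasSlope 𝒜 P H y a) :
    ∃ (n : ℕ) (f : Frame 𝒜 P H a n), y f.Δ ≠ 0 ∧ f.Complete y := by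
  classical
  -- the vectors `b - y b` modulo `(ker y)²`
  set q : R →ₐ[ℂ] (R ⧸ RingHom.ker y ^ 2) := Ideal.Quotient.mkₐ ℂ (RingHom.ker y ^ 2) with hq
  have hq0 : ∀ r, q r = 0 ↔ r ∈ RingHom.ker y ^ 2 := fun r => Ideal.Quotient.eq_zero_iff_mem
  set v : R →ₗ[ℂ] (R ⧸ RingHom.ker y ^ 2) :=
    q.toLinearMap - (Algebra.linearMap ℂ _) ∘ₗ y.toLinearMap with hv
  have hv' : ∀ r, v r = q (r - algebraMap ℂ R (y r)) := by
    intro r
    rw [map_sub, AlgHom.commutes]
    rfl
  set S : Set (R ⧸ RingHom.ker y ^ 2) :=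
    {s | ∃ k : ℕ, 0 < k ∧ ∃ b ∈ Wt 𝒜 P H k (a * k), v b = s} with hS
  have hfin : Module.Finite ℂ (Submodule.span ℂ S) := by
    apply ce3_finite C y
    rintro s ⟨k, -, b, -, rfl⟩
    refine ⟨b - algebraMap ℂ R (y b), ?_, (hv' b).symm⟩
    rw [RingHom.mem_ker, map_sub, AlgHom.commutes]
    simp
  obtain ⟨n, f, hfS, hfspan, hfli⟩ : ∃ (n : ℕ) (f : Fin n → R ⧸ RingHom.ker y ^ 2),
      (∀ i, f i ∈ S) ∧ Submodule.span ℂ (Set.range f) = Submodule.span ℂ S ∧
        LinearIndependent ℂ f :=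
    ⟨_, Submodule.exists_fun_fin_finrank_span_eq ℂ S⟩
  choose kb hkb b hb hbv using hfS
  -- the functionals
  set w : R → Fin n → ℂ := fun r i => y (P (b i) r) with hw
  set T : Set (Fin n → ℂ) := {t | ∃ k : ℕ, ∃ r ∈ Wt 𝒜 P H k (a * k - a), w r = t} with hT
  have hTtop : Submodule.span ℂ T = ⊤ := by
    by_contra hne
    obtain ⟨φ, hφ0, hφ⟩ := Submodule.exists_le_ker_of_lt_top _ (lt_top_iff_ne_top.2 hne)
    have hφe : ∀ t : Fin n → ℂ, φ t = ∑ i, t i * φ (Pi.single i 1) := by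
      intro t
      rw [← Finset.univ_sum_single t, map_sum]
      refine Finset.sum_congr rfl fun i _ => ?_
      rw [Finset.univ_sum_single t]
      have : (Pi.single i (t i) : Fin n → ℂ) = t i • Pi.single i 1 := by
        rw [← Pi.single_smul, smul_eq_mul, mul_one]
      rw [this, map_smul, smul_eq_mul]
    have hb' : ∀ i, b i ∈ Ap 𝒜 P H a := fun i => mem_Ap (hb i)
    have hbA : ∑ i, φ (Pi.single i 1) • b i ∈ Ap 𝒜 P H a :=
      Subalgebra.sum_mem _ fun i _ => Subalgebra.smul_mem _ (hb' i) _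
    have hzero := C.mem_ker_sq_of_Ap hy hbA (fun k r hr => by
      have h1 : φ (w r) = 0 := by
        have h2 : w r ∈ Submodule.span ℂ T := Submodule.subset_span ⟨k, r, hr, rfl⟩
        exact LinearMap.mem_ker.1 (hφ h2)
      rw [hφe] at h1
      rw [map_sum, LinearMap.sum_apply, map_sum, ← h1]
      refine Finset.sum_congr rfl fun i _ => ?_
      rw [map_smul, LinearMap.smul_apply, map_smul, smul_eq_mul, mul_comm])
    rw [← hq0, ← hv', map_sum] at hzero
    have hzero' : ∑ i, φ (Pi.single i 1) • f i = 0 := by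
      rw [← hzero]
      refine Finset.sum_congr rfl fun i _ => ?_
      rw [map_smul, hbv]
    have hcoef := Fintype.linearIndependent_iff.1 hfli _ hzero'
    apply hφ0
    refine LinearMap.ext fun t => ?_
    rw [hφe, LinearMap.zero_apply]
    exact Finset.sum_eq_zero fun i _ => by rw [hcoef i, mul_zero]
  obtain ⟨g, hgT, hgspan, hgli⟩ := Submodule.exists_fun_fin_finrank_span_eq ℂ T
  have hrank : finrank ℂ (Submodule.span ℂ T) = n := by
    rw [hTtop, finrank_top, finrank_fin_fun]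
  obtain ⟨g', hg'T, hg'li⟩ : ∃ g' : Fin n → (Fin n → ℂ), (∀ i, g' i ∈ T) ∧
      LinearIndependent ℂ g' := by
    refine ⟨fun i => g (Fin.cast hrank.symm i), fun i => hgT _, ?_⟩
    exact hgli.comp _ (Fin.cast_injective _)
  choose kr r hr hrw using hg'T
  refine ⟨n, ⟨b, kb, hkb, hb, r, kr, hr⟩, ?_, ?_⟩
  · have h1 : y (Frame.Δ (⟨b, kb, hkb, hb, r, kr, hr⟩ : Frame 𝒜 P H a n)) =
        (Matrix.of fun i j => g' j i).det := by
      rw [Frame.Δ, AlgHom.map_det]
      congr 1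
      ext i j
      rw [Matrix.of_apply, ← hrw j]
      rfl
    rw [h1, ← Matrix.det_transpose]
    have h2 : IsUnit (Matrix.of fun i j => g' j i : Matrix (Fin n) (Fin n) ℂ).transpose := by
      rw [← Matrix.linearIndependent_rows_iff_isUnit]
      exact hg'li
    exact ((Matrix.isUnit_iff_isUnit_det _).1 h2).ne_zero
  · have key : ∀ c ∈ Ap 𝒜 P H a, v c ∈ Submodule.span ℂ (Set.range f) := by
      rw [hfspan]
      refine C.Ap_induction ?_ ?_ ?_
      · intro k c hc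
        rcases Nat.eq_zero_or_pos k with h0 | h0
        · subst h0
          obtain ⟨z, rfl⟩ := C.hX.connected c (mem_Wt.mp hc).1
          rw [hv', AlgHom.commutes]
          simp
        · exact Submodule.subset_span ⟨k, h0, c, hc, rfl⟩
      · rw [map_zero]; exact zero_mem _
      · intro r s hr hs
        rw [map_add]
        exact add_mem hr hs
    intro c hc
    obtain ⟨γ, hγ⟩ := (Submodule.mem_span_range_iff_exists_fun ℂ).1 (key c hc)
    refine ⟨γ, ?_⟩
    rw [← hq0, map_sub, ← hv', ← hγ, map_sum, sub_eq_zero]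
    refine Finset.sum_congr rfl fun i _ => ?_
    rw [map_smul, ← hv', hbv]

end Vale.Agent.P292
end

section

/-! Theorem E, section 4: (DIM). See `PROOF.md`. -/

namespace Vale.Agent.P292

open Module

universe u v

section

variable {S : Type u} [CommRing S] [Algebra ℂ S]

/-- Independent elements of a subalgebra. -/
theorem di4_indep (A : Subalgebra ℂ S) {ι : Type*} (b : ι → S) (hb : ∀ i, b i ∈ A)
    (hi : AlgebraicIndependent ℂ b) : AlgebraicIndependent ℂ (fun i => (⟨b i, hb i⟩ : A)) :=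
  AlgebraicIndependent.of_comp A.val hi

theorem di4_le (A : Subalgebra ℂ S) {n : ℕ} (b : Fin n → S) (hb : ∀ i, b i ∈ A)
    (hi : AlgebraicIndependent ℂ b) : (n : Cardinal) ≤ Algebra.trdeg ℂ A := by
  have h := (di4_indep A b hb hi).lift_cardinalMk_le_trdeg
  simpa using h

/-- Over a transcendence basis everything is algebraic. -/
theorem di4_alg (A : Subalgebra ℂ S) {n : ℕ} (h : Algebra.trdeg ℂ A ≤ n) (b : Fin n → S)
    (hb : ∀ i, b i ∈ A) (hi : AlgebraicIndependent ℂ b) (c : S) (hc : c ∈ A) :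
    IsAlgebraic (Algebra.adjoin ℂ (Set.range b)) c := by
  by_contra hcon
  have h1 := (hi.option_iff_transcendental c).2 hcon
  have h2 := (di4_indep A (fun o : Option (Fin n) => o.elim c b)
    (fun o => by cases o <;> simp [hc, hb]) h1).lift_cardinalMk_le_trdeg
  have h3 : ((n + 1 : ℕ) : Cardinal.{u}) ≤ Algebra.trdeg ℂ A := by simpa using h2
  have h4 := h3.trans h
  have h5 : n + 1 ≤ n := by exact_mod_cast h4
  omega

end

variable {R : Type u} [CommRing R] [Algebra ℂ R] {𝒜 : ℕ → Submodule ℂ R} [GradedAlgebra 𝒜]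
  {P : R →ₗ[ℂ] R →ₗ[ℂ] R} {H : R} {a : ℤ} {n : ℕ}

/-- Elements of `A₋` whose images under a cell are algebraically independent. -/
theorem di4_cell (C : Ctx 𝒜 P H a) {Ψ : R →ₐ[ℂ] MvPolynomial (Fin n) ℂ}
    (hΨ : IsCell 𝒜 P H a Ψ) : ∃ g : Fin n → R, (∀ i, g i ∈ Ap 𝒜 P (-H) a) ∧
      AlgebraicIndependent ℂ (fun i => Ψ (g i)) := by
  set T := Algebra.adjoin ℂ (Ψ '' (Ap 𝒜 P (-H) a : Set R)) with hT
  have halg : Algebra.IsAlgebraic T (MvPolynomial (Fin n) ℂ) := by
    refine ⟨fun p => ?_⟩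
    induction p using MvPolynomial.induction_on with
    | C c =>
      have h0 : IsAlgebraic T (algebraMap T (MvPolynomial (Fin n) ℂ) (algebraMap ℂ T c)) :=
        isAlgebraic_algebraMap (algebraMap ℂ T c)
      exact h0
    | add p q hp hq => exact hp.add hq
    | mul_X p i hp => exact hp.mul (hΨ.isAlgebraic C i)
  obtain ⟨t, ht, hB⟩ := exists_isTranscendenceBasis_subset (R := ℂ)
    (Ψ '' (Ap 𝒜 P (-H) a : Set R))
  have hcard : Cardinal.mk t = Cardinal.mk (Fin n) := by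
    rw [hB.cardinalMk_eq_trdeg, MvPolynomial.trdeg_of_isDomain, Cardinal.lift_id]
  obtain ⟨e⟩ := Cardinal.eq.1 hcard
  have h1 : ∀ i, ∃ r ∈ Ap 𝒜 P (-H) a, Ψ r = (e.symm i : MvPolynomial (Fin n) ℂ) := by
    intro i
    obtain ⟨r, hr, h⟩ := ht (e.symm i).2
    exact ⟨r, hr, h⟩
  choose g hg hgΨ using h1
  refine ⟨g, hg, ?_⟩
  have h2 : (fun i => Ψ (g i)) = (fun x : t => (x : MvPolynomial (Fin n) ℂ)) ∘ e.symm := by
    funext i
    exact hgΨ i
  rw [h2]
  exact hB.1.comp _ e.symm.injective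

/-- (DIM) (ii): lower bound for the other side. -/
theorem di4_le_neg (C : Ctx 𝒜 P H a) {Ψ : R →ₐ[ℂ] MvPolynomial (Fin n) ℂ}
    (hΨ : IsCell 𝒜 P H a Ψ) : (n : Cardinal) ≤ Algebra.trdeg ℂ (Ap 𝒜 P (-H) a) := by
  obtain ⟨g, hg, hi⟩ := di4_cell C hΨ
  exact di4_le _ g hg (AlgebraicIndependent.of_comp Ψ hi)

/-- A cell is injective on `A₋` if the dimension is right. -/
theorem di4_inj (C : Ctx 𝒜 P H a) {Ψ : R →ₐ[ℂ] MvPolynomial (Fin n) ℂ}
    (hΨ : IsCell 𝒜 P H a Ψ) (h : Algebra.trdeg ℂ (Ap 𝒜 P (-H) a) ≤ n) :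
    InjA 𝒜 P (-H) a Ψ := by
  have := C.hX.domain
  obtain ⟨g, hg, hi⟩ := di4_cell C hΨ
  intro r hr hr0
  by_contra hne
  have hi' : AlgebraicIndependent ℂ g := AlgebraicIndependent.of_comp Ψ hi
  have h1 := di4_alg _ h g hg hi' r hr
  obtain ⟨q, hq, hdvd⟩ := h1.exists_nonzero_dvd (mem_nonZeroDivisors_of_ne_zero hne)
  obtain ⟨q, hqm⟩ := q
  have hdvd' : r ∣ q := hdvd
  have hq0 : q ≠ 0 := fun h0 => hq (Subtype.ext h0)
  have hΨq : Ψ q = 0 := by
    obtain ⟨s, rfl⟩ := hdvd'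
    rw [map_mul, hr0, zero_mul]
  rw [Algebra.adjoin_range_eq_range_aeval] at hqm
  obtain ⟨p, hp⟩ := hqm
  have hp' : MvPolynomial.aeval g p = q := hp
  have h2 : MvPolynomial.aeval (fun i => Ψ (g i)) p = 0 := by
    rw [← MvPolynomial.comp_aeval_apply, hp', hΨq]
  have h3 : p = 0 := (algebraicIndependent_iff.1 hi) p h2
  exact hq0 (by rw [← hp', h3, map_zero])

/-- (DIM): the dimension. -/
theorem di4_eq (C : Ctx 𝒜 P H a) {y : R →ₐ[ℂ] ℂ} (hy : HasSlope 𝒜 P H y a)
    (f : Frame 𝒜 P H a n) (hΔ : y f.Δ ≠ 0) (hf : f.Complete y) :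
    Algebra.trdeg ℂ (Ap 𝒜 P H a) = n := by
  refine le_antisymm (C.trdeg_le hy f hf) ?_
  have h0 : f.Δ ≠ 0 := fun h => hΔ (by rw [h, map_zero])
  exact di4_le _ f.b (fun i => mem_Ap (f.hb i)) (C.frame_indep f h0)

/-- Nonvanishing frames are complete. -/
theorem di4_complete (C : Ctx 𝒜 P H a) {y : R →ₐ[ℂ] ℂ} (f' : Frame 𝒜 P H a n)
    (hf' : f'.Complete y) (f : Frame 𝒜 P H a n) (hΔ : y f.Δ ≠ 0) : f.Complete y := by
  set q : R →ₐ[ℂ] (R ⧸ RingHom.ker y ^ 2) := Ideal.Quotient.mkₐ ℂ (RingHom.ker y ^ 2) with hq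
  have hq0 : ∀ r, q r = 0 ↔ r ∈ RingHom.ker y ^ 2 := fun r => Ideal.Quotient.eq_zero_iff_mem
  set v : R →ₗ[ℂ] (R ⧸ RingHom.ker y ^ 2) :=
    q.toLinearMap - (Algebra.linearMap ℂ _) ∘ₗ y.toLinearMap with hv
  have hv' : ∀ r, v r = q (r - algebraMap ℂ R (y r)) := by
    intro r
    rw [map_sub, AlgHom.commutes]
    rfl
  -- completeness as a statement about spans
  have key : ∀ g : Frame 𝒜 P H a n, g.Complete y ↔
      ∀ c ∈ Ap 𝒜 P H a, v c ∈ Submodule.span ℂ (Set.range fun i => v (g.b i)) := by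
    intro g
    refine forall₂_congr fun c _ => ?_
    rw [Submodule.mem_span_range_iff_exists_fun]
    refine exists_congr fun γ => ?_
    rw [← hq0, map_sub, ← hv', map_sum, sub_eq_zero, eq_comm]
    simp only [map_smul, ← hv']
  -- the vectors of `f` are linearly independent
  have hli : LinearIndependent ℂ (fun i => v (f.b i)) := by
    rw [Fintype.linearIndependent_iff]
    intro γ hγ
    have h1 : v (∑ i, γ i • f.b i) = 0 := by
      rw [map_sum]
      simpa only [map_smul] using hγ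
    rw [hv', hq0] at h1
    have hdet : (f.mat.map y).det ≠ 0 := by
      have h2 : (f.mat.map y).det = y f.Δ := (AlgHom.map_det y f.mat).symm
      rw [h2]
      exact hΔ
    have h3 : Matrix.vecMul γ (f.mat.map y) = 0 := by
      funext j
      have h4 := ce4_ker_sq C.hX y (f.r j) h1
      simp only [map_sub, map_sum, map_smul, LinearMap.sub_apply, LinearMap.sum_apply,
        LinearMap.smul_apply, ce4_one C.hX, sub_zero] at h4
      simpa [Matrix.vecMul, dotProduct, Frame.mat] using h4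
    exact fun i => congrFun (Matrix.eq_zero_of_vecMul_eq_zero hdet h3) i
  rw [key] at hf' ⊢
  have hle : Submodule.span ℂ (Set.range fun i => v (f.b i)) ≤
      Submodule.span ℂ (Set.range fun i => v (f'.b i)) := by
    rw [Submodule.span_le]
    rintro _ ⟨i, rfl⟩
    exact hf' _ (mem_Ap (f.hb i))
  have heq : Submodule.span ℂ (Set.range fun i => v (f.b i)) =
      Submodule.span ℂ (Set.range fun i => v (f'.b i)) := by
    have hfd : FiniteDimensional ℂ (Submodule.span ℂ (Set.range fun i => v (f'.b i))) :=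
      FiniteDimensional.span_of_finite ℂ (Set.finite_range _)
    refine Submodule.eq_of_le_of_finrank_le hle ?_
    rw [finrank_span_eq_card hli]
    exact finrank_range_le_card _
  intro c hc
  rw [heq]
  exact hf' c hc

/-- The half of (DIM) for one side. -/
theorem di4_half (C : Ctx 𝒜 P H a) {y : R →ₐ[ℂ] ℂ} (hy : HasSlope 𝒜 P H y a)
    (f : Frame 𝒜 P H a n) (hΔ : y f.Δ ≠ 0) (hf : f.Complete y)
    (h : Algebra.trdeg ℂ (Ap 𝒜 P (-H) a) = n) : Half 𝒜 P H a n := by
  have htr := di4_eq C hy f hΔ hf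
  have hex : ∀ y : R →ₐ[ℂ] ℂ, HasSlope 𝒜 P H y a →
      ∃ f : Frame 𝒜 P H a n, y f.Δ ≠ 0 ∧ f.Complete y := by
    intro z hz
    obtain ⟨m, g, hg, hgc⟩ := C.exists_frame hz
    have h1 := di4_eq C hz g hg hgc
    rw [htr] at h1
    obtain rfl : n = m := by exact_mod_cast h1
    exact ⟨g, hg, hgc⟩
  have hcomp : ∀ (y : R →ₐ[ℂ] ℂ) (f : Frame 𝒜 P H a n), HasSlope 𝒜 P H y a → y f.Δ ≠ 0 →
      f.Complete y := by
    intro z g hz hg
    obtain ⟨g', -, hgc'⟩ := hex z hz
    exact di4_complete C g' hgc' g hg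
  refine ⟨C, fun z hz => ?_, hcomp, fun g hg => C.frame_indep g hg, fun g hg c hc => ?_, htr,
    fun z g hz hg => ?_⟩
  · obtain ⟨g, hg, -⟩ := hex z hz
    exact ⟨g, hg⟩
  · exact di4_alg _ htr.le g.b (fun i => mem_Ap (g.hb i)) (C.frame_indep g hg) c hc
  · exact di4_inj C (C.isCell_of_complete hz g hg (hcomp z g hz hg)) h.le

/-- (DIM) The dimensions of both sides agree and are positive. -/
theorem Ctx.exists_ctxN (C : Ctx 𝒜 P H a) : ∃ n, CtxN 𝒜 P H a n := by
  obtain ⟨y, hy⟩ := C.hmax.exists_slope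
  obtain ⟨n, f, hf, hfc⟩ := C.exists_frame hy
  obtain ⟨y', hy'⟩ := C.neg.hmax.exists_slope
  obtain ⟨n', f', hf', hfc'⟩ := C.neg.exists_frame hy'
  have h1 := di4_eq C hy f hf hfc
  have h1' := di4_eq C.neg hy' f' hf' hfc'
  have h2 := di4_le_neg C (C.isCell_of_complete hy f hf hfc)
  have h2' := di4_le_neg C.neg (C.neg.isCell_of_complete hy' f' hf' hfc')
  rw [neg_neg, h1] at h2'
  rw [h1'] at h2
  obtain rfl : n = n' := le_antisymm (by exact_mod_cast h2) (by exact_mod_cast h2')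
  refine ⟨n, di4_half C hy f hf hfc h1', di4_half C.neg hy' f' hf' hfc' ?_, ?_⟩
  · rw [neg_neg]
    exact h1
  · rcases Nat.eq_zero_or_pos n with h0 | h0
    · subst h0
      exfalso
      apply C.cell_H_ne_zero hy f hfc
      rw [C.cell_H f (C.hasSlope_iff_pure.1 hy).1]
      simp
    · exact h0

end Vale.Agent.P292
end

section

/-! Group T: generalised eigenspaces of a contact vector field. -/

namespace Vale.Agent.P292

open Module

universe u

variable {R : Type u} [CommRing R] [Algebra ℂ R] {𝒜 : ℕ → Submodule ℂ R} [GradedAlgebra 𝒜]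
  {P : R →ₗ[ℂ] R →ₗ[ℂ] R}

lemma t1_op_pow (hX : IsContactFano 𝒜 P) (k : ℕ) {u : R} (hu : u ∈ 𝒜 1) (μ : ℂ) (n : ℕ)
    (m : 𝒜 k) :
    ((((jordan3_op hX k hu - μ • (1 : End ℂ (𝒜 k))) ^ n) m : 𝒜 k) : R) =
      (((P u - μ • (1 : End ℂ R)) : End ℂ R) ^ n) (m : R) := by
  induction n with
  | zero => rfl
  | succ n ih =>
    rw [pow_succ', Module.End.mul_apply, pow_succ', Module.End.mul_apply, ← ih]
    simp only [LinearMap.sub_apply, LinearMap.smul_apply, Module.End.one_apply,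
      Submodule.coe_sub, Submodule.coe_smul, jordan3_op_coe]

lemma t1_mem_maxGen_iff (hX : IsContactFano 𝒜 P) (k : ℕ) {u : R} (hu : u ∈ 𝒜 1) (μ : ℂ)
    (m : 𝒜 k) :
    (m : R) ∈ Module.End.maxGenEigenspace (P u) μ ↔
      m ∈ (jordan3_op hX k hu).maxGenEigenspace μ := by
  rw [mem_maxGen_iff, mem_maxGen_iff]
  refine exists_congr fun n => ?_
  rw [← t1_op_pow hX k hu μ n m, ZeroMemClass.coe_eq_zero]

/-- Decomposition of `R` into generalised eigenspaces of a contact vector field. -/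
theorem le_iSup_maxGen (hX : IsContactFano 𝒜 P) {f : R} (hf : f ∈ 𝒜 1) (k : ℕ) :
    𝒜 k ≤ ⨆ ν : ℂ, 𝒜 k ⊓ Module.End.maxGenEigenspace (P f) ν := by
  intro r hr
  have hfin : FiniteDimensional ℂ (𝒜 k) := by
    have := hX.finiteType
    exact finiteDimensional_piece 𝒜 hX.connected k
  have h1 : (⟨r, hr⟩ : 𝒜 k) ∈ ⨆ μ : ℂ, (jordan3_op hX k hf).maxGenEigenspace μ := by
    rw [Module.End.iSup_maxGenEigenspace_eq_top]
    exact Submodule.mem_top
  have h2 : r ∈ (⨆ μ : ℂ, (jordan3_op hX k hf).maxGenEigenspace μ).map (𝒜 k).subtype :=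
    ⟨⟨r, hr⟩, h1, rfl⟩
  rw [Submodule.map_iSup] at h2
  refine (iSup_mono fun μ => ?_ :
    (⨆ μ : ℂ, ((jordan3_op hX k hf).maxGenEigenspace μ).map (𝒜 k).subtype) ≤
      ⨆ ν : ℂ, 𝒜 k ⊓ Module.End.maxGenEigenspace (P f) ν) h2
  rintro _ ⟨m, hm, rfl⟩
  exact ⟨m.2, (t1_mem_maxGen_iff hX k hf μ m).mpr hm⟩

/-- A nonzero generalised eigenvalue. -/
theorem exists_ne_zero_of_not_nilpotent (hX : IsContactFano 𝒜 P) {f : R} (hf : f ∈ 𝒜 1) {k : ℕ}
    {r : R} (hr : r ∈ 𝒜 k) (hn : ∀ n, (⇑(P f))^[n] r ≠ 0) :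
    ∃ ν : ℂ, ν ≠ 0 ∧ ∃ s ∈ Module.End.maxGenEigenspace (P f) ν, s ≠ 0 := by
  by_contra hcon
  push Not at hcon
  have h1 : r ∈ Module.End.maxGenEigenspace (P f) 0 := by
    have h2 : (⨆ ν : ℂ, 𝒜 k ⊓ Module.End.maxGenEigenspace (P f) ν) ≤
        Module.End.maxGenEigenspace (P f) 0 := by
      refine iSup_le fun ν => ?_
      rintro s ⟨_, hs⟩
      by_cases hν : ν = 0
      · rw [← hν]; exact hs
      · rw [hcon ν hν s hs]; exact zero_mem _
    exact h2 (le_iSup_maxGen hX hf k hr)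
  rw [mem_maxGen_iff] at h1
  obtain ⟨n, h3⟩ := h1
  rw [zero_smul, sub_zero, Module.End.pow_apply] at h3
  exact hn n h3

end Vale.Agent.P292
end

section

/-! Group T: graded Poisson derivations from additive functions of the eigenvalues. -/

namespace Vale.Agent.P292

open Module

universe u

lemma T1B_ext {V W ι : Type*} [AddCommGroup V] [Module ℂ V] [AddCommGroup W] [Module ℂ W]
    {B : ι → Submodule ℂ V} (hB : ⨆ i, B i = ⊤) {F G : V →ₗ[ℂ] W}
    (h : ∀ i, ∀ r ∈ B i, F r = G r) (r : V) : F r = G r := by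
  have h1 : ⨆ i, B i ≤ LinearMap.eqLocus F G := iSup_le fun i r hr => h i r hr
  have h2 : r ∈ LinearMap.eqLocus F G := h1 (hB ▸ Submodule.mem_top)
  exact h2

/-- The operator acting on `B i` by the scalar `c i`. -/
lemma T1B_exists_diag {V ι : Type*} [AddCommGroup V] [Module ℂ V]
    {B : ι → Submodule ℂ V} (hi : iSupIndep B) (hB : ⨆ i, B i = ⊤) (c : ι → ℂ) :
    ∃ Δ : V →ₗ[ℂ] V, ∀ i, ∀ r ∈ B i, Δ r = c i • r := by
  classical
  have hint : DirectSum.IsInternal B :=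
    DirectSum.isInternal_submodule_of_iSupIndep_of_iSup_eq_top hi hB
  let e : (DirectSum ι fun i => B i) ≃ₗ[ℂ] V :=
    LinearEquiv.ofBijective (DirectSum.coeLinearMap B) hint
  refine ⟨(DirectSum.toModule ℂ ι V (fun i => c i • (B i).subtype)) ∘ₗ e.symm.toLinearMap,
    fun i r hr => ?_⟩
  have h1 : e (DirectSum.lof ℂ ι (fun i => B i) i ⟨r, hr⟩) = r := by
    change DirectSum.coeLinearMap B _ = r
    rw [DirectSum.coeLinearMap_lof]
  have h2 : e.symm r = DirectSum.lof ℂ ι (fun i => B i) i ⟨r, hr⟩ := by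
    rw [LinearEquiv.symm_apply_eq, h1]
  rw [LinearMap.comp_apply]
  change DirectSum.toModule ℂ ι V (fun i => c i • (B i).subtype) (e.symm r) = _
  rw [h2, DirectSum.toModule_lof]
  rfl

variable {R : Type u} [CommRing R] [Algebra ℂ R] {𝒜 : ℕ → Submodule ℂ R} [GradedAlgebra 𝒜]
  {P : R →ₗ[ℂ] R →ₗ[ℂ] R}

/-- An additive function of the generalised eigenvalues gives a graded Poisson derivation. -/
theorem exists_derivation_of_additive (hX : IsContactFano 𝒜 P) {f : R} (hf : f ∈ 𝒜 1)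
    (φ : ℂ →+ ℂ) :
    ∃ Δ : R →ₗ[ℂ] R, (∀ a b, Δ (a * b) = Δ a * b + a * Δ b) ∧
      (∀ a b, Δ (P a b) = P (Δ a) b + P a (Δ b)) ∧ (∀ k, ∀ r ∈ 𝒜 k, Δ r ∈ 𝒜 k) ∧
      ∀ (ν : ℂ), ∀ r ∈ Module.End.maxGenEigenspace (P f) ν, Δ r = φ ν • r := by
  have htop : ⨆ ν : ℂ, Module.End.maxGenEigenspace (P f) ν = ⊤ := by
    rw [eq_top_iff, ← (DirectSum.Decomposition.isInternal 𝒜).submodule_iSup_eq_top]
    refine iSup_le fun k => (le_iSup_maxGen hX hf k).trans ?_
    exact iSup_mono fun ν => inf_le_right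
  obtain ⟨Δ, hΔ⟩ := T1B_exists_diag (Module.End.independent_maxGenEigenspace (P f)) htop
    (fun ν => φ ν)
  have key : ∀ β : R →ₗ[ℂ] R →ₗ[ℂ] R, (∀ a b, P f (β a b) = β (P f a) b + β a (P f b)) →
      ∀ a b, Δ (β a b) = β (Δ a) b + β a (Δ b) := by
    intro β hβ a b
    have h1 : ∀ ν : ℂ, ∀ x ∈ Module.End.maxGenEigenspace (P f) ν, ∀ b,
        Δ (β x b) = β (Δ x) b + β x (Δ b) := by
      intro ν x hx b
      refine T1B_ext htop (F := Δ ∘ₗ β x) (G := β (Δ x) + β x ∘ₗ Δ) (fun μ y hy => ?_) b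
      have h2 := mem_maxGen_add (P f) β hβ ν μ x y hx hy
      simp only [LinearMap.comp_apply, LinearMap.add_apply]
      rw [hΔ _ _ h2, hΔ _ _ hx, hΔ _ _ hy, map_add, add_smul, map_smul, map_smul,
        LinearMap.smul_apply]
    refine T1B_ext htop (F := Δ ∘ₗ β.flip b) (G := β.flip b ∘ₗ Δ + β.flip (Δ b))
      (fun ν x hx => ?_) a
    simp only [LinearMap.comp_apply, LinearMap.add_apply, LinearMap.flip_apply]
    exact h1 ν x hx b
  refine ⟨Δ, ?_, ?_, ?_, fun ν r hr => hΔ ν r hr⟩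
  · intro a b
    exact key (LinearMap.mul ℂ R) (fun a b => by
      simp only [LinearMap.mul_apply']
      exact hX.leibniz f a b) a b
  · exact key P (fun a b => hX.jacobi f a b)
  · intro k r hr
    refine Submodule.iSup_induction (fun ν : ℂ => 𝒜 k ⊓ Module.End.maxGenEigenspace (P f) ν)
      (motive := fun r => Δ r ∈ 𝒜 k) (le_iSup_maxGen hX hf k hr) ?_ ?_ ?_
    · intro ν x hx
      rw [hΔ ν x hx.2]
      exact Submodule.smul_mem _ _ hx.1
    · rw [map_zero]
      exact zero_mem _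
    · intro x y hx hy
      rw [map_add]
      exact add_mem hx hy

end Vale.Agent.P292
end

section

/-! Group T: integral additive functions on the generalised eigenvalues. -/

namespace Vale.Agent.P292

open Module

universe u

variable {R : Type u} [CommRing R] [Algebra ℂ R] {𝒜 : ℕ → Submodule ℂ R} [GradedAlgebra 𝒜]
  {P : R →ₗ[ℂ] R →ₗ[ℂ] R}

/-- An additive function with integral values on a finite set and nonzero at a given nonzero
number. -/
theorem exists_additive_finset {ν₀ : ℂ} (h0 : ν₀ ≠ 0) (s : Finset ℂ) :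
    ∃ φ : ℂ →+ ℂ, φ ν₀ ≠ 0 ∧ ∀ ν ∈ s, ∃ j : ℤ, φ ν = j := by
  classical
  obtain ⟨ψ, hψ⟩ : ∃ ψ : Module.Dual ℚ ℂ, ψ ν₀ ≠ 0 := by
    by_contra hcon
    push Not at hcon
    exact h0 ((Module.forall_dual_apply_eq_zero_iff ℚ ν₀).mp hcon)
  let M : ℕ := ∏ ν ∈ s, (ψ ν).den
  have hM : (M : ℚ) ≠ 0 := by
    refine Nat.cast_ne_zero.mpr (Finset.prod_ne_zero_iff.mpr fun ν _ => ?_)
    exact (ψ ν).den_nz
  let φ : ℂ →+ ℂ :=
    { toFun := fun ν => (((M : ℚ) * ψ ν : ℚ) : ℂ)
      map_zero' := by simp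
      map_add' := fun a b => by
        rw [map_add, mul_add, Rat.cast_add] }
  refine ⟨φ, ?_, fun ν hν => ?_⟩
  · show (((M : ℚ) * ψ ν₀ : ℚ) : ℂ) ≠ 0
    exact Rat.cast_ne_zero.mpr (mul_ne_zero hM hψ)
  · obtain ⟨m, hm⟩ : (ψ ν).den ∣ M := Finset.dvd_prod_of_mem (fun ν => (ψ ν).den) hν
    refine ⟨(m : ℤ) * (ψ ν).num, ?_⟩
    show (((M : ℚ) * ψ ν : ℚ) : ℂ) = _
    have h1 : (M : ℚ) * ψ ν = ((((m : ℤ) * (ψ ν).num : ℤ)) : ℚ) := by
      have h2 : ((ψ ν).den : ℚ) * ψ ν = (ψ ν).num := Rat.den_mul_eq_num (ψ ν)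
      rw [hm, Nat.cast_mul, Int.cast_mul, Int.cast_natCast, ← h2]
      ring
    rw [h1, Rat.cast_intCast]

/-- The generalised eigenvalues of a contact vector field are sums of elements of a finite
set. -/
theorem exists_finset_maxGen (hX : IsContactFano 𝒜 P) {f : R} (hf : f ∈ 𝒜 1) :
    ∃ s : Finset ℂ, ∀ ν : ℂ, (∃ r ∈ Module.End.maxGenEigenspace (P f) ν, r ≠ 0) →
      ν ∈ AddSubmonoid.closure (s : Set ℂ) := by
  classical
  set B : ℂ → Submodule ℂ R := fun ν => Module.End.maxGenEigenspace (P f) ν with hB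
  have hmul : ∀ (μ ν : ℂ) (a b : R), a ∈ B μ → b ∈ B ν → a * b ∈ B (μ + ν) := by
    intro μ ν a b ha hb
    have h := mem_maxGen_add (P f) (LinearMap.mul ℂ R) (fun a b => by
      simp only [LinearMap.mul_apply']
      rw [hX.leibniz]) μ ν a b ha hb
    exact h
  have hone : (1 : R) ∈ B 0 := by
    apply mem_maxGen_of_eq_smul
    rw [hX.P_one_right, zero_smul]
  have htop : ⨆ ν, B ν = ⊤ := by
    rw [eq_top_iff]
    intro r _
    rw [← DirectSum.sum_support_decompose 𝒜 r]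
    refine sum_mem fun k _ => ?_
    refine (iSup_le fun ν => ?_ : (⨆ ν : ℂ, 𝒜 k ⊓ Module.End.maxGenEigenspace (P f) ν) ≤ _)
      (le_iSup_maxGen hX hf k (DirectSum.decompose 𝒜 r k).2)
    exact inf_le_right.trans (le_iSup B ν)
  have hdec : ∀ g : R, ∃ fs : ℂ →₀ R, (∀ ν, fs ν ∈ B ν) ∧ (fs.sum fun _ x => x) = g := by
    intro g
    have hg : g ∈ ⨆ ν, B ν := by rw [htop]; trivial
    exact (Submodule.mem_iSup_iff_exists_finsupp B g).mp hg
  choose fs hfs hsum using hdec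
  obtain ⟨t, ht⟩ := hX.finiteType.out
  refine ⟨t.biUnion fun g => (fs g).support, ?_⟩
  set s : Finset ℂ := t.biUnion fun g => (fs g).support with hs
  set N : Submodule ℂ R := ⨆ ν ∈ AddSubmonoid.closure (s : Set ℂ), B ν with hN
  have hle : ∀ ν ∈ AddSubmonoid.closure (s : Set ℂ), B ν ≤ N := fun ν hν =>
    le_iSup₂_of_le ν hν le_rfl
  have hN1 : (1 : R) ∈ N := hle 0 (zero_mem _) hone
  have hNN : N * N ≤ N := by
    rw [hN]
    simp only [Submodule.iSup_mul, Submodule.mul_iSup]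
    refine iSup₂_le fun μ hμ => iSup₂_le fun ν hν => ?_
    refine le_trans (Submodule.mul_le.mpr fun a ha b hb => ?_) (hle (ν + μ) (add_mem hν hμ))
    exact hmul ν μ a b ha hb
  have hNtop : N = ⊤ := by
    have h1 : Algebra.adjoin ℂ (t : Set R) ≤ N.toSubalgebra hN1
        (fun x y hx hy => hNN (Submodule.mul_mem_mul hx hy)) := by
      refine Algebra.adjoin_le fun g hg => ?_
      show g ∈ N
      rw [← hsum g, Finsupp.sum]
      refine sum_mem fun ν hν => hle ν (AddSubmonoid.subset_closure ?_) (hfs g ν)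
      rw [hs]
      exact Finset.mem_coe.mpr (Finset.mem_biUnion.mpr ⟨g, hg, hν⟩)
    rw [eq_top_iff]
    intro x _
    have h2 : x ∈ Algebra.adjoin ℂ (t : Set R) := by rw [ht]; trivial
    exact h1 h2
  rintro ν ⟨r, hr, hr0⟩
  by_contra hν
  have hind : iSupIndep B := Module.End.independent_maxGenEigenspace (P f)
  have hdis := hind ν
  have h3 : N ≤ ⨆ (μ : ℂ) (_ : μ ≠ ν), B μ := by
    refine iSup₂_le fun μ hμ => le_iSup₂_of_le μ ?_ le_rfl
    rintro rfl
    exact hν hμ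
  have h4 : r ∈ ⨆ (μ : ℂ) (_ : μ ≠ ν), B μ := h3 (by rw [hNtop]; trivial)
  exact hr0 (Submodule.disjoint_def.mp hdis r hr h4)

end Vale.Agent.P292
end

section

/-! Group T: derivations in terms of Hamiltonian derivations near a point. -/

namespace Vale.Agent.P292

open Module

universe u

variable {R : Type u} [CommRing R] [Algebra ℂ R] {𝒜 : ℕ → Submodule ℂ R} [GradedAlgebra 𝒜]
  {P : R →ₗ[ℂ] R →ₗ[ℂ] R}

/-- Near a nonvertex point every derivation is a combination of Hamiltonian derivations. -/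
theorem exists_frame_at (hX : IsContactFano 𝒜 P) {p : R →ₐ[ℂ] ℂ} (hp : ¬ IsVertex 𝒜 p) :
    ∃ (N : ℕ) (y : Fin N → R) (δ : R), p δ ≠ 0 ∧ ∀ Θ : R →ₗ[ℂ] R,
      (∀ a b, Θ (a * b) = Θ a * b + a * Θ b) →
      ∃ a : Fin N → R, ∀ r, δ * Θ r = ∑ j, a j * P (y j) r := by
  obtain ⟨N, x, y, hx, hxy, hgen⟩ := exists_dual_bases_at hX hp
  set A : Matrix (Fin N) (Fin N) R := Matrix.of fun j i => P (y j) (x i) with hA
  refine ⟨N, y, A.det, ?_, ?_⟩
  · have h1 : p A.det = (p.toRingHom.mapMatrix A).det := RingHom.map_det p.toRingHom A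
    have h2 : p.toRingHom.mapMatrix A = 1 := by
      ext i j
      simp only [RingHom.mapMatrix_apply, Matrix.map_apply, hA, Matrix.of_apply, Matrix.one_apply]
      exact hxy i j
    rw [h1, h2, Matrix.det_one]
    exact one_ne_zero
  · intro Θ hΘ
    refine ⟨fun j => ∑ i, Θ (x i) * A.adjugate i j, ?_⟩
    let Θ' : R →ₗ[ℂ] R := (LinearMap.mulLeft ℂ A.det).comp Θ -
      ∑ j, (LinearMap.mulLeft ℂ (∑ i, Θ (x i) * A.adjugate i j)).comp (P (y j))
    have hΘ' : ∀ r, Θ' r = A.det * Θ r - ∑ j, (∑ i, Θ (x i) * A.adjugate i j) * P (y j) r := by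
      intro r
      simp [Θ']
    have hder : ∀ a b, Θ' (a * b) = Θ' a * b + a * Θ' b := by
      intro a b
      rw [hΘ', hΘ', hΘ', hΘ]
      simp only [hX.leibniz, mul_add, Finset.sum_add_distrib, sub_mul, mul_sub, Finset.sum_mul,
        Finset.mul_sum]
      have e1 : ∀ j, ∀ i, Θ (x i) * A.adjugate i j * (P (y j) a * b) =
          Θ (x i) * A.adjugate i j * P (y j) a * b := fun j i => by ring
      have e2 : ∀ j, ∀ i, Θ (x i) * A.adjugate i j * (a * P (y j) b) =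
          a * (Θ (x i) * A.adjugate i j * P (y j) b) := fun j i => by ring
      simp only [e1, e2]
      ring
    have hk : ∀ k, Θ' (x k) = 0 := by
      intro k
      rw [hΘ']
      have h3 : ∀ i, ∑ j, A.adjugate i j * P (y j) (x k) = if i = k then A.det else 0 := by
        intro i
        have h4 : (A.adjugate * A) i k = (A.det • (1 : Matrix (Fin N) (Fin N) R)) i k := by
          rw [Matrix.adjugate_mul]
        rw [Matrix.mul_apply, Matrix.smul_apply, Matrix.one_apply] at h4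
        simpa [hA] using h4
      have h5 : ∑ j, (∑ i, Θ (x i) * A.adjugate i j) * P (y j) (x k) =
          ∑ i, Θ (x i) * ∑ j, A.adjugate i j * P (y j) (x k) := by
        simp only [Finset.sum_mul, Finset.mul_sum]
        rw [Finset.sum_comm]
        refine Finset.sum_congr rfl fun i _ => Finset.sum_congr rfl fun j _ => by ring
      rw [h5]
      simp only [h3]
      simp [mul_comm]
    have h0 : Θ' = 0 := derivation_eq_zero_at hX hx
      (fun u hu => ⟨fun i => p (P (y i) u), hgen u hu⟩) Θ' hder hk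
    intro r
    have := hΘ' r
    rw [h0] at this
    exact (sub_eq_zero.mp this.symm)

end Vale.Agent.P292
end

section

/-! Group T: the Hamiltonian in the fraction field. -/

namespace Vale.Agent.P292

open Module

universe u v

variable {R : Type u} [CommRing R] [Algebra ℂ R] {𝒜 : ℕ → Submodule ℂ R} [GradedAlgebra 𝒜]
  {P : R →ₗ[ℂ] R →ₗ[ℂ] R}

/-- The Euler derivation and the bracket. -/
theorem euler_P (hX : IsContactFano 𝒜 P) (a b : R) :
    euler 𝒜 (P a b) = P (euler 𝒜 a) b + P a (euler 𝒜 b) - P a b := by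
  refine forall_of_homogeneous' (𝒜 := 𝒜) (euler 𝒜 ∘ₗ P.flip b)
    (P.flip b ∘ₗ euler 𝒜 + P.flip (euler 𝒜 b) - P.flip b) (fun k r hr => ?_) a
  refine forall_of_homogeneous' (𝒜 := 𝒜) (euler 𝒜 ∘ₗ P r)
    (P (euler 𝒜 r) + P r ∘ₗ euler 𝒜 - P r) (fun l s hs => ?_) b
  simp only [LinearMap.comp_apply, LinearMap.add_apply, LinearMap.sub_apply]
  rw [euler_apply k r hr, euler_apply l s hs, map_smul, LinearMap.smul_apply, map_smul]
  rcases Nat.eq_zero_or_pos (k + l) with h | h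
  · have hk : k = 0 := by omega
    subst hk
    obtain ⟨c, rfl⟩ := hX.connected r hr
    rw [hX.P_algebraMap_left]
    simp
  · have h1 := hX.degree k l (k + l - 1) (by omega) r hr s hs
    rw [euler_apply (k + l - 1) _ h1, Nat.cast_sub h, Nat.cast_add, Nat.cast_one]
    module

/-- A derivation of the fraction field compatible with the bracket up to a constant. -/
theorem t5_bracket {K : Type v} [Field K] [Algebra ℂ K] [Algebra R K] [IsScalarTower ℂ R K]
    [FaithfulSMul R K] [Algebra.IsAlgebraic R K] (P' : K →ₗ[ℂ] K →ₗ[ℂ] K)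
    (hl : ∀ a b c, P' a (b * c) = P' a b * c + b * P' a c)
    (hl' : ∀ a b c, P' (a * b) c = P' a c * b + a * P' b c) (D : K →ₗ[ℂ] K)
    (hD : ∀ a b, D (a * b) = D a * b + a * D b) (c : ℂ)
    (h : ∀ r s : R, D (P' (algebraMap R K r) (algebraMap R K s)) =
      P' (D (algebraMap R K r)) (algebraMap R K s) + P' (algebraMap R K r) (D (algebraMap R K s)) -
        c • P' (algebraMap R K r) (algebraMap R K s)) (a b : K) :
    D (P' a b) = P' (D a) b + P' a (D b) - c • P' a b := by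
  rw [← sub_eq_zero]
  refine eq_zero_of_restrict (R := R)
    (fun a => D (P' a b) - (P' (D a) b + P' a (D b) - c • P' a b)) ?_ ?_ ?_ a
  · intro x y
    simp only [map_add, LinearMap.add_apply, smul_add]
    ring
  · intro x y
    simp only [hl', hD, map_add, LinearMap.add_apply, Algebra.smul_def]
    ring
  · intro r
    refine eq_zero_of_restrict (R := R)
      (fun b => D (P' (algebraMap R K r) b) - (P' (D (algebraMap R K r)) b +
        P' (algebraMap R K r) (D b) - c • P' (algebraMap R K r) b)) ?_ ?_ ?_ b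
    · intro x y
      simp only [map_add, smul_add]
      ring
    · intro x y
      simp only [hl, hD, map_add, Algebra.smul_def]
      ring
    · intro s
      rw [sub_eq_zero, h]

/-- The Hamiltonian of a Poisson derivation of degree zero, as an element of the fraction field
which is regular at all nonvertex points. -/
theorem exists_ham_frac (hX : IsContactFano 𝒜 P) (Δ : R →ₗ[ℂ] R)
    (hΔmul : ∀ a b, Δ (a * b) = Δ a * b + a * Δ b)
    (hΔP : ∀ a b, Δ (P a b) = P (Δ a) b + P a (Δ b)) (hΔ𝒜 : ∀ k, ∀ r ∈ 𝒜 k, Δ r ∈ 𝒜 k) :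
    ∃ h : FractionRing R,
      (∀ p : R →ₐ[ℂ] ℂ, ¬ IsVertex 𝒜 p → ∃ δ g : R, p δ ≠ 0 ∧
        algebraMap R (FractionRing R) δ * h = algebraMap R (FractionRing R) g) ∧
      ∀ H : R, algebraMap R (FractionRing R) H = h → ∀ r, P H r = Δ r := by
  have hdom : IsDomain R := hX.domain
  have halg : Algebra.IsAlgebraic R (FractionRing R) :=
    IsLocalization.isAlgebraic (FractionRing R) (nonZeroDivisors R)
  obtain ⟨P', hP', halt', hleib', hjac'⟩ :=
    exists_bracket_ext (M := FractionRing R) P hX.alternating hX.leibniz hX.jacobi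
  have hinj : Function.Injective (algebraMap R (FractionRing R)) :=
    FaithfulSMul.algebraMap_injective R (FractionRing R)
  have hskew : ∀ a b, P' a b = -P' b a := by
    intro a b
    have h := halt' (a + b)
    simp only [map_add, LinearMap.add_apply, halt', zero_add, add_zero] at h
    linear_combination h
  have hleib1 : ∀ a b c, P' (a * b) c = P' a c * b + a * P' b c := by
    intro a b c
    rw [hskew, hleib', hskew a c, hskew b c]
    ring
  -- extension of derivations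
  have hext : ∀ D : R →ₗ[ℂ] R, (∀ a b, D (a * b) = D a * b + a * D b) →
      ∃ D' : FractionRing R →ₗ[ℂ] FractionRing R,
        (∀ r, D' (algebraMap R _ r) = algebraMap R _ (D r)) ∧
        ∀ a b, D' (a * b) = D' a * b + a * D' b := by
    intro D hD
    obtain ⟨D', hD'⟩ := exists_derivation_ext (R := R) (M := FractionRing R)
      (N := FractionRing R)
      (Derivation.mk' ((Algebra.linearMap R (FractionRing R)).restrictScalars ℂ ∘ₗ D)
        (fun a b => by
          simp only [LinearMap.comp_apply, LinearMap.coe_restrictScalars,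
            Algebra.linearMap_apply, hD, map_add, map_mul, Algebra.smul_def]
          ring))
    refine ⟨D'.toLinearMap, fun r => hD' r, fun a b => ?_⟩
    change D' (a * b) = D' a * b + a * D' b
    rw [Derivation.leibniz, smul_eq_mul, smul_eq_mul]
    ring
  obtain ⟨E', hE', hE'mul⟩ := hext (euler 𝒜) euler_mul
  obtain ⟨Δ', hΔ', hΔ'mul⟩ := hext Δ hΔmul
  have hEP : ∀ a b, E' (P' a b) = P' (E' a) b + P' a (E' b) - P' a b := by
    intro a b
    have h := t5_bracket (R := R) P' hleib' hleib1 E' hE'mul 1 (fun r s => by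
      rw [hP', hE', hE', hE', hP', hP', euler_P hX, one_smul, map_sub, map_add]) a b
    rw [h, one_smul]
  have hΔP' : ∀ a b, Δ' (P' a b) = P' (Δ' a) b + P' a (Δ' b) := by
    intro a b
    have h := t5_bracket (R := R) P' hleib' hleib1 Δ' hΔ'mul 0 (fun r s => by
      rw [hP', hΔ', hΔ', hΔ', hP', hP', hΔP, zero_smul, sub_zero, map_add]) a b
    rw [h, zero_smul, sub_zero]
  have hcomm : ∀ r, euler 𝒜 (Δ r) = Δ (euler 𝒜 r) := by
    intro r
    refine forall_of_homogeneous' (𝒜 := 𝒜) (euler 𝒜 ∘ₗ Δ) (Δ ∘ₗ euler 𝒜) (fun k r hr => ?_) r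
    rw [LinearMap.comp_apply, LinearMap.comp_apply, euler_apply k _ (hΔ𝒜 k r hr),
      euler_apply k r hr, map_smul]
  have hEΔ : ∀ a, E' (Δ' a) = Δ' (E' a) := by
    intro a
    rw [← sub_eq_zero]
    refine eq_zero_of_restrict (R := R) (fun a => E' (Δ' a) - Δ' (E' a)) ?_ ?_ ?_ a
    · intro x y
      simp only [map_add]
      ring
    · intro x y
      simp only [hΔ'mul, hE'mul, map_add]
      ring
    · intro r
      rw [sub_eq_zero, hΔ', hE', hE', hΔ', hcomm]
  -- frames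
  have hframe : ∀ (D : R →ₗ[ℂ] R) (D' : FractionRing R →ₗ[ℂ] FractionRing R)
      (_ : ∀ r, D' (algebraMap R _ r) = algebraMap R _ (D r))
      (_ : ∀ a b, D' (a * b) = D' a * b + a * D' b) (N : ℕ) (y : Fin N → R) (δ : R)
      (_ : δ ≠ 0) (a : Fin N → R) (_ : ∀ r, δ * D r = ∑ j, a j * P (y j) r)
      (x : FractionRing R),
      D' x = ∑ j, algebraMap R _ (a j) / algebraMap R _ δ * P' (algebraMap R _ (y j)) x := by
    intro D D' hD' hD'mul N y δ hδ a ha x
    have hδ' : algebraMap R (FractionRing R) δ ≠ 0 := by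
      rw [Ne, ← map_zero (algebraMap R (FractionRing R))]
      exact fun h => hδ (hinj h)
    rw [← sub_eq_zero]
    refine eq_zero_of_restrict (R := R) (fun x => D' x - ∑ j, algebraMap R _ (a j) /
      algebraMap R _ δ * P' (algebraMap R _ (y j)) x) ?_ ?_ ?_ x
    · intro x y
      simp only [map_add, mul_add, Finset.sum_add_distrib]
      ring
    · intro x z
      simp only [hleib', hD'mul, mul_add, Finset.sum_add_distrib, sub_mul, mul_sub,
        Finset.sum_mul, Finset.mul_sum]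
      have h1 : ∑ i, algebraMap R (FractionRing R) (a i) / algebraMap R _ δ *
          (P' (algebraMap R _ (y i)) x * z) = ∑ i, algebraMap R (FractionRing R) (a i) /
          algebraMap R _ δ * P' (algebraMap R _ (y i)) x * z :=
        Finset.sum_congr rfl fun i _ => by ring
      have h2 : ∑ i, algebraMap R (FractionRing R) (a i) / algebraMap R _ δ *
          (x * P' (algebraMap R _ (y i)) z) = ∑ i, x * (algebraMap R (FractionRing R) (a i) /
          algebraMap R _ δ * P' (algebraMap R _ (y i)) z) :=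
        Finset.sum_congr rfl fun i _ => by ring
      rw [h1, h2]
      ring
    · intro r
      have h1 := congrArg (algebraMap R (FractionRing R)) (ha r)
      rw [map_mul, map_sum] at h1
      rw [sub_eq_zero, hD']
      apply mul_left_cancel₀ hδ'
      rw [h1, Finset.mul_sum]
      refine Finset.sum_congr rfl fun i _ => ?_
      rw [hP', map_mul]
      field_simp
  obtain ⟨p0, hp0⟩ := hX.nonempty
  obtain ⟨N, y, δ0, hδ0, hfr⟩ := exists_frame_at hX hp0
  obtain ⟨a0, ha0⟩ := hfr (euler 𝒜) euler_mul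
  obtain ⟨c0, hc0⟩ := hfr Δ hΔmul
  have hδ0' : δ0 ≠ 0 := by
    rintro rfl
    exact hδ0 (map_zero p0)
  have hE0 := hframe (euler 𝒜) E' hE' hE'mul N y δ0 hδ0' a0 ha0
  have hΔ0 := hframe Δ Δ' hΔ' hΔ'mul N y δ0 hδ0' c0 hc0
  refine ⟨-∑ i, algebraMap R _ (a0 i) / algebraMap R _ δ0 * Δ' (algebraMap R _ (y i)), ?_, ?_⟩
  · intro p hp
    obtain ⟨M, z, δ, hδ, hfr'⟩ := exists_frame_at hX hp
    obtain ⟨a, ha⟩ := hfr' (euler 𝒜) euler_mul
    have hδn : δ ≠ 0 := by
      rintro rfl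
      exact hδ (map_zero p)
    have hδ' : algebraMap R (FractionRing R) δ ≠ 0 := by
      rw [Ne, ← map_zero (algebraMap R (FractionRing R))]
      exact fun h => hδn (hinj h)
    have hE1 := hframe (euler 𝒜) E' hE' hE'mul M z δ hδn a ha
    refine ⟨δ, -∑ i, a i * Δ (z i), hδ, ?_⟩
    rw [ham_symm halt' E' Δ' _ _ _ _ hE0 hΔ0, ← ham_symm halt' E' Δ' _ _ _ _ hE1 hΔ0, map_neg,
      map_sum, mul_neg, Finset.mul_sum]
    congr 1
    refine Finset.sum_congr rfl fun i _ => ?_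
    rw [map_mul, hΔ']
    field_simp
  · intro H hH r
    apply hinj
    rw [← hP', hH, ham_apply_eq halt' hleib' hjac' E' Δ' hE'mul hΔ'mul hEP hΔP' hEΔ _ _ _ _ hE0
      hΔ0, hΔ']

end Vale.Agent.P292
end

section

/-! Group T: the cone has dimension at least two. -/

namespace Vale.Agent.P292

open Module

universe u

variable {R : Type u} [CommRing R] [Algebra ℂ R] {𝒜 : ℕ → Submodule ℂ R} [GradedAlgebra 𝒜]
  {P : R →ₗ[ℂ] R →ₗ[ℂ] R}

/-- The homomorphism `r ↦ ∑ p (r_k) X ^ k`. -/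
lemma T6A_hom (p : R →ₐ[ℂ] ℂ) : ∃ c : R →ₐ[ℂ] Polynomial ℂ, ∀ k, ∀ r ∈ 𝒜 k,
    c r = Polynomial.C (p r) * Polynomial.X ^ k := by
  obtain ⟨c, hc⟩ := exists_homogenization (𝒜 := 𝒜) ((Algebra.ofId ℂ (Polynomial ℂ)).comp p) 1
    (fun k r _ => by
      change (Polynomial.C (p r)).natDegree ≤ _
      rw [Polynomial.natDegree_C]
      exact Nat.zero_le _)
  refine ⟨c, fun k r hr => ?_⟩
  rw [hc k r hr, one_mul]
  change Polynomial.reflect k (Polynomial.C (p r)) = _
  rw [Polynomial.reflect_C]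

lemma T6A_coeff (p : R →ₐ[ℂ] ℂ) (c : R →ₐ[ℂ] Polynomial ℂ)
    (hc : ∀ k, ∀ r ∈ 𝒜 k, c r = Polynomial.C (p r) * Polynomial.X ^ k) (k : ℕ) (r : R) :
    (c r).coeff k = p (DirectSum.decompose 𝒜 r k : R) := by
  classical
  rw [← GradedAlgebra.proj_apply]
  refine forall_of_homogeneous' (𝒜 := 𝒜) ((Polynomial.lcoeff ℂ k) ∘ₗ c.toLinearMap)
    (p.toLinearMap ∘ₗ (GradedAlgebra.proj 𝒜 k)) ?_ r
  intro l s hs
  change (c s).coeff k = p (GradedAlgebra.proj 𝒜 k s)
  rw [hc l s hs, GradedAlgebra.proj_apply, Polynomial.coeff_C_mul_X_pow]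
  by_cases h : k = l
  · subst h
    rw [if_pos rfl, DirectSum.decompose_of_mem_same 𝒜 hs]
  · rw [if_neg h, DirectSum.decompose_of_mem_ne 𝒜 hs (Ne.symm h), map_zero]

/-- If the graded pieces inject into `ℂ`, the bracket vanishes. -/
lemma T6A_bracket (hX : IsContactFano 𝒜 P) (p : R →ₐ[ℂ] ℂ)
    (hp : ∀ k, ∀ r ∈ 𝒜 k, p r = 0 → r = 0) (a b : R) : P a b = 0 := by
  have := hX.domain
  have key : ∀ k l a b, a ∈ 𝒜 k → b ∈ 𝒜 l → P a b = 0 := by
    intro k l a b ha hb
    rcases Nat.eq_zero_or_pos k with rfl | hk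
    · obtain ⟨c, rfl⟩ := hX.connected a ha
      exact hX.P_algebraMap_left b c
    rcases Nat.eq_zero_or_pos l with rfl | hl
    · obtain ⟨c, rfl⟩ := hX.connected b hb
      exact hX.P_algebraMap_right a c
    by_cases ha0 : a = 0
    · rw [ha0, map_zero, LinearMap.zero_apply]
    by_cases hb0 : b = 0
    · rw [hb0, map_zero]
    have hpb : p b ≠ 0 := fun h => hb0 (hp l b hb h)
    have h1 : a ^ l ∈ 𝒜 (l * k) := by
      have := SetLike.pow_mem_graded l ha
      rwa [smul_eq_mul] at this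
    have h2 : b ^ k ∈ 𝒜 (l * k) := by
      have := SetLike.pow_mem_graded k hb
      rwa [smul_eq_mul, mul_comm] at this
    have h3 : (p b) ^ k • a ^ l = (p a) ^ l • b ^ k := by
      rw [← sub_eq_zero]
      refine hp (l * k) _ (sub_mem (Submodule.smul_mem _ _ h1) (Submodule.smul_mem _ _ h2)) ?_
      rw [map_sub, map_smul, map_smul, map_pow, map_pow, smul_eq_mul, smul_eq_mul]
      ring
    have h4 : (p b) ^ k • P (a ^ l) b = 0 := by
      have h5 : P ((p b) ^ k • a ^ l) b = P ((p a) ^ l • b ^ k) b := by rw [h3]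
      rw [map_smul, map_smul, LinearMap.smul_apply, LinearMap.smul_apply, hX.P_pow_left b b k,
        hX.alternating b, mul_zero, smul_zero] at h5
      exact h5
    rcases smul_eq_zero.mp h4 with h | h
    · exact absurd h (pow_ne_zero _ hpb)
    rw [hX.P_pow_left] at h
    have hchar : CharZero R :=
      charZero_of_injective_algebraMap (algebraMap ℂ R).injective
    have hl' : (l : R) ≠ 0 := by exact_mod_cast hl.ne'
    rcases mul_eq_zero.mp h with h | h
    · exact absurd h (mul_ne_zero hl' (pow_ne_zero _ ha0))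
    · exact h
  have h1 : ∀ k a, a ∈ 𝒜 k → ∀ b, P a b = 0 := fun k a ha b =>
    forall_of_homogeneous' (𝒜 := 𝒜) (P a) 0 (fun l b hb => key k l a b ha hb) b
  exact forall_of_homogeneous' (𝒜 := 𝒜) (P.flip b) 0 (fun k a ha => h1 k a ha b) a

/-- There is a nonzero prime ideal which does not contain all elements of positive degree and
consists of elements without constant term. -/
theorem exists_prime_lt (hX : IsContactFano 𝒜 P) :
    ∃ 𝔮 : Ideal R, 𝔮.IsPrime ∧ 𝔮 ≠ ⊥ ∧ (∃ k, 0 < k ∧ ∃ r ∈ 𝒜 k, r ∉ 𝔮) ∧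
      ∀ 𝔭 : Ideal R, (∀ k, 0 < k → ∀ r ∈ 𝒜 k, r ∈ 𝔭) → 𝔮 ≤ 𝔭 := by
  classical
  have hdom := hX.domain
  have hft := hX.finiteType
  obtain ⟨p, hp⟩ := hX.nonempty
  obtain ⟨c, hc⟩ := T6A_hom (𝒜 := 𝒜) p
  have hne : ∃ k, 0 < k ∧ ∃ r ∈ 𝒜 k, p r ≠ 0 := by
    by_contra hcon
    push Not at hcon
    exact hp fun k hk r hr => hcon k hk r hr
  refine ⟨RingHom.ker c, RingHom.ker_isPrime _, ?_, ?_, ?_⟩
  · intro hbot
    have hinj : ∀ k, ∀ r ∈ 𝒜 k, p r = 0 → r = 0 := by
      intro k r hr h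
      have h1 : r ∈ RingHom.ker c := by
        rw [RingHom.mem_ker, hc k r hr, h, map_zero, zero_mul]
      rw [hbot] at h1
      exact h1
    have hP := T6A_bracket hX p hinj
    have hle : RingHom.ker p ≤ RingHom.ker p ^ 2 := by
      intro u hu
      have h1 := hX.nondegenerate p hp u (fun b => by rw [hP, map_zero])
      rw [RingHom.mem_ker] at hu
      rwa [hu, map_zero, sub_zero] at h1
    have hnoeth : IsNoetherianRing R := Algebra.FiniteType.isNoetherianRing ℂ R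
    have hid : IsIdempotentElem (RingHom.ker p) := by
      rw [IsIdempotentElem, ← pow_two]
      exact le_antisymm (Ideal.pow_le_self two_ne_zero) hle
    rcases (Ideal.isIdempotentElem_iff_eq_bot_or_top _ (IsNoetherian.noetherian _)).mp hid
      with h | h
    · apply hp
      intro k hk r hr
      have h1 : r - algebraMap ℂ R (p r) ∈ RingHom.ker p := by
        rw [RingHom.mem_ker, map_sub, AlgHom.commutes]
        exact sub_self _
      rw [h, Ideal.mem_bot, sub_eq_zero] at h1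
      have h2 : r ∈ 𝒜 0 := by
        rw [h1, Algebra.algebraMap_eq_smul_one]
        exact Submodule.smul_mem _ _ SetLike.GradedOne.one_mem
      have h3 : r = 0 := by
        have := DirectSum.decompose_of_mem_ne 𝒜 h2 hk.ne
        rwa [DirectSum.decompose_of_mem_same 𝒜 hr] at this
      rw [h3, map_zero]
    · have h1 : (1 : R) ∈ RingHom.ker p := by rw [h]; trivial
      rw [RingHom.mem_ker, map_one] at h1
      exact one_ne_zero h1
  · obtain ⟨k, hk, r, hr, h⟩ := hne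
    refine ⟨k, hk, r, hr, fun h1 => ?_⟩
    rw [RingHom.mem_ker, hc k r hr] at h1
    rcases mul_eq_zero.mp h1 with h2 | h2
    · exact h (Polynomial.C_eq_zero.mp h2)
    · exact pow_ne_zero k Polynomial.X_ne_zero h2
  · intro 𝔭 h𝔭 r hr
    rw [RingHom.mem_ker] at hr
    rw [← DirectSum.sum_support_decompose 𝒜 r]
    refine sum_mem fun k _ => ?_
    rcases Nat.eq_zero_or_pos k with rfl | hk
    · have h1 := T6A_coeff p c hc 0 r
      rw [hr, Polynomial.coeff_zero] at h1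
      obtain ⟨z, hz⟩ := hX.connected _ (DirectSum.decompose 𝒜 r 0).2
      rw [hz, AlgHom.commutes] at h1
      have h2 : z = 0 := h1.symm
      rw [hz, h2, map_zero]
      exact zero_mem _
    · exact h𝔭 k hk _ (DirectSum.decompose 𝒜 r k).2

end Vale.Agent.P292
end

section

/-! Group T: functions regular at all nonvertex points. -/

namespace Vale.Agent.P292

open Module

universe u

variable {R : Type u} [CommRing R] [Algebra ℂ R] {𝒜 : ℕ → Submodule ℂ R} [GradedAlgebra 𝒜]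
  {P : R →ₗ[ℂ] R →ₗ[ℂ] R}

/-- The local ring of the vertex is not a discrete valuation ring. -/
theorem not_dvr_vertex (hX : IsContactFano 𝒜 P) (𝔭 : Ideal R) [𝔭.IsPrime]
    (h𝔭 : ∀ k, 0 < k → ∀ r ∈ 𝒜 k, r ∈ 𝔭) (V : Type u) [CommRing V] [IsDomain V]
    [IsDiscreteValuationRing V] [Algebra R V] [IsLocalization.AtPrime V 𝔭] : False := by
  have : IsDomain R := hX.domain
  obtain ⟨𝔮, h𝔮, h𝔮0, ⟨k, hk, r, hr, hr𝔮⟩, hle⟩ := exists_prime_lt hX
  have hq : 𝔮 ≤ 𝔭 := hle 𝔭 h𝔭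
  have hdisj : Disjoint (𝔭.primeCompl : Set R) 𝔮 := by
    rw [Set.disjoint_left]
    intro s hs hs'
    exact hs (hq hs')
  have hinj : Function.Injective (algebraMap R V) :=
    IsLocalization.injective V (M := 𝔭.primeCompl) (le_nonZeroDivisors_of_noZeroDivisors
      (fun h => h (𝔭.zero_mem)))
  have hcomap : (𝔮.map (algebraMap R V)).comap (algebraMap R V) = 𝔮 :=
    IsLocalization.under_map_of_isPrime_disjoint 𝔭.primeCompl V h𝔮 hdisj
  have hprime : (𝔮.map (algebraMap R V)).IsPrime :=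
    IsLocalization.isPrime_of_isPrime_disjoint 𝔭.primeCompl V 𝔮 h𝔮 hdisj
  have hne : 𝔮.map (algebraMap R V) ≠ ⊥ := by
    intro h
    rw [h] at hcomap
    apply h𝔮0
    rw [← hcomap]
    ext s
    rw [Ideal.mem_comap, Ideal.mem_bot, Ideal.mem_bot]
    exact map_eq_zero_iff _ hinj
  have hmax : (𝔮.map (algebraMap R V)).IsMaximal := hprime.isMaximal hne
  have h1 := IsLocalRing.eq_maximalIdeal hmax
  have h2 : (IsLocalRing.maximalIdeal V).comap (algebraMap R V) = 𝔭 :=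
    IsLocalization.AtPrime.under_maximalIdeal V 𝔭
  rw [h1, h2] at hcomap
  exact hr𝔮 (hcomap ▸ h𝔭 k hk r hr)

/-- (Hartogs) Elements of the fraction field which are regular at all nonvertex points are
elements of `R`. -/
theorem exists_eq_algebraMap_of_local (hX : IsContactFano 𝒜 P) (h : FractionRing R)
    (hh : ∀ p : R →ₐ[ℂ] ℂ, ¬ IsVertex 𝒜 p → ∃ δ g : R, p δ ≠ 0 ∧
      algebraMap R (FractionRing R) δ * h = algebraMap R (FractionRing R) g) :
    ∃ H : R, algebraMap R (FractionRing R) H = h := by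
  have : IsDomain R := hX.domain
  have : IsIntegrallyClosed R := hX.normal
  have : Algebra.FiniteType ℂ R := hX.finiteType
  have : IsNoetherianRing R := Algebra.FiniteType.isNoetherianRing ℂ R
  have hint : IsIntegral R h := by
    refine isIntegral_of_forall_dvr h (IsFractionRing.isAlgebraic_iff R (FractionRing R) (FractionRing R) |>.2
      (isAlgebraic_algebraMap h)) ?_
    intro 𝔭 _ V _ _ _ _ _ _ _ _
    by_cases h𝔭 : ∀ k, 0 < k → ∀ r ∈ 𝒜 k, r ∈ 𝔭
    · exact (not_dvr_vertex hX 𝔭 h𝔭 V).elim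
    push Not at h𝔭
    obtain ⟨k, hk, g, hg, hg𝔭⟩ := h𝔭
    obtain ⟨x, hx, hxg⟩ := exists_closed_of_prime hX 𝔭
      (fun r n hrn => Ideal.IsPrime.mem_of_pow_mem inferInstance n hrn) g hg𝔭
    obtain ⟨δ, g', hδ, hg'⟩ := hh x (fun hv => hxg (hv k hk g hg))
    have hδ𝔭 : δ ∈ 𝔭.primeCompl := fun hmem => hδ (hx δ hmem)
    have hu : IsUnit (algebraMap R V δ) := IsLocalization.map_units V (⟨δ, hδ𝔭⟩ : 𝔭.primeCompl)
    obtain ⟨w, hw⟩ := hu.exists_left_inv
    have hh' : h = algebraMap V (FractionRing R) (w * algebraMap R V g') := by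
      rw [map_mul, ← IsScalarTower.algebraMap_apply R V (FractionRing R), ← hg', ← mul_assoc,
        IsScalarTower.algebraMap_apply R V (FractionRing R) δ, ← map_mul, hw, map_one, one_mul]
    rw [hh']
    exact isIntegral_algebraMap
  exact IsIntegrallyClosed.isIntegral_iff.1 hint

end Vale.Agent.P292
end
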