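import Vale.Agent.P292.MathlibUsed
import Vale.Agent.P292.Bdl.B3
import Vale.Agent.P292.Bdl.B4
import Vale.Agent.P292.Bdl.B6
import Vale.Agent.P292.Bdl.B5
import Vale.Agent.P292.AdjVar
import Vale.Agent.P292.Bdl.B2

set_option linter.all false

section

/-! # Elimination of (SC): diagonalisable derivations of finite extensions. -/

namespace Vale.Agent.P292

open Module Polynomial

universe u v

theorem zb4_mem_of_sum {V : Type v} [AddCommGroup V] [Module ℂ V] (D : V →ₗ[ℂ] V)
    (W : Submodule ℂ V) (hW : ∀ w ∈ W, D w ∈ W) (s : Finset ℤ) :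
    ∀ f : ℤ → V, (∀ j ∈ s, D (f j) = (j : ℂ) • f j) → ∑ j ∈ s, f j ∈ W → ∀ j ∈ s, f j ∈ W := by
  classical
  induction s using Finset.induction_on with
  | empty => intro f _ _ j hj; exact absurd hj (Finset.notMem_empty j)
  | insert a s ha ih =>
    intro f hf hsum
    have h1 : ∑ j ∈ s, ((j : ℂ) - a) • f j ∈ W := by
      have h2 : D (∑ j ∈ insert a s, f j) - (a : ℂ) • ∑ j ∈ insert a s, f j ∈ W :=
        W.sub_mem (hW _ hsum) (W.smul_mem _ hsum)
      rw [map_sum, Finset.smul_sum, ← Finset.sum_sub_distrib, Finset.sum_insert ha,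
        hf a (Finset.mem_insert_self a s), sub_self, zero_add] at h2
      have h3 : ∑ j ∈ s, ((j : ℂ) - a) • f j = ∑ j ∈ s, (D (f j) - (a : ℂ) • f j) :=
        Finset.sum_congr rfl fun j hj => by
          rw [hf j (Finset.mem_insert_of_mem hj), sub_smul]
      rw [h3]
      exact h2
    have h4 := ih (fun j => ((j : ℂ) - a) • f j) (fun j hj => by
      rw [map_smul, hf j (Finset.mem_insert_of_mem hj), smul_comm]) h1
    have h5 : ∀ j ∈ s, f j ∈ W := by
      intro j hj
      have hne : (j : ℂ) - a ≠ 0 := by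
        rw [sub_ne_zero]
        intro h
        have : j = a := by exact_mod_cast h
        exact ha (this ▸ hj)
      exact (W.smul_mem_iff hne).1 (h4 j hj)
    intro j hj
    rcases Finset.mem_insert.1 hj with rfl | hj
    · rw [Finset.sum_insert ha] at hsum
      exact (W.add_mem_iff_left (W.sum_mem h5)).1 hsum
    · exact h5 j hj

theorem zb4_le_iSup {V : Type v} [AddCommGroup V] [Module ℂ V] (D : V →ₗ[ℂ] V)
    (W : Submodule ℂ V) (hD : W ≤ ⨆ m : ℤ, Module.End.eigenspace D (m : ℂ))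
    (hW : ∀ w ∈ W, D w ∈ W) : W ≤ ⨆ m : ℤ, W ⊓ Module.End.eigenspace D (m : ℂ) := by
  intro w hw
  obtain ⟨f, hf, hfw⟩ := (Submodule.mem_iSup_iff_exists_finsupp _ w).mp (hD hw)
  have h1 := zb4_mem_of_sum D W hW f.support f
    (fun j _ => Module.End.mem_eigenspace_iff.1 (hf j)) (by
      have : ∑ j ∈ f.support, f j = w := hfw
      rw [this]; exact hw)
  have h2 : ∑ j ∈ f.support, f j = w := hfw
  rw [← h2]
  exact Submodule.sum_mem _ fun j hj => Submodule.mem_iSup_of_mem j ⟨h1 j hj, hf j⟩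

/-- A subspace stable under a diagonalisable operator is the sum of its eigenvectors. -/
theorem le_iSup_of_stable {V : Type v} [AddCommGroup V] [Module ℂ V] (D : V →ₗ[ℂ] V)
    (hD : ⊤ ≤ ⨆ m : ℤ, Module.End.eigenspace D (m : ℂ)) (W : Submodule ℂ V)
    (hW : ∀ w ∈ W, D w ∈ W) : W ≤ ⨆ m : ℤ, W ⊓ Module.End.eigenspace D (m : ℂ) :=
  zb4_le_iSup D W (le_top.trans hD) hW

variable {R S : Type u} [CommRing R] [IsDomain R] [CommRing S] [IsDomain S]
  [Algebra ℂ R] [Algebra ℂ S] [Algebra R S] [IsScalarTower ℂ R S] [FaithfulSMul R S]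
  [Module.Finite R S]

omit [IsDomain S] in
theorem zb4_mul_mem (D : S →ₗ[ℂ] S) (hmul : ∀ s t, D (s * t) = D s * t + s * D t) {s t : S}
    (hs : s ∈ ⨆ m : ℤ, Module.End.eigenspace D (m : ℂ))
    (ht : t ∈ ⨆ m : ℤ, Module.End.eigenspace D (m : ℂ)) :
    s * t ∈ ⨆ m : ℤ, Module.End.eigenspace D (m : ℂ) := by
  induction hs using Submodule.iSup_induction' with
  | mem m x hx =>
    induction ht using Submodule.iSup_induction' with
    | mem n y hy =>
      refine Submodule.mem_iSup_of_mem (m + n) ?_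
      rw [Module.End.mem_eigenspace_iff] at hx hy ⊢
      rw [hmul, hx, hy, smul_mul_assoc, mul_smul_comm, ← add_smul]
      push_cast
      rfl
    | zero => rw [mul_zero]; exact Submodule.zero_mem _
    | add y z _ _ hy hz => rw [mul_add]; exact Submodule.add_mem _ hy hz
  | zero => rw [zero_mul]; exact Submodule.zero_mem _
  | add y z _ _ hy hz => rw [add_mul]; exact Submodule.add_mem _ hy hz

omit [IsDomain R] [IsDomain S] [FaithfulSMul R S] [Module.Finite R S] in
theorem zb4_algebraMap_mem (D₀ : R →ₗ[ℂ] R)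
    (hD₀ : ⊤ ≤ ⨆ m : ℤ, Module.End.eigenspace D₀ (m : ℂ)) (D : S →ₗ[ℂ] S)
    (hext : ∀ r, D (algebraMap R S r) = algebraMap R S (D₀ r)) (r : R) :
    algebraMap R S r ∈ ⨆ m : ℤ, Module.End.eigenspace D (m : ℂ) := by
  have hr := hD₀ (Submodule.mem_top (x := r))
  induction hr using Submodule.iSup_induction' with
  | mem m x hx =>
    refine Submodule.mem_iSup_of_mem m ?_
    rw [Module.End.mem_eigenspace_iff] at hx ⊢
    rw [hext, hx, ← IsScalarTower.coe_toAlgHom' ℂ R S, map_smul]
  | zero => rw [map_zero]; exact Submodule.zero_mem _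
  | add y z _ _ hy hz => rw [map_add]; exact Submodule.add_mem _ hy hz

omit [IsDomain R] [IsDomain S] [FaithfulSMul R S] [Module.Finite R S] in
theorem zb4_adjoin_le (D₀ : R →ₗ[ℂ] R)
    (hD₀ : ⊤ ≤ ⨆ m : ℤ, Module.End.eigenspace D₀ (m : ℂ)) (D : S →ₗ[ℂ] S)
    (hmul : ∀ s t, D (s * t) = D s * t + s * D t)
    (hext : ∀ r, D (algebraMap R S r) = algebraMap R S (D₀ r))
    (X : Set S) (hX : ∀ x ∈ X, ∃ m : ℤ, D x = (m : ℂ) • x) (s : S)
    (hs : s ∈ Algebra.adjoin R X) : s ∈ ⨆ m : ℤ, Module.End.eigenspace D (m : ℂ) := by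
  induction hs using Algebra.adjoin_induction with
  | mem x hx =>
    obtain ⟨m, hm⟩ := hX x hx
    exact Submodule.mem_iSup_of_mem m (Module.End.mem_eigenspace_iff.2 hm)
  | algebraMap r => exact zb4_algebraMap_mem D₀ hD₀ D hext r
  | add x y _ _ hx hy => exact Submodule.add_mem _ hx hy
  | mul x y _ _ hx hy => exact zb4_mul_mem D hmul hx hy

omit [IsDomain R] [IsDomain S] [FaithfulSMul R S] [Module.Finite R S] in
theorem zb4_adjoin_stable (D₀ : R →ₗ[ℂ] R) (D : S →ₗ[ℂ] S)
    (hmul : ∀ s t, D (s * t) = D s * t + s * D t)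
    (hext : ∀ r, D (algebraMap R S r) = algebraMap R S (D₀ r))
    (X : Set S) (hX : ∀ x ∈ X, ∃ m : ℤ, D x = (m : ℂ) • x) (s : S)
    (hs : s ∈ Algebra.adjoin R X) : D s ∈ Algebra.adjoin R X := by
  induction hs using Algebra.adjoin_induction with
  | mem x hx =>
    obtain ⟨m, hm⟩ := hX x hx
    rw [hm, ← algebraMap_smul R (m : ℂ) x]
    exact Subalgebra.smul_mem _ (Algebra.subset_adjoin hx) _
  | algebraMap r => rw [hext]; exact Subalgebra.algebraMap_mem _ _
  | add x y _ _ hx hy => rw [map_add]; exact Subalgebra.add_mem _ hx hy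
  | mul x y hx' hy' hx hy =>
    rw [hmul]
    exact Subalgebra.add_mem _ (Subalgebra.mul_mem _ hx hy') (Subalgebra.mul_mem _ hx' hy)

omit [IsDomain S] [Algebra ℂ R] [Algebra ℂ S] [IsScalarTower ℂ R S] [FaithfulSMul R S] in
/-- A common denominator. -/
theorem zb4_exists_denom (A : Subalgebra R S)
    (hgen : ∀ s : S, ∃ r : R, r ≠ 0 ∧ algebraMap R S r * s ∈ A) :
    ∃ g : R, g ≠ 0 ∧ ∀ s : S, algebraMap R S g * s ∈ A := by
  classical
  obtain ⟨T, hT⟩ := (Module.Finite.fg_top : (⊤ : Submodule R S).FG)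
  choose r hr0 hr using hgen
  refine ⟨∏ t ∈ T, r t, Finset.prod_ne_zero_iff.2 fun t _ => hr0 t, fun s => ?_⟩
  have hs : s ∈ Submodule.span R (T : Set S) := by rw [hT]; trivial
  induction hs using Submodule.span_induction with
  | mem x hx =>
    rw [← Finset.mul_prod_erase T r hx, mul_comm (r x), map_mul, mul_assoc, ← Algebra.smul_def]
    exact A.smul_mem (hr x) _
  | zero => rw [mul_zero]; exact A.zero_mem
  | add x y _ _ hx hy => rw [mul_add]; exact A.add_mem hx hy
  | smul c x _ hx => rw [mul_smul_comm]; exact A.smul_mem hx c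

/-- Diagonalisability extends to finite extensions which are generated up to denominators by
eigenvectors. -/
theorem diag_of_adjoin (D₀ : R →ₗ[ℂ] R)
    (hD₀ : ⊤ ≤ ⨆ m : ℤ, Module.End.eigenspace D₀ (m : ℂ)) (D : S →ₗ[ℂ] S)
    (hmul : ∀ s t, D (s * t) = D s * t + s * D t)
    (hext : ∀ r, D (algebraMap R S r) = algebraMap R S (D₀ r))
    (X : Set S) (hX : ∀ x ∈ X, ∃ m : ℤ, D x = (m : ℂ) • x)
    (hgen : ∀ s : S, ∃ r : R, r ≠ 0 ∧ algebraMap R S r * s ∈ Algebra.adjoin R X) :
    ⊤ ≤ ⨆ m : ℤ, Module.End.eigenspace D (m : ℂ) := by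
  have hA := zb4_adjoin_stable D₀ D hmul hext X hX
  have hA' := zb4_adjoin_le D₀ hD₀ D hmul hext X hX
  -- the conductor
  let J : Submodule ℂ R :=
    { carrier := {g | ∀ s : S, algebraMap R S g * s ∈ Algebra.adjoin R X}
      add_mem' := fun {a b} ha hb s => by
        rw [map_add, add_mul]
        exact Subalgebra.add_mem _ (ha s) (hb s)
      zero_mem' := fun s => by
        rw [map_zero, zero_mul]
        exact Subalgebra.zero_mem _
      smul_mem' := fun c g hg s => by
        rw [← IsScalarTower.coe_toAlgHom' ℂ R S, map_smul, smul_mul_assoc,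
          ← algebraMap_smul R c]
        exact Subalgebra.smul_mem _ (hg s) _ }
  have hJ : ∀ g ∈ J, D₀ g ∈ J := by
    intro g hg s
    have h1 := hmul (algebraMap R S g) s
    rw [hext] at h1
    rw [← sub_eq_iff_eq_add.2 h1]
    exact Subalgebra.sub_mem _ (hA _ (hg s)) (hg (D s))
  obtain ⟨g, hg0, hg⟩ := zb4_exists_denom (Algebra.adjoin R X) hgen
  obtain ⟨j, g₀, hg₀, hne⟩ : ∃ (j : ℤ) (g₀ : R), g₀ ∈ J ⊓ Module.End.eigenspace D₀ (j : ℂ) ∧
      g₀ ≠ 0 := by
    by_contra hcon
    have h1 : ∀ j : ℤ, J ⊓ Module.End.eigenspace D₀ (j : ℂ) = ⊥ := fun j =>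
      (Submodule.eq_bot_iff _).2 fun x hx => by
        by_contra hx0
        exact hcon ⟨j, x, hx, hx0⟩
    have h2 := le_iSup_of_stable D₀ hD₀ J hJ hg
    simp only [h1, iSup_bot] at h2
    exact hg0 h2
  have hj : D₀ g₀ = (j : ℂ) • g₀ := Module.End.mem_eigenspace_iff.1 hg₀.2
  -- multiplication by `g₀`
  have hginj : algebraMap R S g₀ ≠ 0 := fun h =>
    hne ((map_eq_zero_iff _ (FaithfulSMul.algebraMap_injective R S)).1 h)
  let φ : S →ₗ[ℂ] S := LinearMap.mulLeft ℂ (algebraMap R S g₀)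
  have hφ : Function.Injective φ := fun x y hxy => mul_left_cancel₀ hginj hxy
  have hDφ : ∀ t, D (φ t) = φ ((j : ℂ) • t + D t) := by
    intro t
    show D (algebraMap R S g₀ * t) = algebraMap R S g₀ * ((j : ℂ) • t + D t)
    rw [hmul, hext, hj, ← IsScalarTower.coe_toAlgHom' ℂ R S, map_smul, mul_add, smul_mul_assoc,
      mul_smul_comm]
  intro s _
  have h1 : LinearMap.range φ ≤ ⨆ m : ℤ, LinearMap.range φ ⊓ Module.End.eigenspace D (m : ℂ) := by
    refine zb4_le_iSup D _ ?_ ?_
    · rintro _ ⟨t, rfl⟩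
      exact hA' _ (hg₀.1 t)
    · rintro _ ⟨t, rfl⟩
      exact ⟨_, (hDφ t).symm⟩
  have h2 : (⨆ m : ℤ, LinearMap.range φ ⊓ Module.End.eigenspace D (m : ℂ)) ≤
      (⨆ m : ℤ, Module.End.eigenspace D (m : ℂ)).map φ := by
    refine iSup_le fun m => ?_
    rintro _ ⟨⟨t, rfl⟩, ht⟩
    refine ⟨t, Submodule.mem_iSup_of_mem (m - j) ?_, rfl⟩
    have h3 : D (φ t) = (m : ℂ) • φ t := Module.End.mem_eigenspace_iff.1 ht
    rw [hDφ, ← map_smul] at h3
    rw [Module.End.mem_eigenspace_iff]
    have h4 := hφ h3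
    push_cast
    rw [sub_smul, ← h4, add_sub_cancel_left]
  obtain ⟨t, ht, hts⟩ := h2 (h1 ⟨s, rfl⟩)
  rwa [← hφ hts]

end Vale.Agent.P292
end

section

/-! # Elimination of (SC): homogeneous integral equations. -/

namespace Vale.Agent.P292

open Module Polynomial

universe u v

section zb4b

variable {R S : Type u} [CommRing R] [CommRing S] [Algebra ℂ R] [Algebra ℂ S] [Algebra R S]
  [IsScalarTower ℂ R S]

omit [Algebra R S] [IsScalarTower ℂ R S] [CommRing R] [Algebra ℂ R] in
theorem zb4b_one (D : S →ₗ[ℂ] S) (hmul : ∀ s t, D (s * t) = D s * t + s * D t) : D 1 = 0 := by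
  have h := hmul 1 1
  simp only [mul_one, one_mul] at h
  simpa using h

theorem zb4b_pow (D : S →ₗ[ℂ] S) (hmul : ∀ s t, D (s * t) = D s * t + s * D t) (m : ℤ) (s : S)
    (hs : D s = (m : ℂ) • s) (i : ℕ) : D (s ^ i) = (((i : ℤ) * m : ℤ) : ℂ) • s ^ i := by
  induction i with
  | zero => simpa using zb4b_one D hmul
  | succ i ih =>
    rw [pow_succ, hmul, ih, hs, smul_mul_assoc, mul_smul_comm, ← add_smul]
    congr 1
    push_cast
    ring

theorem zb4b_mem (D₀ : R →ₗ[ℂ] R) (D : S →ₗ[ℂ] S)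
    (hmul : ∀ s t, D (s * t) = D s * t + s * D t)
    (hext : ∀ r, D (algebraMap R S r) = algebraMap R S (D₀ r)) (j m : ℤ) (r : R) (s : S)
    (hr : D₀ r = (j : ℂ) • r) (hs : D s = (m : ℂ) • s) (i : ℕ) :
    D (algebraMap R S r * s ^ i) = ((j + (i : ℤ) * m : ℤ) : ℂ) • (algebraMap R S r * s ^ i) := by
  rw [hmul, hext, hr, zb4b_pow D hmul m s hs i, ← IsScalarTower.coe_toAlgHom' ℂ R S, map_smul,
    smul_mul_assoc, mul_smul_comm, ← add_smul]
  congr 1
  push_cast
  ring

end zb4b

variable {R S : Type u} [CommRing R] [IsDomain R] [CommRing S] [IsDomain S]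
  [Algebra ℂ R] [Algebra ℂ S] [Algebra R S] [IsScalarTower ℂ R S] [FaithfulSMul R S]
  [Module.Finite R S]

/-- Homogeneous integral equations. -/
theorem exists_hom_relation (D₀ : R →ₗ[ℂ] R)
    (hD₀ : ⊤ ≤ ⨆ m : ℤ, Module.End.eigenspace D₀ (m : ℂ)) (D : S →ₗ[ℂ] S)
    (hmul : ∀ s t, D (s * t) = D s * t + s * D t)
    (hext : ∀ r, D (algebraMap R S r) = algebraMap R S (D₀ r)) (m : ℤ) (s : S)
    (hs : D s = (m : ℂ) • s) :
    ∃ q : R[X], q.Monic ∧ aeval s q = 0 ∧
      ∀ i, D₀ (q.coeff i) = ((((q.natDegree : ℤ) - i) * m : ℤ) : ℂ) • q.coeff i := by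
  classical
  obtain ⟨p, hpm, hp0⟩ := (Algebra.IsIntegral.of_finite R S).isIntegral s
  set n := p.natDegree with hn
  -- components of the elements of `R`
  have hcomp : ∀ r : R, ∃ f : ℤ →₀ R, (∀ j, D₀ (f j) = (j : ℂ) • f j) ∧
      (∑ j ∈ f.support, f j) = r := by
    intro r
    obtain ⟨f, hf, hfr⟩ := (Submodule.mem_iSup_iff_exists_finsupp _ r).mp
      (hD₀ (Submodule.mem_top (x := r)))
    exact ⟨f, fun j => Module.End.mem_eigenspace_iff.mp (hf j), hfr⟩
  choose f hf hfr using hcomp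
  -- the index set
  set F : Finset ℤ := insert ((n : ℤ) * m)
    ((Finset.range n).biUnion fun i => (f (p.coeff i)).support.image fun j => j + (i : ℤ) * m)
    with hF
  set w : ℤ → S := fun k => (∑ i ∈ Finset.range n,
    algebraMap R S (f (p.coeff i) (k - (i : ℤ) * m)) * s ^ i) +
      if k = (n : ℤ) * m then s ^ n else 0 with hw
  have hwD : ∀ k ∈ F, w k ∈ Module.End.eigenspace D (k : ℂ) := by
    intro k _
    refine Submodule.add_mem _ (Submodule.sum_mem _ fun i _ => ?_) ?_
    · rw [Module.End.mem_eigenspace_iff, zb4b_mem D₀ D hmul hext (k - (i : ℤ) * m) m _ s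
        (hf _ _) hs i]
      congr 2
      ring
    · split_ifs with h
      · rw [Module.End.mem_eigenspace_iff, zb4b_pow D hmul m s hs n, h]
      · exact Submodule.zero_mem _
  have hsum : ∑ k ∈ F, w k = 0 := by
    have h1 : ∀ i ∈ Finset.range n,
        ∑ k ∈ F, algebraMap R S (f (p.coeff i) (k - (i : ℤ) * m)) * s ^ i =
          algebraMap R S (p.coeff i) * s ^ i := by
      intro i hi
      rw [← Finset.sum_mul, ← map_sum]
      congr 2
      have h2 : ∑ k ∈ (f (p.coeff i)).support.image (fun j => j + (i : ℤ) * m),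
          f (p.coeff i) (k - (i : ℤ) * m) = p.coeff i := by
        rw [Finset.sum_image (fun a _ b _ h => by simpa using h)]
        simp only [add_sub_cancel_right]
        exact hfr _
      refine Eq.trans (Eq.symm ?_) h2
      apply Finset.sum_subset
      · intro k hk
        rw [hF]
        exact Finset.mem_insert_of_mem (Finset.mem_biUnion.mpr ⟨i, hi, hk⟩)
      · intro k _ hk
        by_contra hne
        apply hk
        rw [Finset.mem_image]
        exact ⟨k - (i : ℤ) * m, Finsupp.mem_support_iff.mpr hne, by ring⟩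
    simp only [hw]
    rw [Finset.sum_add_distrib, Finset.sum_comm, Finset.sum_congr rfl h1, Finset.sum_ite_eq',
      if_pos (by rw [hF]; exact Finset.mem_insert_self _ _)]
    rw [eval₂_eq_sum_range, Finset.sum_range_succ, ← hn, hn, hpm.coeff_natDegree, map_one,
      one_mul] at hp0
    exact hp0
  have hind : iSupIndep fun k : ℤ => Module.End.eigenspace D (k : ℂ) :=
    (Module.End.eigenspaces_iSupIndep D).comp (f := fun k : ℤ => (k : ℂ)) Int.cast_injective
  have hw0 := (iSupIndep_iff_finsetSum_eq_zero_imp_eq_zero _).mp hind F w hwD hsum ((n : ℤ) * m)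
    (by rw [hF]; exact Finset.mem_insert_self _ _)
  simp only [hw, if_true] at hw0
  set g : ℕ → R := fun i => f (p.coeff i) ((n : ℤ) * m - (i : ℤ) * m) with hg
  set r : R[X] := ∑ i ∈ Finset.range n, C (g i) * X ^ i with hr
  have hrdeg : r.degree < n := by
    rw [hr, ← mem_degreeLT]
    refine Submodule.sum_mem _ fun i hi => ?_
    rw [mem_degreeLT]
    exact lt_of_le_of_lt (degree_C_mul_X_pow_le i _) (by
      exact_mod_cast Finset.mem_range.mp hi)
  have hrcoeff : ∀ i, r.coeff i = if i < n then g i else 0 := by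
    intro i
    rw [hr, finsetSum_coeff]
    simp only [coeff_C_mul_X_pow]
    rw [Finset.sum_ite_eq]
    simp only [Finset.mem_range]
  have hqdeg : (X ^ n + r).natDegree = n := by
    apply natDegree_eq_of_degree_eq_some
    rw [degree_add_eq_left_of_degree_lt (by rw [degree_X_pow]; exact hrdeg), degree_X_pow]
  refine ⟨X ^ n + r, monic_X_pow_add hrdeg, ?_, ?_⟩
  · rw [map_add, hr, map_sum]
    simp only [map_mul, aeval_C, map_pow, aeval_X]
    rw [add_comm]
    exact hw0
  · intro i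
    rw [hqdeg, coeff_add, coeff_X_pow, hrcoeff]
    rcases lt_trichotomy i n with h | h | h
    · rw [if_neg h.ne, if_pos h, zero_add, hg]
      simp only
      rw [hf, sub_mul]
    · subst h
      have h1 : D₀ 1 = 0 := by
        apply FaithfulSMul.algebraMap_injective R S
        rw [← hext, map_one, zb4b_one D hmul, map_zero]
      simp [h1]
    · rw [if_neg h.ne', if_neg h.not_gt, add_zero, map_zero, smul_zero]

/-- If `R` has no negative weights then neither has `S`. -/
theorem eq_zero_of_neg (D₀ : R →ₗ[ℂ] R)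
    (hD₀ : ⊤ ≤ ⨆ m : ℤ, Module.End.eigenspace D₀ (m : ℂ)) (D : S →ₗ[ℂ] S)
    (hmul : ∀ s t, D (s * t) = D s * t + s * D t)
    (hext : ∀ r, D (algebraMap R S r) = algebraMap R S (D₀ r))
    (hneg : ∀ (m : ℤ) (r : R), m < 0 → D₀ r = (m : ℂ) • r → r = 0) (m : ℤ) (s : S) (hm : m < 0)
    (hs : D s = (m : ℂ) • s) : s = 0 := by
  obtain ⟨q, hq, hq0, hqc⟩ := exists_hom_relation D₀ hD₀ D hmul hext m s hs
  rw [aeval_eq_sum_range, Finset.sum_range_succ, Finset.sum_eq_zero, zero_add,
    hq.coeff_natDegree, one_smul] at hq0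
  · exact eq_zero_of_pow_eq_zero hq0
  · intro i hi
    have h1 : ((q.natDegree : ℤ) - i) * m < 0 :=
      mul_neg_of_pos_of_neg (by have := Finset.mem_range.mp hi; omega) hm
    rw [hneg _ _ h1 (hqc i), zero_smul]

end Vale.Agent.P292
end

section

/-! # Elimination of (SC): the graded Poisson structure of the cover. -/

namespace Vale.Agent.P292

open Module Polynomial

universe u v

variable {R : Type u} [CommRing R] [Algebra ℂ R] {𝒜 : ℕ → Submodule ℂ R} [GradedAlgebra 𝒜]
  {P : R →ₗ[ℂ] R →ₗ[ℂ] R} {H : R} {a : ℤ} {n : ℕ}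

/-- The extension `S` of `R` carries a grading and a bracket extending those of `R`. -/
structure IsCover (𝒜 : ℕ → Submodule ℂ R) (P : R →ₗ[ℂ] R →ₗ[ℂ] R) (H : R) (a : ℤ)
    {S : Type v} [CommRing S] [Algebra ℂ S] [Algebra R S] (ℬ : ℕ → Submodule ℂ S)
    (PS : S →ₗ[ℂ] S →ₗ[ℂ] S) : Prop where
  mem : ∀ k, ∀ r ∈ 𝒜 k, algebraMap R S r ∈ ℬ k
  ext : ∀ r s, PS (algebraMap R S r) (algebraMap R S s) = algebraMap R S (P r s)
  alternating : ∀ a, PS a a = 0
  leibniz : ∀ a b c, PS a (b * c) = PS a b * c + b * PS a c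
  jacobi : ∀ a b c, PS a (PS b c) = PS (PS a b) c + PS b (PS a c)
  degree : ∀ i j k, i + j = k + 1 → ∀ a ∈ ℬ i, ∀ b ∈ ℬ j, PS a b ∈ ℬ k
  weights : ∀ k, ℬ k ≤ ⨆ m : ℤ, ℬ k ⊓ Module.End.eigenspace (PS (algebraMap R S H)) (m : ℂ)
  abs_le : ∀ k m, ∀ s ∈ Wt ℬ PS (algebraMap R S H) k m, s ≠ 0 → |m| ≤ a * k

/-- The roots of homogeneous polynomials. -/
def IsHomRoot (𝒜 : ℕ → Submodule ℂ R) (P : R →ₗ[ℂ] R →ₗ[ℂ] R) (H : R) {S : Type v} [CommRing S]
    [Algebra R S] (b : ℤ) (x : S) (q : R[X]) : Prop :=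
  q.Monic ∧ (∀ i ≤ q.natDegree, q.coeff i ∈
    Wt 𝒜 P H (q.natDegree - i) (b * ((q.natDegree - i : ℕ) : ℤ))) ∧
  aeval x q = 0 ∧ aeval x (derivative q) ≠ 0

/-- Derivations multiply the roots of homogeneous polynomials by scalars. -/
theorem apply_root {S : Type v} [CommRing S] [IsDomain S] [Algebra ℂ S]
    [Algebra R S] [IsScalarTower ℂ R S] (D₀ : R →ₗ[ℂ] R) (D : S →ₗ[ℂ] S)
    (hmul : ∀ s t, D (s * t) = D s * t + s * D t)
    (hext : ∀ r, D (algebraMap R S r) = algebraMap R S (D₀ r)) (c : ℂ) (q : R[X])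
    (hq : ∀ i ≤ q.natDegree, D₀ (q.coeff i) = (((q.natDegree - i : ℕ) : ℂ) * c) • q.coeff i)
    (x : S) (hx : aeval x q = 0) (hx' : aeval x (derivative q) ≠ 0) : D x = c • x := by
  have hone : D 1 = 0 := by
    have h := hmul 1 1
    rw [mul_one, mul_one, one_mul] at h
    simpa using h
  have hpow : ∀ i : ℕ, D (x ^ i) = (i : S) * x ^ (i - 1) * D x := by
    intro i
    induction i with
    | zero => simp [hone]
    | succ i ih =>
      rw [pow_succ, hmul, ih]
      rcases i with _ | i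
      · simp
      · simp only [Nat.add_sub_cancel, Nat.cast_add, Nat.cast_one]
        ring
  set m := q.natDegree with hm
  have h0 : ∑ i ∈ Finset.range (m + 1), algebraMap R S (q.coeff i) * x ^ i = 0 := by
    rw [← hx, aeval_eq_sum_range]
    exact Finset.sum_congr rfl fun i _ => (Algebra.smul_def _ _).symm
  have h1 : aeval x (derivative q) =
      ∑ i ∈ Finset.range (m + 1), algebraMap R S (q.coeff i) * ((i : S) * x ^ (i - 1)) := by
    rw [derivative_apply, sum_over_range _ (fun n => by simp), map_sum]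
    refine Finset.sum_congr rfl fun i _ => ?_
    rw [map_mul, map_pow, aeval_X, aeval_C, map_mul, map_natCast, mul_assoc]
  have h2 : ∑ i ∈ Finset.range (m + 1), (algebraMap R S (D₀ (q.coeff i)) * x ^ i +
      algebraMap R S (q.coeff i) * ((i : S) * x ^ (i - 1)) * D x) = 0 := by
    have h3 := congrArg D h0
    rw [map_sum, map_zero] at h3
    rw [← h3]
    refine Finset.sum_congr rfl fun i _ => ?_
    rw [hmul, hext, hpow, mul_assoc]
  rw [Finset.sum_add_distrib, ← Finset.sum_mul, ← h1] at h2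
  have h4 : ∑ i ∈ Finset.range (m + 1), algebraMap R S (D₀ (q.coeff i)) * x ^ i =
      - (aeval x (derivative q) * (c • x)) := by
    have h5 : ∀ i ∈ Finset.range (m + 1), algebraMap R S (D₀ (q.coeff i)) * x ^ i =
        ((m : ℂ) * c) • (algebraMap R S (q.coeff i) * x ^ i) -
          (algebraMap R S (q.coeff i) * ((i : S) * x ^ (i - 1))) * (c • x) := by
      intro i hi
      have hi' : i ≤ m := Nat.lt_succ_iff.1 (Finset.mem_range.1 hi)
      rw [hq i hi', Algebra.smul_def, map_mul, ← IsScalarTower.algebraMap_apply,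
        Algebra.smul_def, Algebra.smul_def, map_mul, map_mul, map_natCast, map_natCast,
        Nat.cast_sub hi']
      rcases i with _ | i
      · simp
      · rw [Nat.add_sub_cancel, pow_succ]
        ring
    rw [Finset.sum_congr rfl h5, Finset.sum_sub_distrib, ← Finset.smul_sum, h0, smul_zero,
      zero_sub, ← Finset.sum_mul, ← h1]
  rw [h4] at h2
  have h6 : aeval x (derivative q) * (D x - c • x) = 0 := by
    rw [mul_sub]
    linear_combination h2
  rcases mul_eq_zero.1 h6 with h | h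
  · exact absurd h hx'
  · exact sub_eq_zero.1 h

theorem zb5_euler_P (hX : IsContactFano 𝒜 P) (r s : R) :
    euler 𝒜 (P r s) = P (euler 𝒜 r) s + P r (euler 𝒜 s) - P r s := by
  refine forall_of_homogeneous' (𝒜 := 𝒜) (euler 𝒜 ∘ₗ P.flip s)
    (P.flip s ∘ₗ euler 𝒜 + P.flip (euler 𝒜 s) - P.flip s) (fun k r hr => ?_) r
  refine forall_of_homogeneous' (𝒜 := 𝒜) (euler 𝒜 ∘ₗ P r)
    (P (euler 𝒜 r) + P r ∘ₗ euler 𝒜 - P r) (fun l s hs => ?_) s
  simp only [LinearMap.comp_apply, LinearMap.add_apply, LinearMap.sub_apply]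
  rw [euler_apply k r hr, euler_apply l s hs, map_smul, map_smul, LinearMap.smul_apply]
  rcases Nat.eq_zero_or_pos (k + l) with h | h
  · have hk : k = 0 := by omega
    have hl : l = 0 := by omega
    subst hk hl
    obtain ⟨c, hc⟩ := hX.connected s hs
    rw [hc, hX.P_algebraMap_right]
    simp
  · have h1 : P r s ∈ 𝒜 (k + l - 1) := hX.degree k l (k + l - 1) (by omega) r hr s hs
    rw [euler_apply _ _ h1, Nat.cast_sub (by omega), Nat.cast_add, Nat.cast_one, sub_smul,
      add_smul, one_smul]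

theorem zb5_diag (C : Ctx 𝒜 P H a) (u v : ℤ) : ⊤ ≤ ⨆ m : ℤ, Module.End.eigenspace
    ((u : ℂ) • euler 𝒜 + (v : ℂ) • P H) (m : ℂ) := by
  rintro r -
  induction r using C.induction_Wt with
  | h k m r hr =>
    refine Submodule.mem_iSup_of_mem (u * k + v * m) ?_
    rw [Module.End.mem_eigenspace_iff]
    rw [mem_Wt] at hr
    rw [LinearMap.add_apply, LinearMap.smul_apply, LinearMap.smul_apply, euler_apply k r hr.1,
      hr.2, smul_smul, smul_smul, ← add_smul]
    push_cast
    rfl
  | h0 => exact zero_mem _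
  | hadd r s hr hs => exact add_mem hr hs

theorem zb5_nonneg (C : Ctx 𝒜 P H a) (u v : ℤ)
    (huv : ∀ (k : ℕ) (m : ℤ), |m| ≤ a * k → 0 ≤ u * k + v * m) (m : ℤ) (r : R) (hm : m < 0)
    (hr : ((u : ℂ) • euler 𝒜 + (v : ℂ) • P H) r = (m : ℂ) • r) : r = 0 := by
  set D : R →ₗ[ℂ] R := (u : ℂ) • euler 𝒜 + (v : ℂ) • P H with hD
  have h1 : ∀ r : R, r ∈ ⨆ (j : ℂ) (_ : j ≠ (m : ℂ)), Module.End.eigenspace D j := by
    intro r
    induction r using C.induction_Wt with
    | h k l r hr =>
      by_cases hr0 : r = 0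
      · rw [hr0]; exact zero_mem _
      · have h2 := huv k l (C.abs_le hr hr0)
        refine Submodule.mem_iSup_of_mem ((u * k + v * l : ℤ) : ℂ) (Submodule.mem_iSup_of_mem ?_ ?_)
        · intro h3
          have h4 : u * k + v * l = m := by exact_mod_cast h3
          linarith
        · rw [Module.End.mem_eigenspace_iff]
          rw [mem_Wt] at hr
          rw [hD, LinearMap.add_apply, LinearMap.smul_apply, LinearMap.smul_apply,
            euler_apply k r hr.1, hr.2, smul_smul, smul_smul, ← add_smul]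
          push_cast
          rfl
    | h0 => exact zero_mem _
    | hadd r s hr hs => exact add_mem hr hs
  have h2 : r ∈ Module.End.eigenspace D (m : ℂ) := Module.End.mem_eigenspace_iff.2 hr
  have h3 := (Submodule.disjoint_def.1 ((Module.End.eigenspaces_iSupIndep D) (m : ℂ))) r h2 (h1 r)
  exact h3

theorem isCover_of_data (C : Ctx 𝒜 P H a) [IsDomain R] {S : Type u} [CommRing S] [IsDomain S]
    [Algebra ℂ S] [Algebra R S] [IsScalarTower ℂ R S] [FaithfulSMul R S] [Module.Finite R S]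
    (E : S →ₗ[ℂ] S) (PS : S →ₗ[ℂ] S →ₗ[ℂ] S)
    (hE : ∀ r, E (algebraMap R S r) = algebraMap R S (euler 𝒜 r))
    (hEm : ∀ s t, E (s * t) = E s * t + s * E t)
    (hEP : ∀ s t, E (PS s t) = PS (E s) t + PS s (E t) - PS s t)
    (hext : ∀ r s, PS (algebraMap R S r) (algebraMap R S s) = algebraMap R S (P r s))
    (halt : ∀ a, PS a a = 0) (hleib : ∀ a b c, PS a (b * c) = PS a b * c + b * PS a c)
    (hjac : ∀ a b c, PS a (PS b c) = PS (PS a b) c + PS b (PS a c))
    (X : Set S) (hX : ∀ x ∈ X, ∃ b : ℤ, ∃ q : R[X], IsHomRoot 𝒜 P H b x q)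
    (hgen : ∀ s : S, ∃ r : R, r ≠ 0 ∧ algebraMap R S r * s ∈ Algebra.adjoin R X) :
    ∃ (ℬ : ℕ → Submodule ℂ S) (_ : GradedAlgebra ℬ), IsCover 𝒜 P H a ℬ PS ∧
      ∀ (b : ℤ) (x : S) (q : R[X]), IsHomRoot 𝒜 P H b x q → x ∈ ℬ 1 := by
  classical
  -- the operators `u E + v {H, ·}`
  let DR : ℤ → ℤ → R →ₗ[ℂ] R := fun u v => (u : ℂ) • euler 𝒜 + (v : ℂ) • P H
  let DS : ℤ → ℤ → S →ₗ[ℂ] S := fun u v => (u : ℂ) • E + (v : ℂ) • PS (algebraMap R S H)
  have hDR : ∀ u v r, DR u v r = (u : ℂ) • euler 𝒜 r + (v : ℂ) • P H r := fun u v r => rfl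
  have hDS : ∀ u v s, DS u v s = (u : ℂ) • E s + (v : ℂ) • PS (algebraMap R S H) s :=
    fun u v s => rfl
  have hsm : ∀ (c : ℂ) (r : R), algebraMap R S (c • r) = c • algebraMap R S r := fun c r =>
    map_smul (IsScalarTower.toAlgHom ℂ R S) c r
  have hDmul : ∀ u v s t, DS u v (s * t) = DS u v s * t + s * DS u v t := by
    intro u v s t
    simp only [hDS, hEm, hleib, smul_add, add_mul, mul_add, smul_mul_assoc, mul_smul_comm]
    abel
  have hDext : ∀ u v r, DS u v (algebraMap R S r) = algebraMap R S (DR u v r) := by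
    intro u v r
    rw [hDS, hDR, hE, hext, map_add, hsm, hsm]
  have hroot : ∀ u v (b : ℤ) (x : S) (q : R[X]), IsHomRoot 𝒜 P H b x q →
      DS u v x = ((u + v * b : ℤ) : ℂ) • x := by
    intro u v b x q hq
    refine apply_root (DR u v) (DS u v) (hDmul u v) (hDext u v) _ q (fun i hi => ?_) x hq.2.2.1
      hq.2.2.2
    have h1 := mem_Wt.1 (hq.2.1 i hi)
    rw [hDR, euler_apply _ _ h1.1, h1.2, smul_smul, smul_smul, ← add_smul]
    congr 1
    push_cast
    ring
  have hdiag : ∀ u v, ⊤ ≤ ⨆ m : ℤ, Module.End.eigenspace (DS u v) (m : ℂ) := by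
    intro u v
    refine diag_of_adjoin (DR u v) (zb5_diag C u v) (DS u v) (hDmul u v) (hDext u v) X
      (fun x hx => ?_) hgen
    obtain ⟨b, q, hq⟩ := hX x hx
    exact ⟨_, hroot u v b x q hq⟩
  have hneg : ∀ u v : ℤ, (∀ (k : ℕ) (m : ℤ), |m| ≤ a * k → 0 ≤ u * k + v * m) →
      ∀ (m : ℤ) (s : S), m < 0 → DS u v s = (m : ℂ) • s → s = 0 := fun u v huv m s hm hs =>
    eq_zero_of_neg (DR u v) (zb5_diag C u v) (DS u v) (hDmul u v) (hDext u v)
      (zb5_nonneg C u v huv) m s hm hs
  have hE10 : DS 1 0 = E := by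
    ext s
    rw [hDS]
    simp
  have hH01 : DS 0 1 = PS (algebraMap R S H) := by
    ext s
    rw [hDS]
    simp
  have hEdiag : ⊤ ≤ ⨆ m : ℤ, Module.End.eigenspace E (m : ℂ) := by
    have := hdiag 1 0
    rwa [hE10] at this
  have hHdiag : ⊤ ≤ ⨆ m : ℤ, Module.End.eigenspace (PS (algebraMap R S H)) (m : ℂ) := by
    have := hdiag 0 1
    rwa [hH01] at this
  have hEneg : ∀ (m : ℤ) (s : S), m < 0 → E s = (m : ℂ) • s → s = 0 := by
    intro m s hm hs
    refine hneg 1 0 (fun k m _ => by simp) m s hm ?_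
    rw [hE10]
    exact hs
  let ℬ : ℕ → Submodule ℂ S := fun k => Module.End.eigenspace E (k : ℂ)
  have hℬ : ∀ k s, s ∈ ℬ k ↔ E s = (k : ℂ) • s := fun k s => Module.End.mem_eigenspace_iff
  have hE1 : E 1 = 0 := by
    have h := hEm 1 1
    rw [mul_one, mul_one, one_mul] at h
    simpa using h
  have hgm : SetLike.GradedMonoid ℬ :=
    { one_mem := by rw [hℬ, hE1]; simp
      mul_mem := by
        intro i j s t hs ht
        rw [hℬ] at hs ht ⊢
        rw [hEm, hs, ht, smul_mul_assoc, mul_smul_comm, ← add_smul]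
        push_cast
        rfl }
  have hint : DirectSum.IsInternal ℬ := by
    rw [DirectSum.isInternal_submodule_iff_iSupIndep_and_iSup_eq_top]
    refine ⟨?_, ?_⟩
    · exact (Module.End.eigenspaces_iSupIndep E).comp (fun i j h => by exact_mod_cast h)
    · rw [eq_top_iff]
      refine hEdiag.trans (iSup_le fun m => ?_)
      rcases lt_or_ge m 0 with hm | hm
      · intro s hs
        rw [hEneg m s hm (Module.End.mem_eigenspace_iff.1 hs)]
        exact zero_mem _
      · obtain ⟨k, rfl⟩ := Int.eq_ofNat_of_zero_le hm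
        exact le_iSup ℬ k
  let dec : DirectSum.Decomposition ℬ := hint.chooseDecomposition
  let gr : GradedAlgebra ℬ := { hgm, dec with }
  refine ⟨ℬ, gr, ⟨?_, hext, halt, hleib, hjac, ?_, ?_, ?_⟩, ?_⟩
  · intro k r hr
    rw [hℬ, hE, euler_apply k r hr, hsm]
  · intro i j k hijk s hs t ht
    rw [hℬ] at hs ht ⊢
    rw [hEP, hs, ht, map_smul, map_smul, LinearMap.smul_apply, ← add_smul]
    have h1 : ((i : ℂ) + j) = k + 1 := by exact_mod_cast hijk
    rw [h1, add_smul, one_smul, add_sub_cancel_right]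
  · intro k
    refine le_iSup_of_stable _ hHdiag _ fun w hw => ?_
    rw [hℬ] at hw ⊢
    rw [hEP, hE, euler_apply 1 H C.hH.mem, hw]
    simp
  · intro k m s hs hs0
    rw [mem_Wt] at hs
    have h1 : E s = (k : ℂ) • s := (hℬ k s).1 hs.1
    by_contra hcon
    rw [not_le, lt_abs] at hcon
    rcases hcon with hcon | hcon
    · refine hs0 (hneg a (-1) (fun k m h => ?_) (a * k - m) s (by linarith) ?_)
      · have := le_abs_self m
        linarith
      · rw [hDS, h1, hs.2, smul_smul, smul_smul, ← add_smul]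
        congr 1
        push_cast
        ring
    · refine hs0 (hneg a 1 (fun k m h => ?_) (a * k + m) s (by linarith) ?_)
      · have := neg_abs_le m
        linarith
      · rw [hDS, h1, hs.2, smul_smul, smul_smul, ← add_smul]
        congr 1
        push_cast
        ring
  · intro b x q hq
    rw [hℬ]
    have h1 := hroot 1 0 b x q hq
    rw [hE10] at h1
    simpa using h1

theorem zb5_exists_mul_mem {R : Type u} {M : Type v} [CommRing R] [IsDomain R] [Field M]
    [Algebra R M] [Algebra (FractionRing R) M] [IsScalarTower R (FractionRing R) M] (X : Set M)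
    (hgen : Algebra.adjoin (FractionRing R) X = ⊤) (z : M) :
    ∃ r : R, r ≠ 0 ∧ algebraMap R M r * z ∈ Algebra.adjoin R X := by
  have hz : z ∈ Algebra.adjoin (FractionRing R) X := by rw [hgen]; trivial
  induction hz using Algebra.adjoin_induction with
  | mem x hx => exact ⟨1, one_ne_zero, by rw [map_one, one_mul]; exact Algebra.subset_adjoin hx⟩
  | algebraMap k =>
    obtain ⟨b, c, hc, hk⟩ := IsFractionRing.div_surjective (A := R) k
    refine ⟨c, nonZeroDivisors.ne_zero hc, ?_⟩
    have h1 : algebraMap R (FractionRing R) c ≠ 0 :=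
      IsFractionRing.to_map_ne_zero_of_mem_nonZeroDivisors hc
    have h2 : algebraMap R M c * algebraMap (FractionRing R) M k = algebraMap R M b := by
      rw [IsScalarTower.algebraMap_apply R (FractionRing R) M c, ← map_mul, ← hk,
        mul_div_cancel₀ _ h1, ← IsScalarTower.algebraMap_apply]
    rw [h2]
    exact Subalgebra.algebraMap_mem _ b
  | add x y _ _ hx hy =>
    obtain ⟨r, hr, hrx⟩ := hx
    obtain ⟨t, ht, hty⟩ := hy
    refine ⟨r * t, mul_ne_zero hr ht, ?_⟩
    have h1 : algebraMap R M (r * t) * (x + y) = algebraMap R M t * (algebraMap R M r * x) +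
        algebraMap R M r * (algebraMap R M t * y) := by
      rw [map_mul]; ring
    rw [h1]
    exact add_mem (mul_mem (Subalgebra.algebraMap_mem _ _) hrx)
      (mul_mem (Subalgebra.algebraMap_mem _ _) hty)
  | mul x y _ _ hx hy =>
    obtain ⟨r, hr, hrx⟩ := hx
    obtain ⟨t, ht, hty⟩ := hy
    refine ⟨r * t, mul_ne_zero hr ht, ?_⟩
    have h1 : algebraMap R M (r * t) * (x * y) = (algebraMap R M r * x) *
        (algebraMap R M t * y) := by
      rw [map_mul]; ring
    rw [h1]
    exact mul_mem hrx hty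

theorem zb5_coe_aeval {R : Type u} {M : Type v} [CommRing R] [Field M] [Algebra R M]
    (x : integralClosure R M) (q : R[X]) : ((aeval x q : integralClosure R M) : M) =
      aeval (x : M) q :=
  (aeval_algHom_apply (integralClosure R M).val x q).symm

/-- The integral closure of `R` in an unramified extension `M` generated by roots of homogeneous
polynomials is a cover. -/
theorem exists_isCover (C : Ctx 𝒜 P H a) [IsDomain R] {M : Type u} [Field M] [Algebra ℂ M]
    [Algebra R M] [IsScalarTower ℂ R M] [Algebra (FractionRing R) M]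
    [IsScalarTower R (FractionRing R) M]
    [FiniteDimensional (FractionRing R) M] (hU : IsUnram R M) (X : Set M)
    (hX : ∀ x ∈ X, ∃ b : ℤ, ∃ q : R[X], IsHomRoot 𝒜 P H b x q)
    (hgen : Algebra.adjoin (FractionRing R) X = ⊤) :
    ∃ (ℬ : ℕ → Submodule ℂ (integralClosure R M)) (_ : GradedAlgebra ℬ)
      (PS : integralClosure R M →ₗ[ℂ] integralClosure R M →ₗ[ℂ] integralClosure R M),
      IsCover 𝒜 P H a ℬ PS ∧
      ∀ (b : ℤ) (x : integralClosure R M) (q : R[X]), IsHomRoot 𝒜 P H b x q → x ∈ ℬ 1 := by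
  have hXF := C.hX
  have : Algebra.FiniteType ℂ R := hXF.finiteType
  have : IsNoetherianRing R := Algebra.FiniteType.isNoetherianRing ℂ R
  have : IsIntegrallyClosed R := hXF.normal
  have : CharZero R := charZero_of_injective_algebraMap (algebraMap ℂ R).injective
  have : CharZero (FractionRing R) := charZero_of_injective_algebraMap
    (IsFractionRing.injective R (FractionRing R))
  have hinj : Function.Injective (algebraMap R M) := by
    rw [IsScalarTower.algebraMap_eq R (FractionRing R) M]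
    exact (algebraMap (FractionRing R) M).injective.comp
      (IsFractionRing.injective R (FractionRing R))
  have : FaithfulSMul R M := (faithfulSMul_iff_algebraMap_injective R M).2 hinj
  have : Algebra.IsAlgebraic R M := ⟨fun x => (IsFractionRing.isAlgebraic_iff R (FractionRing R) M).2
    (Algebra.IsAlgebraic.isAlgebraic x)⟩
  have : Module.Finite R (integralClosure R M) :=
    IsIntegralClosure.finite R (FractionRing R) M (integralClosure R M)
  obtain ⟨P', hP1, hP2, hP3, hP4⟩ := exists_bracket_ext (M := M) P hXF.alternating hXF.leibniz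
    hXF.jacobi
  let d0 : Derivation ℂ R M := Derivation.mk'
    ((IsScalarTower.toAlgHom ℂ R M).toLinearMap ∘ₗ euler 𝒜) (fun r s => by
      change algebraMap R M (euler 𝒜 (r * s)) = r • algebraMap R M (euler 𝒜 s) +
        s • algebraMap R M (euler 𝒜 r)
      rw [euler_mul, map_add, map_mul, map_mul, Algebra.smul_def, Algebra.smul_def]
      ring)
  obtain ⟨E', hE'⟩ := exists_derivation_ext (M := M) (N := M) d0
  have hE1 : ∀ r, E' (algebraMap R M r) = algebraMap R M (euler 𝒜 r) := hE'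
  have hEm : ∀ x y, E' (x * y) = E' x * y + x * E' y := by
    intro x y
    rw [Derivation.leibniz, smul_eq_mul, smul_eq_mul]
    ring
  have hEint : ∀ s, IsIntegral R s → IsIntegral R (E' s) := fun s hs =>
    hU.derivation_isIntegral E' (fun _ _ => map_add _ _ _) hEm
      (fun r => by rw [hE1]; exact isIntegral_algebraMap) s hs
  have hskew : ∀ x y, P' x y = - P' y x := by
    intro x y
    have h := hP2 (x + y)
    rw [map_add, map_add, LinearMap.add_apply, LinearMap.add_apply, hP2 x, hP2 y, zero_add,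
      add_zero] at h
    exact eq_neg_of_add_eq_zero_right h
  have hPint1 : ∀ (r : R) (s : M), IsIntegral R s → IsIntegral R (P' (algebraMap R M r) s) :=
    fun r s hs => hU.derivation_isIntegral (P' (algebraMap R M r)) (fun _ _ => map_add _ _ _)
      (hP3 _) (fun t => by rw [hP1]; exact isIntegral_algebraMap) s hs
  have hPint2 : ∀ s t : M, IsIntegral R s → IsIntegral R t → IsIntegral R (P' s t) :=
    fun s t hs ht => hU.derivation_isIntegral (P' s) (fun _ _ => map_add _ _ _)
      (hP3 _) (fun r => by rw [hskew]; exact (hPint1 r s hs).neg) t ht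
  let F : M → M → M := fun x y => E' (P' x y) - P' (E' x) y - P' x (E' y) + P' x y
  have hF : ∀ x y, F x y = E' (P' x y) - P' (E' x) y - P' x (E' y) + P' x y := fun _ _ => rfl
  have hF1 : ∀ x y z, F x (y + z) = F x y + F x z := by
    intro x y z
    simp only [hF, map_add]
    ring
  have hF2 : ∀ x y z, F x (y * z) = F x y * z + y * F x z := by
    intro x y z
    simp only [hF, hP3, hEm, map_add]
    ring
  have hF3 : ∀ x y, F x y = - F y x := by
    intro x y
    rw [hF, hF, hskew x y, hskew (E' x) y, hskew x (E' y), map_neg]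
    ring
  have hF4 : ∀ r s : R, F (algebraMap R M r) (algebraMap R M s) = 0 := by
    intro r s
    rw [hF, hE1, hE1, hP1, hP1, hP1, hE1, zb5_euler_P hXF, map_sub, map_add]
    ring
  have hF5 : ∀ (r : R) (y : M), F (algebraMap R M r) y = 0 := fun r y =>
    eq_zero_of_restrict (R := R) (F (algebraMap R M r)) (hF1 _) (hF2 _) (hF4 r) y
  have hF6 : ∀ x y : M, F x y = 0 := fun x y =>
    eq_zero_of_restrict (R := R) (F x) (hF1 _) (hF2 _)
      (fun r => by rw [hF3, hF5, neg_zero]) y
  have hEP : ∀ x y, E' (P' x y) = P' (E' x) y + P' x (E' y) - P' x y := by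
    intro x y
    have := hF6 x y
    rw [hF] at this
    linear_combination this
  let ES : integralClosure R M →ₗ[ℂ] integralClosure R M :=
    { toFun := fun s => ⟨E' s, hEint s s.2⟩
      map_add' := fun s t => Subtype.ext (map_add E' _ _)
      map_smul' := fun c s => Subtype.ext (E'.map_smul c (s : M)) }
  have hES : ∀ s, ((ES s : integralClosure R M) : M) = E' s := fun s => rfl
  let PS : integralClosure R M →ₗ[ℂ] integralClosure R M →ₗ[ℂ] integralClosure R M :=
    LinearMap.mk₂ ℂ (fun s t => ⟨P' s t, hPint2 s t s.2 t.2⟩)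
      (fun s s' t => Subtype.ext (by
        change P' ((s : M) + s') t = P' s t + P' s' t
        rw [map_add, LinearMap.add_apply]))
      (fun c s t => Subtype.ext (by
        change P' (c • (s : M)) t = c • P' s t
        rw [map_smul, LinearMap.smul_apply]))
      (fun s t t' => Subtype.ext (by
        change P' s ((t : M) + t') = P' s t + P' s t'
        rw [map_add]))
      (fun c s t => Subtype.ext (by
        change P' s (c • (t : M)) = c • P' s t
        rw [map_smul]))
  have hPS : ∀ s t, ((PS s t : integralClosure R M) : M) = P' s t := fun s t => rfl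
  let XS : Set (integralClosure R M) := {x | (x : M) ∈ X}
  have hXS : ∀ x ∈ XS, ∃ b : ℤ, ∃ q : R[X], IsHomRoot 𝒜 P H b x q := by
    intro x hx
    obtain ⟨b, q, h1, h2, h3, h4⟩ := hX x hx
    refine ⟨b, q, h1, h2, Subtype.ext ?_, fun h => h4 ?_⟩
    · rw [zb5_coe_aeval, h3]
      rfl
    · rw [← zb5_coe_aeval, h]
      rfl
  have hXint : ∀ x ∈ X, IsIntegral R x := by
    intro x hx
    obtain ⟨b, q, h1, h2, h3, h4⟩ := hX x hx
    exact ⟨q, h1, by rw [← aeval_def]; exact h3⟩
  have himg : (integralClosure R M).val '' XS = X := by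
    ext x
    constructor
    · rintro ⟨y, hy, rfl⟩
      exact hy
    · intro hx
      exact ⟨⟨x, hXint x hx⟩, hx, rfl⟩
  have hgenS : ∀ s : integralClosure R M, ∃ r : R, r ≠ 0 ∧
      algebraMap R (integralClosure R M) r * s ∈ Algebra.adjoin R XS := by
    intro s
    obtain ⟨r, hr, h1⟩ := zb5_exists_mul_mem X hgen (s : M)
    refine ⟨r, hr, ?_⟩
    rw [← himg, ← AlgHom.map_adjoin] at h1
    obtain ⟨t, ht, h2⟩ := h1
    have h3 : t = algebraMap R (integralClosure R M) r * s := Subtype.ext h2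
    rw [← h3]
    exact ht
  obtain ⟨ℬ, gr, h1, h2⟩ := isCover_of_data C ES PS
    (fun r => Subtype.ext (hE1 r)) (fun s t => Subtype.ext (hEm s t))
    (fun s t => Subtype.ext (hEP s t)) (fun r s => Subtype.ext (hP1 r s))
    (fun s => Subtype.ext (hP2 s)) (fun s t u => Subtype.ext (hP3 s t u))
    (fun s t u => Subtype.ext (hP4 s t u)) XS hXS hgenS
  exact ⟨ℬ, gr, PS, h1, h2⟩

end Vale.Agent.P292
end

section

/-! # Elimination of (SC): slopes and automorphisms of the cover. -/

namespace Vale.Agent.P292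

open Module Polynomial

universe u v

section aux

/-- An element which the Euler operator multiplies by `k` has degree `k`. -/
theorem zb6_mem_of_euler {T : Type u} [CommRing T] [Algebra ℂ T] {ℬ : ℕ → Submodule ℂ T}
    [GradedAlgebra ℬ] {k : ℕ} {r : T} (h : euler ℬ r = (k : ℂ) • r) : r ∈ ℬ k := by
  classical
  have hcomp : ∀ i : ℕ, (DirectSum.decompose ℬ (euler ℬ r) i : T) =
      (i : ℂ) • (DirectSum.decompose ℬ r i : T) := by
    intro i
    refine forall_of_homogeneous' (𝒜 := ℬ)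
      ((ℬ i).subtype ∘ₗ DirectSum.component ℂ ℕ (fun j => ℬ j) i ∘ₗ
        (DirectSum.decomposeLinearEquiv ℬ).toLinearMap ∘ₗ euler ℬ)
      ((i : ℂ) • ((ℬ i).subtype ∘ₗ DirectSum.component ℂ ℕ (fun j => ℬ j) i ∘ₗ
        (DirectSum.decomposeLinearEquiv ℬ).toLinearMap)) (fun j s hs => ?_) r
    change (DirectSum.decompose ℬ (euler ℬ s) i : T) = (i : ℂ) • (DirectSum.decompose ℬ s i : T)
    rw [euler_apply j s hs]
    by_cases hij : j = i
    · subst hij
      rw [DirectSum.decompose_of_mem_same ℬ ((ℬ j).smul_mem _ hs),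
        DirectSum.decompose_of_mem_same ℬ hs]
    · rw [DirectSum.decompose_of_mem_ne ℬ ((ℬ j).smul_mem _ hs) hij,
        DirectSum.decompose_of_mem_ne ℬ hs hij, smul_zero]
  have hz : ∀ i : ℕ, i ≠ k → (DirectSum.decompose ℬ r i : T) = 0 := by
    intro i hi
    have h1 := hcomp i
    rw [h, DirectSum.decompose_smul] at h1
    have h2 : ((k : ℂ) - (i : ℂ)) • (DirectSum.decompose ℬ r i : T) = 0 := by
      rw [sub_smul, sub_eq_zero]
      exact h1
    refine (smul_eq_zero.mp h2).resolve_left (sub_ne_zero.2 fun h3 => hi ?_)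
    exact_mod_cast h3.symm
  have h3 := DirectSum.sum_support_decompose ℬ r
  rw [← h3]
  refine sum_mem fun i _ => ?_
  by_cases hi : i = k
  · rw [hi]
    exact SetLike.coe_mem _
  · rw [hz i hi]
    exact zero_mem _

/-- Derivations of `S` killing `R` are zero. -/
theorem zb6_der_zero {R : Type*} [CommRing R] {S : Type*} [CommRing S] [IsDomain S] [Algebra ℂ S]
    [Algebra R S] [FaithfulSMul R S] [Module.Finite R S] (V : S →+ S)
    (hV : ∀ p q, V (p * q) = V p * q + p * V q)
    (hR : ∀ r : R, V (algebraMap R S r) = 0) (s : S) : V s = 0 := by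
  have hinj : Function.Injective (algebraMap R S) := FaithfulSMul.algebraMap_injective R S
  have hnt : Nontrivial R := by
    refine ⟨0, 1, fun h => ?_⟩
    have h1 := congrArg (algebraMap R S) h
    rw [map_zero, map_one] at h1
    exact zero_ne_one h1
  have hψ : Function.Injective (algebraMap S (FractionRing S)) :=
    IsFractionRing.injective S (FractionRing S)
  have hch : CharZero (FractionRing S) :=
    charZero_of_injective_algebraMap
      (((algebraMap S (FractionRing S)).comp (algebraMap ℂ S)).injective)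
  have h1 := derivation_eq_zero_of_isAlgebraic (A := R) (algebraMap S (FractionRing S)) hψ
    ((algebraMap S (FractionRing S)).toAddMonoidHom.comp V) (fun p q => by
      change algebraMap S (FractionRing S) (V (p * q)) =
        algebraMap S (FractionRing S) p * algebraMap S (FractionRing S) (V q) +
          algebraMap S (FractionRing S) q * algebraMap S (FractionRing S) (V p)
      rw [hV, map_add, map_mul, map_mul]
      ring) (fun x => by
      change algebraMap S (FractionRing S) (V (algebraMap R S x)) = 0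
      rw [hR, map_zero]) hinj (f := s)
    (Algebra.IsIntegral.isIntegral (R := R) s).isAlgebraic
  exact hψ (by rw [map_zero]; exact h1)

end aux

variable {R : Type u} [CommRing R] [Algebra ℂ R] {𝒜 : ℕ → Submodule ℂ R} [GradedAlgebra 𝒜]
  {P : R →ₗ[ℂ] R →ₗ[ℂ] R} {H : R} {a : ℤ} {n : ℕ}
  {S : Type u} [CommRing S] [IsDomain S] [Algebra ℂ S] [Algebra R S] [IsScalarTower ℂ R S]
  [FaithfulSMul R S] [Module.Finite R S] {ℬ : ℕ → Submodule ℂ S} [GradedAlgebra ℬ]
  {PS : S →ₗ[ℂ] S →ₗ[ℂ] S}

omit [IsDomain S] [FaithfulSMul R S] [Module.Finite R S] in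
/-- The Euler operators agree on `R`. -/
theorem zb6_euler (hm : ∀ k, ∀ r ∈ 𝒜 k, algebraMap R S r ∈ ℬ k) (r : R) :
    euler ℬ (algebraMap R S r) = algebraMap R S (euler 𝒜 r) := by
  refine forall_of_homogeneous' (𝒜 := 𝒜)
    (euler ℬ ∘ₗ (IsScalarTower.toAlgHom ℂ R S).toLinearMap)
    ((IsScalarTower.toAlgHom ℂ R S).toLinearMap ∘ₗ euler 𝒜) (fun k s hs => ?_) r
  change euler ℬ (algebraMap R S s) = IsScalarTower.toAlgHom ℂ R S (euler 𝒜 s)
  rw [euler_apply k _ (hm k s hs), euler_apply k s hs, map_smul]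
  rfl

/-- Automorphisms over `R` preserve the grading. -/
theorem IsCover.map_mem (h : IsCover 𝒜 P H a ℬ PS) (σ : S ≃ₐ[R] S) {k : ℕ} {s : S}
    (hs : s ∈ ℬ k) : σ s ∈ ℬ k := by
  have hσ : ∀ (c : ℂ) (t : S), σ (c • t) = c • σ t := fun c t =>
    map_smul (σ.restrictScalars ℂ) c t
  let V : S →+ S :=
    ((σ.symm : S →+* S).toAddMonoidHom.comp ((euler ℬ).toAddMonoidHom.comp
      (σ : S →+* S).toAddMonoidHom)) - (euler ℬ).toAddMonoidHom
  have hVa : ∀ t, V t = σ.symm (euler ℬ (σ t)) - euler ℬ t := fun t => rfl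
  have h1 := zb6_der_zero (R := R) V (fun p q => by
    rw [hVa, hVa, hVa, map_mul, euler_mul, euler_mul, map_add, map_mul, map_mul,
      AlgEquiv.symm_apply_apply, AlgEquiv.symm_apply_apply]
    ring) (fun r => by
    rw [hVa, AlgEquiv.commutes, zb6_euler h.mem, AlgEquiv.commutes, sub_self]) s
  rw [hVa, sub_eq_zero, euler_apply k s hs] at h1
  apply zb6_mem_of_euler
  rw [← hσ, ← h1, AlgEquiv.apply_symm_apply]

omit [IsDomain S] [IsScalarTower ℂ R S] [FaithfulSMul R S] [Module.Finite R S]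
  [GradedAlgebra 𝒜] [GradedAlgebra ℬ] in
theorem zb6_skew (h : IsCover 𝒜 P H a ℬ PS) (s t : S) : PS s t = - PS t s := by
  have h1 := h.alternating (s + t)
  rw [map_add, map_add, LinearMap.add_apply, LinearMap.add_apply, h.alternating, h.alternating,
    zero_add, add_zero] at h1
  rw [eq_neg_iff_add_eq_zero, add_comm]
  exact h1

set_option linter.unusedSectionVars false in
/-- Automorphisms over `R` preserve the bracket. -/
theorem IsCover.map_P (h : IsCover 𝒜 P H a ℬ PS) (σ : S ≃ₐ[R] S) (s t : S) :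
    σ (PS s t) = PS (σ s) (σ t) := by
  have key : ∀ (r : R) (t : S), PS (algebraMap R S r) (σ t) = σ (PS (algebraMap R S r) t) := by
    intro r t
    let V : S →+ S :=
      ((σ.symm : S →+* S).toAddMonoidHom.comp ((PS (algebraMap R S r)).toAddMonoidHom.comp
        (σ : S →+* S).toAddMonoidHom)) - (PS (algebraMap R S r)).toAddMonoidHom
    have hVa : ∀ t, V t = σ.symm (PS (algebraMap R S r) (σ t)) - PS (algebraMap R S r) t :=
      fun t => rfl
    have h1 := zb6_der_zero (R := R) V (fun p q => by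
      rw [hVa, hVa, hVa, map_mul, h.leibniz, h.leibniz, map_add, map_mul, map_mul,
        AlgEquiv.symm_apply_apply, AlgEquiv.symm_apply_apply]
      ring) (fun r' => by
      rw [hVa, AlgEquiv.commutes, h.ext, AlgEquiv.commutes, sub_self]) t
    rw [hVa, sub_eq_zero] at h1
    rw [← h1, AlgEquiv.apply_symm_apply]
  let V : S →+ S :=
    ((σ.symm : S →+* S).toAddMonoidHom.comp ((PS.flip (σ t)).toAddMonoidHom.comp
      (σ : S →+* S).toAddMonoidHom)) - (PS.flip t).toAddMonoidHom
  have hVa : ∀ s, V s = σ.symm (PS (σ s) (σ t)) - PS s t := fun s => rfl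
  have hl : ∀ p q t, PS (p * q) t = PS p t * q + p * PS q t := by
    intro p q t
    rw [zb6_skew h (p * q) t, h.leibniz, zb6_skew h p t, zb6_skew h q t]
    ring
  have h1 := zb6_der_zero (R := R) V (fun p q => by
    rw [hVa, hVa, hVa, map_mul, hl, hl, map_add, map_mul, map_mul,
      AlgEquiv.symm_apply_apply, AlgEquiv.symm_apply_apply]
    ring) (fun r => by
    rw [hVa, AlgEquiv.commutes, key, AlgEquiv.symm_apply_apply, sub_self]) s
  rw [hVa, sub_eq_zero] at h1
  rw [← h1, AlgEquiv.apply_symm_apply]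

/-- Extremal points of the cover are the points over extremal points. -/
theorem IsCover.hasSlope_iff (C : Ctx 𝒜 P H a) (h : IsCover 𝒜 P H a ℬ PS) (p : S →ₐ[ℂ] ℂ) :
    HasSlope ℬ PS (algebraMap R S H) p a ↔
      HasSlope 𝒜 P H (p.comp (IsScalarTower.toAlgHom ℂ R S)) a := by
  constructor
  · rintro ⟨hv, hp⟩
    refine ⟨not_isVertex_restrict h.mem hv, fun k r hr => ?_⟩
    have h1 := hp k (algebraMap R S r) (h.mem k r hr)
    rw [h.ext] at h1
    exact h1
  · rintro ⟨hv, hp⟩
    refine ⟨fun hv' => hv fun k hk r hr => hv' k hk _ (h.mem k r hr), fun k s hs => ?_⟩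
    have := C.hX.domain
    set p0 := p.comp (IsScalarTower.toAlgHom ℂ R S) with hp0
    let D : S →ₗ[ℂ] S := (a : ℂ) • euler ℬ - PS (algebraMap R S H)
    let D₀ : R →ₗ[ℂ] R := (a : ℂ) • euler 𝒜 - P H
    have hDa : ∀ t, D t = (a : ℂ) • euler ℬ t - PS (algebraMap R S H) t := fun t => rfl
    have hD₀a : ∀ t, D₀ t = (a : ℂ) • euler 𝒜 t - P H t := fun t => rfl
    -- `p₀` kills the image of `D₀`
    have hkill : ∀ r, p0 (D₀ r) = 0 := by
      intro r
      refine forall_of_homogeneous' (𝒜 := 𝒜) (p0.toLinearMap ∘ₗ D₀) 0 (fun j t ht => ?_) r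
      change p0 (D₀ t) = 0
      rw [hD₀a, euler_apply j t ht, map_sub, hp j t ht, smul_smul, map_smul, smul_eq_mul]
      push_cast
      ring
    -- the eigenvectors of `PS H`
    have hker : ∀ (m : ℤ) (t : S), t ∈ ℬ k → PS (algebraMap R S H) t = (m : ℂ) • t →
        m ≠ a * k → p t = 0 := by
      intro m t ht hm hne
      obtain ⟨q, hq, hqt, hqc⟩ := exists_hom_relation D₀ (by
        intro r _
        refine C.induction_Wt (p := fun r => r ∈ ⨆ m : ℤ, Module.End.eigenspace D₀ (m : ℂ))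
          (fun j l r hr => ?_) (zero_mem _) (fun _ _ h1 h2 => add_mem h1 h2) r
        obtain ⟨hr1, hr2⟩ := mem_Wt.mp hr
        refine Submodule.mem_iSup_of_mem (a * j - l) ?_
        rw [Module.End.mem_eigenspace_iff, hD₀a, euler_apply j r hr1, hr2, smul_smul, ← sub_smul]
        push_cast
        rfl) D (fun p q => by
        rw [hDa, hDa, hDa, euler_mul, h.leibniz, Algebra.smul_def, Algebra.smul_def,
          Algebra.smul_def]
        ring) (fun r => by
        rw [hDa, hD₀a, zb6_euler h.mem, h.ext, map_sub]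
        congr 1
        exact (map_smul (IsScalarTower.toAlgHom ℂ R S) (a : ℂ) (euler 𝒜 r)).symm)
        (a * k - m) t (by
        rw [hDa, euler_apply k t ht, hm, smul_smul, ← sub_smul]
        push_cast
        rfl)
      have hc : ∀ i < q.natDegree, p0 (q.coeff i) = 0 := by
        intro i hi
        have h1 := hkill (q.coeff i)
        rw [hqc i, map_smul, smul_eq_mul] at h1
        refine (mul_eq_zero.mp h1).resolve_left (Int.cast_ne_zero.2 ?_)
        refine mul_ne_zero ?_ (sub_ne_zero.2 (Ne.symm hne))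
        have : (i : ℤ) < q.natDegree := by exact_mod_cast hi
        omega
      have h2 := congrArg p hqt
      rw [aeval_eq_sum_range, map_sum, map_zero, Finset.sum_range_succ,
        Finset.sum_eq_zero, zero_add, hq.coeff_natDegree, one_smul, map_pow] at h2
      · have hn : q.natDegree ≠ 0 := fun h0 => by
          rw [h0, pow_zero] at h2
          exact one_ne_zero h2
        exact (pow_eq_zero_iff hn).mp h2
      · intro i hi
        rw [Algebra.smul_def, map_mul]
        have h3 : p (algebraMap R S (q.coeff i)) = 0 := hc i (Finset.mem_range.1 hi)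
        rw [h3, zero_mul]
    -- linear extension
    have hall : ℬ k ≤ LinearMap.ker (p.toLinearMap ∘ₗ (PS (algebraMap R S H)) -
        ((a * k : ℤ) : ℂ) • p.toLinearMap) := by
      refine (h.weights k).trans (iSup_le fun m t ht => ?_)
      obtain ⟨ht1, ht2⟩ := ht
      have ht3 := Module.End.mem_eigenspace_iff.1 ht2
      rw [LinearMap.mem_ker]
      change p (PS (algebraMap R S H) t) - ((a * k : ℤ) : ℂ) • p t = 0
      rw [ht3, map_smul, smul_eq_mul, smul_eq_mul]
      by_cases hm : m = a * k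
      · rw [hm, sub_self]
      · rw [hker m t ht1 ht3 hm, mul_zero, mul_zero, sub_zero]
    have h4 := hall hs
    rw [LinearMap.mem_ker] at h4
    exact sub_eq_zero.mp h4

/-- `a` is the maximal slope of the cover. -/
theorem IsCover.isMaxSlope (C : Ctx 𝒜 P H a) (h : IsCover 𝒜 P H a ℬ PS) :
    IsMaxSlope ℬ PS (algebraMap R S H) a := by
  refine ⟨?_, fun k m r hr hr0 => (le_abs_self m).trans (h.abs_le k m r hr hr0)⟩
  obtain ⟨q, hq⟩ := C.hmax.exists_slope
  obtain ⟨p, hp⟩ := exists_lift_point (FaithfulSMul.algebraMap_injective R S) q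
  refine ⟨p, (h.hasSlope_iff C p).2 ?_⟩
  rw [hp]
  exact hq

end Vale.Agent.P292
end

section

/-! # Elimination of (SC): homogeneity of the minimal polynomials. -/

namespace Vale.Agent.P292

open Module Polynomial

universe u v

variable {R : Type u} [CommRing R] [Algebra ℂ R] {𝒜 : ℕ → Submodule ℂ R} [GradedAlgebra 𝒜]
  {P : R →ₗ[ℂ] R →ₗ[ℂ] R} {H : R} {a : ℤ} {n : ℕ}

theorem IsMinQ.monic {C : CtxN 𝒜 P H a n} {q : R[X]} (hq : IsMinQ C q) : q.Monic := by
  obtain ⟨y, hy, f, hΔ, Q, hQ, rfl⟩ := hq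
  exact hQ.monic.map _

/-- The coefficients are homogeneous. -/
theorem IsMinQ.coeff_mem {C : CtxN 𝒜 P H a n} {q : R[X]} (hq : IsMinQ C q) (i : ℕ)
    (hi : i ≤ q.natDegree) :
    q.coeff i ∈ Wt 𝒜 P H (q.natDegree - i) (-a * ((q.natDegree - i : ℕ) : ℤ)) := by
  obtain ⟨y, hy, f, hΔ, Q, hQ, rfl⟩ := hq
  have : Nontrivial R := by
    have := C.half.ctx.hX.domain
    infer_instance
  have h1 := hQ.coeff_mem C hy hΔ i
  rw [Wt_neg] at h1
  rw [hQ.monic.natDegree_map, Polynomial.coeff_map, neg_mul]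
  exact h1

theorem IsMinQ.irreducible {C : CtxN 𝒜 P H a n} {q : R[X]} (hq : IsMinQ C q) (K : Type v)
    [Field K] [Algebra R K] [IsFractionRing R K] : Irreducible (q.map (algebraMap R K)) := by
  obtain ⟨y, hy, f, hΔ, Q, hQ, rfl⟩ := hq
  rw [Polynomial.map_map]
  exact C.half.ctx.neg.irreducible_map_of_irreducible hQ.monic hQ.irreducible K

end Vale.Agent.P292
end

section

/-! # Elimination of (SC): finitely many polynomials see all the source points. -/

namespace Vale.Agent.P292

open Module Polynomial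

universe u v

variable {R : Type u} [CommRing R] [Algebra ℂ R] {𝒜 : ℕ → Submodule ℂ R} [GradedAlgebra 𝒜]
  {P : R →ₗ[ℂ] R →ₗ[ℂ] R} {H : R} {a : ℤ} {n : ℕ}

/-- A monic polynomial with a nonzero root has a nonzero nonleading coefficient. -/
theorem zc2_exists_coeff {A : Type u} [CommRing A] [Nontrivial A] {Q : A[X]} (hQ : Q.Monic)
    {K : Type v} [Field K] (φ : A →+* K) {t : K} (ht : t ≠ 0) (h : Q.eval₂ φ t = 0) :
    ∃ i < Q.natDegree, φ (Q.coeff i) ≠ 0 := by
  by_contra hcon
  push Not at hcon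
  rw [eval₂_eq_sum_range, Finset.sum_range_succ, Finset.sum_eq_zero, zero_add,
    hQ.coeff_natDegree, map_one, one_mul] at h
  · exact pow_ne_zero _ ht h
  · intro i hi
    rw [hcon i (Finset.mem_range.mp hi), zero_mul]

/-- Every closed source point sees a nonleading coefficient of one of the polynomials of the
other side. -/
theorem CtxN.exists_isMinQ (C : CtxN 𝒜 P H a n) {y : R →ₐ[ℂ] ℂ} (hy : HasSlope 𝒜 P H y a) :
    ∃ q : R[X], IsMinQ C.neg q ∧ ∃ i < q.natDegree, y (q.coeff i) ≠ 0 := by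
  obtain ⟨f, hΔ⟩ := C.half.exists_frame y hy
  have hf := C.half.complete y f hy hΔ
  have hcH : C.half.ctx.cell f y H ≠ 0 := C.half.ctx.cell_H_ne_zero hy f hf
  have hpure := C.half.ctx.hasSlope_iff_pure.mp hy
  obtain ⟨ξ, hξ⟩ : ∃ ξ : Fin n → ℂ, MvPolynomial.aeval ξ (C.half.ctx.cell f y H) ≠ 0 := by
    by_contra hcon
    push Not at hcon
    refine hcH (MvPolynomial.funext (fun ξ => ?_))
    have := hcon ξ
    rw [MvPolynomial.aeval_eq_eval] at this
    rw [map_zero]
    exact this
  let x : R →ₐ[ℂ] ℂ := (MvPolynomial.aeval ξ).comp (C.half.ctx.cell f y)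
  have hxdef : ∀ r, x r = MvPolynomial.aeval ξ (C.half.ctx.cell f y r) := fun r => rfl
  have hxW : TypeW 𝒜 P H a x := (C.half.ctx.typeW_cell f hpure.1).comp _
  have hxH : x H ≠ 0 := hξ
  have hxA : ∀ c ∈ Ap 𝒜 P H a, x c = y c := by
    intro c hc
    rw [hxdef, C.half.ctx.cell_Ap f y hc, MvPolynomial.aeval_C]
    rfl
  have hxNV : NV 𝒜 P (-H) a x := by
    by_contra h
    have h1 := C.neg.half.ctx.apply_H_eq_zero x (typeW_neg.mpr hxW) h
    rw [map_neg, neg_eq_zero] at h1
    exact hxH h1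
  obtain ⟨z, hz1, hz2⟩ := C.neg.half.ctx.exists_pure x
  have hzNV : NV 𝒜 P (-H) a z := by
    obtain ⟨k, hk, r, hr, hxr⟩ := hxNV
    exact ⟨k, hk, r, hr, by rw [hz2 r (mem_Ap hr)]; exact hxr⟩
  have hz : HasSlope 𝒜 P (-H) z a := C.neg.half.ctx.hasSlope_iff_pure.mpr ⟨hz1, hzNV⟩
  obtain ⟨f', hΔ'⟩ := C.neg.half.exists_frame z hz
  have hf' := C.neg.half.complete z f' hz hΔ'
  obtain ⟨Q, hQ⟩ := C.neg.exists_minPoly hz f' hΔ'
  obtain ⟨η, hη⟩ := C.neg.half.ctx.cell_lemma hz f' hΔ' hf' x (typeW_neg.mpr hxW)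
    (fun c hc => (hz2 c hc).symm)
  have hdom : IsDomain (Ap 𝒜 P (-(-H)) a) := C.neg.half.ctx.neg.isDomain_Ap
  have hdR : Nontrivial R := ⟨⟨H, 0, fun h => hxH (by rw [h, map_zero])⟩⟩
  -- the image of the root relation under `x`
  have hroot : Q.eval₂ ((x.comp (Ap 𝒜 P (-(-H)) a).val : Ap 𝒜 P (-(-H)) a →ₐ[ℂ] ℂ) :
      Ap 𝒜 P (-(-H)) a →+* ℂ) (x (-H) ^ 2) = 0 := by
    have h := congrArg (MvPolynomial.aeval η : MvPolynomial (Fin n) ℂ →ₐ[ℂ] ℂ) hQ.root
    have h2 := Polynomial.hom_eval₂ Q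
      (((C.neg.half.ctx.cell f' z).comp (Ap 𝒜 P (-(-H)) a).val :
        Ap 𝒜 P (-(-H)) a →ₐ[ℂ] MvPolynomial (Fin n) ℂ) : Ap 𝒜 P (-(-H)) a →+* _)
      ((MvPolynomial.aeval η : MvPolynomial (Fin n) ℂ →ₐ[ℂ] ℂ) : MvPolynomial (Fin n) ℂ →+* ℂ)
      (C.neg.half.ctx.cell f' z (-H) ^ 2)
    have h3 : ((MvPolynomial.aeval η : MvPolynomial (Fin n) ℂ →ₐ[ℂ] ℂ) :
        MvPolynomial (Fin n) ℂ →+* ℂ).comp
        (((C.neg.half.ctx.cell f' z).comp (Ap 𝒜 P (-(-H)) a).val :
        Ap 𝒜 P (-(-H)) a →ₐ[ℂ] MvPolynomial (Fin n) ℂ) : Ap 𝒜 P (-(-H)) a →+* _) =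
        ((x.comp (Ap 𝒜 P (-(-H)) a).val : Ap 𝒜 P (-(-H)) a →ₐ[ℂ] ℂ) :
          Ap 𝒜 P (-(-H)) a →+* ℂ) :=
      RingHom.ext fun c => (hη c).symm
    rw [h3] at h2
    have h4 : ((MvPolynomial.aeval η : MvPolynomial (Fin n) ℂ →ₐ[ℂ] ℂ) :
        MvPolynomial (Fin n) ℂ →+* ℂ) (C.neg.half.ctx.cell f' z (-H) ^ 2) = x (-H) ^ 2 := by
      rw [map_pow, hη (-H)]
      rfl
    rw [h4] at h2
    rw [← h2]
    exact h.trans (map_zero _)
  obtain ⟨i, hi, hne⟩ := zc2_exists_coeff hQ.monic _
    (pow_ne_zero 2 (by rw [map_neg]; exact neg_ne_zero.mpr hxH)) hroot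
  refine ⟨_, ⟨z, hz, f', hΔ', Q, hQ, rfl⟩, i, ?_, ?_⟩
  · rw [hQ.monic.natDegree_map]
    exact hi
  · have h5 : (Q.map (Ap 𝒜 P (-(-H)) a).val.toRingHom).coeff i =
        ((Q.coeff i : Ap 𝒜 P (-(-H)) a) : R) := by
      rw [coeff_map]
      rfl
    have h6 : ∀ c ∈ Ap 𝒜 P (-(-H)) a, x c = y c := by
      rw [neg_neg]
      exact hxA
    rw [h5, ← h6 _ (Q.coeff i).2]
    exact hne

/-- Finitely many polynomials suffice. -/
theorem CtxN.exists_finset (C : CtxN 𝒜 P H a n) :
    ∃ T : Finset R[X], (∀ q ∈ T, IsMinQ C.neg q) ∧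
      ∀ y : R →ₐ[ℂ] ℂ, HasSlope 𝒜 P H y a → ∃ q ∈ T, ∃ i < q.natDegree, y (q.coeff i) ≠ 0 := by
  classical
  have hft := C.half.ctx.hX.finiteType
  have hnoeth : IsNoetherianRing R := Algebra.FiniteType.isNoetherianRing ℂ R
  let S : Set R := {r | ∃ q : R[X], IsMinQ C.neg q ∧ ∃ i < q.natDegree, r = q.coeff i}
  obtain ⟨T₀, hT₀, hspan⟩ := Submodule.fg_span_iff_fg_span_finset_subset S |>.mp
    (IsNoetherian.noetherian (Submodule.span R S))
  have hch : ∀ r : R, r ∈ T₀ → ∃ q : R[X], IsMinQ C.neg q ∧ ∃ i < q.natDegree, r = q.coeff i :=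
    fun r hr => hT₀ hr
  choose! g hg using hch
  refine ⟨T₀.image g, ?_, ?_⟩
  · intro q hq
    obtain ⟨r, hr, rfl⟩ := Finset.mem_image.mp hq
    exact (hg r hr).1
  · intro y hy
    by_contra hcon
    push Not at hcon
    have hker : Submodule.span R S ≤ RingHom.ker (y : R →+* ℂ) := by
      rw [hspan]
      refine Submodule.span_le.mpr ?_
      intro r hr
      obtain ⟨-, i, hi, hri⟩ := hg r hr
      have h1 := hcon (g r) (Finset.mem_image_of_mem g hr) i hi
      rw [SetLike.mem_coe, RingHom.mem_ker, hri]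
      exact h1
    obtain ⟨q, hq, i, hi, hne⟩ := C.exists_isMinQ hy
    exact hne (hker (Submodule.subset_span ⟨q, hq, i, hi, rfl⟩))

end Vale.Agent.P292
end

section

/-! # Elimination of simple connectedness, part B4: an unramified Galois extension of the section
ring of a contact Fano manifold is the section ring of a contact Fano manifold. -/

namespace Vale.Agent.P292

open Module

universe u v

section Galois

variable {R : Type u} [CommRing R] [Algebra ℂ R] {𝒜 : ℕ → Submodule ℂ R} [GradedAlgebra 𝒜]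
  {P : R →ₗ[ℂ] R →ₗ[ℂ] R}
  {S : Type v} [CommRing S] [Algebra ℂ S] [Algebra R S] [IsScalarTower ℂ R S]

/-- An element separating a closed point from its conjugates. -/
theorem exists_separating [IsDomain S] [Algebra.IsIntegral R S] (hX : IsContactFano 𝒜 P)
    (D : R → S → S) (hadd : ∀ b s t, D b (s + t) = D b s + D b t)
    (hmul : ∀ b s t, D b (s * t) = D b s * t + s * D b t)
    (hext : ∀ b r, D b (algebraMap R S r) = algebraMap R S (P b r)) [Finite (S ≃ₐ[R] S)]
    (hσ : ∀ σ : S ≃ₐ[R] S, ∀ b s, σ (D b s) = D b (σ s))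
    (p : S →ₐ[ℂ] ℂ) (hp : ¬ IsVertex 𝒜 (p.comp (IsScalarTower.toAlgHom ℂ R S))) :
    ∃ α : S, p α = 1 ∧ ∀ σ : S ≃ₐ[R] S, σ ≠ AlgEquiv.refl → p (σ α) = 0 := by
  classical
  have := Fintype.ofFinite (S ≃ₐ[R] S)
  have hσc : ∀ (σ : S ≃ₐ[R] S) (c : ℂ), σ (algebraMap ℂ S c) = algebraMap ℂ S c := fun σ c => by
    rw [IsScalarTower.algebraMap_apply ℂ R S, AlgEquiv.commutes]
  have h1 : ∀ σ : S ≃ₐ[R] S, ∃ a : S, p a ≠ 0 ∧ (σ ≠ AlgEquiv.refl → p (σ a) = 0) := by
    intro σ
    by_cases h : σ = AlgEquiv.refl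
    · exact ⟨1, by rw [map_one]; exact one_ne_zero, fun h' => absurd h h'⟩
    · obtain ⟨s, hs⟩ : ∃ s, p (σ s) ≠ p s := by
        by_contra hcon
        push Not at hcon
        exact h (eq_refl_of_fixed hX D hadd hmul hext σ (hσ σ) p hp hcon)
      refine ⟨s - algebraMap ℂ S (p (σ s)), ?_, fun _ => ?_⟩
      · rw [map_sub, AlgHom.commutes, Algebra.algebraMap_self, RingHom.id_apply]
        exact sub_ne_zero.mpr (Ne.symm hs)
      · rw [map_sub, map_sub, hσc, AlgHom.commutes, Algebra.algebraMap_self, RingHom.id_apply,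
          sub_self]
  choose a ha ha' using h1
  have h2 : p (∏ τ, a τ) ≠ 0 := by
    rw [map_prod]
    exact Finset.prod_ne_zero_iff.mpr fun τ _ => ha τ
  refine ⟨algebraMap ℂ S (p (∏ τ, a τ))⁻¹ * ∏ τ, a τ, ?_, fun σ h => ?_⟩
  · rw [map_mul, AlgHom.commutes, Algebra.algebraMap_self, RingHom.id_apply, inv_mul_cancel₀ h2]
  · have h3 : σ (algebraMap ℂ S (p (∏ τ, a τ))⁻¹ * ∏ τ, a τ) =
        algebraMap ℂ S (p (∏ τ, a τ))⁻¹ * ∏ τ, σ (a τ) := by
      rw [map_mul, hσc, map_prod σ]
    have h4 : p (∏ τ, σ (a τ)) = 0 := by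
      rw [map_prod]
      exact Finset.prod_eq_zero (Finset.mem_univ σ) (ha' σ h)
    rw [h3, map_mul, h4, mul_zero]

/-- Unramifiedness at closed points: every element is congruent to an element of `R`. -/
theorem exists_congr_mod_sq [IsDomain S] [Algebra.IsIntegral R S] (hX : IsContactFano 𝒜 P)
    (D : R → S → S) (hadd : ∀ b s t, D b (s + t) = D b s + D b t)
    (hmul : ∀ b s t, D b (s * t) = D b s * t + s * D b t)
    (hext : ∀ b r, D b (algebraMap R S r) = algebraMap R S (P b r)) [Finite (S ≃ₐ[R] S)]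
    (hσ : ∀ σ : S ≃ₐ[R] S, ∀ b s, σ (D b s) = D b (σ s))
    (hinv : ∀ s : S, (∀ σ : S ≃ₐ[R] S, σ s = s) → ∃ r, algebraMap R S r = s)
    (p : S →ₐ[ℂ] ℂ) (hp : ¬ IsVertex 𝒜 (p.comp (IsScalarTower.toAlgHom ℂ R S))) (s : S) :
    ∃ r : R, s - algebraMap R S r ∈ RingHom.ker p ^ 2 := by
  classical
  have := Fintype.ofFinite (S ≃ₐ[R] S)
  obtain ⟨α, hα, hα'⟩ := exists_separating hX D hadd hmul hext hσ p hp
  set 𝔪 := RingHom.ker p with h𝔪
  set β : S := α ^ 2 * (3 - 2 * α) with hβ
  obtain ⟨r, hr⟩ := hinv (∑ σ : S ≃ₐ[R] S, σ (β * s)) (by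
    intro τ
    rw [map_sum]
    exact Fintype.sum_equiv (Equiv.mulLeft τ) _ _ (fun σ => rfl))
  refine ⟨r, ?_⟩
  rw [hr, ← Finset.add_sum_erase _ _ (Finset.mem_univ (AlgEquiv.refl : S ≃ₐ[R] S))]
  have h1 : ∀ σ ∈ Finset.univ.erase (AlgEquiv.refl : S ≃ₐ[R] S), σ (β * s) ∈ 𝔪 ^ 2 := by
    intro σ hσ'
    have h2 := hα' σ (Finset.ne_of_mem_erase hσ')
    rw [map_mul, hβ, map_mul, map_pow]
    exact Ideal.mul_mem_right _ _ (Ideal.mul_mem_right _ _ (Ideal.pow_mem_pow h2 2))
  have h2 : s - ((AlgEquiv.refl : S ≃ₐ[R] S) (β * s) +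
      ∑ x ∈ Finset.univ.erase (AlgEquiv.refl : S ≃ₐ[R] S), x (β * s)) =
      (1 - α) ^ 2 * ((1 + 2 * α) * s) -
        ∑ x ∈ Finset.univ.erase (AlgEquiv.refl : S ≃ₐ[R] S), x (β * s) := by
    rw [AlgEquiv.coe_refl, id, hβ]; ring
  rw [h2]
  refine sub_mem (Ideal.mul_mem_right _ _ (Ideal.pow_mem_pow ?_ 2)) (sum_mem h1)
  rw [h𝔪, RingHom.mem_ker, map_sub, map_one, hα, sub_self]

/-- Nondegeneracy of the extended bracket. -/
theorem nondegenerate_of_galois [IsDomain S] [Algebra.IsIntegral R S] (hX : IsContactFano 𝒜 P)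
    (D : R → S → S) (hadd : ∀ b s t, D b (s + t) = D b s + D b t)
    (hmul : ∀ b s t, D b (s * t) = D b s * t + s * D b t)
    (hext : ∀ b r, D b (algebraMap R S r) = algebraMap R S (P b r)) [Finite (S ≃ₐ[R] S)]
    (hσ : ∀ σ : S ≃ₐ[R] S, ∀ b s, σ (D b s) = D b (σ s))
    (hinv : ∀ s : S, (∀ σ : S ≃ₐ[R] S, σ s = s) → ∃ r, algebraMap R S r = s)
    (p : S →ₐ[ℂ] ℂ) (hp : ¬ IsVertex 𝒜 (p.comp (IsScalarTower.toAlgHom ℂ R S)))
    (a : S) (ha : ∀ b, p (D b a) = 0) : a - algebraMap ℂ S (p a) ∈ RingHom.ker p ^ 2 := by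
  obtain ⟨r, hr⟩ := exists_congr_mod_sq hX D hadd hmul hext hσ hinv p hp a
  set 𝔪 := RingHom.ker p with h𝔪
  have hzero : ∀ b, D b 0 = 0 := fun b => by
    have := hadd b 0 0
    rw [add_zero] at this
    simpa using this
  have hD : ∀ b, ∀ u ∈ 𝔪 ^ 2, p (D b u) = 0 := by
    intro b u hu
    rw [sq] at hu
    refine Submodule.mul_induction_on (C := fun z => p (D b z) = 0) hu ?_ ?_
    · intro x hx y hy
      have hx' : p x = 0 := hx
      have hy' : p y = 0 := hy
      rw [hmul, map_add, map_mul, map_mul, hx', hy', mul_zero, zero_mul, add_zero]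
    · intro x y hx hy
      rw [hadd, map_add, hx, hy, add_zero]
  have h1 : r - algebraMap ℂ R (p (algebraMap R S r)) ∈
      RingHom.ker (p.comp (IsScalarTower.toAlgHom ℂ R S)) ^ 2 := by
    refine hX.nondegenerate _ hp r fun b => ?_
    change p (algebraMap R S (P r b)) = 0
    rw [hX.skew, map_neg, ← hext, map_neg, neg_eq_zero]
    have h2 : a = (a - algebraMap R S r) + algebraMap R S r := by ring
    have h3 := ha b
    rw [h2, hadd, map_add, hD b _ hr, zero_add] at h3
    exact h3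
  have h2 : algebraMap R S (r - algebraMap ℂ R (p (algebraMap R S r))) ∈ 𝔪 ^ 2 := by
    have h3 : (RingHom.ker (p.comp (IsScalarTower.toAlgHom ℂ R S)) ^ 2).map (algebraMap R S) ≤
        𝔪 ^ 2 := by
      rw [Ideal.map_pow]
      refine Ideal.pow_right_mono ?_ 2
      rw [Ideal.map_le_iff_le_comap]
      intro x hx
      exact hx
    exact h3 (Ideal.mem_map_of_mem _ h1)
  have h3 : a - algebraMap ℂ S (p a) = (a - algebraMap R S r) +
      algebraMap R S (r - algebraMap ℂ R (p (algebraMap R S r))) -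
      algebraMap ℂ S (p (a - algebraMap R S r)) := by
    rw [map_sub, map_sub, map_sub, ← IsScalarTower.algebraMap_apply]; ring
  have h4 : p (a - algebraMap R S r) = 0 := Ideal.pow_le_self two_ne_zero hr
  rw [h3, h4, map_zero, sub_zero]
  exact add_mem hr h2

variable {ℬ : ℕ → Submodule ℂ S} [GradedAlgebra ℬ]

/-- (B4) The extension is the section ring of a contact Fano manifold. -/
theorem isContactFano_of_galois [IsDomain S] [IsIntegrallyClosed S] [Module.Finite R S]
    (hX : IsContactFano 𝒜 P) (hinj : Function.Injective (algebraMap R S))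
    (hAB : ∀ k, ∀ r ∈ 𝒜 k, algebraMap R S r ∈ ℬ k)
    (PS : S →ₗ[ℂ] S →ₗ[ℂ] S)
    (hext : ∀ b r, PS (algebraMap R S b) (algebraMap R S r) = algebraMap R S (P b r))
    (halt : ∀ a, PS a a = 0) (hleib : ∀ a b c, PS a (b * c) = PS a b * c + b * PS a c)
    (hjac : ∀ a b c, PS a (PS b c) = PS (PS a b) c + PS b (PS a c))
    (hdeg : ∀ i j k, i + j = k + 1 → ∀ a ∈ ℬ i, ∀ b ∈ ℬ j, PS a b ∈ ℬ k)
    [Finite (S ≃ₐ[R] S)]
    (hσ : ∀ σ : S ≃ₐ[R] S, ∀ (b : R) (s : S),
      σ (PS (algebraMap R S b) s) = PS (algebraMap R S b) (σ s))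
    (hinv : ∀ s : S, (∀ σ : S ≃ₐ[R] S, σ s = s) → ∃ r, algebraMap R S r = s) :
    IsContactFano ℬ PS where
  domain := inferInstance
  normal := inferInstance
  finiteType := by
    have := hX.finiteType
    exact Algebra.FiniteType.trans (S := R) this inferInstance
  connected := fun s hs => exists_eq_algebraMap_of_degree_zero hAB hX.connected hs
  nonempty := by
    obtain ⟨p, hp⟩ := hX.nonempty
    obtain ⟨p', hp'⟩ := exists_lift_point hinj p
    refine ⟨p', fun hv => hp fun k hk r hr => ?_⟩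
    rw [← hp']
    exact hv k hk _ (hAB k r hr)
  lineBundle := fun p hp d hd =>
    hX.lineBundle _ (not_isVertex_restrict hAB hp) d fun k r hr hpr => hd k _ (hAB k r hr) hpr
  alternating := halt
  leibniz := hleib
  jacobi := hjac
  degree := hdeg
  nondegenerate := by
    intro p hp a ha
    have hskew : ∀ x y, PS x y = - PS y x := fun x y => by
      have h1 := halt (x + y)
      rw [map_add, map_add, LinearMap.add_apply, LinearMap.add_apply, halt, halt, zero_add,
        add_zero] at h1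
      exact eq_neg_of_add_eq_zero_right h1
    refine nondegenerate_of_galois hX (fun b s => PS (algebraMap R S b) s)
      (fun b s t => map_add _ _ _) (fun b s t => hleib _ _ _) hext hσ hinv p
      (not_isVertex_restrict hAB hp) a fun b => ?_
    rw [hskew, map_neg, ha, neg_zero]

end Galois

end Vale.Agent.P292
end

section

/-! # Elimination of (SC): the cover argument. -/

namespace Vale.Agent.P292

open Module Polynomial

universe u v

variable {R : Type u} [CommRing R] [Algebra ℂ R] {𝒜 : ℕ → Submodule ℂ R} [GradedAlgebra 𝒜]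
  {P : R →ₗ[ℂ] R →ₗ[ℂ] R} {H : R} {a : ℤ} {n : ℕ}

/-- Covers for `H` are covers for `-H`. -/
theorem IsCover.neg {S : Type v} [CommRing S] [Algebra ℂ S] [Algebra R S]
    {ℬ : ℕ → Submodule ℂ S} {PS : S →ₗ[ℂ] S →ₗ[ℂ] S} (h : IsCover 𝒜 P H a ℬ PS) :
    IsCover 𝒜 P (-H) a ℬ PS := by
  have hW : ∀ (m : ℤ) (s : S), s ∈ Module.End.eigenspace (PS (algebraMap R S (-H))) (m : ℂ) ↔
      s ∈ Module.End.eigenspace (PS (algebraMap R S H)) ((-m : ℤ) : ℂ) := by
    intro m s
    rw [Module.End.mem_eigenspace_iff, Module.End.mem_eigenspace_iff, map_neg, map_neg,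
      LinearMap.neg_apply, Int.cast_neg, neg_smul, neg_eq_iff_eq_neg]
  refine ⟨h.mem, h.ext, h.alternating, h.leibniz, h.jacobi, h.degree, fun k => ?_,
    fun k m s hs hs0 => ?_⟩
  · refine (h.weights k).trans (iSup_le fun m s hs => ?_)
    refine Submodule.mem_iSup_of_mem (-m) ⟨hs.1, ?_⟩
    rw [SetLike.mem_coe, hW, neg_neg]
    exact hs.2
  · have h1 := h.abs_le k (-m) s ⟨hs.1, (hW m s).1 hs.2⟩ hs0
    rwa [abs_neg] at h1

section

variable {S : Type u} [CommRing S] [IsDomain S] [Algebra ℂ S] [Algebra R S] [IsScalarTower ℂ R S]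
  [FaithfulSMul R S] [Module.Finite R S] {ℬ : ℕ → Submodule ℂ S} [GradedAlgebra ℬ]
  {PS : S →ₗ[ℂ] S →ₗ[ℂ] S}

/-- The torus of the cover. -/
theorem IsCover.isContactTorus (C : Ctx 𝒜 P H a) (h : IsCover 𝒜 P H a ℬ PS) :
    IsContactTorus ℬ PS (algebraMap R S H) where
  mem := h.mem 1 H C.hH.mem
  ne_zero := fun h0 => C.hH.ne_zero
    ((map_eq_zero_iff _ (FaithfulSMul.algebraMap_injective R S)).1 h0)
  weights := h.weights

/-- The cover is source free if all the polynomials of a sufficiently large family split. -/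
theorem IsCover.isSourceFree (C : Ctx 𝒜 P H a) (h : IsCover 𝒜 P H a ℬ PS)
    (hq : ∀ y : R →ₐ[ℂ] ℂ, HasSlope 𝒜 P H y a → ∃ q : R[X], (∃ m : Multiset S,
      q.map (algebraMap R S) = (m.map fun x => X - Polynomial.C x).prod ∧ ∀ x ∈ m, x ∈ ℬ 1) ∧
      ∃ i < q.natDegree, y (q.coeff i) ≠ 0) :
    IsSourceFree ℬ PS (algebraMap R S H) := by
  intro p hp
  rw [(h.isMaxSlope C).isSource_iff (h.isContactTorus C), h.hasSlope_iff C] at hp
  obtain ⟨q, ⟨m, hm, hm1⟩, i, hi, hpi⟩ := hq _ hp
  by_contra hcon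
  push Not at hcon
  have hqm : q.Monic ∨ True := Or.inr trivial
  have h1 : (q.map (algebraMap R S)).map (p : S →+* ℂ) = X ^ (Multiset.card m) := by
    rw [hm, Polynomial.map_multiset_prod, Multiset.map_map]
    have h2 : m.map ((Polynomial.map (p : S →+* ℂ)) ∘ fun x => X - Polynomial.C x) =
        m.map fun _ => (X : ℂ[X]) := by
      refine Multiset.map_congr rfl fun x hx => ?_
      simp only [Function.comp_apply, Polynomial.map_sub, Polynomial.map_X, Polynomial.map_C]
      have h3 : (p : S →+* ℂ) x = 0 := hcon x (hm1 x hx)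
      rw [h3, map_zero, sub_zero]
    rw [h2, Multiset.map_const', Multiset.prod_replicate]
  have hdeg : Multiset.card m = q.natDegree := by
    have h2 : (q.map (algebraMap R S)).natDegree = Multiset.card m := by
      rw [hm, natDegree_multiset_prod_X_sub_C_eq_card]
    rw [← h2]
    exact natDegree_map_eq_of_injective (FaithfulSMul.algebraMap_injective R S) q
  have h4 := congrArg (fun f : ℂ[X] => f.coeff i) h1
  simp only [coeff_map, coeff_X_pow] at h4
  rw [if_neg (by omega)] at h4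
  exact hpi h4

end

end Vale.Agent.P292
end

section

/-! # Elimination of (SC): the cover argument, end.  The fixed point theorem enters as a
hypothesis. -/

namespace Vale.Agent.P292

open Module Polynomial

universe u v

variable {R : Type u} [CommRing R] [Algebra ℂ R] {𝒜 : ℕ → Submodule ℂ R} [GradedAlgebra 𝒜]
  {P : R →ₗ[ℂ] R →ₗ[ℂ] R} {H : R} {a : ℤ} {n : ℕ}

theorem IsMinQ.isHomRoot {C : CtxN 𝒜 P H a n} {q : R[X]} (hq : IsMinQ C q) [IsDomain R]
    {M : Type v} [Field M] [Algebra R M] [Algebra (FractionRing R) M]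
    [IsScalarTower R (FractionRing R) M] (x : M) (hx : aeval x q = 0) :
    IsHomRoot 𝒜 P H (-a) x q := by
  have : CharZero R := charZero_of_injective_algebraMap (algebraMap ℂ R).injective
  have : CharZero (FractionRing R) := charZero_of_injective_algebraMap
    (IsFractionRing.injective R (FractionRing R))
  refine ⟨hq.monic, hq.coeff_mem, hx, ?_⟩
  have h1 : (q.map (algebraMap R (FractionRing R))).Separable :=
    (hq.irreducible (FractionRing R)).separable
  have h2 : aeval x (q.map (algebraMap R (FractionRing R))) = 0 := by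
    rw [aeval_map_algebraMap]
    exact hx
  have h3 := h1.aeval_derivative_ne_zero h2
  rwa [derivative_map, aeval_map_algebraMap] at h3

theorem zf3_isHomRoot_neg {S : Type v} [CommRing S] [Algebra R S] {b : ℤ} {x : S} {q : R[X]}
    (h : IsHomRoot 𝒜 P (-H) (-b) x q) : IsHomRoot 𝒜 P H b x q := by
  obtain ⟨h1, h2, h3, h4⟩ := h
  refine ⟨h1, fun i hi => ?_, h3, h4⟩
  have h5 := h2 i hi
  rw [Wt_neg, neg_mul, neg_neg] at h5
  exact h5

theorem zf3_neg_neg {C : CtxN 𝒜 P H a n} {q : R[X]} (hq : IsMinQ C.neg.neg q) : IsMinQ C q := by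
  have key : ∀ (H' : R) (_ : H' = H) (C' : CtxN 𝒜 P H' a n), IsMinQ C' q → IsMinQ C q := by
    rintro H' rfl C' h
    exact h
  exact key _ (neg_neg H) _ hq

theorem zf3_coe_aeval {R : Type u} {M : Type v} [CommRing R] [Field M] [Algebra R M]
    (x : integralClosure R M) (q : R[X]) : ((aeval x q : integralClosure R M) : M) =
      aeval (x : M) q :=
  (aeval_algHom_apply (integralClosure R M).val x q).symm

/-- Polynomials which split in `M` split in the integral closure. -/
theorem zf3_splits {R : Type u} [CommRing R] {M : Type v} [Field M] [Algebra R M] {q : R[X]}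
    (hq : q.Monic) (hs : (q.map (algebraMap R M)).Splits) :
    ∃ m : Multiset (integralClosure R M), q.map (algebraMap R (integralClosure R M)) =
      (m.map fun x => X - Polynomial.C x).prod ∧ ∀ x ∈ m, aeval (x : M) q = 0 := by
  have h1 := hs.eq_prod_roots
  rw [(hq.map _).leadingCoeff, Polynomial.C_1, one_mul] at h1
  have hroot : ∀ x ∈ (q.map (algebraMap R M)).roots, aeval x q = 0 := by
    intro x hx
    rw [← aeval_map_algebraMap M, aeval_def, eval₂_eq_eval_map]
    have := (mem_roots'.1 hx).2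
    simpa using this
  have hint : ∀ x ∈ (q.map (algebraMap R M)).roots, x ∈ integralClosure R M := fun x hx =>
    ⟨q, hq, by rw [← aeval_def]; exact hroot x hx⟩
  let m : Multiset (integralClosure R M) :=
    (q.map (algebraMap R M)).roots.pmap (fun x hx => ⟨x, hx⟩) hint
  have hm : m.map Subtype.val = (q.map (algebraMap R M)).roots := by
    rw [Multiset.map_pmap, Multiset.pmap_eq_map, Multiset.map_id']
  refine ⟨m, ?_, ?_⟩
  · apply Polynomial.map_injective (algebraMap (integralClosure R M) M)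
      (FaithfulSMul.algebraMap_injective (integralClosure R M) M)
    rw [Polynomial.map_map, ← IsScalarTower.algebraMap_eq, Polynomial.map_multiset_prod,
      Multiset.map_map, h1, ← hm, Multiset.map_map]
    congr 1
    refine Multiset.map_congr rfl fun x _ => ?_
    simp only [Function.comp_apply, Polynomial.map_sub, Polynomial.map_X, Polynomial.map_C]
    rfl
  · intro x hx
    obtain ⟨y, hy, rfl⟩ := Multiset.mem_pmap.1 hx
    exact hroot y hy

/-- If the cover is trivial, source freeness descends. -/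
theorem IsCover.isSourceFree_base {S : Type u} [CommRing S] [IsDomain S] [Algebra ℂ S]
    [Algebra R S] [IsScalarTower ℂ R S]
    [FaithfulSMul R S] [Module.Finite R S] {ℬ : ℕ → Submodule ℂ S} [GradedAlgebra ℬ]
    {PS : S →ₗ[ℂ] S →ₗ[ℂ] S} (C : Ctx 𝒜 P H a) (h : IsCover 𝒜 P H a ℬ PS)
    (hsurj : ∀ s : S, ∃ r : R, algebraMap R S r = s)
    (hs : IsSourceFree ℬ PS (algebraMap R S H)) : IsSourceFree 𝒜 P H := by
  classical
  intro y hy
  rw [C.hmax.isSource_iff C.hH] at hy
  obtain ⟨p, hp⟩ := exists_lift_point (FaithfulSMul.algebraMap_injective R S) y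
  have h1 : HasSlope ℬ PS (algebraMap R S H) p a := by
    rw [h.hasSlope_iff C, hp]
    exact hy
  obtain ⟨s, hs1, hps⟩ := hs p (((h.isMaxSlope C).isSource_iff (h.isContactTorus C) p).2 h1)
  obtain ⟨r, rfl⟩ := hsurj s
  refine ⟨(DirectSum.decompose 𝒜 r 1 : R), SetLike.coe_mem _, ?_⟩
  rw [← hp]
  change p (algebraMap R S (DirectSum.decompose 𝒜 r 1 : R)) ≠ 0
  rw [← coe_decompose_algebraMap h.mem, DirectSum.decompose_of_mem_same ℬ hs1]
  exact hps

/-- The fixed point property: every automorphism of prime order of an adjoint variety fixing a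
contact torus has a fixed point. -/
def HasFixedPoints : Prop :=
  ∀ {R : Type u} [CommRing R] [Algebra ℂ R] {𝒜 : ℕ → Submodule ℂ R} [GradedAlgebra 𝒜]
    {P : R →ₗ[ℂ] R →ₗ[ℂ] R} (_ : IsContactFano 𝒜 P) (_ : IsAdjointVariety 𝒜 P)
    (σ : R ≃ₐ[ℂ] R) (_ : ∀ k, ∀ r ∈ 𝒜 k, σ r ∈ 𝒜 k)
    (_ : ∀ r s, σ (P r s) = P (σ r) (σ s)) {p : ℕ} (_ : p.Prime)
    (_ : ∀ r, (⇑σ)^[p] r = r) {H : R} (_ : IsContactTorus 𝒜 P H) (_ : σ H = H),
    ∃ x : R →ₐ[ℂ] ℂ, ¬ IsVertex 𝒜 x ∧ ∃ c : ℂ, ∀ k, ∀ r ∈ 𝒜 k, x (σ r) = c ^ k * x r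

/-- The automorphism group of the cover is trivial. -/
theorem IsCover.eq_refl (hfp : HasFixedPoints.{u}) {S : Type u} [CommRing S] [IsDomain S]
    [Algebra ℂ S] [Algebra R S] [IsScalarTower ℂ R S]
    [FaithfulSMul R S] [Module.Finite R S] {ℬ : ℕ → Submodule ℂ S} [GradedAlgebra ℬ]
    {PS : S →ₗ[ℂ] S →ₗ[ℂ] S} (C : Ctx 𝒜 P H a) (h : IsCover 𝒜 P H a ℬ PS)
    (hB : IsContactFano ℬ PS) (hadj : IsAdjointVariety ℬ PS) [Finite (S ≃ₐ[R] S)]
    (σ : S ≃ₐ[R] S) : σ = AlgEquiv.refl := by
  classical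
  -- automorphisms of prime order do not exist
  have key : ∀ (p : ℕ) (_ : p.Prime) (σ : S ≃ₐ[R] S), orderOf σ = p → False := by
    intro p hp σ hσ
    have h1 : ∀ k (s : S), (σ ^ k) s = (⇑σ)^[k] s := by
      intro k s
      induction k generalizing s with
      | zero => rfl
      | succ k ih => rw [pow_succ, AlgEquiv.mul_apply, ih, Function.iterate_succ_apply]
    obtain ⟨x, hx, c, hc⟩ := hfp hB hadj (σ.restrictScalars ℂ) (fun k s hs => h.map_mem σ hs)
      (fun s t => h.map_P σ s t) hp (fun s => by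
        have h2 := h1 p s
        rw [← hσ, pow_orderOf_eq_one] at h2
        rw [hσ] at h2
        exact h2.symm) (h.isContactTorus C) (σ.commutes H)
    have h3 : σ = AlgEquiv.refl := by
      refine eq_refl_of_fixed_scale C.hX h.mem (fun b s => PS (algebraMap R S b) s)
        (fun b s t => map_add _ _ _) (fun b s t => h.leibniz _ _ _) (fun b r => h.ext b r) σ
        (fun b s => ?_) x (not_isVertex_restrict h.mem hx) c hc
      rw [h.map_P, AlgEquiv.commutes]
    have h4 : orderOf σ = 1 := by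
      rw [h3]
      exact orderOf_one
    rw [hσ] at h4
    exact hp.ne_one h4
  by_contra hne
  have h1 : orderOf σ ≠ 1 := fun h => hne (orderOf_eq_one_iff.1 h)
  obtain ⟨p, hp, hpd⟩ := Nat.exists_prime_and_dvd h1
  obtain ⟨k, hk⟩ := hpd
  have h2 : 0 < orderOf σ := orderOf_pos σ
  have hk0 : k ≠ 0 := by
    rintro rfl
    omega
  exact key p hp (σ ^ k) (by
    rw [orderOf_pow_of_dvd hk0 ⟨p, by rw [hk]; ring⟩, hk]
    exact Nat.mul_div_cancel _ (Nat.pos_of_ne_zero hk0))

/-- The main argument. -/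
theorem CtxN.isSourceFree_of_isUnram (hfp : HasFixedPoints.{u}) (C : CtxN 𝒜 P H a n) [IsDomain R]
    (T : Finset R[X]) (hT : ∀ q ∈ T, IsMinQ C q ∨ IsMinQ C.neg q)
    (h1 : ∀ y : R →ₐ[ℂ] ℂ, HasSlope 𝒜 P H y a →
      ∃ q ∈ T, ∃ i < q.natDegree, y (q.coeff i) ≠ 0)
    (h2 : ∀ y : R →ₐ[ℂ] ℂ, HasSlope 𝒜 P (-H) y a →
      ∃ q ∈ T, ∃ i < q.natDegree, y (q.coeff i) ≠ 0)
    {M : Type u} [Field M] [Algebra ℂ M] [Algebra R M] [IsScalarTower ℂ R M]
    [Algebra (FractionRing R) M] [IsScalarTower R (FractionRing R) M]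
    [(∏ q ∈ T, q.map (algebraMap R (FractionRing R))).IsSplittingField (FractionRing R) M]
    (hU : IsUnram R M) : IsSourceFree 𝒜 P H ∧ IsSourceFree 𝒜 P (-H) := by
  classical
  have hC := C.half.ctx
  have hXF := hC.hX
  have : Algebra.FiniteType ℂ R := hXF.finiteType
  have : IsNoetherianRing R := Algebra.FiniteType.isNoetherianRing ℂ R
  have : IsIntegrallyClosed R := hXF.normal
  have : CharZero R := charZero_of_injective_algebraMap (algebraMap ℂ R).injective
  have : CharZero (FractionRing R) := charZero_of_injective_algebraMap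
    (IsFractionRing.injective R (FractionRing R))
  have hinj : Function.Injective (algebraMap R M) := by
    rw [IsScalarTower.algebraMap_eq R (FractionRing R) M]
    exact (algebraMap (FractionRing R) M).injective.comp
      (IsFractionRing.injective R (FractionRing R))
  have : FaithfulSMul R M := (faithfulSMul_iff_algebraMap_injective R M).2 hinj
  have hfd : FiniteDimensional (FractionRing R) M :=
    IsSplittingField.finiteDimensional M (∏ q ∈ T, q.map (algebraMap R (FractionRing R)))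
  have hnor : Normal (FractionRing R) M :=
    Normal.of_isSplittingField (∏ q ∈ T, q.map (algebraMap R (FractionRing R)))
  have hgal : IsGalois (FractionRing R) M := ⟨⟩
  have : Module.Finite R (integralClosure R M) :=
    IsIntegralClosure.finite R (FractionRing R) M (integralClosure R M)
  have : IsIntegrallyClosed (integralClosure R M) :=
    integralClosure.isIntegrallyClosedOfFiniteExtension (FractionRing R)
  have hfin : Finite (integralClosure R M ≃ₐ[R] integralClosure R M) := finite_aut_integralClosure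
  let XM : Set M := {x : M | ∃ q ∈ T, aeval x q = 0}
  have hhom : ∀ q ∈ T, ∀ x : M, aeval x q = 0 → ∃ b : ℤ, IsHomRoot 𝒜 P H b x q := by
    intro q hq x hx
    rcases hT q hq with h | h
    · exact ⟨-a, h.isHomRoot x hx⟩
    · exact ⟨a, zf3_isHomRoot_neg (h.isHomRoot x hx)⟩
  have hX : ∀ x ∈ XM, ∃ b : ℤ, ∃ q : R[X], IsHomRoot 𝒜 P H b x q := by
    rintro x ⟨q, hq, hx⟩
    obtain ⟨b, hb⟩ := hhom q hq x hx
    exact ⟨b, q, hb⟩
  have hgen : Algebra.adjoin (FractionRing R) XM = ⊤ := by
    rw [eq_top_iff, ← IsSplittingField.adjoin_rootSet M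
      (∏ q ∈ T, q.map (algebraMap R (FractionRing R)))]
    refine Algebra.adjoin_mono fun x hx => ?_
    have h3 := Polynomial.aeval_eq_zero_of_mem_rootSet hx
    rw [map_prod, Finset.prod_eq_zero_iff] at h3
    obtain ⟨q, hq, h4⟩ := h3
    refine ⟨q, hq, ?_⟩
    rwa [aeval_map_algebraMap] at h4
  obtain ⟨ℬ, gr, PS, hcov, hroot⟩ := exists_isCover hC hU XM hX hgen
  have hmonic : ∀ q ∈ T, q.Monic := by
    intro q hq
    rcases hT q hq with h | h
    · exact h.monic
    · exact h.monic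
  have hBF : IsContactFano ℬ PS := isContactFano_of_galois hXF
    (FaithfulSMul.algebraMap_injective R _) hcov.mem PS hcov.ext hcov.alternating hcov.leibniz
    hcov.jacobi hcov.degree (fun σ b s => by rw [hcov.map_P, AlgEquiv.commutes])
    exists_of_invariant
  have hsplit : ∀ q ∈ T, ∃ m : Multiset (integralClosure R M),
      q.map (algebraMap R (integralClosure R M)) = (m.map fun x => X - Polynomial.C x).prod ∧
        ∀ x ∈ m, x ∈ ℬ 1 := by
    intro q hq
    have h3 : (q.map (algebraMap R M)).Splits := by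
      have h4 := IsSplittingField.splits M (∏ q ∈ T, q.map (algebraMap R (FractionRing R)))
      rw [Polynomial.map_prod, splits_prod_iff (fun q hq => (((hmonic q hq).map _).map _).ne_zero)]
        at h4
      have h5 := h4 q hq
      rwa [Polynomial.map_map, ← IsScalarTower.algebraMap_eq] at h5
    obtain ⟨m, h4, h5⟩ := zf3_splits (hmonic q hq) h3
    refine ⟨m, h4, fun x hx => ?_⟩
    obtain ⟨b, h6, h7, h8, h9⟩ := hhom q hq (x : M) (h5 x hx)
    refine hroot b x q ⟨h6, h7, Subtype.ext ?_, fun h => h9 ?_⟩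
    · rw [zf3_coe_aeval, h8]
      rfl
    · rw [← zf3_coe_aeval, h]
      rfl
  have hs1 : IsSourceFree ℬ PS (algebraMap R (integralClosure R M) H) :=
    hcov.isSourceFree hC fun y hy => by
      obtain ⟨q, hq, hi⟩ := h1 y hy
      exact ⟨q, hsplit q hq, hi⟩
  have hs2 : IsSourceFree ℬ PS (algebraMap R (integralClosure R M) (-H)) :=
    hcov.neg.isSourceFree C.neg.half.ctx fun y hy => by
      obtain ⟨q, hq, hi⟩ := h2 y hy
      exact ⟨q, hsplit q hq, hi⟩
  have hadj : IsAdjointVariety ℬ PS :=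
    isAdjointVariety_of_sourceFree' hBF (hcov.isContactTorus hC) hs1 (by rwa [map_neg] at hs2)
  have hsurj : ∀ s : integralClosure R M, ∃ r : R, algebraMap R (integralClosure R M) r = s :=
    fun s => exists_of_invariant s fun σ => by
      rw [hcov.eq_refl hfp hC hBF hadj σ]
      rfl
  exact ⟨hcov.isSourceFree_base hC hsurj hs1, hcov.neg.isSourceFree_base C.neg.half.ctx hsurj hs2⟩

end Vale.Agent.P292
end

section

/-! Part E: fixed points of automorphisms of prime order of adjoint varieties. -/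

namespace Vale.Agent.P292

open Module LieAlgebra

universe u

variable {R : Type u} [CommRing R] [Algebra ℂ R] {𝒜 : ℕ → Submodule ℂ R} [GradedAlgebra 𝒜]
  {P : R →ₗ[ℂ] R →ₗ[ℂ] R}

/-- An automorphism of prime order of an adjoint variety which fixes a contact torus has a fixed
point. -/
theorem exists_fixed_point (hX : IsContactFano 𝒜 P) (hadj : IsAdjointVariety 𝒜 P)
    (σ : R ≃ₐ[ℂ] R) (hσ𝒜 : ∀ k, ∀ r ∈ 𝒜 k, σ r ∈ 𝒜 k)
    (hσP : ∀ r s, σ (P r s) = P (σ r) (σ s)) {p : ℕ} (hp : p.Prime)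
    (hσp : ∀ r, (⇑σ)^[p] r = r) {H : R} (hH : IsContactTorus 𝒜 P H) (hσH : σ H = H) :
    ∃ x : R →ₐ[ℂ] ℂ, ¬ IsVertex 𝒜 x ∧ ∃ c : ℂ, ∀ k, ∀ r ∈ 𝒜 k, x (σ r) = c ^ k * x r := by
  obtain ⟨g, _, _, _, _, φ, _, hφ, hrange, hbr, hgen, -, -⟩ := hadj
  have hmem : ∀ x : g, φ x ∈ 𝒜 1 := fun x => hrange ▸ LinearMap.mem_range_self φ x
  -- the automorphism of `g`
  have hex : ∀ x : g, ∃ y : g, φ y = σ (φ x) := by
    intro x
    have h1 : σ (φ x) ∈ LinearMap.range φ := hrange ▸ hσ𝒜 1 _ (hmem x)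
    exact h1
  choose f hf using hex
  let F : g →ₗ[ℂ] g :=
    { toFun := f
      map_add' := fun x y => hφ (by rw [hf, map_add, map_add, map_add, hf, hf])
      map_smul' := fun c x => hφ (by
        rw [hf, map_smul, map_smul, RingHom.id_apply, map_smul, hf]) }
  have hF : ∀ x, φ (F x) = σ (φ x) := hf
  have hFinj : Function.Injective F := by
    intro x y hxy
    have h1 : σ (φ x) = σ (φ y) := by rw [← hF, ← hF, hxy]
    exact hφ (σ.injective h1)
  let e : g ≃ₗ[ℂ] g := LinearEquiv.ofInjectiveEndo F hFinj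
  have he : ∀ x, e x = F x := fun x => rfl
  let σg : g ≃ₗ⁅ℂ⁆ g :=
    { e with
      map_lie' := fun {x y} => by
        apply hφ
        show φ (F ⁅x, y⁆) = φ ⁅F x, F y⁆
        rw [hF, hbr, hσP, hbr, hF, hF] }
  have hσg : ∀ x, φ (σg x) = σ (φ x) := fun x => hF x
  have hiter : ∀ (n : ℕ) (x : g), φ ((⇑σg)^[n] x) = (⇑σ)^[n] (φ x) := by
    intro n
    induction n with
    | zero => intro x; rfl
    | succ n ih => intro x; rw [Function.iterate_succ_apply, Function.iterate_succ_apply, ih, hσg]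
  have hσgp : ∀ x, (⇑σg)^[p] x = x := fun x => hφ (by rw [hiter, hσp])
  -- the torus
  have hHr : H ∈ LinearMap.range φ := hrange ▸ hH.mem
  obtain ⟨h₀, rfl⟩ := hHr
  have hint : IsInt h₀ := isInt_of_isContactTorus hφ hrange hbr hH
  have h₀0 : h₀ ≠ 0 := by
    rintro rfl
    exact hH.ne_zero (map_zero φ)
  have hσh₀ : σg h₀ = h₀ := hφ (by rw [hσg, hσH])
  obtain ⟨h, h0, hh, hσh, a, v₁, ha, hv₁⟩ := exists_isolated σg hp hσgp hσh₀ h₀0 hint
  exact exists_fixed_of_isolated hX hφ hrange hbr hgen σ hσ𝒜 hσP h0 hh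
    (by rw [← hσg, hσh]) ha hv₁

end Vale.Agent.P292
end

section

/-! Theorem E without (SC) and without factoriality, group U: the local ring for both signs.
See `E/PROOF_SC.md`, (B0). -/

namespace Vale.Agent.P292

open Module Polynomial

universe u v w

/-- Divisibility by a constant is detected after an injective renaming of the variables. -/
theorem u11_C_dvd_of_rename {V : Type u} [CommRing V] {σ τ : Type*} (e : σ → τ)
    (he : Function.Injective e) (c : V) (p : MvPolynomial σ V)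
    (h : MvPolynomial.C c ∣ MvPolynomial.rename e p) : MvPolynomial.C c ∣ p := by
  rw [MvPolynomial.C_dvd_iff_dvd_coeff] at h ⊢
  intro d
  have h1 := h (d.mapDomain e)
  rwa [MvPolynomial.coeff_rename_mapDomain e he] at h1

/-- The local ring of the prime `ϖ` in the polynomial ring in `n + n` variables. -/
theorem exists_loc_two {V : Type u} [CommRing V] [IsDomain V] [UniqueFactorizationMonoid V]
    (n : ℕ) {ϖ : V} (hϖ : Prime ϖ) :
    ∃ (𝒪 : Type u) (_ : CommRing 𝒪) (_ : IsDomain 𝒪) (_ : IsIntegrallyClosed 𝒪) (_ : Algebra V 𝒪)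
      (γ γ' : MvPolynomial (Fin n) V →+* 𝒪),
      Function.Injective (algebraMap V 𝒪) ∧ Prime (algebraMap V 𝒪 ϖ) ∧
      (∀ (r : V) (i : ℕ), algebraMap V 𝒪 ϖ ^ i ∣ algebraMap V 𝒪 r → ϖ ^ i ∣ r) ∧
      Function.Injective γ ∧ (∀ v : V, γ (MvPolynomial.C v) = algebraMap V 𝒪 v) ∧
      (∀ p, ¬ MvPolynomial.C ϖ ∣ p → IsUnit (γ p)) ∧
      Function.Injective γ' ∧ (∀ v : V, γ' (MvPolynomial.C v) = algebraMap V 𝒪 v) ∧
      (∀ p, ¬ MvPolynomial.C ϖ ∣ p → IsUnit (γ' p)) := by
  obtain ⟨𝒪, i1, i2, i3, γ₀, h0, hp, -, hd, hU⟩ := un5_loc (R := V) (n + n) hϖ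
  have hl : Function.Injective (Fin.castAdd n : Fin n → Fin (n + n)) :=
    Fin.castAdd_injective n n
  have hr : Function.Injective (Fin.natAdd n : Fin n → Fin (n + n)) := Fin.natAdd_injective n n
  refine ⟨𝒪, i1, i2, i3, (γ₀.comp MvPolynomial.C).toAlgebra,
    γ₀.comp (MvPolynomial.rename (R := V) (Fin.castAdd n : Fin n → Fin (n + n))).toRingHom,
    γ₀.comp (MvPolynomial.rename (R := V) (Fin.natAdd n : Fin n → Fin (n + n))).toRingHom,
    ?_, hp, hd, ?_, ?_, ?_, ?_, ?_, ?_⟩
  · exact h0.comp (MvPolynomial.C_injective _ _)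
  · exact h0.comp (MvPolynomial.rename_injective _ hl)
  · intro v
    show γ₀ (MvPolynomial.rename _ (MvPolynomial.C v)) = γ₀ (MvPolynomial.C v)
    rw [MvPolynomial.rename_C]
  · intro p hpd
    exact hU _ fun h => hpd (u11_C_dvd_of_rename _ hl ϖ p h)
  · exact h0.comp (MvPolynomial.rename_injective _ hr)
  · intro v
    show γ₀ (MvPolynomial.rename _ (MvPolynomial.C v)) = γ₀ (MvPolynomial.C v)
    rw [MvPolynomial.rename_C]
  · intro p hpd
    exact hU _ fun h => hpd (u11_C_dvd_of_rename _ hr ϖ p h)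

end Vale.Agent.P292
end

section

/-! Theorem E, section 6: (fin). See `PROOF.md`. -/

namespace Vale.Agent.P292

open Module Polynomial

universe u v

variable {R : Type u} [CommRing R] [Algebra ℂ R] {𝒜 : ℕ → Submodule ℂ R} [GradedAlgebra 𝒜]
  {P : R →ₗ[ℂ] R →ₗ[ℂ] R} {H : R} {a : ℤ} {n : ℕ}

/-- An element of a field is integral over a subalgebra if it lies in all valuation subrings of
the algebraic closure which contain the subalgebra. -/
theorem ct2_isIntegral_of_forall {Ω : Type v} [Field Ω] [Algebra ℂ Ω] (S : Set Ω) (x : Ω)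
    (h : ∀ 𝒪 : ValuationSubring (AlgebraicClosure Ω),
      (∀ s ∈ S, algebraMap Ω (AlgebraicClosure Ω) s ∈ 𝒪) →
      (∀ z : ℂ, algebraMap ℂ (AlgebraicClosure Ω) z ∈ 𝒪) →
      algebraMap Ω (AlgebraicClosure Ω) x ∈ 𝒪) :
    IsIntegral (Algebra.adjoin ℂ S) x := by
  set A := Algebra.adjoin ℂ S with hA
  have hinj : Function.Injective (algebraMap Ω (AlgebraicClosure Ω)) := RingHom.injective _
  rw [← isIntegral_algebraMap_iff (R := A) hinj]
  by_contra hx
  set B : Subring (AlgebraicClosure Ω) := (integralClosure A (AlgebraicClosure Ω)).toSubring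
    with hB
  have hxB : algebraMap Ω (AlgebraicClosure Ω) x ∉ B := hx
  have : IsIntegrallyClosedIn B (AlgebraicClosure Ω) := by
    show IsIntegrallyClosedIn (integralClosure A (AlgebraicClosure Ω)) (AlgebraicClosure Ω)
    infer_instance
  obtain ⟨V, hV, hxV⟩ := Subring.exists_le_valuationSubring_of_isIntegrallyClosedIn hxB
  refine hxV (h V (fun s hs => hV ?_) fun z => hV ?_)
  · show IsIntegral A (algebraMap Ω (AlgebraicClosure Ω) s)
    exact isIntegral_algebraMap (R := A) (x := ⟨s, Algebra.subset_adjoin hs⟩)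
  · show IsIntegral A (algebraMap ℂ (AlgebraicClosure Ω) z)
    rw [IsScalarTower.algebraMap_apply ℂ A (AlgebraicClosure Ω)]
    exact isIntegral_algebraMap

/-- (fin) -/
theorem CtxN.isIntegral_of_noLine (C : CtxN 𝒜 P H a n) (hno : ¬ HasLine 𝒜 P H a)
    {y : R →ₐ[ℂ] ℂ} (hy : HasSlope 𝒜 P H y a) (f : Frame 𝒜 P H a n) (hΔ : y f.Δ ≠ 0)
    {Ω : Type v} [Field Ω] [Algebra ℂ Ω] (ψ : MvPolynomial (Fin n) ℂ →ₐ[ℂ] Ω)
    (p : MvPolynomial (Fin n) ℂ) :
    IsIntegral (Algebra.adjoin ℂ (ψ '' (C.half.ctx.cell f y '' (Ap 𝒜 P (-H) a : Set R))))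
      (ψ p) := by
  refine ct2_isIntegral_of_forall _ _ fun 𝒪 h1 _ => ?_
  refine C.mem_of_noLine hno hy f hΔ
    ((IsScalarTower.toAlgHom ℂ Ω (AlgebraicClosure Ω)).comp ψ) 𝒪 (fun c hc => ?_) p
  exact h1 _ ⟨_, ⟨c, hc, rfl⟩, rfl⟩

/-- Without lines a cell meets the vertex of `A₋` only at the origin. -/
theorem CtxN.nv_of_noLine (C : CtxN 𝒜 P H a n) (hno : ¬ HasLine 𝒜 P H a) {κ : Type v} [Field κ]
    [Algebra ℂ κ] {Ψ : R →ₐ[ℂ] MvPolynomial (Fin n) κ} (hΨ : IsCell 𝒜 P H a Ψ)
    (u : Fin n → κ) (hu : u ≠ 0) :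
    ∃ k : ℕ, 0 < k ∧ ∃ c ∈ Wt 𝒜 P (-H) k (a * k), MvPolynomial.eval u (Ψ c) ≠ 0 := by
  by_contra hcon
  apply hno
  set ev : MvPolynomial (Fin n) κ →ₐ[ℂ] κ :=
    (MvPolynomial.aeval (R := κ) u : MvPolynomial (Fin n) κ →ₐ[κ] κ).restrictScalars ℂ with hev
  have hevp : ∀ p, ev p = MvPolynomial.eval u p := fun p => by
    rw [hev, AlgHom.restrictScalars_apply, MvPolynomial.aeval_eq_eval]
  refine C.half.ctx.hasLine_of_point (ev.comp Ψ) (hΨ.typeW.comp ev) ?_ ?_ ?_
  · obtain ⟨k, hk, r, hr, h0⟩ := hΨ.nonvertex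
    refine ⟨k, hk, r, hr, ?_⟩
    have h1 : (Ψ r).IsHomogeneous 0 := hΨ.homog k 0 r (by simpa using hr)
    have h2 := h1.totalDegree h0
    rw [MvPolynomial.totalDegree_eq_zero_iff_eq_C] at h2
    rw [AlgHom.comp_apply, hevp, h2, MvPolynomial.eval_C]
    intro h3
    rw [h3, MvPolynomial.C_0] at h2
    exact h0 h2
  · intro hnv
    obtain ⟨k, hk, r, hr, h0⟩ := hnv
    refine hcon ⟨k, hk, r, hr, ?_⟩
    rw [← hevp]
    exact h0
  · by_contra hall
    obtain ⟨i, hi⟩ := Function.ne_iff.1 hu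
    apply hi
    have h1 := hΨ.lin i
    have h2 : Submodule.span κ {p | ∃ (k : ℕ), ∃ r ∈ Wt 𝒜 P H k (a * k - a), p = Ψ r} ≤
        LinearMap.ker
          (MvPolynomial.aeval (R := κ) u : MvPolynomial (Fin n) κ →ₐ[κ] κ).toLinearMap := by
      rw [Submodule.span_le]
      rintro p ⟨k, r, hr, rfl⟩
      rw [SetLike.mem_coe, LinearMap.mem_ker]
      by_contra h3
      refine hall ⟨k, a * k - a, ?_, r, hr, h3⟩
      have := C.half.ctx.pos
      omega
    have h3 := h2 h1
    rw [LinearMap.mem_ker, AlgHom.toLinearMap_apply, MvPolynomial.aeval_X] at h3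
    exact h3

end Vale.Agent.P292
end

section

/-! Theorem E, section 6: case II. See `PROOF.md`. -/

namespace Vale.Agent.P292

open Module Polynomial

universe u v

/-- Splitting over the base ring when all the roots come from it. -/
theorem ct3_prod {S : Type*} {Ω : Type*} [CommRing S] [Field Ω] [IsAlgClosed Ω] (g : S →+* Ω)
    (hg : Function.Injective g) {p : S[X]} (hp : p.Monic)
    (h : ∀ ρ : Ω, (p.map g).eval ρ = 0 → ∃ q, g q = ρ) :
    ∃ s : Multiset S, p = (s.map fun q => Polynomial.X - Polynomial.C q).prod := by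
  classical
  have h0 : p.map g ≠ 0 := (hp.map g).ne_zero
  have h1 : ∀ ρ ∈ (p.map g).roots, ∃ q, g q = ρ := fun ρ hρ =>
    h ρ (by simpa using (Polynomial.mem_roots h0).mp hρ)
  choose! r hr using h1
  refine ⟨(p.map g).roots.map r, Polynomial.map_injective g hg ?_⟩
  have h2 : p.map g = ((p.map g).roots.map fun ρ => Polynomial.X - Polynomial.C ρ).prod := by
    have h3 := (IsAlgClosed.splits (p.map g)).eq_prod_roots
    rw [(hp.map g).leadingCoeff, Polynomial.C_1, one_mul] at h3
    exact h3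
  refine h2.trans ?_
  rw [Polynomial.map_multiset_prod, Multiset.map_map, Multiset.map_map]
  refine congrArg _ (Multiset.map_congr rfl fun ρ hρ => ?_)
  simp [hr ρ hρ]

/-- Derivations of a domain over a field extend to algebraic extensions of its field of
fractions. -/
theorem ct3_exists_derivation {F : Type*} {S : Type*} {K : Type*} {Ω : Type*} [Field F]
    [CommRing S] [IsDomain S] [Algebra F S] [Field K] [CharZero K] [Algebra S K]
    [IsFractionRing S K]
    [Field Ω] [Algebra F K] [IsScalarTower F S K] [Algebra K Ω] [Algebra F Ω]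
    [IsScalarTower F K Ω] [Algebra.IsAlgebraic K Ω] (D : Derivation F S S) :
    ∃ E : Derivation F Ω Ω, ∀ s, E (algebraMap K Ω (algebraMap S K s)) =
      algebraMap K Ω (algebraMap S K (D s)) := by
  let i : S →+* Ω := (algebraMap K Ω).comp (algebraMap S K)
  have hi : Function.Injective i :=
    (algebraMap K Ω).injective.comp (IsFractionRing.injective S K)
  let φ : S →+* TrivSqZeroExt Ω Ω :=
    { toFun := fun s => (i s, i (D s))
      map_one' := by
        ext
        · exact map_one i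
        · change i (D 1) = 0
          rw [D.map_one_eq_zero, map_zero]
      map_zero' := by
        ext
        · exact map_zero i
        · change i (D 0) = 0
          rw [map_zero, map_zero]
      map_add' := fun s t => by
        ext
        · exact map_add i s t
        · change i (D (s + t)) = i (D s) + i (D t)
          rw [map_add, map_add]
      map_mul' := fun s t => by
        ext
        · exact map_mul i s t
        · change i (D (s * t)) = i s • i (D t) + MulOpposite.op (i t) • i (D s)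
          rw [D.leibniz, map_add, smul_eq_mul, smul_eq_mul, map_mul, map_mul, smul_eq_mul,
            op_smul_eq_mul, mul_comm (i (D s))] }
  have hφ : ∀ s : nonZeroDivisors S, IsUnit (φ s) := by
    intro s
    rw [TrivSqZeroExt.isUnit_iff_isUnit_fst]
    change IsUnit (i s)
    exact isUnit_iff_ne_zero.mpr fun h => nonZeroDivisors.ne_zero s.2 (hi (h.trans (map_zero i).symm))
  let Φ : K →+* TrivSqZeroExt Ω Ω := IsLocalization.lift hφ
  have hΦ : ∀ s, Φ (algebraMap S K s) = φ s := fun s => IsLocalization.lift_eq hφ s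
  have hfst : ∀ z, (Φ z).fst = algebraMap K Ω z := by
    have h1 : ((TrivSqZeroExt.fstHom Ω Ω Ω : TrivSqZeroExt Ω Ω →+* Ω).comp Φ) =
        algebraMap K Ω := by
      refine IsLocalization.ringHom_ext (nonZeroDivisors S) ?_
      ext s
      change (Φ (algebraMap S K s)).fst = _
      rw [hΦ]
      rfl
    exact fun z => RingHom.congr_fun h1 z
  have halg : ∀ c : F, (Φ (algebraMap F K c)).snd = 0 := by
    intro c
    rw [IsScalarTower.algebraMap_apply F S K, hΦ]
    change i (D _) = 0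
    rw [D.map_algebraMap, map_zero]
  let d : Derivation F K Ω := Derivation.mk'
    { toFun := fun z => (Φ z).snd
      map_add' := fun z w => by rw [map_add, TrivSqZeroExt.snd_add]
      map_smul' := fun c z => by
        rw [Algebra.smul_def, map_mul, TrivSqZeroExt.snd_mul, halg, smul_zero, add_zero, hfst,
          ← IsScalarTower.algebraMap_apply F K Ω, smul_eq_mul, RingHom.id_apply,
          Algebra.smul_def] }
    (fun z w => by
      change (Φ (z * w)).snd = z • (Φ w).snd + w • (Φ z).snd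
      rw [map_mul, TrivSqZeroExt.snd_mul, hfst, hfst, smul_eq_mul, op_smul_eq_mul,
        Algebra.smul_def, Algebra.smul_def, mul_comm (Φ z).snd])
  obtain ⟨E, hE⟩ := exists_derivation_extension d
  refine ⟨E, fun s => ?_⟩
  rw [hE]
  change (Φ _).snd = _
  rw [hΦ]
  rfl

/-- Values of a homomorphism of the polynomial ring. -/
theorem ct3_mem {F : Type*} {Ω : Type*} [Field F] [Field Ω] [Algebra F Ω] {n : ℕ}
    (g : MvPolynomial (Fin n) F →ₐ[F] Ω) (p : MvPolynomial (Fin n) F) :
    g p ∈ Algebra.adjoin F (Set.range fun i => g (MvPolynomial.X i)) := by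
  induction p using MvPolynomial.induction_on with
  | C a =>
    have : g (MvPolynomial.C a) = algebraMap F Ω a := g.commutes a
    rw [this]
    exact Subalgebra.algebraMap_mem _ a
  | add p q hp hq => rw [map_add]; exact add_mem hp hq
  | mul_X p i hp =>
    rw [map_mul]
    exact mul_mem hp (Algebra.subset_adjoin ⟨i, rfl⟩)

/-- Derivations are determined on the coordinates. -/
theorem ct3_uniq {F : Type*} {K : Type*} {Ω : Type*} {n : ℕ} [Field F] [Field K]
    [Algebra (MvPolynomial (Fin n) F) K] [IsFractionRing (MvPolynomial (Fin n) F) K]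
    [Field Ω] [CharZero Ω] [Algebra K Ω] [Algebra F Ω] [Algebra (MvPolynomial (Fin n) F) Ω]
    [IsScalarTower (MvPolynomial (Fin n) F) K Ω]
    [IsScalarTower F (MvPolynomial (Fin n) F) Ω] [Algebra.IsAlgebraic K Ω]
    (V : Derivation F Ω Ω)
    (h : ∀ i, V (algebraMap (MvPolynomial (Fin n) F) Ω (MvPolynomial.X i)) = 0) : V = 0 := by
  have h1 : ∀ p, V (algebraMap (MvPolynomial (Fin n) F) Ω p) = 0 := by
    intro p
    induction p using MvPolynomial.induction_on with
    | C a =>
      rw [← MvPolynomial.algebraMap_eq, ← IsScalarTower.algebraMap_apply]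
      exact V.map_algebraMap a
    | add p q hp hq => rw [map_add, map_add, hp, hq, add_zero]
    | mul_X p i hp =>
      rw [map_mul, V.leibniz, hp, h, smul_zero, smul_zero, add_zero]
  have h2 : Algebra.IsAlgebraic (MvPolynomial (Fin n) F) Ω :=
    (IsFractionRing.comap_isAlgebraic_iff (K := K)).mpr inferInstance
  have h3 : Function.Injective (algebraMap (MvPolynomial (Fin n) F) Ω) := by
    rw [IsScalarTower.algebraMap_eq (MvPolynomial (Fin n) F) K Ω]
    exact (algebraMap K Ω).injective.comp (IsFractionRing.injective _ K)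
  ext z
  exact derivation_eq_zero_of_isAlgebraic (A := MvPolynomial (Fin n) F) (RingHom.id Ω)
    Function.injective_id (V : Ω →+ Ω) (fun p q => by
      change V (p * q) = p * V q + q * V p
      rw [V.leibniz, smul_eq_mul, smul_eq_mul]) h1 h3 (h2.isAlgebraic z)

/-- Integrality from an irrelevant ideal, at least two variables. -/
theorem ct3_integral {F : Type*} {Ω : Type*} [Field F] [Field Ω] [Algebra F Ω] {n : ℕ}
    (hn : 2 ≤ n) (g : MvPolynomial (Fin n) F →ₐ[F] Ω) (hg : Function.Injective g)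
    {I : Set (MvPolynomial (Fin n) F)} {N : ℕ}
    (hN : ∀ i, (MvPolynomial.X i : MvPolynomial (Fin n) F) ^ N ∈ Ideal.span I) {w : Ω}
    (hw : ∀ p ∈ I,
      IsIntegral (Algebra.adjoin F (Set.range fun i => g (MvPolynomial.X i))) (g p * w)) :
    IsIntegral (Algebra.adjoin F (Set.range fun i => g (MvPolynomial.X i))) w := by
  have hmem := ct3_mem g
  have h1 : ∀ p ∈ Ideal.span I,
      IsIntegral (Algebra.adjoin F (Set.range fun i => g (MvPolynomial.X i))) (g p * w) := by
    intro p hp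
    induction hp using Submodule.span_induction with
    | mem p hp => exact hw p hp
    | zero => rw [map_zero, zero_mul]; exact isIntegral_zero
    | add p q _ _ hp hq => rw [map_add, add_mul]; exact hp.add hq
    | smul a p _ hp =>
      rw [smul_eq_mul, map_mul, mul_assoc]
      exact (isIntegral_algebraMap (x := (⟨g a, hmem a⟩ :
        Algebra.adjoin F (Set.range fun i => g (MvPolynomial.X i))))).mul hp
  have hu : AlgebraicIndependent F fun i => g (MvPolynomial.X i) := by
    rw [algebraicIndependent_iff_injective_aeval]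
    have : MvPolynomial.aeval (fun i => g (MvPolynomial.X i)) = g := by
      ext i
      simp
    rw [this]
    exact hg
  refine isIntegral_of_pow_mul (fun i => g (MvPolynomial.X i)) hu
    (i := ⟨0, by omega⟩) (j := ⟨1, by omega⟩) (by simp) N ?_ ?_
  · rw [← map_pow]
    exact h1 _ (hN _)
  · rw [← map_pow]
    exact h1 _ (hN _)

/-- Linear combinations of derivations. -/
theorem ct3_euler {F : Type*} {Ω : Type*} [Field F] [Field Ω] [Algebra F Ω] {n : ℕ}
    (u : Fin n → Ω) (D : Fin n → Derivation F Ω Ω) :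
    ∃ E : Derivation F Ω Ω, ∀ z, E z = ∑ i, u i * D i z := by
  refine ⟨∑ i, u i • D i, fun z => ?_⟩
  have h1 : Derivation.coeFnAddMonoidHom (∑ i, u i • D i) =
      ∑ i, Derivation.coeFnAddMonoidHom (u i • D i) := map_sum _ _ _
  have h2 := congrFun h1 z
  rw [Finset.sum_apply] at h2
  exact h2

/-- An element of degree one with integral partial derivatives is a linear form. -/
theorem ct3_linear {F : Type*} {Ω : Type*} [Field F] [IsAlgClosed F] [Field Ω] [CharZero Ω]
    [Algebra F Ω] {n : ℕ} (g : MvPolynomial (Fin n) F →ₐ[F] Ω)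
    (D : Fin n → Derivation F Ω Ω)
    (hD : ∀ i p, D i (g p) = g (MvPolynomial.pderiv i p))
    (huniq : ∀ V : Derivation F Ω Ω, (∀ i, V (g (MvPolynomial.X i)) = 0) → V = 0)
    {h : Ω} (hE : ∑ i, g (MvPolynomial.X i) * D i h = h)
    (hint : ∀ i, IsIntegral (Algebra.adjoin F (Set.range fun i => g (MvPolynomial.X i)))
      (D i h)) : ∃ q, g q = h := by
  classical
  obtain ⟨E, hEa⟩ := ct3_euler (fun i => g (MvPolynomial.X i)) D
  have hDX : ∀ i j, D i (g (MvPolynomial.X j)) = if j = i then 1 else 0 := by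
    intro i j
    rw [hD, MvPolynomial.pderiv_X, Pi.single_apply]
    split_ifs
    · exact map_one g
    · exact map_zero g
  have hEX : ∀ j, E (g (MvPolynomial.X j)) = g (MvPolynomial.X j) := by
    intro j
    rw [hEa, Finset.sum_eq_single j]
    · rw [hDX, if_pos rfl, mul_one]
    · intro i _ hij
      rw [hDX, if_neg (Ne.symm hij), mul_zero]
    · simp
  have hcomm : ∀ i, ⁅E, D i⁆ + D i = 0 := by
    intro i
    refine huniq _ fun j => ?_
    rw [Derivation.add_apply, Derivation.commutator_apply, hEX, hDX]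
    split_ifs
    · rw [E.map_one_eq_zero]; ring
    · rw [map_zero]; ring
  have hEh : E h = h := (hEa h).trans hE
  have hED : ∀ i, E (D i h) = 0 := by
    intro i
    have h1 := DFunLike.congr_fun (hcomm i) h
    rw [Derivation.add_apply, Derivation.commutator_apply, hEh, Derivation.zero_apply] at h1
    linear_combination h1
  have hc : ∀ i, ∃ c : F, algebraMap F Ω c = D i h := by
    intro i
    have h1 : IsIntegral F (D i h) := (isAlgebraic_of_isIntegral_of_zero
      (fun i => g (MvPolynomial.X i)) E hEX (hint i) (hED i)).isIntegral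
    exact minpoly.mem_range_of_degree_eq_one F _
      (IsAlgClosed.degree_eq_one_of_irreducible F (minpoly.irreducible h1))
  choose c hc using hc
  refine ⟨∑ i, MvPolynomial.X i * MvPolynomial.C (c i), ?_⟩
  rw [map_sum, ← hE]
  refine Finset.sum_congr rfl fun i _ => ?_
  rw [map_mul, ← hc]
  congr 1
  exact g.commutes (c i)

variable {R : Type u} [CommRing R] [Algebra ℂ R] {𝒜 : ℕ → Submodule ℂ R} [GradedAlgebra 𝒜]
  {P : R →ₗ[ℂ] R →ₗ[ℂ] R} {H : R} {a : ℤ} {n : ℕ}

theorem CtxN.ct3_P_mem (C : CtxN 𝒜 P H a n) {l : ℕ} {r : R}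
    (hr : r ∈ Wt 𝒜 P (-H) l (a * l - a)) : ∀ c ∈ Ap 𝒜 P (-H) a, P r c ∈ Ap 𝒜 P (-H) a := by
  refine C.neg_half.ctx.Ap_induction (fun k c hc => ?_) ?_ fun c d hc hd => ?_
  · rw [C.half.ctx.hX.skew]
    exact neg_mem (mem_Ap (C.neg_half.ctx.P_defect_one hc hr))
  · rw [map_zero]; exact zero_mem _
  · rw [map_add]; exact add_mem hc hd

/-- (KEY) for a derivation of `Ω` on the source side, at a frame of the sink. -/
theorem CtxN.ct3_key (C : CtxN 𝒜 P H a n) {y : R →ₐ[ℂ] ℂ} (hy : HasSlope 𝒜 P H y a)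
    (f : Frame 𝒜 P H a n) (hΔ : y f.Δ ≠ 0) {Ω : Type v} [Field Ω] [Algebra ℂ Ω]
    (x : R →ₐ[ℂ] Ω) (hx : InjA 𝒜 P (-H) a x) (ψ : MvPolynomial (Fin n) ℂ →ₐ[ℂ] Ω)
    (hψ : Function.Injective ψ) (hψc : ∀ c ∈ Ap 𝒜 P (-H) a, ψ (C.half.ctx.cell f y c) = x c)
    (D : Derivation ℂ Ω Ω) (f' : Frame 𝒜 P (-H) a n) (hΔ' : f'.Δ ≠ 0) :
    2 * (x f'.Δ * D (ψ (C.half.ctx.cell f y H))) =
      -(a : Ω) * ∑ l, (-∑ i, x (f'.mat.adjugate l i) * D (x (f'.b i))) *
        ψ (C.half.ctx.cell f y (f'.r l)) := by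
  have hx0 : x f'.Δ ≠ 0 := fun h => hΔ' (hx _ (Frame.Δ_mem C.neg_half.ctx f') h)
  have h1 := C.neg_half.cramer f' hΔ' x hx
    ((D : Ω →ₗ[ℂ] Ω).comp (x : R →ₗ[ℂ] Ω)) (fun u _ v _ => by
      change D (x (u * v)) = x u * D (x v) + x v * D (x u)
      rw [map_mul, D.leibniz, smul_eq_mul, smul_eq_mul])
  have h2 := C.key hy f hΔ ψ hψ ((D : Ω →ₗ[ℂ] Ω).comp (ψ : _ →ₗ[ℂ] Ω)) (fun p q => by
      change D (ψ (p * q)) = ψ p * D (ψ q) + ψ q * D (ψ p)
      rw [map_mul, D.leibniz, smul_eq_mul, smul_eq_mul]) f'.r f'.kr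
    (fun i => by
      have h3 := f'.hr i
      rwa [Wt_neg] at h3)
    (fun l => (x f'.Δ)⁻¹ * (-∑ i, x (f'.mat.adjugate l i) * D (x (f'.b i))))
    (fun c hc => by
      change D (ψ _) = _
      rw [hψc c hc]
      have h3 : x f'.Δ * D (x c) = _ := h1 c hc
      refine mul_left_cancel₀ hx0 (h3.trans ?_)
      rw [Finset.mul_sum]
      refine Finset.sum_congr rfl fun l _ => ?_
      rw [hψc _ (C.ct3_P_mem (f'.hr l) c hc), ← mul_assoc, ← mul_assoc, mul_inv_cancel₀ hx0,
        one_mul]
      rfl)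
  have h4 : 2 * D (ψ (C.half.ctx.cell f y H)) = _ := h2
  rw [mul_left_comm, h4, mul_left_comm, Finset.mul_sum]
  congr 1
  refine Finset.sum_congr rfl fun l _ => ?_
  rw [← mul_assoc, ← mul_assoc, mul_inv_cancel₀ hx0, one_mul]

/-- Case II, the roots. -/
theorem CtxN.ct3_root (C : CtxN 𝒜 P H a n) (hn : 2 ≤ n) (hno : ¬ HasLine 𝒜 P H a)
    {y : R →ₐ[ℂ] ℂ} (hy : HasSlope 𝒜 P H y a) (f : Frame 𝒜 P H a n) (hΔ : y f.Δ ≠ 0)
    {Q : (Ap 𝒜 P (-H) a)[X]} (hQ : IsMinPoly 𝒜 P H a (C.half.ctx.cell f y) Q)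
    {F : Type v} [Field F] [IsAlgClosed F] [Algebra ℂ F]
    {Ψ : R →ₐ[ℂ] MvPolynomial (Fin n) F} (hΨ : IsCell 𝒜 P H a Ψ) (hi : InjA 𝒜 P (-H) a Ψ)
    {Ω : Type v} [Field Ω] [IsAlgClosed Ω] [Algebra ℂ Ω] [Algebra F Ω] [IsScalarTower ℂ F Ω]
    (g : MvPolynomial (Fin n) F →ₐ[F] Ω) (hg : Function.Injective g)
    (x : R →ₐ[ℂ] Ω) (hx : ∀ r, x r = g (Ψ r)) (D : Fin n → Derivation F Ω Ω)
    (hD : ∀ i p, D i (g p) = g (MvPolynomial.pderiv i p))
    (huniq : ∀ V : Derivation F Ω Ω, (∀ i, V (g (MvPolynomial.X i)) = 0) → V = 0)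
    {ρ : Ω} (hρ : (mapQ Q x).eval ρ = 0) : ∃ q, g q = ρ := by
  have hxi : InjA 𝒜 P (-H) a x := fun c hc h =>
    hi c hc (hg (((hx c).symm.trans h).trans (map_zero g).symm))
  obtain ⟨ψ, hψ, hψc, hψh⟩ := C.exists_psi hy f hΔ hQ x hxi hρ
  have : CharZero Ω := charZero_of_injective_algebraMap (algebraMap ℂ Ω).injective
  suffices h : ∃ q, g q = ψ (C.half.ctx.cell f y H) by
    obtain ⟨q, hq⟩ := h
    exact ⟨q ^ 2, by rw [map_pow, hq, hψh]⟩
  have hpure : PureA 𝒜 P H a y := (C.half.ctx.hasSlope_iff_pure.mp hy).1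
  have hmem := ct3_mem g
  -- integrality of the cell
  have hint : ∀ p, IsIntegral (Algebra.adjoin F (Set.range fun i => g (MvPolynomial.X i)))
      (ψ p) := by
    intro p
    have h1 := C.isIntegral_of_noLine hno hy f hΔ ψ p
    have h2 : Algebra.adjoin ℂ (ψ '' (C.half.ctx.cell f y '' (Ap 𝒜 P (-H) a : Set R))) ≤
        (Algebra.adjoin F (Set.range fun i => g (MvPolynomial.X i))).restrictScalars ℂ := by
      refine Algebra.adjoin_le ?_
      rintro _ ⟨_, ⟨c, hc, rfl⟩, rfl⟩
      change ψ _ ∈ Algebra.adjoin F (Set.range fun i => g (MvPolynomial.X i))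
      rw [hψc c hc, hx]
      exact hmem _
    exact h1.map_of_comp_eq (Subalgebra.inclusion h2).toRingHom (RingHom.id Ω) rfl
  have hgi : ∀ p, IsIntegral (Algebra.adjoin F (Set.range fun i => g (MvPolynomial.X i)))
      (g p) := fun p => isIntegral_algebraMap (x := (⟨g p, hmem p⟩ :
        Algebra.adjoin F (Set.range fun i => g (MvPolynomial.X i))))
  -- the frames of the sink
  obtain ⟨N, hN⟩ := C.neg_half.pow_mem_span Ψ (C.nv_of_noLine hno hΨ)
  have hDint : ∀ i, IsIntegral (Algebra.adjoin F (Set.range fun i => g (MvPolynomial.X i)))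
      (D i (ψ (C.half.ctx.cell f y H))) := by
    intro i
    refine ct3_integral hn g hg hN ?_
    rintro _ ⟨f', rfl⟩
    rcases eq_or_ne f'.Δ 0 with h0 | h0
    · rw [h0, map_zero, map_zero, zero_mul]
      exact isIntegral_zero
    have h1 : 2 * (x f'.Δ * D i (ψ (C.half.ctx.cell f y H))) = _ :=
      C.ct3_key hy f hΔ x hxi ψ hψ hψc ((D i).restrictScalars ℂ) f' h0
    have h2 : g (Ψ f'.Δ) * D i (ψ (C.half.ctx.cell f y H)) = g (MvPolynomial.C (2⁻¹ : F)) *
        (2 * (x f'.Δ * D i (ψ (C.half.ctx.cell f y H)))) := by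
      have : CharZero F := charZero_of_injective_algebraMap (algebraMap ℂ F).injective
      have h3 : g (MvPolynomial.C (2⁻¹ : F)) * 2 = 1 := by
        rw [← map_ofNat g 2, ← map_mul, ← map_ofNat MvPolynomial.C 2, ← map_mul,
          inv_mul_cancel₀ (two_ne_zero' F), map_one, map_one]
      rw [hx]
      linear_combination (-(g (Ψ f'.Δ) * D i (ψ (C.half.ctx.cell f y H)))) * h3
    rw [h2, h1]
    have h4 : IsIntegral (Algebra.adjoin F (Set.range fun i => g (MvPolynomial.X i)))
        (-(a : Ω)) := by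
      have h5 := hgi (-(a : MvPolynomial (Fin n) F))
      rwa [map_neg, map_intCast] at h5
    refine (hgi _).mul (h4.mul (IsIntegral.sum _ fun l _ => (IsIntegral.neg
      (IsIntegral.sum _ fun j _ => ?_)).mul (hint _)))
    rw [hx, hx]
    exact (hgi _).mul (by
      change IsIntegral _ (D i (g _))
      rw [hD]
      exact hgi _)
  obtain ⟨E, hE⟩ := ct3_euler (fun i => g (MvPolynomial.X i)) D
  refine ct3_linear g D hD huniq ?_ hDint
  rw [← hE]
  have h1 := C.euler_psi hy f hΔ ψ hψ (E.restrictScalars ℂ) 1 (fun k c hc => by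
    rw [hψc c (mem_Ap (by rwa [Wt_neg])), hx]
    have h2 : (Ψ c).IsHomogeneous (2 * k) := hΨ.homog k (2 * k) c (by
      have h3 : a * (k : ℤ) - a * ((2 * k : ℕ) : ℤ) = -(a * k) := by
        push_cast
        ring
      rwa [h3])
    change E (g (Ψ c)) = _
    rw [hE]
    have h3 := congrArg g h2.sum_X_mul_pderiv
    rw [map_sum, map_nsmul] at h3
    simp only [hD, ← map_mul]
    rw [h3, nsmul_eq_mul]
    push_cast
    ring) 1 (C.half.ctx.cell f y H) (C.half.ctx.cell_homog f hpure 1 1 H (by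
      rw [mem_Wt]
      refine ⟨C.half.ctx.hH.mem, ?_⟩
      rw [C.half.ctx.hX.alternating]
      simp))
  have h2 : E (ψ (C.half.ctx.cell f y H)) = _ := h1
  rw [h2]
  simp

theorem CtxN.ct3_split (C : CtxN 𝒜 P H a n) (hn : 2 ≤ n) (hno : ¬ HasLine 𝒜 P H a)
    {y : R →ₐ[ℂ] ℂ} (hy : HasSlope 𝒜 P H y a) (f : Frame 𝒜 P H a n) (hΔ : y f.Δ ≠ 0)
    {Q : (Ap 𝒜 P (-H) a)[X]} (hQ : IsMinPoly 𝒜 P H a (C.half.ctx.cell f y) Q)
    {F : Type v} [Field F] [IsAlgClosed F] [Algebra ℂ F]
    {Ψ : R →ₐ[ℂ] MvPolynomial (Fin n) F} (hΨ : IsCell 𝒜 P H a Ψ) (hi : InjA 𝒜 P (-H) a Ψ)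
    {K Ω : Type v} [Field K] [Field Ω] [IsAlgClosed Ω] [Algebra (MvPolynomial (Fin n) F) K]
    [IsFractionRing (MvPolynomial (Fin n) F) K] [Algebra F K]
    [IsScalarTower F (MvPolynomial (Fin n) F) K] [Algebra K Ω] [Algebra.IsAlgebraic K Ω]
    [Algebra F Ω] [IsScalarTower F K Ω] [Algebra (MvPolynomial (Fin n) F) Ω]
    [IsScalarTower (MvPolynomial (Fin n) F) K Ω] [IsScalarTower F (MvPolynomial (Fin n) F) Ω] :
    ∃ s : Multiset (MvPolynomial (Fin n) F),
      mapQ Q Ψ = (s.map fun q => Polynomial.X - Polynomial.C q).prod := by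
  let g : MvPolynomial (Fin n) F →ₐ[F] Ω := IsScalarTower.toAlgHom F _ Ω
  have hgK : ∀ p, g p = algebraMap K Ω (algebraMap _ K p) := fun p =>
    IsScalarTower.algebraMap_apply _ K Ω p
  have hg : Function.Injective g := by
    intro p q h
    rw [hgK, hgK] at h
    exact IsFractionRing.injective _ K ((algebraMap K Ω).injective h)
  let _ : Algebra ℂ Ω := ((algebraMap F Ω).comp (algebraMap ℂ F)).toAlgebra
  have hT : IsScalarTower ℂ F Ω := IsScalarTower.of_algebraMap_eq fun _ => rfl
  have : CharZero Ω := charZero_of_injective_algebraMap (algebraMap ℂ Ω).injective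
  have : CharZero F := charZero_of_injective_algebraMap (algebraMap ℂ F).injective
  have : CharZero K := charZero_of_injective_algebraMap (algebraMap F K).injective
  refine ct3_prod (g : MvPolynomial (Fin n) F →+* Ω) hg (hQ.monic.map _) fun ρ hρ => ?_
  choose D hD using fun i : Fin n =>
    ct3_exists_derivation (K := K) (Ω := Ω) (MvPolynomial.pderiv (R := F) i)
  refine C.ct3_root hn hno hy f hΔ hQ hΨ hi g hg ((g.restrictScalars ℂ).comp Ψ)
    (fun _ => rfl) D (fun i p => by rw [hgK, hgK]; exact hD i p)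
    (fun V hV => ct3_uniq (K := K) V hV) ?_
  rw [← hρ]
  congr 1
  rw [mapQ, mapQ, Polynomial.map_map]
  rfl

/-- Case II. -/
theorem CtxN.split_of_noLine (C : CtxN 𝒜 P H a n) (hn : 2 ≤ n) (hno : ¬ HasLine 𝒜 P H a)
    {y : R →ₐ[ℂ] ℂ} (hy : HasSlope 𝒜 P H y a) (f : Frame 𝒜 P H a n) (hΔ : y f.Δ ≠ 0)
    {Q : (Ap 𝒜 P (-H) a)[X]} (hQ : IsMinPoly 𝒜 P H a (C.half.ctx.cell f y) Q)
    {F : Type v} [Field F] [IsAlgClosed F] [Algebra ℂ F]
    {Ψ : R →ₐ[ℂ] MvPolynomial (Fin n) F} (hΨ : IsCell 𝒜 P H a Ψ) (hi : InjA 𝒜 P (-H) a Ψ) :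
    ∃ s : Multiset (MvPolynomial (Fin n) F),
      mapQ Q Ψ = (s.map fun q => Polynomial.X - Polynomial.C q).prod :=
  C.ct3_split hn hno hy f hΔ hQ hΨ hi (K := FractionRing (MvPolynomial (Fin n) F))
    (Ω := AlgebraicClosure (FractionRing (MvPolynomial (Fin n) F)))

end Vale.Agent.P292
end

section

/-! Theorem E, general algebra: (QUAD). See `PROOF.md`. -/

namespace Vale.Agent.P292

open Module Polynomial

universe u v w

/-- Restriction of scalars of a derivation to a subalgebra which it kills. -/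
def al4Res {k : Type*} {Ω : Type*} [CommRing k] [CommRing Ω] [Algebra k Ω]
    (A : Subalgebra k Ω) (D : Derivation k Ω Ω) (hA : ∀ x ∈ A, D x = 0) : Derivation A Ω Ω where
  toFun := D
  map_add' := map_add D
  map_smul' := fun a x => by
    have h : a • x = (a : Ω) * x := rfl
    rw [h, D.leibniz, hA a a.2, smul_zero, add_zero]
    rfl
  map_one_eq_zero' := D.map_one_eq_zero
  leibniz' := D.leibniz

theorem al4_kill {k : Type*} {Ω : Type*} [CommRing k] [Field Ω] [CharZero Ω] [Algebra k Ω]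
    (A : Subalgebra k Ω) (D : Derivation k Ω Ω) (hA : ∀ x ∈ A, D x = 0) {y : Ω}
    (hy : IsAlgebraic A y) : D y = 0 := by
  classical
  have hex : ∃ n : ℕ, ∃ p : A[X], p ≠ 0 ∧ aeval y p = 0 ∧ p.natDegree = n := by
    obtain ⟨p, hp, hp0⟩ := hy
    exact ⟨_, p, hp, hp0, rfl⟩
  obtain ⟨p, hp, hp0, hpn⟩ := Nat.find_spec hex
  have hmin : ∀ q : A[X], q ≠ 0 → q.natDegree < p.natDegree → aeval y q ≠ 0 := by
    intro q hq hlt h0
    exact Nat.find_min hex (hpn ▸ hlt) ⟨q, hq, h0, rfl⟩
  have hdeg : p.natDegree ≠ 0 := by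
    intro h0
    obtain ⟨a, rfl⟩ := Polynomial.natDegree_eq_zero.1 h0
    rw [aeval_C] at hp0
    have ha : a = 0 := Subtype.ext hp0
    exact hp (by rw [ha, C_0])
  have : CharZero A := ⟨fun m n h => by
    have h' := congrArg (Subtype.val) h
    exact_mod_cast h'⟩
  have hd : derivative p ≠ 0 := by
    intro h0
    exact hdeg (Polynomial.derivative_eq_zero.1 h0)
  have h1 := (al4Res A D hA).map_aeval p y
  rw [hp0, map_zero] at h1
  have h2 : aeval y (derivative p) ≠ 0 := hmin _ hd (Polynomial.natDegree_derivative_lt hdeg)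
  exact (smul_eq_zero.1 h1.symm).resolve_left h2

theorem al4_indep {k : Type*} {Ω : Type*} [CommRing k] [Field Ω] [CharZero Ω] [Algebra k Ω]
    (hk : Function.Injective (algebraMap k Ω)) {ι : Type*} (t : ι → Ω)
    (D : ι → Derivation k Ω Ω) (h1 : ∀ i, D i (t i) = 1) (h0 : ∀ i j, i ≠ j → D i (t j) = 0) :
    AlgebraicIndependent k t := by
  refine algebraicIndependent_of_finite_type' hk fun s _ _ i hi => ?_
  intro halg
  have h := al4_kill (Algebra.adjoin k (t '' s)) (D i) ?_ halg
  · rw [h1] at h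
    exact one_ne_zero h
  · intro x hx
    have h3 := Derivation.eqOn_adjoin (D1 := D i) (D2 := 0) (s := t '' s) ?_ hx
    · simpa using h3
    · rintro _ ⟨j, hj, rfl⟩
      rw [h0 i j (fun h => hi (h ▸ hj))]
      rfl

/-- The constants of a family of derivations. -/
def al4Const {F : Type u} {Ω : Type v} [Field F] [Field Ω] [Algebra F Ω] {ι : Type w}
    (D : ι → Derivation F Ω Ω) : Subalgebra F Ω where
  carrier := {x | ∀ i, D i x = 0}
  mul_mem' := fun {x y} hx hy i => by
    rw [(D i).leibniz, hx i, hy i, smul_zero, smul_zero, add_zero]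
  add_mem' := fun {x y} hx hy i => by rw [map_add, hx i, hy i, add_zero]
  algebraMap_mem' := fun r i => (D i).map_algebraMap r

theorem al4_alg {F : Type u} {Ω : Type v} [Field F] [Field Ω] [Algebra F Ω] (s : Set Ω)
    (halg : Algebra.IsAlgebraic (IntermediateField.adjoin F s) Ω) :
    Algebra.IsAlgebraic (Algebra.adjoin F s) Ω := by
  open scoped IntermediateField.algebraAdjoinAdjoin in
  exact (IsFractionRing.comap_isAlgebraic_iff (A := Algebra.adjoin F s)
    (K := IntermediateField.adjoin F s) (C := Ω)).2 halg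

theorem al4_const {F : Type u} {Ω : Type v} [Field F] [IsAlgClosed F] [Field Ω] [CharZero Ω]
    [Algebra F Ω] {ι : Type w} [Fintype ι] (t : ι → Ω)
    (halg : Algebra.IsAlgebraic (Algebra.adjoin F (Set.range t)) Ω)
    (D : ι → Derivation F Ω Ω) (h1 : ∀ i, D i (t i) = 1) (h0 : ∀ i j, i ≠ j → D i (t j) = 0)
    {c : Ω} (hc : ∀ i, D i c = 0) : ∃ a : F, algebraMap F Ω a = c := by
  have hind : AlgebraicIndependent F t :=
    al4_indep (FaithfulSMul.algebraMap_injective F Ω) t D h1 h0
  have hb : IsTranscendenceBasis F t := hind.isTranscendenceBasis_iff_isAlgebraic.2 halg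
  have hindS : AlgebraicIndependent (al4Const D) t :=
    al4_indep Subtype.val_injective t (fun i => al4Res (al4Const D) (D i) fun x hx => hx i) h1 h0
  have e1 : Algebra.trdeg F (al4Const D) + Algebra.trdeg (al4Const D) Ω = Algebra.trdeg F Ω :=
    trdeg_add_eq F (al4Const D)
  have e2 := hb.lift_cardinalMk_eq_trdeg
  have e3 := hindS.lift_cardinalMk_le_trdeg
  rw [Cardinal.mk_fintype, Cardinal.lift_natCast] at e2 e3
  have e2' : Algebra.trdeg F Ω = (Fintype.card ι : Cardinal) := by
    have h := e2.symm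
    rwa [Cardinal.lift_eq_nat_iff] at h
  have e3' : (Fintype.card ι : Cardinal) ≤ Algebra.trdeg (al4Const D) Ω := by
    rwa [Cardinal.nat_le_lift_iff] at e3
  have hz : Algebra.trdeg F (al4Const D) = 0 := by
    rw [e2'] at e1
    have l1 : Algebra.trdeg F (al4Const D) < Cardinal.aleph0 :=
      lt_of_le_of_lt (le_of_le_of_eq (self_le_add_right _ _) e1) (Cardinal.natCast_lt_aleph0)
    have l2 : Algebra.trdeg (al4Const D) Ω < Cardinal.aleph0 :=
      lt_of_le_of_lt (le_of_le_of_eq (self_le_add_left _ _) e1) (Cardinal.natCast_lt_aleph0)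
    obtain ⟨m, hm⟩ := Cardinal.lt_aleph0.1 l1
    obtain ⟨n, hn⟩ := Cardinal.lt_aleph0.1 l2
    rw [hm, hn] at e1
    rw [hn] at e3'
    rw [hm]
    have f1 : m + n = Fintype.card ι := by exact_mod_cast e1
    have f2 : Fintype.card ι ≤ n := by exact_mod_cast e3'
    have f3 : m = 0 := by omega
    rw [f3, Nat.cast_zero]
  have hS : Algebra.IsAlgebraic F (al4Const D) := trdeg_eq_zero_iff.1 hz
  have hI : Algebra.IsIntegral F (al4Const D) := hS.isIntegral
  obtain ⟨a, ha⟩ := (IsAlgClosed.algebraMap_bijective_of_isIntegral (k := F)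
    (K := al4Const D)).2 ⟨c, hc⟩
  exact ⟨a, congrArg Subtype.val ha⟩

theorem al4_comm {F : Type u} {Ω : Type v} [Field F] [Field Ω] [CharZero Ω]
    [Algebra F Ω] {ι : Type w} [DecidableEq ι] (t : ι → Ω)
    (halg : Algebra.IsAlgebraic (Algebra.adjoin F (Set.range t)) Ω)
    (D : ι → Derivation F Ω Ω) (hD : ∀ i j, D i (t j) = if i = j then 1 else 0) (i j : ι)
    (x : Ω) : D i (D j x) = D j (D i x) := by
  have h : (⁅D i, D j⁆ : Derivation F Ω Ω) x = 0 := by
    refine al4_kill (Algebra.adjoin F (Set.range t)) ⁅D i, D j⁆ ?_ (halg.isAlgebraic x)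
    intro y hy
    have h3 := Derivation.eqOn_adjoin (D1 := (⁅D i, D j⁆ : Derivation F Ω Ω)) (D2 := 0)
      (s := Set.range t) ?_ hy
    · simpa using h3
    · rintro _ ⟨k, rfl⟩
      have h4 : ∀ a b : ι, D a (if b = k then (1 : Ω) else 0) = 0 := by
        intro a b
        split_ifs
        · exact (D a).map_one_eq_zero
        · exact map_zero _
      rw [Derivation.commutator_apply, hD, hD, h4, h4, sub_zero]
      rfl
  rw [Derivation.commutator_apply] at h
  exact sub_eq_zero.1 h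

theorem al4_euler {F : Type u} {Ω : Type v} [Field F] [Field Ω] [CharZero Ω]
    [Algebra F Ω] {ι : Type w} [Fintype ι] [DecidableEq ι] (t : ι → Ω)
    (D : ι → Derivation F Ω Ω) (hD : ∀ i j, D i (t j) = if i = j then 1 else 0)
    (hcomm : ∀ i j x, D i (D j x) = D j (D i x)) (i : ι) (C : Ω) (q : ℤ)
    (hq : ∑ j, t j * D j C = (q : Ω) * C) :
    ∑ j, t j * D j (D i C) = ((q - 1 : ℤ) : Ω) * D i C := by
  have h := congrArg (D i) hq
  have h1 : D i (∑ j, t j * D j C) = ∑ j, t j * D j (D i C) + D i C := by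
    rw [map_sum]
    have h2 : ∀ j, D i (t j * D j C) = t j * D j (D i C) + if i = j then D j C else 0 := by
      intro j
      rw [(D i).leibniz, hD, hcomm i j C, smul_eq_mul, smul_eq_mul]
      split_ifs
      · rw [mul_one]
      · rw [mul_zero]
    rw [Finset.sum_congr rfl fun j _ => h2 j, Finset.sum_add_distrib, Finset.sum_ite_eq]
    simp
  have h3 : D i ((q : Ω) * C) = (q : Ω) * D i C := by
    rw [(D i).leibniz, (D i).map_intCast, smul_zero, add_zero, smul_eq_mul]
  rw [h1, h3] at h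
  push_cast
  linear_combination h

/-- (QUAD) -/
theorem mem_adjoin_of_affine {F : Type u} {Ω : Type v} [Field F] [IsAlgClosed F] [Field Ω]
    [CharZero Ω] [Algebra F Ω] {ι : Type*} [Fintype ι] [DecidableEq ι] (t : ι → Ω) (i₀ : ι)
    (halg : Algebra.IsAlgebraic (IntermediateField.adjoin F (Set.range t)) Ω)
    (D : ι → Derivation F Ω Ω) (hD : ∀ i j, D i (t j) = if i = j then 1 else 0)
    {f : Ω} (h2 : ∀ i, i ≠ i₀ → D i (D i f) = 0) (q : ℤ)
    (hq : ∑ i, t i * D i f = (q : Ω) * f) : f ∈ IntermediateField.adjoin F (Set.range t) := by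
  have halg' := al4_alg (Set.range t) halg
  have hcomm := al4_comm t halg' D hD
  have hself : ∀ i, D i (t i) = 1 := fun i => by rw [hD, if_pos rfl]
  have hne : ∀ i j, i ≠ j → D i (t j) = 0 := fun i j h => by rw [hD, if_neg h]
  have ht : ∀ i, t i ∈ IntermediateField.adjoin F (Set.range t) := fun i =>
    IntermediateField.subset_adjoin F _ ⟨i, rfl⟩
  have ht0 : t i₀ ≠ 0 := by
    intro h0
    have h1 := hself i₀
    rw [h0, map_zero] at h1
    exact zero_ne_one h1
  have key : ∀ I : Finset ι, i₀ ∉ I → ∀ (C : Ω) (q : ℤ), (∀ i ∈ I, D i (D i C) = 0) →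
      (∀ i, i ∉ I → i ≠ i₀ → D i C = 0) → ∑ j, t j * D j C = (q : Ω) * C →
      C ∈ IntermediateField.adjoin F (Set.range t) := by
    intro I
    induction I using Finset.induction_on with
    | empty =>
      intro _ C q _ hz hq
      have hz' : ∀ i, i ≠ i₀ → D i C = 0 := fun i hi => hz i (Finset.notMem_empty i) hi
      have he : t i₀ * D i₀ C = (q : Ω) * C := by
        rw [← hq]
        symm
        refine Finset.sum_eq_single i₀ ?_ (fun h => absurd (Finset.mem_univ _) h)
        intro j _ hj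
        rw [hz' j hj, mul_zero]
      have hu : ∀ i, D i (C * t i₀ ^ (-q)) = 0 := by
        intro i
        rw [(D i).leibniz, (D i).leibniz_zpow]
        by_cases hi : i = i₀
        · subst hi
          rw [hself]
          have h5 : t i ^ (-q) = t i ^ (-q - 1) * t i := by
            rw [← zpow_add_one₀ ht0]
            congr 1
            ring
          simp only [smul_eq_mul, zsmul_eq_mul]
          rw [h5]
          push_cast
          linear_combination (t i ^ (-q - 1)) * he
        · rw [hz' i hi, hne i i₀ hi]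
          simp
      obtain ⟨a, ha⟩ := al4_const t halg' D hself hne hu
      have hC : C = algebraMap F Ω a * t i₀ ^ q := by
        rw [ha, mul_assoc, ← zpow_add₀ ht0, neg_add_cancel, zpow_zero, mul_one]
      rw [hC]
      exact mul_mem (IntermediateField.algebraMap_mem _ a) (zpow_mem (ht i₀) q)
    | insert i J hiJ ih =>
      intro hI C q hs hz hq
      have hi0 : i ≠ i₀ := fun h => hI (h ▸ Finset.mem_insert_self i J)
      have hJ : i₀ ∉ J := fun h => hI (Finset.mem_insert_of_mem h)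
      have he := al4_euler t D hD hcomm i C q hq
      have a1 : ∀ j ∈ J, D j (D j (D i C)) = 0 := by
        intro j hj
        rw [hcomm j i C, hcomm j i (D j C), hs j (Finset.mem_insert_of_mem hj), map_zero]
      have a2 : ∀ j, j ∉ J → j ≠ i₀ → D j (D i C) = 0 := by
        intro j hj hj0
        by_cases hji : j = i
        · subst hji
          exact hs j (Finset.mem_insert_self j J)
        · rw [hcomm j i C, hz j (by simp [hji, hj]) hj0, map_zero]
      have m2 : D i C ∈ IntermediateField.adjoin F (Set.range t) :=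
        ih hJ (D i C) (q - 1) a1 a2 he
      have b0 : ∀ j x, D j (C - t i * x) = D j C - (t i * D j x + x * D j (t i)) := by
        intro j x
        rw [map_sub, (D j).leibniz, smul_eq_mul, smul_eq_mul]
      have b1 : ∀ j ∈ J, D j (D j (C - t i * D i C)) = 0 := by
        intro j hj
        have hji : j ≠ i := fun h => hiJ (h ▸ hj)
        have e1 : D j (C - t i * D i C) = D j C - t i * D j (D i C) := by
          rw [b0, hne j i hji, mul_zero, add_zero]
        rw [e1, map_sub, (D j).leibniz, hne j i hji, a1 j hj,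
          hs j (Finset.mem_insert_of_mem hj), smul_zero, smul_zero, add_zero, sub_zero]
      have b2 : ∀ j, j ∉ J → j ≠ i₀ → D j (C - t i * D i C) = 0 := by
        intro j hj hj0
        rw [b0, a2 j hj hj0]
        by_cases hji : j = i
        · subst hji
          rw [hself, mul_zero, zero_add, mul_one, sub_self]
        · rw [hne j i hji, hz j (by simp [hji, hj]) hj0, mul_zero, mul_zero, add_zero, sub_zero]
      have b3 : ∑ j, t j * D j (C - t i * D i C) = (q : Ω) * (C - t i * D i C) := by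
        have e1 : ∀ j, t j * D j (C - t i * D i C) =
            t j * D j C - t i * (t j * D j (D i C)) - if j = i then t j * D i C else 0 := by
          intro j
          rw [b0, hD]
          split_ifs <;> ring
        rw [Finset.sum_congr rfl fun j _ => e1 j, Finset.sum_sub_distrib, Finset.sum_sub_distrib,
          ← Finset.mul_sum, he, hq, Finset.sum_ite_eq']
        simp only [Finset.mem_univ, if_true]
        push_cast
        ring
      have m1 := ih hJ (C - t i * D i C) q b1 b2 b3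
      have e : C = (C - t i * D i C) + t i * D i C := by ring
      rw [e]
      exact add_mem m1 (mul_mem (ht i) m2)
  exact key (Finset.univ.erase i₀) (by simp) f q
    (fun i hi => h2 i (Finset.ne_of_mem_erase hi))
    (fun i hi hi0 => absurd (Finset.mem_erase.2 ⟨hi0, Finset.mem_univ i⟩) hi) hq

end Vale.Agent.P292
end

section

/-! Theorem E, section 7 (7g): from spanning to splitting. See `PROOF.md`. -/

namespace Vale.Agent.P292

open Module Polynomial

universe u v

/-- Extension of derivations to formally étale algebras. -/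
theorem co2_derivation_extension {k A Ω : Type*} [CommRing k] [CommRing A] [CommRing Ω]
    [Algebra k A] [Algebra A Ω] [Algebra k Ω] [IsScalarTower k A Ω]
    [Algebra.FormallyEtale A Ω] (d : Derivation k A Ω) :
    ∃ D : Derivation k Ω Ω, ∀ x, D (algebraMap A Ω x) = d x := by
  refine ⟨((LinearMap.liftBaseChange Ω d.liftKaehlerDifferential).comp
    (KaehlerDifferential.tensorKaehlerEquivOfFormallyEtale k A Ω).symm.toLinearMap).compDer
    (KaehlerDifferential.D k Ω), fun x => ?_⟩
  rw [Derivation.coe_comp]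
  change LinearMap.liftBaseChange Ω d.liftKaehlerDifferential
    ((KaehlerDifferential.tensorKaehlerEquivOfFormallyEtale k A Ω).symm
      (KaehlerDifferential.D k Ω (algebraMap A Ω x))) = d x
  rw [KaehlerDifferential.tensorKaehlerEquivOfFormallyEtale_symm_D_algebraMap,
    LinearMap.liftBaseChange_tmul, one_smul, Derivation.liftKaehlerDifferential_comp_D]

/-- Linear forms. -/
theorem co2_linform {F : Type*} [Field F] {n : ℕ} {p : MvPolynomial (Fin n) F}
    (hp : p.IsHomogeneous 1) : ∃ c : Fin n → F, p = ∑ i, MvPolynomial.X i * MvPolynomial.C (c i) := by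
  have h1 : ∀ i, ∃ c : F, MvPolynomial.pderiv i p = MvPolynomial.C c := fun i => by
    have h2 : (MvPolynomial.pderiv i p).IsHomogeneous 0 := hp.pderiv
    rw [← MvPolynomial.totalDegree_zero_iff_isHomogeneous,
      MvPolynomial.totalDegree_eq_zero_iff_eq_C] at h2
    exact ⟨_, h2⟩
  choose c hc using h1
  refine ⟨c, ?_⟩
  have h3 := hp.sum_X_mul_pderiv
  rw [one_smul] at h3
  rw [← h3]
  exact Finset.sum_congr rfl fun i _ => by rw [hc]

/-- Choice of a basis. -/
theorem co2_basis {F : Type*} [Field F] {n : ℕ} (φ : (Fin n → F) →ₗ[F] F)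
    (S : Set (Fin n → F)) (v : Fin n → F) (hv : φ v ≠ 0)
    (hS : ∀ ζ, φ ζ = 0 → ζ ∈ Submodule.span F S) :
    ∃ (b : Basis (Fin n) F (Fin n → F)) (i₀ : Fin n), ∀ i, i ≠ i₀ → b i ∈ S := by
  have hv0 : v ≠ 0 := fun h => hv (by rw [h, map_zero])
  have hli : LinearIndepOn F id ({v} : Set (Fin n → F)) := LinearIndepOn.singleton (v := id) hv0
  obtain ⟨B, hBt, hsB, htB, hBli⟩ := exists_linearIndepOn_id_extension hli
    (show ({v} : Set (Fin n → F)) ⊆ insert v S from Set.singleton_subset_iff.2 (Set.mem_insert _ _))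
  have hspan : ⊤ ≤ Submodule.span F (Set.range ((↑) : B → (Fin n → F))) := by
    rw [Subtype.range_coe]
    intro w _
    have h1 : w - (φ w / φ v) • v ∈ Submodule.span F S := hS _ (by
      rw [map_sub, map_smul, smul_eq_mul, div_mul_cancel₀ _ hv, sub_self])
    have h2 : Submodule.span F S ≤ Submodule.span F B :=
      Submodule.span_le.2 fun x hx => htB (Set.mem_insert_of_mem _ hx)
    have h3 : v ∈ Submodule.span F B := htB (Set.mem_insert _ _)
    have h4 := Submodule.add_mem _ (h2 h1) (Submodule.smul_mem _ (φ w / φ v) h3)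
    rwa [sub_add_cancel] at h4
  let b0 : Basis B F (Fin n → F) := Basis.mk hBli hspan
  have hfin : Finite B := Module.Finite.finite_basis b0
  have := Fintype.ofFinite B
  have hcard : Fintype.card B = n := by
    rw [← Module.finrank_eq_card_basis b0, Module.finrank_fin_fun]
  let e : B ≃ Fin n := Fintype.equivFinOfCardEq hcard
  refine ⟨b0.reindex e, e ⟨v, hsB rfl⟩, fun i hi => ?_⟩
  rw [Basis.reindex_apply]
  have h5 : b0 (e.symm i) = (e.symm i : Fin n → F) := Basis.mk_apply _ _ _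
  rw [h5]
  rcases hBt (e.symm i).2 with h6 | h6
  · exact absurd ((Equiv.symm_apply_eq e).1 (Subtype.ext h6)) hi
  · exact h6


/-- (QUAD) for roots of monic polynomials over polynomial rings. -/
theorem co2_core {F : Type u} [Field F] [IsAlgClosed F] [CharZero F] {n : ℕ} {K Ω : Type u}
    [Field K] [Field Ω] [IsAlgClosed Ω] [Algebra (MvPolynomial (Fin n) F) K]
    [IsFractionRing (MvPolynomial (Fin n) F) K] [Algebra K Ω] [Algebra.IsAlgebraic K Ω]
    [Algebra (MvPolynomial (Fin n) F) Ω] [IsScalarTower (MvPolynomial (Fin n) F) K Ω]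
    [Algebra F Ω] [IsScalarTower F (MvPolynomial (Fin n) F) Ω] [Algebra F K]
    [IsScalarTower F (MvPolynomial (Fin n) F) K] [IsScalarTower F K Ω]
    (b : Basis (Fin n) F (Fin n → F)) (i₀ : Fin n) {g : (MvPolynomial (Fin n) F)[X]}
    (hg : g.Monic)
    (h2 : ∀ ρ : Ω, (g.map (algebraMap (MvPolynomial (Fin n) F) Ω)).eval ρ = 0 →
      ∀ i, i ≠ i₀ → ∀ D : Derivation F Ω Ω,
        (∀ j, D (algebraMap (MvPolynomial (Fin n) F) Ω (MvPolynomial.X j)) =
          algebraMap F Ω (b i j)) → D (D ρ) = 0)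
    (hE : ∀ ρ : Ω, (g.map (algebraMap (MvPolynomial (Fin n) F) Ω)).eval ρ = 0 →
      ∀ E : Derivation F Ω Ω,
        (∀ j, E (algebraMap (MvPolynomial (Fin n) F) Ω (MvPolynomial.X j)) =
          algebraMap (MvPolynomial (Fin n) F) Ω (MvPolynomial.X j)) → E ρ = 2 * ρ) :
    ∃ s : Multiset (MvPolynomial (Fin n) F),
      g = (s.map fun q => Polynomial.X - Polynomial.C q).prod := by
  classical
  let A := MvPolynomial (Fin n) F
  let T : Fin n → Ω := fun j => algebraMap A Ω (MvPolynomial.X j)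
  have hcharK : CharZero K := charZero_of_injective_algebraMap (algebraMap F K).injective
  have hcharΩ : CharZero Ω := charZero_of_injective_algebraMap (algebraMap F Ω).injective
  have hinjA : Function.Injective (algebraMap A Ω) := by
    rw [IsScalarTower.algebraMap_eq A K Ω]
    exact (algebraMap K Ω).injective.comp (IsFractionRing.injective A K)
  have hfe : Algebra.FormallyEtale A Ω := by
    have h1 : Algebra.FormallyEtale A K := Algebra.FormallyEtale.of_isLocalization (nonZeroDivisors A)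
    have h3 : Algebra.FormallyEtale K Ω := Algebra.FormallyEtale.of_isSeparable K Ω
    exact Algebra.FormallyEtale.comp A K Ω
  have hDex : ∀ i, ∃ D : Derivation F Ω Ω, ∀ j, D (T j) = algebraMap F Ω (b i j) := fun i => by
    obtain ⟨D, hD⟩ := co2_derivation_extension
      (MvPolynomial.mkDerivation F (fun j => algebraMap F Ω (b i j)) : Derivation F A Ω)
    exact ⟨D, fun j => by rw [hD, MvPolynomial.mkDerivation_X]⟩
  choose D hD using hDex
  -- the dual linear forms
  let N : Fin n → Fin n → F := fun j l => b.coord l (Pi.single j 1)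
  let t : Fin n → Ω := fun l => ∑ j, algebraMap F Ω (N j l) * T j
  have hcoord : ∀ l (ζ : Fin n → F), b.coord l ζ = ∑ j, N j l * ζ j := fun l ζ => by
    have h1 : ζ = ∑ j, ζ j • (Pi.single j (1 : F) : Fin n → F) := by
      ext i
      simp [Finset.sum_apply, Pi.single_apply]
    conv_lhs => rw [h1]
    rw [map_sum]
    exact Finset.sum_congr rfl fun j _ => by rw [map_smul, smul_eq_mul, mul_comm]
  have hDt : ∀ i l, D i (t l) = if i = l then 1 else 0 := fun i l => by
    have h1 : D i (t l) = algebraMap F Ω (∑ j, N j l * b i j) := by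
      rw [map_sum, map_sum]
      refine Finset.sum_congr rfl fun j _ => ?_
      rw [Derivation.leibniz, Derivation.map_algebraMap, smul_zero, add_zero, hD, smul_eq_mul,
        map_mul]
    rw [h1, ← hcoord, Basis.coord_apply, Basis.repr_self, Finsupp.single_apply]
    split_ifs <;> simp
  have hT : ∀ j, ∑ l, t l * algebraMap F Ω (b l j) = T j := fun j => by
    have h1 : ∀ j', ∑ l, N j' l * b l j = if j' = j then 1 else 0 := fun j' => by
      have h3 := b.sum_repr (Pi.single j' (1 : F))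
      have h4 := congrFun h3 j
      rw [Finset.sum_apply] at h4
      simp only [Pi.smul_apply, smul_eq_mul] at h4
      rw [Pi.single_apply] at h4
      rw [if_congr (eq_comm (a := j') (b := j)) rfl rfl, ← h4]
      rfl
    calc ∑ l, t l * algebraMap F Ω (b l j)
        = ∑ l, ∑ j', T j' * algebraMap F Ω (N j' l * b l j) := by
          refine Finset.sum_congr rfl fun l _ => ?_
          rw [Finset.sum_mul]
          refine Finset.sum_congr rfl fun j' _ => ?_
          rw [map_mul]
          ring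
      _ = ∑ j', T j' * algebraMap F Ω (∑ l, N j' l * b l j) := by
          rw [Finset.sum_comm]
          refine Finset.sum_congr rfl fun j' _ => ?_
          rw [map_sum, Finset.mul_sum]
      _ = T j := by
          simp only [h1]
          rw [Finset.sum_eq_single j]
          · simp
          · intro j' _ hj'
            rw [if_neg hj', map_zero, mul_zero]
          · intro h
            exact absurd (Finset.mem_univ _) h
  -- algebraicity
  let φ : K →ₐ[F] Ω := IsScalarTower.toAlgHom F K Ω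
  have hφT : ∀ j, T j ∈ φ.fieldRange := fun j =>
    ⟨algebraMap A K (MvPolynomial.X j), (IsScalarTower.algebraMap_apply A K Ω _).symm⟩
  have ht1 : IntermediateField.adjoin F (Set.range t) ≤ φ.fieldRange := by
    rw [IntermediateField.adjoin_le_iff]
    rintro _ ⟨l, rfl⟩
    exact sum_mem fun j _ => mul_mem (φ.fieldRange.algebraMap_mem _) (hφT j)
  have hTL : ∀ j, T j ∈ IntermediateField.adjoin F (Set.range t) := fun j => by
    rw [← hT j]
    exact sum_mem fun l _ => mul_mem (IntermediateField.subset_adjoin _ _ ⟨l, rfl⟩)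
      (IntermediateField.algebraMap_mem _ _)
  have hAL : ∀ p : A, algebraMap A Ω p ∈ IntermediateField.adjoin F (Set.range t) := fun p => by
    induction p using MvPolynomial.induction_on with
    | C c =>
      have h1 : algebraMap A Ω (MvPolynomial.C c) = algebraMap F Ω c := by
        rw [← MvPolynomial.algebraMap_eq, ← IsScalarTower.algebraMap_apply]
      rw [h1]
      exact IntermediateField.algebraMap_mem _ _
    | add p q hp hq => rw [map_add]; exact add_mem hp hq
    | mul_X p j hp => rw [map_mul]; exact mul_mem hp (hTL j)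
  have ht2 : φ.fieldRange ≤ IntermediateField.adjoin F (Set.range t) := by
    rintro _ ⟨x, rfl⟩
    obtain ⟨p, q, hq, rfl⟩ := IsFractionRing.div_surjective (A := A) x
    have h1 : φ (algebraMap A K p / algebraMap A K q) = algebraMap A Ω p / algebraMap A Ω q := by
      rw [map_div₀]
      change algebraMap K Ω _ / algebraMap K Ω _ = _
      rw [← IsScalarTower.algebraMap_apply, ← IsScalarTower.algebraMap_apply]
    change φ (algebraMap A K p / algebraMap A K q) ∈ _
    rw [h1]
    exact div_mem (hAL p) (hAL q)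
  have halg : Algebra.IsAlgebraic (IntermediateField.adjoin F (Set.range t)) Ω := by
    let ψ : K →+* IntermediateField.adjoin F (Set.range t) :=
      ((φ : K →+* Ω).codRestrict (IntermediateField.adjoin F (Set.range t)).toSubfield
        fun x => ht2 ⟨x, rfl⟩)
    let : Algebra K (IntermediateField.adjoin F (Set.range t)) := ψ.toAlgebra
    have : IsScalarTower K (IntermediateField.adjoin F (Set.range t)) Ω :=
      IsScalarTower.of_algebraMap_eq fun x => rfl
    exact Algebra.IsAlgebraic.tower_top (K := K) (IntermediateField.adjoin F (Set.range t))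
  -- roots
  have hroot : ∀ ρ : Ω, (g.map (algebraMap A Ω)).eval ρ = 0 → ∃ p : A, algebraMap A Ω p = ρ := by
    intro ρ hρ
    let E : Derivation F Ω Ω := ∑ l, t l • D l
    have hE1 : ∀ x, E x = ∑ l, t l * D l x := fun x => by
      change Derivation.coeFnAddMonoidHom (∑ l, t l • D l) x = _
      rw [map_sum, Finset.sum_apply]
      rfl
    have h3 : E ρ = 2 * ρ := hE ρ hρ E fun j => by
      rw [hE1]
      refine Eq.trans (Finset.sum_congr rfl fun l _ => ?_) (hT j)
      rw [← hD l j]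
    have h4 : ρ ∈ IntermediateField.adjoin F (Set.range t) :=
      mem_adjoin_of_affine t i₀ halg D hDt (fun i hi => h2 ρ hρ i hi (D i) (hD i)) 2 (by
        rw [← hE1, h3]
        norm_num)
    obtain ⟨r, hr⟩ := ht1 h4
    change φ r = ρ at hr
    have h5 : IsIntegral A r := by
      refine ⟨g, hg, ?_⟩
      apply (algebraMap K Ω).injective
      rw [Polynomial.hom_eval₂, map_zero, ← IsScalarTower.algebraMap_eq]
      change Polynomial.eval₂ (algebraMap A Ω) (φ r) g = 0
      rw [hr, ← Polynomial.eval_map, hρ]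
    obtain ⟨p, hp⟩ := IsIntegrallyClosed.isIntegral_iff.1 h5
    refine ⟨p, ?_⟩
    rw [← hr, ← hp]
    exact IsScalarTower.algebraMap_apply A K Ω p
  choose! pre hpre using hroot
  refine ⟨(g.map (algebraMap A Ω)).roots.map pre, ?_⟩
  apply Polynomial.map_injective _ hinjA
  have hmon : (g.map (algebraMap A Ω)).Monic := hg.map _
  have h6 := (IsAlgClosed.splits (g.map (algebraMap A Ω))).eq_prod_roots_of_monic hmon
  conv_lhs => rw [h6]
  rw [Polynomial.map_multiset_prod, Multiset.map_map, Multiset.map_map]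
  congr 1
  refine Multiset.map_congr rfl fun ρ hρ => ?_
  have h7 := hpre ρ ((Polynomial.mem_roots'.1 hρ).2)
  simp only [Function.comp_apply, Polynomial.map_sub, Polynomial.map_X, Polynomial.map_C, h7]

theorem co2_euler {F : Type*} [Field F] {n : ℕ} {Ω : Type*} [Field Ω]
    [Algebra (MvPolynomial (Fin n) F) Ω] [Algebra F Ω]
    [IsScalarTower F (MvPolynomial (Fin n) F) Ω] (E : Derivation F Ω Ω)
    (hE : ∀ j, E (algebraMap (MvPolynomial (Fin n) F) Ω (MvPolynomial.X j)) =
      algebraMap (MvPolynomial (Fin n) F) Ω (MvPolynomial.X j))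
    {m : ℕ} {p : MvPolynomial (Fin n) F} (hp : p.IsHomogeneous m) :
    E (algebraMap _ Ω p) = (m : Ω) * algebraMap _ Ω p := by
  have key : ∀ q : MvPolynomial (Fin n) F, E (algebraMap _ Ω q) =
      algebraMap _ Ω (∑ i, MvPolynomial.X i * MvPolynomial.pderiv i q) := by
    intro q
    induction q using MvPolynomial.induction_on with
    | C c =>
      have h1 : algebraMap (MvPolynomial (Fin n) F) Ω (MvPolynomial.C c) = algebraMap F Ω c := by
        rw [← MvPolynomial.algebraMap_eq, ← IsScalarTower.algebraMap_apply]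
      rw [h1, Derivation.map_algebraMap]
      simp
    | add q r hq hr =>
      rw [map_add, map_add, hq, hr, ← map_add, ← Finset.sum_add_distrib]
      simp only [map_add, mul_add]
    | mul_X q j hq =>
      rw [map_mul, Derivation.leibniz, hq, hE, smul_eq_mul, smul_eq_mul, ← map_mul, ← map_mul,
        ← map_add]
      congr 1
      simp only [Derivation.leibniz, smul_eq_mul, mul_add, Finset.sum_add_distrib,
        MvPolynomial.pderiv_X, Pi.single_apply, mul_ite, mul_one, mul_zero, Finset.sum_ite_eq,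
        Finset.mem_univ, if_true, Finset.mul_sum]
      congr 1
      · ring
      · exact Finset.sum_congr rfl fun i _ => by ring
  rw [key, hp.sum_X_mul_pderiv, map_nsmul, nsmul_eq_mul]

theorem co2_cast {Ω : Type*} [Field Ω] [CharZero Ω] (k : ℕ) :
    ((2 * k : ℕ) : Ω) = ((2 * k * 1 : ℚ) : Ω) := by
  push_cast
  ring

variable {R : Type u} [CommRing R] [Algebra ℂ R] {𝒜 : ℕ → Submodule ℂ R} [GradedAlgebra 𝒜]
  {P : R →ₗ[ℂ] R →ₗ[ℂ] R} {H : R} {a : ℤ} {n : ℕ}

/-- (7g) -/
theorem CtxN.split_of_span (C : CtxN 𝒜 P H a n)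
    {y : R →ₐ[ℂ] ℂ} (hy : HasSlope 𝒜 P H y a) (f : Frame 𝒜 P H a n) (hΔ : y f.Δ ≠ 0)
    {Q : (Ap 𝒜 P (-H) a)[X]} (hQ : IsMinPoly 𝒜 P H a (C.half.ctx.cell f y) Q)
    {F : Type v} [Field F] [IsAlgClosed F] [Algebra ℂ F]
    {Ψ : R →ₐ[ℂ] MvPolynomial (Fin n) F} (hΨ : IsCell 𝒜 P H a Ψ) (hi : InjA 𝒜 P (-H) a Ψ)
    (hspan : ∀ ζ : Fin n → F, MvPolynomial.eval ζ (Ψ H) = 0 →
      ζ ∈ Submodule.span F (Bhat 𝒜 P H a Ψ)) :
    ∃ s : Multiset (MvPolynomial (Fin n) F),
      mapQ Q Ψ = (s.map fun q => Polynomial.X - Polynomial.C q).prod := by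
  classical
  have hcF : CharZero F := charZero_of_injective_algebraMap (algebraMap ℂ F).injective
  have hHW : H ∈ Wt 𝒜 P H 1 (a * (1 : ℕ) - a * (1 : ℕ)) := by
    rw [sub_self, mem_Wt]
    exact ⟨C.half.ctx.hH.mem, by rw [C.half.ctx.hX.alternating]; simp⟩
  obtain ⟨c, hc⟩ := co2_linform (hΨ.homog 1 1 H hHW)
  let φ : (Fin n → F) →ₗ[F] F := ∑ i, c i • LinearMap.proj i
  have hφ : ∀ ζ, MvPolynomial.eval ζ (Ψ H) = φ ζ := fun ζ => by
    rw [hc, map_sum, LinearMap.sum_apply]
    refine Finset.sum_congr rfl fun i _ => ?_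
    rw [map_mul, MvPolynomial.eval_X, MvPolynomial.eval_C, LinearMap.smul_apply, smul_eq_mul,
      mul_comm]
    rfl
  obtain ⟨i₁, hi₁⟩ : ∃ i, c i ≠ 0 := by
    by_contra hcon
    push Not at hcon
    exact hΨ.ne (by rw [hc]; simp [hcon])
  have hv : φ (Pi.single i₁ 1) ≠ 0 := by
    rw [← hφ, hc]
    simpa [Pi.single_apply] using hi₁
  obtain ⟨b, i₀, hb⟩ := co2_basis φ (Bhat 𝒜 P H a Ψ) _ hv fun ζ hζ => hspan ζ (by rw [hφ, hζ])
  let A := MvPolynomial (Fin n) F
  let K := FractionRing A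
  let Ω := AlgebraicClosure K
  have hinj : Function.Injective (algebraMap A Ω) := by
    rw [IsScalarTower.algebraMap_eq A K Ω]
    exact (algebraMap K Ω).injective.comp (IsFractionRing.injective A K)
  have htow : IsScalarTower ℂ F Ω := inferInstance
  have htow2 : IsScalarTower ℂ A Ω := inferInstance
  have htow3 : IsScalarTower F A Ω := inferInstance
  refine co2_core (K := K) (Ω := Ω) b i₀ (hQ.monic.map _) ?_ ?_
  · intro ρ hρ i hi0 D hD
    let T : Fin n → Ω := fun j => algebraMap A Ω (MvPolynomial.X j)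
    have hAe : (MvPolynomial.aeval T : MvPolynomial (Fin n) F →ₐ[F] Ω) =
        IsScalarTower.toAlgHom F A Ω := by
      ext j
      rw [MvPolynomial.aeval_X]
      rfl
    have hT : AlgebraicIndependent F T := by
      rw [algebraicIndependent_iff_injective_aeval, hAe]
      exact hinj
    refine C.affine_of_bhat hy f hΔ hQ hΨ hi T hT (hb i hi0) D hD ?_
    rw [hAe]
    exact hρ
  · intro ρ hρ E hE
    let x : R →ₐ[ℂ] Ω := (IsScalarTower.toAlgHom ℂ A Ω).comp Ψ
    have hx : InjA 𝒜 P (-H) a x := fun r hr h0 => hi r hr (hinj (by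
      rw [map_zero]
      exact h0))
    have hρ' : (mapQ Q x).eval ρ = 0 := by
      have h1 : mapQ Q x = (mapQ Q Ψ).map (algebraMap A Ω) := by
        rw [mapQ, mapQ, Polynomial.map_map]
        rfl
      rw [h1]
      exact hρ
    obtain ⟨ψ, hψi, hψ, hψρ⟩ := C.exists_psi hy f hΔ hQ x hx hρ'
    have h2 := C.euler_psi hy f hΔ ψ hψi (E.restrictScalars ℂ) 1 (fun k c hc => by
      have h3 : c ∈ Ap 𝒜 P (-H) a := Algebra.subset_adjoin ⟨k, by rwa [Wt_neg]⟩
      have h4 : (Ψ c).IsHomogeneous (2 * k) := hΨ.homog k (2 * k) c (by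
        have h5 : a * (k : ℤ) - a * ((2 * k : ℕ) : ℤ) = -(a * k) := by push_cast; ring
        rwa [h5])
      rw [hψ c h3, Derivation.restrictScalars_apply]
      change E (algebraMap A Ω (Ψ c)) = _ * algebraMap A Ω (Ψ c)
      rw [co2_euler E hE h4, co2_cast]) 2 (C.half.ctx.cell f y H ^ 2) (by
        have h6 := C.half.ctx.cell_homog f (C.half.ctx.hasSlope_iff_pure.1 hy).1 1 1 H hHW
        exact h6.pow 2)
    rw [map_pow, hψρ, Derivation.restrictScalars_apply] at h2
    rw [h2]
    norm_num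

end Vale.Agent.P292
end

section

/-! Theorem E, section 7: (REG) for polynomials. See `PROOF.md`. -/

namespace Vale.Agent.P292

open Module Polynomial

universe u v

variable {R : Type u} [CommRing R] [Algebra ℂ R] {𝒜 : ℕ → Submodule ℂ R} [GradedAlgebra 𝒜]
  {P : R →ₗ[ℂ] R →ₗ[ℂ] R} {H : R} {a : ℤ} {n : ℕ}

variable {κ : Type v} [Field κ] [IsAlgClosed κ] [Algebra ℂ κ]
  {F : Type v} [Field F] [IsAlgClosed F] [Algebra ℂ F] [Algebra κ F] [IsScalarTower ℂ κ F]
  {Ω : Type v} [Field Ω] [IsAlgClosed Ω] [Algebra ℂ Ω] [Algebra κ Ω] [Algebra F Ω]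
  [IsScalarTower ℂ κ Ω] [IsScalarTower ℂ F Ω] [IsScalarTower κ F Ω]

variable {C : CtxN 𝒜 P H a n} {μ : R →ₐ[ℂ] MvPolynomial (Fin 2) κ} {f : Frame 𝒜 P H a n}
    {u : Fin 2 → F} {t : Fin n → Ω}

/-- An irreducible polynomial in two variables has a zero other than the origin. -/
theorem sp13_zero {κ : Type v} [Field κ] [IsAlgClosed κ] {p : MvPolynomial (Fin 2) κ}
    (hp : Irreducible p) : ∃ w : Fin 2 → κ, w ≠ 0 ∧ MvPolynomial.eval w p = 0 := by
  by_contra hcon
  push Not at hcon
  have hprime : Prime p := hp.prime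
  have key : ∀ i : Fin 2, p ∣ MvPolynomial.X i := by
    intro i
    have h1 : (MvPolynomial.X i : MvPolynomial (Fin 2) κ) ∈
        MvPolynomial.vanishingIdeal κ (MvPolynomial.zeroLocus κ (Ideal.span {p})) := by
      rw [MvPolynomial.mem_vanishingIdeal_iff]
      intro w hw
      rw [MvPolynomial.mem_zeroLocus_iff] at hw
      have h2 : w = 0 := by
        by_contra h0
        have h3 := hw p (Ideal.mem_span_singleton_self p)
        rw [MvPolynomial.aeval_eq_eval] at h3
        exact hcon w h0 h3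
      rw [MvPolynomial.aeval_X, h2, Pi.zero_apply]
    rw [MvPolynomial.vanishingIdeal_zeroLocus_eq_radical] at h1
    have hP : (Ideal.span {p}).IsPrime := (Ideal.span_singleton_prime hp.ne_zero).2 hprime
    rw [hP.radical] at h1
    exact Ideal.mem_span_singleton.1 h1
  have h0 : Irreducible (MvPolynomial.X 0 : MvPolynomial (Fin 2) κ) :=
    (MvPolynomial.X_prime (i := (0 : Fin 2))).irreducible
  have h2 : (MvPolynomial.X 0 : MvPolynomial (Fin 2) κ) ∣ MvPolynomial.X 1 :=
    ((hp.associated_of_dvd h0 (key 0)).symm.dvd).trans (key 1)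
  rw [MvPolynomial.X_dvd_X] at h2
  exact absurd h2 (by decide)

/-- A valuation ring dominating the localisation at a prime polynomial. -/
theorem sp13_valuation {κ : Type v} [Field κ] {F : Type v} [Field F] [Algebra κ F]
    {u : Fin 2 → F} (hu : AlgebraicIndependent κ u) {p : MvPolynomial (Fin 2) κ}
    (hp : Irreducible p) :
    ∃ 𝒪 : ValuationSubring F,
      (∀ q : MvPolynomial (Fin 2) κ, MvPolynomial.aeval u q ∈ 𝒪) ∧
      (∀ q : MvPolynomial (Fin 2) κ, ¬ p ∣ q → 𝒪.valuation (MvPolynomial.aeval u q) = 1) ∧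
      (∀ q : MvPolynomial (Fin 2) κ, p ∣ q → 𝒪.valuation (MvPolynomial.aeval u q) < 1) := by
  have hprime : Prime p := hp.prime
  have hP : (Ideal.span {p}).IsPrime := (Ideal.span_singleton_prime hp.ne_zero).2 hprime
  set 𝔭 := Ideal.span {p} with h𝔭
  have hunit : ∀ s : 𝔭.primeCompl, IsUnit ((MvPolynomial.aeval u :
      MvPolynomial (Fin 2) κ →ₐ[κ] F).toRingHom s) := by
    intro s
    rw [isUnit_iff_ne_zero]
    intro h0
    have h1 : (s : MvPolynomial (Fin 2) κ) = 0 := by
      apply hu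
      rw [map_zero]
      exact h0
    exact s.2 (by rw [h1]; exact 𝔭.zero_mem)
  let g : Localization.AtPrime 𝔭 →+* F := IsLocalization.lift (M := 𝔭.primeCompl) hunit
  have hg : ∀ q : MvPolynomial (Fin 2) κ, g (algebraMap _ _ q) = MvPolynomial.aeval u q := by
    intro q
    exact IsLocalization.lift_eq hunit q
  obtain ⟨𝒪, h, hloc⟩ := IsLocalRing.exists_factor_valuationRing g
  refine ⟨𝒪, fun q => ?_, fun q hq => ?_, fun q hq => ?_⟩
  · rw [← hg]
    exact h _
  · have hq' : q ∈ 𝔭.primeCompl := fun hm => hq (Ideal.mem_span_singleton.1 hm)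
    have hu1 : IsUnit (algebraMap (MvPolynomial (Fin 2) κ) (Localization.AtPrime 𝔭) q) :=
      IsLocalization.map_units (Localization.AtPrime 𝔭) ⟨q, hq'⟩
    have hu2 := hu1.map (g.codRestrict 𝒪.toSubring h)
    have hmem : MvPolynomial.aeval u q ∈ 𝒪 := by rw [← hg]; exact h _
    have heq : (g.codRestrict 𝒪.toSubring h)
        (algebraMap (MvPolynomial (Fin 2) κ) (Localization.AtPrime 𝔭) q) =
          (⟨MvPolynomial.aeval u q, hmem⟩ : 𝒪) := Subtype.ext (hg q)
    exact (𝒪.valuation_eq_one_iff ⟨MvPolynomial.aeval u q, hmem⟩).1 (heq ▸ hu2)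
  · have hmem : MvPolynomial.aeval u q ∈ 𝒪 := by rw [← hg]; exact h _
    rcases lt_or_eq_of_le ((𝒪.valuation_le_one_iff _).2 hmem) with h1 | h1
    · exact h1
    exfalso
    have hu3 : IsUnit (⟨MvPolynomial.aeval u q, hmem⟩ : 𝒪) :=
      (𝒪.valuation_eq_one_iff _).2 h1
    have heq : (g.codRestrict 𝒪.toSubring h)
        (algebraMap (MvPolynomial (Fin 2) κ) (Localization.AtPrime 𝔭) q) =
          (⟨MvPolynomial.aeval u q, hmem⟩ : 𝒪) := Subtype.ext (hg q)
    have hu1 := hloc.map_nonunit _ (heq ▸ hu3)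
    rw [IsLocalization.AtPrime.isUnit_to_map_iff (Localization.AtPrime 𝔭) 𝔭] at hu1
    exact hu1 (Ideal.mem_span_singleton.2 hq)

/-- (REG) for polynomials. -/
theorem CtxN.mem_range_of_defect_one (C : CtxN 𝒜 P H a n) (hu : AlgebraicIndependent κ u)
    (hμ : IsLine 𝒜 P H a μ)
    (x : R →ₐ[ℂ] F) (hW : TypeW 𝒜 P H a x) (hx : ∀ c ∈ Ap 𝒜 P H a, x c = nuF u μ c)
    (h1 : ∀ k : ℕ, ∀ r ∈ Wt 𝒜 P H k (a * k - a),
      x r ∈ (MvPolynomial.aeval u : MvPolynomial (Fin 2) κ →ₐ[κ] F).range) (r : R) :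
    x r ∈ (MvPolynomial.aeval u : MvPolynomial (Fin 2) κ →ₐ[κ] F).range := by
  classical
  -- step 1: all values lie in the field generated by `u`
  have hL : x r ∈ IntermediateField.adjoin κ (Set.range u) := by
    have hsub : ∀ z ∈ (MvPolynomial.aeval u : MvPolynomial (Fin 2) κ →ₐ[κ] F).range,
        z ∈ IntermediateField.adjoin κ (Set.range u) := by
      rintro z ⟨q, rfl⟩
      rw [IntermediateField.mem_adjoin_range_iff]
      exact ⟨q, 1, by simp⟩
    obtain ⟨f, hf⟩ := C.half.exists_frame_ne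
    have hΔ : x f.Δ ≠ 0 := by
      rw [hx _ (f.Δ_mem C.half.ctx)]
      intro h0
      apply hf
      apply hμ.inj _ (f.Δ_mem C.half.ctx)
      apply hu
      rw [map_zero]
      exact h0
    obtain ⟨ν, hν, hνx, ξ, hξ⟩ := C.half.gen_cell C.npos f x hW hΔ
    have hνF : ν = nuF u μ := by
      refine PureA.ext C.half.ctx hν (hμ.pure.comp _) fun c hc => ?_
      rw [hνx c hc, hx c hc]
    have hνL : ∀ s, ν s ∈ IntermediateField.adjoin κ (Set.range u) := by
      intro s
      rw [hνF]
      exact hsub _ ⟨μ s, rfl⟩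
    -- Cramer
    have hsys : ∀ j, ∑ i, ξ i * ν (f.mat i j) = x (f.r j) := by
      intro j
      rw [hξ, C.half.ctx.cell_defect_one f hν (f.hr j), map_sum]
      refine Finset.sum_congr rfl fun i _ => ?_
      simp [Frame.mat, mul_comm]
    have hξL : ∀ i, ξ i ∈ IntermediateField.adjoin κ (Set.range u) := by
      set L := IntermediateField.adjoin κ (Set.range u) with hLdef
      let M' : Matrix (Fin n) (Fin n) L := Matrix.of fun i j => ⟨ν (f.mat i j), hνL _⟩
      let M : Matrix (Fin n) (Fin n) F := (algebraMap L F).mapMatrix M'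
      have hM : M = (ν : R →+* F).mapMatrix f.mat := by
        ext i j; rfl
      have hdet : M.det = ν f.Δ := by
        rw [hM, ← RingHom.map_det]
        rfl
      have hdet0 : M.det ≠ 0 := by
        rw [hdet, hνx _ (f.Δ_mem C.half.ctx)]
        exact hΔ
      have hadj : ∀ i j, M.adjugate i j ∈ L := by
        intro i j
        have : M.adjugate = (algebraMap L F).mapMatrix M'.adjugate :=
          (RingHom.map_adjugate _ _).symm
        rw [this]
        exact (M'.adjugate i j).2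
      have hvec : Matrix.vecMul ξ M = fun j => x (f.r j) := by
        funext j
        rw [← hsys j]
        rfl
      have hmul : Matrix.vecMul (fun j => x (f.r j)) M.adjugate = M.det • ξ := by
        rw [← hvec, Matrix.vecMul_vecMul, Matrix.mul_adjugate, Matrix.vecMul_smul,
          Matrix.vecMul_one]
      intro i
      have h3 : M.det * ξ i = ∑ j, x (f.r j) * M.adjugate j i := by
        have := congrFun hmul i
        rw [Pi.smul_apply, smul_eq_mul] at this
        rw [← this]
        rfl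
      have h4 : ξ i = (M.det)⁻¹ * ∑ j, x (f.r j) * M.adjugate j i := by
        rw [← h3, inv_mul_cancel_left₀ hdet0]
      rw [h4]
      refine mul_mem (inv_mem ?_) (sum_mem fun j _ => mul_mem ?_ (hadj _ _))
      · rw [hdet]; exact hνL _
      · exact hsub _ (h1 _ _ (f.hr j))
    rw [hξ]
    have : MvPolynomial.aeval ξ (C.half.ctx.cell f ν r) =
        MvPolynomial.eval₂ (ν : R →+* F) ξ (C.half.ctx.exp f r) := by
      rw [Ctx.cell, AlgHom.comp_apply, MvPolynomial.aeval_def]
      erw [MvPolynomial.mapAlgHom_apply, MvPolynomial.eval₂_map]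
      rfl
    rw [this, MvPolynomial.eval₂_eq']
    refine sum_mem fun α _ => mul_mem (hνL _) (prod_mem fun i _ => pow_mem (hξL i) _)
  -- step 2: lowest terms
  rw [IntermediateField.mem_adjoin_range_iff] at hL
  obtain ⟨q₁, q₂, hq⟩ := hL
  by_cases h20 : q₂ = 0
  · rw [hq, h20, map_zero, div_zero]
    exact zero_mem _
  obtain ⟨p₂, p₁, c, hrel, hc2, hc1⟩ := UniqueFactorizationMonoid.exists_reduced_factors q₂ h20 q₁
  have hne : ∀ q : MvPolynomial (Fin 2) κ, q ≠ 0 → MvPolynomial.aeval u q ≠ 0 := by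
    intro q hq0 h0
    apply hq0
    apply hu
    rw [map_zero]
    exact h0
  have hc0 : c ≠ 0 := by rintro rfl; simp at hc2; exact h20 hc2.symm
  have hp20 : p₂ ≠ 0 := by rintro rfl; simp at hc2; exact h20 hc2.symm
  have hmul : x r * MvPolynomial.aeval u p₂ = MvPolynomial.aeval u p₁ := by
    rw [hq, ← hc1, ← hc2, map_mul, map_mul, mul_div_mul_left _ _ (hne c hc0),
      div_mul_cancel₀ _ (hne _ hp20)]
  have hunit : IsUnit p₂ := by
    by_contra hnu
    obtain ⟨p, hp, hpd⟩ := WfDvdMonoid.exists_irreducible_factor hnu hp20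
    obtain ⟨𝒪, hO1, hO2, hO3⟩ := sp13_valuation hu hp
    have hxO : x r ∈ 𝒪 := by
      refine C.mem_of_defect_one 𝒪 x hW (fun c hc => ?_) ?_ (fun k s hs => ?_) r
      · rw [hx c hc]
        exact hO1 (μ c)
      · obtain ⟨w, hw0, hwp⟩ := sp13_zero hp
        obtain ⟨k, hk, c, hc, hcw⟩ := hμ.nonvertex w hw0
        refine ⟨k, hk, c, hc, ?_⟩
        rw [hx c (mem_Ap hc)]
        refine hO2 (μ c) ?_
        rintro ⟨q, hq⟩
        apply hcw
        rw [hq, map_mul, hwp, zero_mul]
      · obtain ⟨q, hq⟩ := h1 k s hs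
        rw [← hq]
        exact hO1 q
    have h3 : 𝒪.valuation (MvPolynomial.aeval u p₁) < 1 := by
      rw [← hmul, map_mul]
      refine lt_of_le_of_lt ?_ (hO3 _ hpd)
      exact mul_le_of_le_one_left' ((𝒪.valuation_le_one_iff _).2 hxO)
    have h4 : p ∣ p₁ := by
      by_contra h5
      rw [hO2 p₁ h5] at h3
      exact lt_irrefl _ h3
    exact hp.not_isUnit (hrel hpd h4)
  obtain ⟨w, rfl⟩ := hunit
  refine ⟨p₁ * ((w⁻¹ : (MvPolynomial (Fin 2) κ)ˣ) : MvPolynomial (Fin 2) κ), ?_⟩
  change MvPolynomial.aeval u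
    (p₁ * ((w⁻¹ : (MvPolynomial (Fin 2) κ)ˣ) : MvPolynomial (Fin 2) κ)) = x r
  rw [map_mul, ← hmul, mul_assoc, ← map_mul, Units.mul_inv, map_one, mul_one]

end Vale.Agent.P292
end

section

/-! Theorem E, section 7: (7e). See `PROOF.md`. -/

namespace Vale.Agent.P292

open Module Polynomial

universe u v

variable {R : Type u} [CommRing R] [Algebra ℂ R] {𝒜 : ℕ → Submodule ℂ R} [GradedAlgebra 𝒜]
  {P : R →ₗ[ℂ] R →ₗ[ℂ] R} {H : R} {a : ℤ} {n : ℕ}

variable {κ : Type v} [Field κ] [IsAlgClosed κ] [Algebra ℂ κ]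
  {F : Type v} [Field F] [IsAlgClosed F] [Algebra ℂ F] [Algebra κ F] [IsScalarTower ℂ κ F]
  {Ω : Type v} [Field Ω] [IsAlgClosed Ω] [Algebra ℂ Ω] [Algebra κ Ω] [Algebra F Ω]
  [IsScalarTower ℂ κ Ω] [IsScalarTower ℂ F Ω] [IsScalarTower κ F Ω]

variable {C : CtxN 𝒜 P H a n} {μ : R →ₐ[ℂ] MvPolynomial (Fin 2) κ} {f : Frame 𝒜 P H a n}
    {u : Fin 2 → F} {t : Fin n → Ω}

/-- A derivation on a monomial in eigenvectors. -/
theorem sp14_prod {k : Type*} {S : Type*} [CommRing k] [CommRing S] [Algebra k S]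
    (E : Derivation k S S) {ι : Type*} (y w : ι → S) (hy : ∀ i, E (y i) = w i * y i)
    (s : Finset ι) (m : ι → ℕ) :
    E (∏ i ∈ s, y i ^ m i) = (∑ i ∈ s, (m i : S) * w i) * ∏ i ∈ s, y i ^ m i := by
  classical
  induction s using Finset.induction_on with
  | empty => simp
  | insert i s hi ih =>
    rw [Finset.prod_insert hi, Finset.sum_insert hi, Derivation.leibniz, ih,
      Derivation.leibniz_pow, hy]
    simp only [smul_eq_mul, nsmul_eq_mul]
    rcases Nat.eq_zero_or_pos (m i) with h0 | h0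
    · rw [h0]
      simp
    · have e : y i ^ m i = y i ^ (m i - 1) * y i := by
        rw [← pow_succ, Nat.sub_add_cancel h0]
      rw [e]
      ring

/-- Euler's identity. -/
theorem sp14_euler {k : Type*} {S : Type*} [CommRing k] [CommRing S] [Algebra k S]
    (E : Derivation k S S) {σ : Type*} [Fintype σ] (y : σ → S) (hy : ∀ i, E (y i) = y i)
    {d : ℕ} {p : MvPolynomial σ k} (hp : p.IsHomogeneous d) :
    E (MvPolynomial.aeval y p) = (d : S) * MvPolynomial.aeval y p := by
  classical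
  conv_lhs => rw [p.as_sum]
  conv_rhs => rw [p.as_sum]
  rw [map_sum, map_sum, Finset.mul_sum]
  refine Finset.sum_congr rfl fun v hv => ?_
  have hd : ∑ i, v i = d := by
    have h1 := hp (MvPolynomial.mem_support_iff.1 hv)
    rw [Finsupp.weight_apply, Finsupp.sum_fintype _ _ (fun i => by simp)] at h1
    simpa using h1
  rw [MvPolynomial.aeval_monomial, Finsupp.prod_fintype _ _ (fun i => by simp),
    Derivation.leibniz, Derivation.map_algebraMap, smul_zero, add_zero, smul_eq_mul,
    sp14_prod E y (fun _ => 1) (fun i => by rw [hy, one_mul])]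
  have : ∑ i, ((v i : ℕ) : S) * 1 = (d : S) := by
    rw [← hd, Nat.cast_sum]
    simp
  rw [this]
  ring

/-- The matrix of a basis of the module of derivations is nondegenerate. -/
theorem sp14_det_ne_zero (S : Setup 𝒜 P H a C μ f u t)
    {e : Fin n → R →ₗ[ℂ] MvPolynomial (Fin 2) κ} {d : Fin n → ℤ} {i₁ i₂ : Fin n}
    (hB : Setup.Basis (𝒜 := 𝒜) (P := P) (H := H) (a := a) μ e d i₁ i₂) :
    (Matrix.of fun l i => vecF f u (e l) i).det ≠ 0 := by
  classical
  set A : MvPolynomial (Fin 2) κ →ₐ[κ] F := MvPolynomial.aeval u with hA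
  have hinj : Function.Injective A := S.hu
  let M : Matrix (Fin n) (Fin n) (MvPolynomial (Fin 2) κ) := Matrix.of fun l i => e l (f.b i)
  have hM : (Matrix.of fun l i => vecF f u (e l) i) = A.toRingHom.mapMatrix M := by
    ext l i
    rfl
  rw [hM, ← RingHom.map_det]
  intro h0
  have h1 : M.det = 0 := hinj (by rw [map_zero]; exact h0)
  obtain ⟨q, hq0, hq⟩ := Matrix.exists_vecMul_eq_zero_iff.2 h1
  apply hq0
  let δ : R →ₗ[ℂ] MvPolynomial (Fin 2) κ := ∑ l, q l • e l
  have hδa : ∀ r, δ r = ∑ l, q l * e l r := by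
    intro r
    change (∑ l, q l • e l) r = _
    rw [LinearMap.sum_apply]
    exact Finset.sum_congr rfl fun l _ => by rw [LinearMap.smul_apply, smul_eq_mul]
  have hδ0 : δ = 0 := by
    refine C.half.ctx.ext_Wt δ 0 fun k m r hr => ?_
    rw [LinearMap.zero_apply]
    by_cases hm : m = a * k
    · subst hm
      let δF : R →ₗ[ℂ] F := (A.restrictScalars ℂ).toLinearMap.comp δ
      have h2 := C.half.derivation_eq_zero f S.Δ (nuF u μ) S.injA δF
        (fun x hx y hy => by
          change A (δ (x * y)) = A (μ x) * A (δ y) + A (μ y) * A (δ x)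
          rw [← map_mul, ← map_mul, ← map_add]
          congr 1
          rw [hδa, hδa, hδa, Finset.mul_sum, Finset.mul_sum, ← Finset.sum_add_distrib]
          refine Finset.sum_congr rfl fun l _ => ?_
          rw [(hB.mem l).1 x hx y hy]
          ring)
        (fun i => by
          change A (δ (f.b i)) = 0
          rw [hδa]
          have h3 := congrFun hq i
          have h4 : ∑ l, q l * e l (f.b i) = 0 := h3
          rw [h4, map_zero])
        r (mem_Ap hr)
      exact hinj (by rw [map_zero]; exact h2)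
    · rw [hδa]
      refine Finset.sum_eq_zero fun l _ => ?_
      rw [(hB.mem l).2.1 k m hm r hr, mul_zero]
  funext l
  exact Fintype.linearIndependent_iff.1 hB.indep q hδ0 l

/-- The dual vectors of basis elements of nonnegative degree lie in `B̂`. -/
theorem Setup.dual_mem_bhat (S : Setup 𝒜 P H a C μ f u t)
    {e : Fin n → R →ₗ[ℂ] MvPolynomial (Fin 2) κ} {d : Fin n → ℤ} {i₁ i₂ : Fin n}
    (hB : Setup.Basis (𝒜 := 𝒜) (P := P) (H := H) (a := a) μ e d i₁ i₂) (j : Fin n)
    (hj : d j ≠ -1) (T : Fin n → F)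
    (hT : ∀ l, ∑ i, T i * vecF f u (e l) i = if l = j then 1 else 0) :
    T ∈ Bhat 𝒜 P H a (PsiF C μ f u) := by
  classical
  set A : MvPolynomial (Fin 2) κ →ₐ[κ] F := MvPolynomial.aeval u with hA
  have hX := C.half.ctx.hX
  have hctx := C.half.ctx
  have hchar : CharZero Ω := charZero_of_injective_algebraMap (algebraMap ℂ Ω).injective
  -- the point `x`
  let x : R →ₐ[ℂ] F :=
    ((MvPolynomial.aeval T : MvPolynomial (Fin n) F →ₐ[F] F).restrictScalars ℂ).comp
      (PsiF C μ f u)
  have hxa : ∀ r, x r = MvPolynomial.eval T (PsiF C μ f u r) := by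
    intro r
    exact congrFun (MvPolynomial.aeval_eq_eval T) (PsiF C μ f u r)
  have hW : TypeW 𝒜 P H a x := TypeW.comp (hctx.typeW_cell f S.pure) _
  have hxA : ∀ c ∈ Ap 𝒜 P H a, x c = nuF u μ c := by
    intro c hc
    rw [hxa]
    change MvPolynomial.eval T (hctx.cell f (nuF u μ) c) = _
    rw [hctx.cell_Ap f (nuF u μ) hc, MvPolynomial.eval_C]
  have h1 : ∀ k : ℕ, ∀ r ∈ Wt 𝒜 P H k (a * k - a), x r ∈ A.range := by
    intro k r hr
    obtain ⟨δ, hδ, hδr⟩ := hctx.P_mem_DerM S.line hr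
    obtain ⟨p, hp, hpe⟩ := hB.span _ δ hδ
    have e1 : x r = ∑ i, nuF u μ (P (f.b i) r) * T i := by
      rw [hxa]
      change MvPolynomial.eval T (hctx.cell f (nuF u μ) r) = _
      rw [hctx.cell_defect_one f S.pure hr, map_sum]
      refine Finset.sum_congr rfl fun i _ => ?_
      rw [map_mul, MvPolynomial.eval_C, MvPolynomial.eval_X]
    have e2 : ∀ i, nuF u μ (P (f.b i) r) = - ∑ l, A (p l) * vecF f u (e l) i := by
      intro i
      rw [hX.skew, map_neg]
      congr 1
      have h3 : nuF u μ (P r (f.b i)) = A (δ (f.b i)) := by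
        rw [hδr (f.b i) (mem_Ap (f.hb i))]
        rfl
      rw [h3, hpe, LinearMap.sum_apply, map_sum]
      refine Finset.sum_congr rfl fun l _ => ?_
      rw [LinearMap.smul_apply, smul_eq_mul, map_mul]
      rfl
    have e3 : x r = - A (p j) := by
      rw [e1]
      have h4 : ∀ i, nuF u μ (P (f.b i) r) * T i = - ∑ l, A (p l) * (T i * vecF f u (e l) i) := by
        intro i
        rw [e2 i, neg_mul, Finset.sum_mul]
        congr 1
        refine Finset.sum_congr rfl fun l _ => ?_
        ring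
      rw [Finset.sum_congr rfl fun i _ => h4 i, Finset.sum_neg_distrib, Finset.sum_comm]
      congr 1
      have h5 : ∀ l, ∑ i, A (p l) * (T i * vecF f u (e l) i) = if l = j then A (p l) else 0 := by
        intro l
        rw [← Finset.mul_sum, hT l]
        split_ifs <;> simp
      rw [Finset.sum_congr rfl fun l _ => h5 l]
      simp
    rw [e3]
    exact neg_mem ⟨p j, rfl⟩
  have hreg := C.mem_range_of_defect_one S.hu S.line x hW hxA h1
  -- the Euler derivation
  obtain ⟨E1, hE1, -⟩ := S.exists_euler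
  let E : Derivation κ Ω Ω := E1.restrictScalars κ
  have hE : ∀ i, E (algebraMap F Ω (u i)) = algebraMap F Ω (u i) := hE1
  have hAu : ∀ p : MvPolynomial (Fin 2) κ,
      algebraMap F Ω (A p) = MvPolynomial.aeval (fun i => algebraMap F Ω (u i)) p := by
    intro p
    have := MvPolynomial.aeval_algebraMap_apply (R := κ) (A := F) Ω u p
    exact this.symm
  have hEA : ∀ (m : ℕ) (p : MvPolynomial (Fin 2) κ), p.IsHomogeneous m →
      E (algebraMap F Ω (A p)) = (m : Ω) * algebraMap F Ω (A p) := by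
    intro m p hp
    rw [hAu]
    exact sp14_euler E _ hE hp
  -- weights of the coordinates of `T`
  have hv : ∀ l i, E (algebraMap F Ω (vecF f u (e l) i))
      = (((f.kb i : ℤ) + d l : ℤ) : Ω) * algebraMap F Ω (vecF f u (e l) i) := by
    intro l i
    rcases (hB.mem l).2.2 (f.kb i) (f.b i) (f.hb i) with h0 | ⟨m, hm, hh⟩
    · have : vecF f u (e l) i = 0 := by
        unfold vecF
        rw [h0, map_zero]
      rw [this, map_zero, map_zero, mul_zero]
    · have := hEA m _ hh
      rw [← hm]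
      rw [Int.cast_natCast]
      exact this
  have hTE : ∀ i, E (algebraMap F Ω (T i))
      = (-(((f.kb i : ℤ) + d j : ℤ) : Ω)) * algebraMap F Ω (T i) := by
    let V : Matrix (Fin n) (Fin n) Ω := Matrix.of fun l i => algebraMap F Ω (vecF f u (e l) i)
    have hV : V.det ≠ 0 := by
      have h2 : V = (algebraMap F Ω).mapMatrix (Matrix.of fun l i => vecF f u (e l) i) := by
        ext l i
        rfl
      rw [h2, ← RingHom.map_det]
      intro h3
      exact sp14_det_ne_zero S hB ((algebraMap F Ω).injective (by rw [h3, map_zero]))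
    let z : Fin n → Ω := fun i => E (algebraMap F Ω (T i))
      + (((f.kb i : ℤ) + d j : ℤ) : Ω) * algebraMap F Ω (T i)
    have hz : V.mulVec z = 0 := by
      funext l
      change ∑ i, algebraMap F Ω (vecF f u (e l) i) * z i = 0
      have h3 : ∑ i, algebraMap F Ω (T i) * algebraMap F Ω (vecF f u (e l) i)
          = if l = j then 1 else 0 := by
        have h4 := congrArg (algebraMap F Ω) (hT l)
        rw [map_sum] at h4
        simp only [map_mul] at h4
        rw [h4]
        split_ifs <;> simp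
      have h5 : ∑ i, (E (algebraMap F Ω (T i)) * algebraMap F Ω (vecF f u (e l) i)
          + algebraMap F Ω (T i) * ((((f.kb i : ℤ) + d l : ℤ) : Ω)
            * algebraMap F Ω (vecF f u (e l) i))) = 0 := by
        have h6 := congrArg E h3
        rw [map_sum] at h6
        have h7 : E (if l = j then 1 else 0) = 0 := by
          split_ifs
          · exact E.map_one_eq_zero
          · exact map_zero E
        rw [h7] at h6
        rw [← h6]
        refine Finset.sum_congr rfl fun i _ => ?_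
        rw [Derivation.leibniz, hv l i, smul_eq_mul, smul_eq_mul]
        ring
      have h8 : ∑ i, algebraMap F Ω (vecF f u (e l) i) * z i
          = ∑ i, (E (algebraMap F Ω (T i)) * algebraMap F Ω (vecF f u (e l) i)
          + algebraMap F Ω (T i) * ((((f.kb i : ℤ) + d l : ℤ) : Ω)
            * algebraMap F Ω (vecF f u (e l) i)))
          + ((d j : Ω) - (d l : Ω)) * ∑ i, algebraMap F Ω (T i)
            * algebraMap F Ω (vecF f u (e l) i) := by
        rw [Finset.mul_sum, ← Finset.sum_add_distrib]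
        refine Finset.sum_congr rfl fun i _ => ?_
        change algebraMap F Ω (vecF f u (e l) i) * (E (algebraMap F Ω (T i))
          + (((f.kb i : ℤ) + d j : ℤ) : Ω) * algebraMap F Ω (T i)) = _
        push_cast
        ring
      rw [h8, h5, h3, zero_add]
      split_ifs with hl
      · rw [hl, sub_self, zero_mul]
      · rw [mul_zero]
    have hz0 := Matrix.eq_zero_of_mulVec_eq_zero hV hz
    intro i
    have h9 : E (algebraMap F Ω (T i))
      + (((f.kb i : ℤ) + d j : ℤ) : Ω) * algebraMap F Ω (T i) = 0 := congrFun hz0 i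
    rw [neg_mul]
    exact eq_neg_of_add_eq_zero_left h9
  -- the values on `A₋`
  intro k hk c hc
  rw [← hxa]
  have hdj : 0 ≤ d j := by
    have := hB.le j
    omega
  have hxc : E (algebraMap F Ω (x c))
      = ((-((k : ℚ) * (1 + 2 * (d j : ℚ))) : ℚ) : Ω) * algebraMap F Ω (x c) := by
    have e1 : x c = ∑ α ∈ (PsiF C μ f u c).support, (PsiF C μ f u c).coeff α
        * ∏ i, T i ^ α i := by
      rw [hxa, MvPolynomial.eval_eq']
    rw [e1, map_sum, map_sum, Finset.mul_sum]
    refine Finset.sum_congr rfl fun α _ => ?_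
    have hco : (PsiF C μ f u c).coeff α = nuF u μ (MvPolynomial.coeff α (hctx.exp f c)) := by
      change (MvPolynomial.mapAlgHom (nuF u μ) (hctx.exp f c)).coeff α = _
      rw [MvPolynomial.mapAlgHom_apply, MvPolynomial.coeff_map]
      rfl
    have hmem := hctx.coeff_exp_mem f hc α
    set r := MvPolynomial.coeff α (hctx.exp f c) with hr
    set k' : ℕ := k + ∑ i, α i * (f.kb i - 1) with hk'
    rw [hco]
    by_cases hm : (-(a * k) + a * ∑ i, (α i : ℤ) * f.kb i : ℤ) = a * (k' : ℤ)
    · -- weight computation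
      rw [hm] at hmem
      have ha : a ≠ 0 := hctx.pos.ne'
      have h2 : (-(k : ℤ) + ∑ i, (α i : ℤ) * f.kb i : ℤ) = k' := by
        apply mul_left_cancel₀ ha
        rw [← hm]
        ring
      have h3 : (k' : ℤ) = k + ((∑ i, (α i : ℤ) * f.kb i) - ∑ i, (α i : ℤ)) := by
        rw [hk']
        push_cast
        rw [← Finset.sum_sub_distrib]
        congr 1
        refine Finset.sum_congr rfl fun i _ => ?_
        rw [Nat.cast_sub (f.kb_pos i)]
        push_cast
        ring
      have h4 : ∑ i, (α i : ℤ) = 2 * k := by linarith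
      have hhom := S.line.homog k' r hmem
      have h5 : E (algebraMap F Ω (nuF u μ r)) = (k' : Ω) * algebraMap F Ω (nuF u μ r) :=
        hEA k' (μ r) hhom
      have h6 := sp14_prod E (fun i => algebraMap F Ω (T i))
        (fun i => -(((f.kb i : ℤ) + d j : ℤ) : Ω)) hTE Finset.univ (fun i => α i)
      rw [map_mul, map_prod]
      simp only [map_pow]
      rw [Derivation.leibniz, h5, h6, smul_eq_mul, smul_eq_mul]
      have h7 : (∑ i, ((α i : ℕ) : Ω) * -(((f.kb i : ℤ) + d j : ℤ) : Ω))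
          = ((-((∑ i, (α i : ℤ) * f.kb i) + d j * ∑ i, (α i : ℤ)) : ℤ) : Ω) := by
        push_cast
        rw [Finset.mul_sum, ← Finset.sum_add_distrib, ← Finset.sum_neg_distrib]
        refine Finset.sum_congr rfl fun i _ => ?_
        ring
      rw [h7]
      have h8 : (k' : Ω) = (((k' : ℤ)) : Ω) := by push_cast; rfl
      rw [h8, ← h2, h4]
      push_cast
      ring
    · have : nuF u μ r = 0 := S.pure k' _ hm r hmem
      rw [this, zero_mul, map_zero, map_zero, mul_zero]
  have hint : IsIntegral (Algebra.adjoin κ (Set.range fun i => algebraMap F Ω (u i)))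
      (algebraMap F Ω (x c)) := by
    obtain ⟨p, hp⟩ := hreg c
    have hp' : A p = x c := hp
    have hmem : algebraMap F Ω (x c) ∈ Algebra.adjoin κ (Set.range fun i => algebraMap F Ω (u i)) := by
      rw [← hp', hAu, Algebra.adjoin_range_eq_range_aeval]
      exact ⟨p, rfl⟩
    exact isIntegral_algebraMap (R := Algebra.adjoin κ (Set.range fun i => algebraMap F Ω (u i)))
      (A := Ω) (x := ⟨_, hmem⟩)
  have hneg : (-((k : ℚ) * (1 + 2 * (d j : ℚ))) : ℚ) < 0 := by
    have h1 : (0 : ℚ) < k := by exact_mod_cast hk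
    have h2 : (0 : ℚ) ≤ d j := by exact_mod_cast hdj
    have : 0 < (k : ℚ) * (1 + 2 * (d j : ℚ)) := by positivity
    linarith
  have h0 := eq_zero_of_isIntegral_of_neg (κ := κ) (fun i => algebraMap F Ω (u i)) E hE hint
    hneg hxc
  exact (map_eq_zero (algebraMap F Ω)).1 h0

end Vale.Agent.P292
end

section

/-! Theorem E, section 7: (7f), end. See `PROOF.md`. -/

namespace Vale.Agent.P292

open Module Polynomial

universe u v

/-- A linear relation between algebraically independent elements, with coefficients algebraic over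
the field generated by two of them, involves only these two. -/
theorem sp16_relation {κ k J : Type*} [Field κ] [Field k] [Algebra κ k] [Fintype J]
    [DecidableEq J] {x : J → k} (hx : AlgebraicIndependent κ x) (i₁ i₂ : J) (p : J → k)
    (hp : ∀ j, IsAlgebraic (IntermediateField.adjoin κ ({x i₁, x i₂} : Set k)) (p j))
    (h : ∑ j, p j * x j = 0) (j₀ : J) (h1 : j₀ ≠ i₁) (h2 : j₀ ≠ i₂) : p j₀ = 0 := by
  by_contra hne
  set A : IntermediateField κ k := IntermediateField.adjoin κ (x '' {j₀}ᶜ) with hA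
  have hle : IntermediateField.adjoin κ ({x i₁, x i₂} : Set k) ≤ A := by
    refine IntermediateField.adjoin.mono κ _ _ ?_
    rintro z (rfl | rfl)
    · exact ⟨i₁, h1.symm, rfl⟩
    · exact ⟨i₂, h2.symm, rfl⟩
  set L : IntermediateField A k := algebraicClosure A k with hL
  have hpL : ∀ j, p j ∈ L := by
    intro j
    refine mem_algebraicClosure_iff.2 ?_
    exact (hp j).ringHom_of_comp_eq (IntermediateField.inclusion hle : _ →+* A) (RingHom.id k)
      (IntermediateField.inclusion hle).injective rfl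
  have hxL : ∀ j, j ≠ j₀ → x j ∈ L := by
    intro j hj
    have : x j ∈ A := IntermediateField.subset_adjoin κ _ ⟨j, hj, rfl⟩
    exact L.algebraMap_mem ⟨x j, this⟩
  have hsum : ∑ j ∈ Finset.univ.erase j₀, p j * x j ∈ L :=
    sum_mem fun j hj => mul_mem (hpL j) (hxL j (Finset.ne_of_mem_erase hj))
  have hx0 : x j₀ = -((p j₀)⁻¹ * ∑ j ∈ Finset.univ.erase j₀, p j * x j) := by
    have h3 := Finset.add_sum_erase Finset.univ (fun j => p j * x j) (Finset.mem_univ j₀)
    rw [h] at h3
    have h4 : ∑ j ∈ Finset.univ.erase j₀, p j * x j = -(p j₀ * x j₀) := by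
      linear_combination h3
    rw [h4]
    field_simp
  have hmem : x j₀ ∈ L := by
    rw [hx0]
    exact neg_mem (mul_mem (inv_mem (hpL j₀)) hsum)
  exact IntermediateField.transcendental_adjoin_iff.2
    (hx.transcendental_adjoin (s := {j₀}ᶜ) (i := j₀) (by simp)) (mem_algebraicClosure_iff.1 hmem)

/-- Images of elements algebraic over `κ(u₀, u₁)`. -/
theorem sp16_algebraic {κ F k : Type*} [Field κ] [Field F] [Field k] [Algebra κ F] [Algebra κ k]
    (π : F →ₐ[κ] k) {u : Fin 2 → F} {s : Set k} (h0 : π (u 0) ∈ IntermediateField.adjoin κ s)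
    (h1 : π (u 1) ∈ IntermediateField.adjoin κ s) {g : F}
    (hg : IsAlgebraic (IntermediateField.adjoin κ (Set.range u)) g) :
    IsAlgebraic (IntermediateField.adjoin κ s) (π g) := by
  have hmem : ∀ z : IntermediateField.adjoin κ (Set.range u),
      ((π : F →+* k).comp (algebraMap (IntermediateField.adjoin κ (Set.range u)) F)) z ∈
        IntermediateField.adjoin κ s := by
    intro z
    have hle : IntermediateField.adjoin κ (Set.range u) ≤
        (IntermediateField.adjoin κ s).comap π := by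
      rw [IntermediateField.adjoin_le_iff]
      rintro _ ⟨i, rfl⟩
      fin_cases i
      · exact h0
      · exact h1
    exact hle z.2
  exact hg.ringHom_of_comp_eq (((π : F →+* k).comp
    (algebraMap (IntermediateField.adjoin κ (Set.range u)) F)).codRestrict
      (IntermediateField.adjoin κ s) hmem) π (RingHom.injective _) rfl

variable {R : Type u} [CommRing R] [Algebra ℂ R] {𝒜 : ℕ → Submodule ℂ R} [GradedAlgebra 𝒜]
  {P : R →ₗ[ℂ] R →ₗ[ℂ] R} {H : R} {a : ℤ} {n : ℕ}

variable {κ : Type v} [Field κ] [IsAlgClosed κ] [Algebra ℂ κ]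
  {F : Type v} [Field F] [IsAlgClosed F] [Algebra ℂ F] [Algebra κ F] [IsScalarTower ℂ κ F]
  {Ω : Type v} [Field Ω] [IsAlgClosed Ω] [Algebra ℂ Ω] [Algebra κ Ω] [Algebra F Ω]
  [IsScalarTower ℂ κ Ω] [IsScalarTower ℂ F Ω] [IsScalarTower κ F Ω]

variable {C : CtxN 𝒜 P H a n} {μ : R →ₐ[ℂ] MvPolynomial (Fin 2) κ} {f : Frame 𝒜 P H a n}
    {u : Fin 2 → F} {t : Fin n → Ω}

/-- The linear form of `Ψ(H)`. -/
theorem Setup.sp16_euler (S : Setup 𝒜 P H a C μ f u t) (ζ : Fin n → F)
    (hζ : MvPolynomial.eval ζ (PsiF C μ f u H) = 0) :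
    ∑ i, ζ i * ((f.kb i : F) * nuF u μ (f.b i)) = 0 := by
  have ha : 0 < a := (C.half.ctx.hmax.neg C.half.ctx.hX C.half.ctx.hH).2
  have haF : (a : F) ≠ 0 := by
    have h1 : algebraMap ℂ F (a : ℂ) = (a : F) := map_intCast _ a
    rw [← h1]
    exact (_root_.map_ne_zero _).2 (Int.cast_ne_zero.2 ha.ne')
  unfold PsiF at hζ
  rw [C.half.ctx.cell_H f S.pure, map_sum] at hζ
  have h2 : ∀ i, MvPolynomial.eval ζ (MvPolynomial.C (-((a * f.kb i : ℤ) : ℂ) • nuF u μ (f.b i)) *
      MvPolynomial.X i) = -(a : F) * (ζ i * ((f.kb i : F) * nuF u μ (f.b i))) := by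
    intro i
    rw [map_mul, MvPolynomial.eval_C, MvPolynomial.eval_X, Algebra.smul_def, map_neg, map_intCast]
    push_cast
    ring
  rw [Finset.sum_congr rfl fun i _ => h2 i, ← Finset.mul_sum] at hζ
  exact (mul_eq_zero.1 hζ).resolve_left (neg_ne_zero.2 haF)

/-! ### Task SP10 : end of (7f) -/

theorem Setup.span (S : Setup 𝒜 P H a C μ f u t) (ζ : Fin n → F)
    (hζ : MvPolynomial.eval ζ (PsiF C μ f u H) = 0) :
    ζ ∈ Submodule.span F (Bhat 𝒜 P H a (PsiF C μ f u)) := by
  classical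
  by_contra hnot
  obtain ⟨lam, hlam, hker⟩ := Submodule.exists_le_ker_of_notMem hnot
  obtain ⟨e, d, i₁, i₂, hB⟩ := S.exists_basis
  have hunit : IsUnit (Matrix.of fun j => vecF f u (e j)) :=
    Matrix.linearIndependent_rows_iff_isUnit.1 (S.linearIndependent_vec hB)
  set M : Matrix (Fin n) (Fin n) F := Matrix.of fun j => vecF f u (e j) with hM
  have hdet : IsUnit M.det := (Matrix.isUnit_iff_isUnit_det M).1 hunit
  set w : Fin n → F := fun i => lam (fun j => if i = j then 1 else 0) with hw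
  set g : Fin n → F := Matrix.vecMul w M⁻¹ with hg
  have hgM : Matrix.vecMul g M = w := by
    rw [hg, Matrix.vecMul_vecMul, Matrix.nonsing_inv_mul _ hdet, Matrix.vecMul_one]
  have hlamw : ∀ β, lam β = ∑ i, β i * w i := by
    intro β
    rw [LinearMap.pi_apply_eq_sum_univ lam β]
    rfl
  have hlamg : ∀ β, lam β = ∑ j, g j * ∑ i, β i * vecF f u (e j) i := by
    intro β
    rw [hlamw, ← hgM]
    simp only [Matrix.vecMul, dotProduct, Finset.mul_sum]
    rw [Finset.sum_comm]
    refine Finset.sum_congr rfl fun j _ => Finset.sum_congr rfl fun i _ => ?_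
    rw [hM, Matrix.of_apply]
    ring
  have hvan : ∀ β ∈ Bhat 𝒜 P H a (PsiF C μ f u),
      ∑ j, g j * ∑ i, β i * vecF f u (e j) i = 0 := by
    intro β hβ
    rw [← hlamg]
    exact hker (Submodule.subset_span hβ)
  have hg0 : ∀ j, d j ≠ -1 → g j = 0 := by
    intro j hj
    have hT : ∀ l, ∑ i, M⁻¹ i j * vecF f u (e l) i = if l = j then 1 else 0 := by
      intro l
      have h1 := congrFun (congrFun (Matrix.mul_nonsing_inv M hdet) l) j
      rw [Matrix.mul_apply, Matrix.one_apply] at h1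
      rw [← h1]
      refine Finset.sum_congr rfl fun i _ => ?_
      rw [hM, Matrix.of_apply, mul_comm]
    have h1 := hvan _ (S.dual_mem_bhat hB j hj (fun i => M⁻¹ i j) hT)
    simpa [hT] using h1
  obtain ⟨k, _, _, π, ι, h0, h1, hrel⟩ := S.exists_place hB
  have hrel := hrel g hvan hg0
  set y : {j : Fin n // d j = -1} → kapOne κ 𝒜 P H a (phiΩ t (PsiF C μ f u)) := fun j =>
    ⟨ccF μ f u t (vecF f u (e j)), S.cc_mem (by
          have := hB.mem j; rwa [j.2] at this)⟩ with hy
  have hyind : AlgebraicIndependent κ y :=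
    (AlgHom.algebraicIndependent_iff (kapOne κ 𝒜 P H a (phiΩ t (PsiF C μ f u))).val
      Subtype.val_injective).1 (S.algebraicIndependent_cc hB)
  have hxind : AlgebraicIndependent κ (fun j => ι (y j)) :=
    (AlgHom.algebraicIndependent_iff ι ι.injective).2 hyind
  set j₁ : {j : Fin n // d j = -1} := ⟨i₁, hB.d₁⟩ with hj₁
  set j₂ : {j : Fin n // d j = -1} := ⟨i₂, hB.d₂⟩ with hj₂
  have hne : j₁ ≠ j₂ := fun h => hB.ne (congrArg Subtype.val h)
  have h0' : π (u 0) = ι (y j₂) := h0
  have h1' : π (u 1) = -ι (y j₁) := h1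
  have hz : ∀ j : {j : Fin n // d j = -1}, j ≠ j₁ → j ≠ j₂ → g j = 0 := by
    intro j hja hjb
    have h2 := sp16_relation hxind j₁ j₂ (fun j => π (g j)) (fun j => ?_) hrel j hja hjb
    · exact (map_eq_zero π).1 h2
    · refine sp16_algebraic π (u := u) ?_ ?_ (S.algF.isAlgebraic (g j))
      · rw [h0']
        exact IntermediateField.subset_adjoin κ _ (Or.inr rfl)
      · rw [h1']
        exact neg_mem (IntermediateField.subset_adjoin κ _ (Or.inl rfl))
  have hrel2 : g i₂ * u 0 = g i₁ * u 1 := by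
    have h3 : π (g i₁) * ι (y j₁) + π (g i₂) * ι (y j₂) = 0 := by
      have h2 := Fintype.sum_eq_add (f := fun j : {j : Fin n // d j = -1} => π (g j) * ι (y j))
        j₁ j₂ hne fun j hj => by rw [hz j hj.1 hj.2, map_zero, zero_mul]
      exact h2.symm.trans hrel
    have h4 : ι (y j₁) = -π (u 1) := by rw [h1', neg_neg]
    rw [h4, ← h0', mul_neg, ← map_mul, ← map_mul, ← map_neg, ← map_add, map_eq_zero] at h3
    linear_combination h3
  have hu0 : u 0 ≠ 0 := S.hu.ne_zero 0
  refine hlam ?_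
  have h5 : lam ζ = g i₁ * ∑ i, ζ i * vecF f u (e i₁) i + g i₂ * ∑ i, ζ i * vecF f u (e i₂) i := by
    rw [hlamg]
    refine Fintype.sum_eq_add i₁ i₂ hB.ne fun j hj => ?_
    by_cases hd : d j = -1
    · rw [hz ⟨j, hd⟩ (fun h => hj.1 (congrArg Subtype.val h))
        (fun h => hj.2 (congrArg Subtype.val h)), zero_mul]
    · rw [hg0 j hd, zero_mul]
  have h6 : u 0 * lam ζ = g i₁ * ∑ i, ζ i * ((f.kb i : F) * nuF u μ (f.b i)) := by
    have h7 : ∑ i, ζ i * ((f.kb i : F) * nuF u μ (f.b i)) =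
        u 0 * ∑ i, ζ i * vecF f u (e i₁) i + u 1 * ∑ i, ζ i * vecF f u (e i₂) i := by
      rw [Finset.mul_sum, Finset.mul_sum, ← Finset.sum_add_distrib]
      refine Finset.sum_congr rfl fun i _ => ?_
      rw [S.euler_vec hB i]
      ring
    rw [h5, h7]
    linear_combination (∑ i, ζ i * vecF f u (e i₂) i) * hrel2
  rw [S.sp16_euler ζ hζ, mul_zero] at h6
  exact (mul_eq_zero.1 h6).resolve_left hu0

end Vale.Agent.P292
end

section

/-! Theorem E, section 7: (7a)-(7f). See `PROOF.md`. -/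

namespace Vale.Agent.P292

open Module Polynomial

universe u v

/-- The variables form a transcendence basis of the algebraic closure of the field of rational
functions. -/
theorem sp17_basis (k : Type) [Field k] (m : ℕ) : IsTranscendenceBasis k
    (fun i : Fin m => algebraMap (MvPolynomial (Fin m) k)
      (AlgebraicClosure (FractionRing (MvPolynomial (Fin m) k))) (MvPolynomial.X i)) := by
  have h0 : Algebra.IsAlgebraic (MvPolynomial (Fin m) k)
      (FractionRing (MvPolynomial (Fin m) k)) :=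
    IsLocalization.isAlgebraic _ (nonZeroDivisors (MvPolynomial (Fin m) k))
  have h1 : Algebra.IsAlgebraic (MvPolynomial (Fin m) k)
      (AlgebraicClosure (FractionRing (MvPolynomial (Fin m) k))) :=
    Algebra.IsAlgebraic.trans (MvPolynomial (Fin m) k) (FractionRing (MvPolynomial (Fin m) k)) _
  have h2 : FaithfulSMul (MvPolynomial (Fin m) k)
      (AlgebraicClosure (FractionRing (MvPolynomial (Fin m) k))) := by
    rw [faithfulSMul_iff_algebraMap_injective]
    rw [IsScalarTower.algebraMap_eq (MvPolynomial (Fin m) k)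
      (FractionRing (MvPolynomial (Fin m) k)) _]
    exact (algebraMap (FractionRing (MvPolynomial (Fin m) k)) _).injective.comp
      (IsFractionRing.injective _ _)
  exact (IsTranscendenceBasis.mvPolynomial (Fin m) k).algebraMap_comp

variable {R : Type u} [CommRing R] [Algebra ℂ R] {𝒜 : ℕ → Submodule ℂ R} [GradedAlgebra 𝒜]
  {P : R →ₗ[ℂ] R →ₗ[ℂ] R} {H : R} {a : ℤ} {n : ℕ}

/-- Section 7, (7a)-(7f). -/
theorem CtxN.exists_span (C : CtxN 𝒜 P H a n) (h : HasLine 𝒜 P (-H) a) (f : Frame 𝒜 P H a n)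
    (hΔ : f.Δ ≠ 0) :
    ∃ (F : Type) (_ : Field F) (_ : IsAlgClosed F) (_ : Algebra ℂ F) (ν : R →ₐ[ℂ] F),
      PureA 𝒜 P H a ν ∧ InjA 𝒜 P H a ν ∧
      ∀ ζ : Fin n → F, MvPolynomial.eval ζ (C.half.ctx.cell f ν H) = 0 →
        ζ ∈ Submodule.span F (Bhat 𝒜 P H a (C.half.ctx.cell f ν)) := by
  obtain ⟨κ, i1, i2, i3, μ, hμ⟩ := C.neg.exists_generic_line h
  rw [neg_neg] at hμ
  let F := AlgebraicClosure (FractionRing (MvPolynomial (Fin 2) κ))
  let Ω := AlgebraicClosure (FractionRing (MvPolynomial (Fin n) F))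
  let u : Fin 2 → F := fun i => algebraMap (MvPolynomial (Fin 2) κ) F (MvPolynomial.X i)
  let t : Fin n → Ω := fun i => algebraMap (MvPolynomial (Fin n) F) Ω (MvPolynomial.X i)
  have hu : IsTranscendenceBasis κ u := sp17_basis κ 2
  have ht : IsTranscendenceBasis F t := sp17_basis F n
  have S : Setup 𝒜 P H a C μ f u t :=
    ⟨hμ, hΔ, hu.1, hu.isAlgebraic_field, ht.1, ht.isAlgebraic_field⟩
  exact ⟨F, inferInstance, inferInstance, inferInstance, nuF u μ, S.pure, S.injA,
    fun ζ hζ => S.span ζ hζ⟩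

end Vale.Agent.P292
end

section

/-! Theorem E, section 8: reducedness, easy case. See `PROOF.md`. -/

namespace Vale.Agent.P292

open Module Polynomial

universe u v

variable {R : Type u} [CommRing R]

end Vale.Agent.P292
end

section

/-! Theorem E, section 8: the degree of `Q`. See `PROOF.md`. -/

namespace Vale.Agent.P292

open Module Polynomial

universe u v

variable {R : Type u} [CommRing R] [Algebra ℂ R] {𝒜 : ℕ → Submodule ℂ R} [GradedAlgebra 𝒜]
  {P : R →ₗ[ℂ] R →ₗ[ℂ] R} {H : R} {a : ℤ} {n : ℕ}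

end Vale.Agent.P292
end

section

/-! Theorem E, both cases. See `PROOF.md`. -/

namespace Vale.Agent.P292

open Module Polynomial

universe u v

variable {R : Type u} [CommRing R] [Algebra ℂ R] {𝒜 : ℕ → Submodule ℂ R} [GradedAlgebra 𝒜]
  {P : R →ₗ[ℂ] R →ₗ[ℂ] R} {H : R} {a : ℤ} {n : ℕ}

/-- An algebraically closed field with an injective point of `A₊` (the generic point of the cell
of a closed sink point). -/
theorem CtxN.exists_inj_point (C : CtxN 𝒜 P H a n) :
    ∃ (F : Type) (_ : Field F) (_ : IsAlgClosed F) (_ : Algebra ℂ F) (ν : R →ₐ[ℂ] F),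
      PureA 𝒜 P H a ν ∧ InjA 𝒜 P H a ν := by
  obtain ⟨z, hz⟩ := C.neg_half.ctx.hmax.exists_slope
  obtain ⟨f, hf⟩ := C.neg_half.exists_frame z hz
  have hi : InjA 𝒜 P (-(-H)) a (C.neg_half.ctx.cell f z) := C.neg_half.inj z f hz hf
  rw [neg_neg] at hi
  have hinj : Function.Injective (algebraMap (MvPolynomial (Fin n) ℂ)
      (AlgebraicClosure (FractionRing (MvPolynomial (Fin n) ℂ)))) := by
    rw [IsScalarTower.algebraMap_eq (MvPolynomial (Fin n) ℂ)
      (FractionRing (MvPolynomial (Fin n) ℂ))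
      (AlgebraicClosure (FractionRing (MvPolynomial (Fin n) ℂ)))]
    exact (algebraMap (FractionRing (MvPolynomial (Fin n) ℂ)) _).injective.comp
      (IsFractionRing.injective (MvPolynomial (Fin n) ℂ) (FractionRing (MvPolynomial (Fin n) ℂ)))
  obtain ⟨ν, h1, h2⟩ := C.half.ctx.exists_pure
    ((IsScalarTower.toAlgHom ℂ (MvPolynomial (Fin n) ℂ)
      (AlgebraicClosure (FractionRing (MvPolynomial (Fin n) ℂ)))).comp
      (C.neg_half.ctx.cell f z))
  refine ⟨AlgebraicClosure (FractionRing (MvPolynomial (Fin n) ℂ)), inferInstance,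
    inferInstance, inferInstance, ν, h1, fun r hr h => hi r hr ?_⟩
  rw [h2 r hr] at h
  exact hinj (h.trans (map_zero _).symm)

/-- Both cases together. -/
theorem CtxN.splits (C : CtxN 𝒜 P H a n) (hn : 2 ≤ n) {y : R →ₐ[ℂ] ℂ} (hy : HasSlope 𝒜 P H y a)
    (f : Frame 𝒜 P H a n) (hΔ : y f.Δ ≠ 0) {Q : (Ap 𝒜 P (-H) a)[X]}
    (hQ : IsMinPoly 𝒜 P H a (C.half.ctx.cell f y) Q) : Splits C Q := by
  have hf0 : f.Δ ≠ 0 := by
    intro h0
    exact hΔ (by rw [h0, map_zero])
  by_cases h : HasLine 𝒜 P (-H) a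
  · obtain ⟨F, hF1, hF2, hF3, ν, h1, h2, h3⟩ := C.exists_span h f hf0
    have hνΔ : ν f.Δ ≠ 0 := fun h0 => hf0 (h2 _ (Frame.Δ_mem C.half.ctx f) h0)
    exact ⟨F, hF1, hF2, hF3, ν, f, hf0, h1, h2,
      C.split_of_span hy f hΔ hQ (C.half.isCell C.npos f ν h1 hνΔ)
        (C.half.injA_cell f hf0 ν h1 h2) h3⟩
  · obtain ⟨F, hF1, hF2, hF3, ν, h1, h2⟩ := C.exists_inj_point
    have hνΔ : ν f.Δ ≠ 0 := fun h0 => hf0 (h2 _ (Frame.Δ_mem C.half.ctx f) h0)
    exact ⟨F, hF1, hF2, hF3, ν, f, hf0, h1, h2,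
      C.split_of_noLine hn (fun h' => h (C.hasLine_neg h')) hy f hΔ hQ
        (C.half.isCell C.npos f ν h1 hνΔ) (C.half.injA_cell f hf0 ν h1 h2)⟩

end Vale.Agent.P292
end

section

/-! Theorem E without (SC) and without factoriality: the final statement (U).
See `E/PROOF_SC.md`, (B0). -/

namespace Vale.Agent.P292

open Module Polynomial

universe u v w

variable {R : Type u} [CommRing R] [Algebra ℂ R] {𝒜 : ℕ → Submodule ℂ R} [GradedAlgebra 𝒜]
  {P : R →ₗ[ℂ] R →ₗ[ℂ] R} {H : R} {a : ℤ} {n : ℕ}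

theorem u13_monic {C : CtxN 𝒜 P H a n} {q : R[X]} (hq : IsMinQ C q) : q.Monic := by
  obtain ⟨y, hy, f, hΔ, Q, hQ, rfl⟩ := hq
  exact hQ.monic.map _

omit [Algebra ℂ R] in
/-- The splitting field is generated by the roots over the fraction field of `V`. -/
theorem u13_adjoin_eq_top [IsDomain R] (T : Finset R[X]) {M : Type u} [Field M] [Algebra R M]
    [Algebra (FractionRing R) M] [IsScalarTower R (FractionRing R) M]
    [(∏ q ∈ T, q.map (algebraMap R (FractionRing R))).IsSplittingField (FractionRing R) M]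
    {V : Type u} [CommRing V] [IsDomain V] [Algebra R V] [Algebra V M] [IsScalarTower R V M]
    [Algebra (FractionRing V) M] [IsScalarTower V (FractionRing V) M] :
    IntermediateField.adjoin (FractionRing V) {x : M | ∃ q ∈ T, aeval x q = 0} = ⊤ := by
  rw [eq_top_iff]
  intro m _
  have hm : m ∈ Algebra.adjoin (FractionRing R)
      ((∏ q ∈ T, q.map (algebraMap R (FractionRing R))).rootSet M) := by
    rw [IsSplittingField.adjoin_rootSet]
    trivial
  have hV : ∀ v : V, algebraMap V M v ∈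
      IntermediateField.adjoin (FractionRing V) {x : M | ∃ q ∈ T, aeval x q = 0} := by
    intro v
    rw [IsScalarTower.algebraMap_apply V (FractionRing V) M]
    exact IntermediateField.algebraMap_mem _ _
  induction hm using Algebra.adjoin_induction with
  | mem x hx =>
    refine IntermediateField.subset_adjoin _ _ ?_
    have h1 := Polynomial.aeval_eq_zero_of_mem_rootSet hx
    rw [map_prod, Finset.prod_eq_zero_iff] at h1
    obtain ⟨q, hq, h2⟩ := h1
    refine ⟨q, hq, ?_⟩
    rwa [aeval_map_algebraMap] at h2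
  | algebraMap r =>
    obtain ⟨⟨b, c⟩, hbc⟩ := IsLocalization.surj (nonZeroDivisors R) r
    have hc : algebraMap R (FractionRing R) (c : R) ≠ 0 := by
      rw [Ne, map_eq_zero_iff _ (IsFractionRing.injective R (FractionRing R))]
      exact nonZeroDivisors.ne_zero c.2
    have h1 : r = algebraMap R (FractionRing R) b / algebraMap R (FractionRing R) (c : R) := by
      rw [eq_div_iff hc]
      exact hbc
    rw [h1, map_div₀, ← IsScalarTower.algebraMap_apply, ← IsScalarTower.algebraMap_apply,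
      IsScalarTower.algebraMap_apply R V M, IsScalarTower.algebraMap_apply R V M]
    exact div_mem (hV _) (hV _)
  | add x y _ _ hx hy => exact add_mem (hx trivial) (hy trivial)
  | mul x y _ _ hx hy => exact mul_mem (hx trivial) (hy trivial)

/-- (U) -/
theorem CtxN.isUnram (C : CtxN 𝒜 P H a n) (hn : 2 ≤ n) [IsDomain R] (T : Finset R[X])
    (hT : ∀ q ∈ T, IsMinQ C q ∨ IsMinQ C.neg q) {M : Type u} [Field M] [Algebra R M]
    [Algebra (FractionRing R) M] [IsScalarTower R (FractionRing R) M]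
    [(∏ q ∈ T, q.map (algebraMap R (FractionRing R))).IsSplittingField (FractionRing R) M] :
    IsUnram R M := by
  intro 𝔭 _ V _ _ _ _ _ _ _ _ ϖ hϖ s hs
  have hRV : Function.Injective (algebraMap R V) :=
    IsLocalization.injective V 𝔭.primeCompl_le_nonZeroDivisors
  have hϖp : Prime ϖ := hϖ.prime
  obtain ⟨𝒪, i1, i2, i3, i4, γ, γ', h1, h2, h3, h4, h5, h6, h7, h8, h9⟩ :=
    exists_loc_two (V := V) n hϖp
  let K := FractionRing 𝒪
  have hK : CharZero K := charZero_of_injective_ringHom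
    (f := ((algebraMap 𝒪 K).comp ((algebraMap V 𝒪).comp ((algebraMap R V).comp
      (algebraMap ℂ R))))) (RingHom.injective _)
  let Ω := AlgebraicClosure K
  let _ : Algebra (FractionRing V) M := FractionRing.liftAlgebra V M
  have : IsScalarTower V (FractionRing V) M := FractionRing.isScalarTower_liftAlgebra V M
  refine div_isIntegral_of_etGen (R := V) (FR := FractionRing V) hϖ.ne_zero
    (X₀ := {x : M | ∃ q ∈ T, aeval x q = 0}) ?_ (u13_adjoin_eq_top T) 𝒪 K h1
    (fun x hx => h2.dvd_of_dvd_pow hx) h3 Ω ?_ hs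
  · rintro x ⟨q, hq, hx⟩
    have hqm : q.Monic := by
      rcases hT q hq with h | h
      · exact u13_monic h
      · exact u13_monic h
    have hxi : IsIntegral R x := ⟨q, hqm, by rw [← aeval_def]; exact hx⟩
    exact hxi.tower_top
  · rintro x ⟨q, hq, hx⟩
    refine ⟨q.map (algebraMap R V), ?_, ?_, ?_⟩
    · rcases hT q hq with h | h
      · exact (u13_monic h).map _
      · exact (u13_monic h).map _
    · rw [aeval_map_algebraMap]
      exact hx
    · intro ρ hρ
      rcases hT q hq with h | h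
      · obtain ⟨y, hy, f, hΔ, Q, hQ, rfl⟩ := h
        refine C.root_mem_etGen hRV hϖ γ h4 h5 h6 hQ.monic (C.isHomogQ hy f hΔ hQ)
          (C.splits hn hy f hΔ hQ) ?_
        rw [Polynomial.map_map, Polynomial.map_map] at hρ
        exact hρ
      · obtain ⟨y, hy, f, hΔ, Q, hQ, rfl⟩ := h
        refine C.neg.root_mem_etGen hRV hϖ γ' h7 h8 h9 hQ.monic (C.neg.isHomogQ hy f hΔ hQ)
          (C.neg.splits hn hy f hΔ hQ) ?_
        rw [Polynomial.map_map, Polynomial.map_map] at hρ
        exact hρ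

end Vale.Agent.P292
end

section

/-! # Theorem E without simple connectedness and without factoriality. -/

namespace Vale.Agent.P292

open Module Polynomial

universe u v

variable {R : Type u} [CommRing R] [Algebra ℂ R] {𝒜 : ℕ → Submodule ℂ R} [GradedAlgebra 𝒜]
  {P : R →ₗ[ℂ] R →ₗ[ℂ] R} {H : R} {a : ℤ} {n : ℕ}

theorem hasFixedPoints : HasFixedPoints.{u} :=
  fun hX hadj σ h1 h2 _ hp h3 _ hH h4 => exists_fixed_point hX hadj σ h1 h2 hp h3 hH h4

/-- If `n ≥ 2` the source and the sink are free of base points. -/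
theorem CtxN.isSourceFree_two_le (C : CtxN 𝒜 P H a n) (hn : 2 ≤ n) :
    IsSourceFree 𝒜 P H ∧ IsSourceFree 𝒜 P (-H) := by
  classical
  have hXF := C.half.ctx.hX
  have : IsDomain R := hXF.domain
  obtain ⟨T1, hT1, hT1'⟩ := C.exists_finset
  obtain ⟨T2, hT2, hT2'⟩ := C.neg.exists_finset
  have hT : ∀ q ∈ T1 ∪ T2, IsMinQ C q ∨ IsMinQ C.neg q := by
    intro q hq
    rcases Finset.mem_union.1 hq with h | h
    · exact Or.inr (hT1 q h)
    · exact Or.inl (zf3_neg_neg (hT2 q h))
  let f : (FractionRing R)[X] := ∏ q ∈ T1 ∪ T2, q.map (algebraMap R (FractionRing R))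
  have hsp : f.IsSplittingField (FractionRing R) f.SplittingField :=
    Polynomial.IsSplittingField.splittingField f
  have htow : IsScalarTower ℂ R f.SplittingField :=
    IsScalarTower.to₁₂₄ ℂ R (FractionRing R) f.SplittingField
  have hU : IsUnram R f.SplittingField := C.isUnram hn (T1 ∪ T2) hT
  refine C.isSourceFree_of_isUnram hasFixedPoints (T1 ∪ T2) hT (fun y hy => ?_) (fun y hy => ?_) hU
  · obtain ⟨q, hq, h⟩ := hT1' y hy
    exact ⟨q, Finset.mem_union_left _ hq, h⟩
  · obtain ⟨q, hq, h⟩ := hT2' y hy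
    exact ⟨q, Finset.mem_union_right _ hq, h⟩

/-- Theorem E without simple connectedness and without factoriality: a contact Fano manifold with
a nontrivial contact action of `ℂ^*` is an adjoint variety. -/
theorem isAdjointVariety_of_torus' (hX : IsContactFano 𝒜 P) (hH : IsContactTorus 𝒜 P H) :
    IsAdjointVariety 𝒜 P := by
  obtain ⟨a, ha⟩ := exists_isMaxSlope hX hH
  obtain ⟨n, C⟩ := Ctx.exists_ctxN ⟨hX, hH, ha⟩
  rcases Nat.lt_or_ge n 2 with hn | hn
  · have hn1 : n = 1 := by have := C.npos; omega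
    subst hn1
    exact isAdjointVariety_of_sourceFree' hX hH C.isSourceFree_one C.neg.isSourceFree_one
  · exact isAdjointVariety_of_sourceFree' hX hH (C.isSourceFree_two_le hn).1
      (C.isSourceFree_two_le hn).2

end Vale.Agent.P292
end

section

/-! Group T: a diagonalisable graded Poisson derivation with integral eigenvalues. -/

namespace Vale.Agent.P292

open Module

universe u

variable {R : Type u} [CommRing R] [Algebra ℂ R] {𝒜 : ℕ → Submodule ℂ R} [GradedAlgebra 𝒜]
  {P : R →ₗ[ℂ] R →ₗ[ℂ] R}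

/-- A diagonalisable graded Poisson derivation with integral eigenvalues. -/
theorem exists_integral_derivation (hX : IsContactFano 𝒜 P) {f : R} (hf : f ∈ 𝒜 1) {k : ℕ}
    {r : R} (hr : r ∈ 𝒜 k) (hn : ∀ n, (⇑(P f))^[n] r ≠ 0) :
    ∃ Δ : R →ₗ[ℂ] R, (∀ a b, Δ (a * b) = Δ a * b + a * Δ b) ∧
      (∀ a b, Δ (P a b) = P (Δ a) b + P a (Δ b)) ∧ (∀ k, ∀ r ∈ 𝒜 k, Δ r ∈ 𝒜 k) ∧
      (∃ r, Δ r ≠ 0) ∧ ∀ k, 𝒜 k ≤ ⨆ m : ℤ, 𝒜 k ⊓ Module.End.eigenspace Δ (m : ℂ) := by
  obtain ⟨ν₀, hν₀, s₀, hs₀, hs₀0⟩ := exists_ne_zero_of_not_nilpotent hX hf hr hn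
  obtain ⟨S, hS⟩ := exists_finset_maxGen hX hf
  obtain ⟨φ, hφ0, hφ⟩ := exists_additive_finset hν₀ S
  obtain ⟨Δ, h1, h2, h3, h4⟩ := exists_derivation_of_additive hX hf φ
  have hint : ∀ ν ∈ AddSubmonoid.closure (S : Set ℂ), ∃ j : ℤ, φ ν = j := by
    intro ν hν
    induction hν using AddSubmonoid.closure_induction with
    | mem x hx => exact hφ x hx
    | zero => exact ⟨0, by rw [map_zero, Int.cast_zero]⟩
    | add x y _ _ hx hy =>
      obtain ⟨i, hi⟩ := hx
      obtain ⟨j, hj⟩ := hy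
      exact ⟨i + j, by rw [map_add, hi, hj, Int.cast_add]⟩
  refine ⟨Δ, h1, h2, h3, ⟨s₀, ?_⟩, fun k => ?_⟩
  · rw [h4 ν₀ s₀ hs₀]
    exact smul_ne_zero hφ0 hs₀0
  · refine (le_iSup_maxGen hX hf k).trans (iSup_le fun ν => ?_)
    by_cases hb : ∃ r ∈ Module.End.maxGenEigenspace (P f) ν, r ≠ 0
    · obtain ⟨j, hj⟩ := hint ν (hS ν hb)
      refine le_trans (le_inf inf_le_left fun r hr => ?_)
        (le_iSup (fun m : ℤ => 𝒜 k ⊓ Module.End.eigenspace Δ (m : ℂ)) j)
      rw [Module.End.mem_eigenspace_iff, h4 ν r hr.2, hj]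
    · intro r hr
      have h0 : r = 0 := by
        by_contra h
        exact hb ⟨r, hr.2, h⟩
      rw [h0]
      exact zero_mem _

end Vale.Agent.P292
end

section

/-! Group T: from a contact vector field which is not nilpotent to a contact torus. -/

namespace Vale.Agent.P292

open Module

universe u

variable {R : Type u} [CommRing R] [Algebra ℂ R] {𝒜 : ℕ → Submodule ℂ R} [GradedAlgebra 𝒜]
  {P : R →ₗ[ℂ] R →ₗ[ℂ] R}

/-- Poisson derivations of degree zero are Hamiltonian. -/
theorem exists_hamiltonian (hX : IsContactFano 𝒜 P) (Δ : R →ₗ[ℂ] R)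
    (hΔmul : ∀ a b, Δ (a * b) = Δ a * b + a * Δ b)
    (hΔP : ∀ a b, Δ (P a b) = P (Δ a) b + P a (Δ b)) (hΔ𝒜 : ∀ k, ∀ r ∈ 𝒜 k, Δ r ∈ 𝒜 k) :
    ∃ H ∈ 𝒜 1, ∀ r, P H r = Δ r := by
  classical
  obtain ⟨h, hh, hH⟩ := exists_ham_frac hX Δ hΔmul hΔP hΔ𝒜
  obtain ⟨H₀, rfl⟩ := exists_eq_algebraMap_of_local hX h hh
  have h0 : ∀ r, P H₀ r = Δ r := hH H₀ rfl
  refine ⟨(DirectSum.decompose 𝒜 H₀ 1 : R), SetLike.coe_mem _, ?_⟩
  refine forall_of_homogeneous' (𝒜 := 𝒜) (P (DirectSum.decompose 𝒜 H₀ 1 : R)) Δ ?_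
  intro k r hr
  rcases Nat.eq_zero_or_pos k with rfl | hk
  · obtain ⟨c, rfl⟩ := hX.connected r hr
    rw [← h0, hX.P_algebraMap_right, hX.P_algebraMap_right]
  · have hdeg : ∀ i, P (DirectSum.decompose 𝒜 H₀ i : R) r ∈ 𝒜 (i + k - 1) := fun i =>
      hX.degree i k (i + k - 1) (by omega) _ (SetLike.coe_mem _) r hr
    have h1 : Δ r = ∑ i ∈ (DirectSum.decompose 𝒜 H₀).support,
        P (DirectSum.decompose 𝒜 H₀ i : R) r := by
      rw [← h0]
      conv_lhs => rw [← DirectSum.sum_support_decompose 𝒜 H₀]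
      simp only [map_sum, LinearMap.sum_apply]
    have h2 : Δ r = ((DirectSum.decompose 𝒜 (Δ r) k : 𝒜 k) : R) := by
      rw [DirectSum.decompose_of_mem_same 𝒜 (hΔ𝒜 k r hr)]
    have h3 : ∀ i, ((DirectSum.decompose 𝒜 (P (DirectSum.decompose 𝒜 H₀ i : R) r) k : 𝒜 k) : R) =
        if i = 1 then P (DirectSum.decompose 𝒜 H₀ 1 : R) r else 0 := by
      intro i
      by_cases hi : i = 1
      · subst hi
        have := hdeg 1
        rw [show 1 + k - 1 = k by omega] at this
        rw [if_pos rfl, DirectSum.decompose_of_mem_same 𝒜 this]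
      · rw [if_neg hi, DirectSum.decompose_of_mem_ne 𝒜 (hdeg i) (by omega)]
    rw [h2, h1, DirectSum.decompose_sum, DFinsupp.finsetSum_apply, AddSubmonoidClass.coe_finsetSum,
      Finset.sum_congr rfl (fun i _ => h3 i), Finset.sum_ite_eq']
    by_cases hs : 1 ∈ (DirectSum.decompose 𝒜 H₀).support
    · rw [if_pos hs]
    · rw [if_neg hs]
      rw [DFinsupp.notMem_support_iff] at hs
      rw [hs]
      simp

/-- If some contact vector field is not nilpotent then there is a contact torus. -/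
theorem exists_isContactTorus_of_not_nilpotent (hX : IsContactFano 𝒜 P) {f : R} (hf : f ∈ 𝒜 1)
    {k : ℕ} {r : R} (hr : r ∈ 𝒜 k) (hn : ∀ n, (⇑(P f))^[n] r ≠ 0) :
    ∃ H, IsContactTorus 𝒜 P H := by
  obtain ⟨Δ, hmul, hP, h𝒜, ⟨r₀, hr₀⟩, hw⟩ := exists_integral_derivation hX hf hr hn
  obtain ⟨H, hH, hHΔ⟩ := exists_hamiltonian hX Δ hmul hP h𝒜
  have hE : P H = Δ := LinearMap.ext hHΔ
  refine ⟨H, hH, ?_, ?_⟩
  · rintro rfl
    apply hr₀
    rw [← hE, map_zero, LinearMap.zero_apply]
  · rw [hE]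
    exact hw

end Vale.Agent.P292
end
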